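import Vale.Agent.P202.Char.Slice

/-!
P202, Lech in characteristic `p`: elements of the base acting on slices of the presentation of
the extended Rees algebra. `Acts Z J a p`: the family `p` is multiplication by `a * t ^ J`.
Two such families agree modulo relations, and composites multiply.
-/

namespace Vale.Agent.P202.Char

universe u v w

section Homog

variable {Z : Type u} [CommRing Z] {n : ℕ} {ι : Type w} {δ : ι → ℤ}

/-- Degree of an exponent. -/
theorem expo_sum_add (c d : Fin (n + 1) →₀ ℕ) :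
    ((c + d).sum fun _ v => (v : ℤ)) =
      (c.sum fun _ v => (v : ℤ)) + d.sum fun _ v => (v : ℤ) :=
  Finsupp.sum_add_index' (fun _ => by simp) (fun _ _ _ => by push_cast; ring)

theorem IsHomog.add {p q : ι →₀ MvPolynomial (Fin (n + 1)) Z} {D : ℤ} (hp : IsHomog δ p D)
    (hq : IsHomog δ q D) : IsHomog δ (p + q) D := by
  classical
  intro i c hc
  rw [Finsupp.add_apply] at hc
  rcases Finset.mem_union.1 (MvPolynomial.support_add hc) with h | h
  · exact hp i c h
  · exact hq i c h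

theorem IsHomog.neg {p : ι →₀ MvPolynomial (Fin (n + 1)) Z} {D : ℤ} (hp : IsHomog δ p D) :
    IsHomog δ (-p) D := by
  intro i c hc
  rw [Finsupp.neg_apply, MvPolynomial.support_neg] at hc
  exact hp i c hc

theorem isHomog_zero {D : ℤ} : IsHomog δ (0 : ι →₀ MvPolynomial (Fin (n + 1)) Z) D := by
  intro i c hc
  simp at hc

theorem isHomog_single {i : ι} {f : MvPolynomial (Fin (n + 1)) Z} {D : ℤ}
    (h : ∀ c ∈ f.support, δ i + (c.sum fun _ v => (v : ℤ)) = D) :
    IsHomog δ (Finsupp.single i f) D := by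
  classical
  intro j c hc
  by_cases hj : i = j
  · subst hj; exact h c (by simpa using hc)
  · simp [hj] at hc

theorem IsHomog.smul {p : ι →₀ MvPolynomial (Fin (n + 1)) Z} {D γ : ℤ}
    {f : MvPolynomial (Fin (n + 1)) Z} (hp : IsHomog δ p D)
    (hf : ∀ c ∈ f.support, (c.sum fun _ v => (v : ℤ)) = γ) : IsHomog δ (f • p) (D + γ) := by
  classical
  intro i c hc
  rw [Finsupp.smul_apply, smul_eq_mul] at hc
  obtain ⟨c₁, h1, c₂, h2, rfl⟩ := Finset.mem_add.1 (MvPolynomial.support_mul _ _ hc)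
  rw [expo_sum_add, hf c₁ h1]
  linarith [hp i c₂ h2]

/-- Substituting homogeneous tuples in a homogeneous tuple. -/
theorem IsHomog.comp {L : Type w} {δ' : L → ℤ} {q : L →₀ MvPolynomial (Fin (n + 1)) Z} {D J : ℤ}
    (hq : IsHomog δ' q D) {p : L → (ι →₀ MvPolynomial (Fin (n + 1)) Z)}
    (hp : ∀ l, IsHomog δ (p l) (δ' l + J)) :
    IsHomog δ (q.sum fun l f => f • p l) (D + J) := by
  refine Finset.sum_induction _ (fun r => IsHomog δ r (D + J)) (fun a b ha hb => ha.add hb)
    isHomog_zero fun l _ => ?_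
  have h := (hp l).smul (f := q l) (γ := D - δ' l) fun c hc => by linarith [hq l c hc]
  rwa [show δ' l + J + (D - δ' l) = D + J by ring] at h

end Homog

namespace RedData

variable {R : Type u} [CommRing R] [IsLocalRing R] {n : ℕ} (Z : RedData R n)

theorem ev_single (x : Z.Idx) (f : MvPolynomial (Fin (n + 1)) R) :
    Z.ev (Finsupp.single x f) = Z.gen x.1 * MvPolynomial.aeval Z.z f := by
  simp [ev]

theorem ev_smul (f : MvPolynomial (Fin (n + 1)) R)
    (p : Z.Idx →₀ MvPolynomial (Fin (n + 1)) R) :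
    Z.ev (f • p) = MvPolynomial.aeval Z.z f * Z.ev p := by
  induction p using Finsupp.induction_linear with
  | zero => simp
  | add a b ha hb => rw [smul_add, map_add, map_add, ha, hb, mul_add]
  | single x g =>
    rw [Finsupp.smul_single, ev_single, ev_single, smul_eq_mul, map_mul]
    ring

/-- The family `p` is multiplication by `a * t ^ J`. -/
def Acts (J : ℤ) (a : R) (p : Z.Idx → (Z.Idx →₀ MvPolynomial (Fin (n + 1)) R)) : Prop :=
  ∀ x, IsHomog Z.ideg (p x) (Z.ideg x + J) ∧ Z.ev (p x) = a * Z.gen x.1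

variable {Z}

theorem Acts.ev_eq {J : ℤ} {a : R} {p : Z.Idx → (Z.Idx →₀ MvPolynomial (Fin (n + 1)) R)}
    (hp : Z.Acts J a p) (q : Z.Idx →₀ MvPolynomial (Fin (n + 1)) R) :
    Z.ev (q.sum fun x f => f • p x) = a * Z.ev q := by
  induction q using Finsupp.induction_linear with
  | zero => simp
  | add s t hs ht =>
    rw [Finsupp.sum_add_index' (fun i => by simp) (fun i f g => add_smul f g _), map_add, hs, ht,
      map_add, mul_add]
  | single x f =>
    rw [Finsupp.sum_single_index (by simp), ev_smul, (hp x).2, ev_single]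
    ring

theorem Acts.comp {J J' : ℤ} {a b : R}
    {p q : Z.Idx → (Z.Idx →₀ MvPolynomial (Fin (n + 1)) R)}
    (hp : Z.Acts J a p) (hq : Z.Acts J' b q) : Z.Acts (J + J') (a * b) (compFam p q) := by
  intro x
  refine ⟨?_, ?_⟩
  · have h := (hq x).1.comp fun l => (hp l).1
    rw [show Z.ideg x + (J + J') = Z.ideg x + J' + J by ring]
    exact h
  · rw [compFam, hp.ev_eq, (hq x).2]
    ring

theorem Acts.add {J : ℤ} {a b : R} {p q : Z.Idx → (Z.Idx →₀ MvPolynomial (Fin (n + 1)) R)}
    (hp : Z.Acts J a p) (hq : Z.Acts J b q) : Z.Acts J (a + b) (p + q) := by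
  intro x
  exact ⟨(hp x).1.add (hq x).1, by rw [Pi.add_apply, map_add, (hp x).2, (hq x).2, add_mul]⟩

theorem acts_zero (J : ℤ) : Z.Acts J 0 0 := fun x => ⟨isHomog_zero, by simp⟩

variable (Z)

/-- Multiplication by `a * u ^ s`. -/
noncomputable def upBy (a : R) (s : ℕ) :
    Z.Idx → (Z.Idx →₀ MvPolynomial (Fin (n + 1)) R) :=
  fun x => Finsupp.single (x.1, x.2 + s) (MvPolynomial.C a)

theorem acts_upBy (a : R) (s : ℕ) : Z.Acts (-(s : ℤ)) a (Z.upBy a s) := by
  classical
  intro x
  refine ⟨isHomog_single fun c hc => ?_, ?_⟩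
  · rw [MvPolynomial.C_apply] at hc
    obtain rfl := Finset.mem_singleton.1 (MvPolynomial.support_monomial_subset hc)
    simp [ideg]
    ring
  · rw [upBy, ev_single, MvPolynomial.aeval_C, mul_comm]
    rfl

/-- Multiplication by `(z k) ^ s * t ^ s`. -/
noncomputable def yBy (k : Fin (n + 1)) (s : ℕ) :
    Z.Idx → (Z.Idx →₀ MvPolynomial (Fin (n + 1)) R) :=
  fun x => Finsupp.single x (MvPolynomial.X k ^ s)

theorem acts_yBy (k : Fin (n + 1)) (s : ℕ) : Z.Acts (s : ℤ) (Z.z k ^ s) (Z.yBy k s) := by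
  classical
  intro x
  refine ⟨isHomog_single fun c hc => ?_, ?_⟩
  · rw [MvPolynomial.X_pow_eq_monomial] at hc
    obtain rfl := Finset.mem_singleton.1 (MvPolynomial.support_monomial_subset hc)
    simp
  · rw [yBy, ev_single, map_pow, MvPolynomial.aeval_X, mul_comm]

variable {Z} (lam : Fin (n + 1) → R)

theorem push_zero' (x : Tot R n Z.Idx) : push lam (0 : Z.Idx → _) x = (0 : Tot R n Z.Idx) := by
  induction x using tot_induction with
  | h0 => simp
  | hadd a b ha hb => rw [map_add, ha, hb, add_zero]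
  | hs i e r => rw [map_smul, push_inComp, Pi.zero_apply, emb_zero_left, smul_zero]

theorem Acts.push_free {J : ℤ} {a : R} {p : Z.Idx → (Z.Idx →₀ MvPolynomial (Fin (n + 1)) R)}
    (hp : Z.Acts J a p) {tw : Fin n → ℤ} {ε : Chart n} {N : ℤ} {x : Tot R n Z.Idx}
    (hx : x ∈ freeSlice R tw ε Z.ideg N) : push lam p x ∈ freeSlice R tw ε Z.ideg (N + J) :=
  push_mem_free lam (fun l => (hp l).1) hx

theorem Acts.push_rel {J : ℤ} {a : R} {p : Z.Idx → (Z.Idx →₀ MvPolynomial (Fin (n + 1)) R)}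
    (hp : Z.Acts J a p) {tw : Fin n → ℤ} {ε : Chart n} {N : ℤ} {x : Tot R n Z.Idx}
    (hx : x ∈ relSlice lam tw ε Z.ideg Z.rel N) :
    push lam p x ∈ relSlice lam tw ε Z.ideg Z.rel (N + J) := by
  refine Char.push_rel lam (K' := Z.rel) (J := J) (fun q hq D hD => ?_) hx
  have h := hD.comp fun l => (hp l).1
  exact ⟨⟨⟨D + J, h⟩, by rw [hp.ev_eq, hq.2, mul_zero]⟩, h⟩

/-- Families with the same value act in the same way modulo relations. -/
theorem Acts.push_congr {J : ℤ} {a : R} {p q : Z.Idx → (Z.Idx →₀ MvPolynomial (Fin (n + 1)) R)}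
    (hp : Z.Acts J a p) (hq : Z.Acts J a q) {tw : Fin n → ℤ} {ε : Chart n} {N : ℤ}
    {x : Tot R n Z.Idx} (hx : x ∈ freeSlice R tw ε Z.ideg N) :
    push lam p x - push lam q x ∈ relSlice lam tw ε Z.ideg Z.rel (N + J) := by
  rw [← push_sub]
  refine push_mem_rel lam (fun l => ?_) (fun l => ?_) hx
  · refine ⟨⟨_, by simpa [sub_eq_add_neg] using (hp l).1.add (hq l).1.neg⟩, ?_⟩
    rw [Pi.sub_apply, map_sub, (hp l).2, (hq l).2, sub_self]
  · simpa [sub_eq_add_neg] using (hp l).1.add (hq l).1.neg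

/-- The slices of `span rel` are those of `rel`. -/
theorem ev_eq_zero_of_mem_span {p : Z.Idx →₀ MvPolynomial (Fin (n + 1)) R}
    (hp : p ∈ Submodule.span (MvPolynomial (Fin (n + 1)) R) Z.rel) : Z.ev p = 0 := by
  induction hp using Submodule.span_induction with
  | mem x hx => exact hx.2
  | zero => simp
  | add x y _ _ hx hy => rw [map_add, hx, hy, add_zero]
  | smul f x _ hx => rw [ev_smul, hx, mul_zero]

theorem relSlice_span (tw : Fin n → ℤ) (ε : Chart n) (N : ℤ) :
    relSlice lam tw ε Z.ideg (Submodule.span (MvPolynomial (Fin (n + 1)) R) Z.rel : Set _) N =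
      relSlice lam tw ε Z.ideg Z.rel N := by
  refine le_antisymm (Submodule.span_mono ?_) (Submodule.span_mono ?_)
  · rintro x ⟨p, hp, D, e, hD, rest⟩
    exact ⟨p, ⟨⟨D, hD⟩, ev_eq_zero_of_mem_span hp⟩, D, e, hD, rest⟩
  · rintro x ⟨p, hp, rest⟩
    exact ⟨p, Submodule.subset_span hp, rest⟩

/-- Values of monomials of degree `t`. -/
theorem exists_form {t : ℕ} {r : R} (hr : r ∈ Ideal.span (Set.range Z.z) ^ t) :
    ∃ f : MvPolynomial (Fin (n + 1)) R,
      (∀ c ∈ f.support, (c.sum fun _ v => (v : ℤ)) = t) ∧ MvPolynomial.aeval Z.z f = r := by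
  classical
  induction hr using Submodule.pow_induction_on_left' with
  | algebraMap r =>
    refine ⟨MvPolynomial.C r, fun c hc => ?_, by simp⟩
    rw [MvPolynomial.C_apply] at hc
    obtain rfl := Finset.mem_singleton.1 (MvPolynomial.support_monomial_subset hc)
    simp
  | add x y i _ _ hx hy =>
    obtain ⟨f, hf, rfl⟩ := hx
    obtain ⟨g, hg, rfl⟩ := hy
    refine ⟨f + g, fun c hc => ?_, map_add _ _ _⟩
    rcases Finset.mem_union.1 (MvPolynomial.support_add hc) with h | h
    · exact hf c h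
    · exact hg c h
  | mem_mul m hm i x _ hx =>
    obtain ⟨f, hf, rfl⟩ := hx
    induction hm using Submodule.span_induction with
    | mem y hy =>
      obtain ⟨k, rfl⟩ := hy
      refine ⟨MvPolynomial.X k * f, fun c hc => ?_, by simp⟩
      obtain ⟨c₁, h1, c₂, h2, rfl⟩ := Finset.mem_add.1 (MvPolynomial.support_mul _ _ hc)
      rw [MvPolynomial.X] at h1
      obtain rfl := Finset.mem_singleton.1 (MvPolynomial.support_monomial_subset h1)
      rw [expo_sum_add, hf c₂ h2]
      simp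
      ring
    | zero => exact ⟨0, fun c hc => by simp at hc, by simp⟩
    | add y z _ _ hy hz =>
      obtain ⟨g, hg, hgy⟩ := hy
      obtain ⟨g', hg', hgz⟩ := hz
      refine ⟨g + g', fun c hc => ?_, by rw [map_add, hgy, hgz, add_mul]⟩
      rcases Finset.mem_union.1 (MvPolynomial.support_add hc) with h | h
      · exact hg c h
      · exact hg' c h
    | smul s y _ hy =>
      obtain ⟨g, hg, hgy⟩ := hy
      refine ⟨MvPolynomial.C s * g, fun c hc => ?_, ?_⟩
      · rw [MvPolynomial.C_mul'] at hc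
        exact hg c (MvPolynomial.support_smul hc)
      · rw [map_mul, MvPolynomial.aeval_C, hgy, Algebra.algebraMap_self_apply, smul_eq_mul]
        ring

/-- Elements of the Rees algebra have representatives. -/
theorem exists_rep (D : ℤ) {r : R} (hr : r ∈ IsLocalRing.maximalIdeal R ^ D.toNat) :
    ∃ p : Z.Idx →₀ MvPolynomial (Fin (n + 1)) R, IsHomog Z.ideg p D ∧ Z.ev p = r := by
  classical
  rw [Z.pow_eq] at hr
  refine Submodule.iSup_induction _
    (motive := fun r => ∃ p, IsHomog Z.ideg p D ∧ Z.ev p = r) hr ?_ ?_ ?_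
  · intro i r hr
    obtain ⟨c, hc, rfl⟩ := Ideal.mem_mul_span_singleton.1 hr
    obtain ⟨f, hf, rfl⟩ := exists_form (Z := Z) hc
    refine ⟨Finsupp.single (i, ((Z.δ i : ℤ) + ((D.toNat - Z.δ i : ℕ) : ℤ) - D).toNat) f,
      isHomog_single fun c hc => ?_, by rw [ev_single, mul_comm]⟩
    rw [hf c hc]
    simp only [ideg]
    omega
  · exact ⟨0, isHomog_zero, map_zero _⟩
  · rintro r s ⟨p, hp, rfl⟩ ⟨q, hq, rfl⟩
    exact ⟨p + q, hp.add hq, map_add _ _ _⟩

/-- Every element of `m ^ J` acts in degree `J`. -/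
theorem exists_acts {J : ℕ} {a : R} (ha : a ∈ IsLocalRing.maximalIdeal R ^ J) :
    ∃ p, Z.Acts (J : ℤ) a p := by
  have h : ∀ x : Z.Idx, ∃ q : Z.Idx →₀ MvPolynomial (Fin (n + 1)) R,
      IsHomog Z.ideg q (Z.ideg x + J) ∧ Z.ev q = a * Z.gen x.1 := by
    intro x
    refine exists_rep _ (Ideal.pow_le_pow_right (m := (Z.ideg x + (J : ℤ)).toNat)
      (n := J + Z.δ x.1) (by simp only [ideg]; omega) ?_)
    rw [pow_add]
    exact Ideal.mul_mem_mul ha (Z.gen_mem x.1)
  choose p hp using h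
  exact ⟨p, hp⟩

/-- One element of degree `0` with value `1`. -/
theorem exists_one : ∃ p : Z.Idx →₀ MvPolynomial (Fin (n + 1)) R,
    IsHomog Z.ideg p 0 ∧ Z.ev p = 1 :=
  exists_rep 0 (by simp)

end RedData

end Vale.Agent.P202.Char
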