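import Mathlib

/-!
P202, Lech in characteristic `p`: polynomials in `n` variables are free over the symmetric ones on
`n!` monomials (Artin basis).
-/

namespace Vale.Agent.P202.Char

universe u

open MvPolynomial Finset

/-- Substitution of the elementary symmetric polynomials. -/
noncomputable def esHom (n : ℕ) (Z : Type u) [CommRing Z] :
    MvPolynomial (Fin n) Z →ₐ[Z] MvPolynomial (Fin n) Z :=
  aeval fun i => esymm (Fin n) Z (i + 1)

/-- The sum of `esHom (c r)` times the monomials. -/
noncomputable def artinMap {n : ℕ} {Z : Type u} [CommRing Z] (bf : Fin n.factorial → (Fin n →₀ ℕ))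
    (c : Fin n.factorial → MvPolynomial (Fin n) Z) : MvPolynomial (Fin n) Z :=
  ∑ r, esHom n Z (c r) * monomial (bf r) 1

theorem multiset_esymm_cons {R : Type u} [CommSemiring R] (a : R) (s : Multiset R) (k : ℕ) :
    (a ::ₘ s).esymm (k + 1) = s.esymm (k + 1) + a * s.esymm k := by
  simp [Multiset.esymm, Multiset.map_map, Multiset.sum_map_mul_left]

variable {n : ℕ} {Z : Type u} [CommRing Z]

theorem esymm_fin_succ (k : ℕ) :
    esymm (Fin (n + 1)) Z (k + 1) = rename Fin.succ (esymm (Fin n) Z (k + 1)) +
      X 0 * rename Fin.succ (esymm (Fin n) Z k) := by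
  have h : ∀ i, rename Fin.succ (esymm (Fin n) Z i) =
      (univ.val.map fun j : Fin n => (X j.succ : MvPolynomial (Fin (n + 1)) Z)).esymm i := fun i => by
    rw [Finset.esymm_map_val]
    simp [esymm]
  rw [h, h, esymm_eq_multiset_esymm, Fin.univ_succ, Finset.cons_val, Finset.map_val,
    Multiset.map_cons, Multiset.map_map, multiset_esymm_cons]
  rfl

section Step

variable (n : ℕ) (Z : Type u) [CommRing Z]

/-- The first variable as a coefficient. -/
noncomputable def firstVar :
    MvPolynomial (Fin n) (Polynomial Z) →+* MvPolynomial (Fin (n + 1)) Z :=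
  eval₂Hom (Polynomial.eval₂RingHom C (X 0)) fun i => X i.succ

theorem firstVar_bijective : Function.Bijective (firstVar n Z) := by
  let g : MvPolynomial (Fin (n + 1)) Z →+* MvPolynomial (Fin n) (Polynomial Z) :=
    eval₂Hom ((C : Polynomial Z →+* MvPolynomial (Fin n) (Polynomial Z)).comp Polynomial.C)
      (Fin.cases (C Polynomial.X) X)
  have h1 : g.comp (firstVar n Z) = RingHom.id _ := by
    refine MvPolynomial.ringHom_ext' ?_ fun i => ?_
    · refine Polynomial.ringHom_ext (fun r => ?_) ?_ <;> simp [g, firstVar]
    · simp [g, firstVar]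
  have h2 : (firstVar n Z).comp g = RingHom.id _ := by
    refine MvPolynomial.ringHom_ext (fun r => ?_) fun i => ?_
    · simp [g, firstVar]
    · refine Fin.cases ?_ (fun j => ?_) i <;> simp [g, firstVar]
  exact Function.bijective_iff_has_inverse.2
    ⟨g, fun x => RingHom.congr_fun h1 x, fun x => RingHom.congr_fun h2 x⟩

/-- The elementary symmetric polynomials of the last `n` variables, as variables. -/
noncomputable def lastE : ℕ → MvPolynomial (Fin n) (Polynomial Z)
  | 0 => 1
  | i + 1 => if h : i < n then X ⟨i, h⟩ else 0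

/-- All elementary symmetric polynomials in terms of the first variable and `lastE`. -/
noncomputable def allE : MvPolynomial (Fin (n + 1)) Z →+* MvPolynomial (Fin n) (Polynomial Z) :=
  eval₂Hom ((C : Polynomial Z →+* MvPolynomial (Fin n) (Polynomial Z)).comp Polynomial.C)
    fun i => lastE n Z (i + 1) + C Polynomial.X * lastE n Z i

/-- The partial sums whose last one is the equation of the first variable. -/
noncomputable def firstEq : ℕ → Polynomial (MvPolynomial (Fin (n + 1)) Z)
  | 0 => 1
  | j + 1 => Polynomial.X * firstEq j +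
      Polynomial.C ((-1) ^ (j + 1) * if h : j < n + 1 then X ⟨j, h⟩ else 0)

theorem eval_firstEq : ∀ j ≤ n + 1,
    (firstEq n Z j).eval₂ (allE n Z) (C Polynomial.X) = (-1) ^ j * lastE n Z j
  | 0, _ => by simp [firstEq, lastE]
  | j + 1, hj => by
    rw [firstEq, Polynomial.eval₂_add, Polynomial.eval₂_mul, Polynomial.eval₂_X,
      Polynomial.eval₂_C, eval_firstEq j (by omega), dif_pos (by omega : j < n + 1), map_mul,
      map_pow, map_neg, map_one, allE, eval₂Hom_X']
    ring

theorem firstEq_monic [Nontrivial Z] :
    ∀ j, (firstEq n Z j).Monic ∧ (firstEq n Z j).natDegree = j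
  | 0 => by simp [firstEq]
  | j + 1 => by
    obtain ⟨hm, hd⟩ := firstEq_monic j
    have hm' := Polynomial.monic_X.mul hm
    have hd' : (Polynomial.X * firstEq n Z j).natDegree = j + 1 := by
      rw [Polynomial.monic_X.natDegree_mul hm, Polynomial.natDegree_X, hd, add_comm]
    rw [firstEq]
    refine ⟨hm'.add_of_left (Polynomial.degree_C_le.trans_lt ?_), ?_⟩
    · rw [Polynomial.degree_eq_natDegree hm'.ne_zero, hd']
      exact_mod_cast Nat.succ_pos j
    · rw [Polynomial.natDegree_add_C, hd']

/-- The ring obtained by adjoining the first variable. -/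
noncomputable def rootToLast :
    AdjoinRoot (firstEq n Z (n + 1)) →+* MvPolynomial (Fin n) (Polynomial Z) :=
  AdjoinRoot.lift (allE n Z) (C Polynomial.X) (by
    rw [eval_firstEq n Z (n + 1) le_rfl, lastE, dif_neg (lt_irrefl n), mul_zero])

theorem rootToLast_bijective : Function.Bijective (rootToLast n Z) := by
  set f := firstEq n Z (n + 1)
  let ι : MvPolynomial (Fin n) (Polynomial Z) →+* AdjoinRoot f :=
    eval₂Hom (Polynomial.eval₂RingHom ((AdjoinRoot.of f).comp C) (AdjoinRoot.root f))
      fun i => AdjoinRoot.mk f ((-1) ^ ((i : ℕ) + 1) * firstEq n Z (i + 1))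
  have hιe : ∀ i ≤ n + 1, ι (lastE n Z i) = AdjoinRoot.mk f ((-1) ^ i * firstEq n Z i) := by
    intro i hi
    match i with
    | 0 => simp [lastE, firstEq]
    | i + 1 =>
      rw [lastE]
      split_ifs with h
      · simp [ι]
      · obtain rfl : i = n := by omega
        simp [f]
  have hroot : rootToLast n Z (AdjoinRoot.root f) = C Polynomial.X := AdjoinRoot.lift_root _
  have hof : ∀ x, rootToLast n Z (AdjoinRoot.of f x) = allE n Z x := fun x => AdjoinRoot.lift_of _
  have h1 : (rootToLast n Z).comp ι = RingHom.id _ := by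
    refine MvPolynomial.ringHom_ext' (Polynomial.ringHom_ext (fun r => ?_) ?_) fun i => ?_
    · simp [ι, hof, allE]
    · simp [ι, hroot]
    · simp only [ι, RingHom.comp_apply, eval₂Hom_X', RingHom.id_apply]
      rw [rootToLast, AdjoinRoot.lift_mk, Polynomial.eval₂_mul, eval_firstEq n Z _ (by omega),
        lastE, dif_pos i.2, Polynomial.eval₂_pow, Polynomial.eval₂_neg, Polynomial.eval₂_one,
        ← mul_assoc, ← mul_pow]
      norm_num
  have h2 : ι.comp (rootToLast n Z) = RingHom.id _ := by
    have h : ∀ p, ι (rootToLast n Z (AdjoinRoot.mk f p)) = AdjoinRoot.mk f p := by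
      suffices (ι.comp (rootToLast n Z)).comp (AdjoinRoot.mk f) = AdjoinRoot.mk f from
        fun p => RingHom.congr_fun this p
      refine Polynomial.ringHom_ext' (MvPolynomial.ringHom_ext (fun r => ?_) fun i => ?_) ?_
      · simp [ι, hof, allE]
      · simp only [RingHom.comp_apply, AdjoinRoot.mk_C, hof, allE, eval₂Hom_X', map_add, map_mul,
          hιe _ (by omega : (i : ℕ) + 1 ≤ n + 1), hιe _ (by omega : (i : ℕ) ≤ n + 1)]
        have hX : ι (C Polynomial.X) = AdjoinRoot.root f := by simp [ι]
        rw [hX, ← AdjoinRoot.mk_X, ← AdjoinRoot.mk_C]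
        simp only [← map_mul, ← map_add]
        congr 1
        rw [firstEq, dif_pos i.2, map_mul, map_pow, map_neg, map_one]
        rcases neg_one_pow_eq_or (Polynomial (MvPolynomial (Fin (n + 1)) Z)) (i : ℕ) with h | h <;>
          simp only [pow_succ, h] <;> ring
      · simp [hroot, ι]
    refine RingHom.ext fun x => ?_
    obtain ⟨p, rfl⟩ := AdjoinRoot.mk_surjective x
    exact h p
  exact Function.bijective_iff_has_inverse.2
    ⟨ι, fun x => RingHom.congr_fun h2 x, fun x => RingHom.congr_fun h1 x⟩

theorem firstVar_esHom (p : MvPolynomial (Fin (n + 1)) Z) :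
    firstVar n Z (esHom n (Polynomial Z) (allE n Z p)) = esHom (n + 1) Z p := by
  suffices ((firstVar n Z).comp (esHom n (Polynomial Z)).toRingHom).comp (allE n Z) =
      (esHom (n + 1) Z).toRingHom from RingHom.congr_fun this p
  have he : ∀ i, firstVar n Z (esymm (Fin n) (Polynomial Z) i) =
      rename Fin.succ (esymm (Fin n) Z i) := fun i => by
    simp [esymm, firstVar, map_sum, map_prod]
  have hl : ∀ i ≤ n + 1, firstVar n Z (esHom n (Polynomial Z) (lastE n Z i)) =
      rename Fin.succ (esymm (Fin n) Z i) := by
    intro i hi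
    match i with
    | 0 => simp [lastE]
    | i + 1 =>
      rw [lastE]
      split_ifs with h
      · simp [esHom, he]
      · obtain rfl : i = n := by omega
        simp [esymm, powersetCard_eq_empty.2 (by simp : (univ : Finset (Fin i)).card < i + 1)]
  refine MvPolynomial.ringHom_ext (fun r => ?_) fun i => ?_
  · simp [allE, esHom, firstVar]
  · simp only [RingHom.comp_apply, AlgHom.toRingHom_eq_coe, RingHom.coe_coe, allE, eval₂Hom_X',
      map_add, map_mul, hl _ (by omega : (i : ℕ) + 1 ≤ n + 1), hl _ (by omega : (i : ℕ) ≤ n + 1)]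
    rw [esHom, esHom, aeval_C, aeval_X, esymm_fin_succ]
    simp [firstVar, MvPolynomial.algebraMap_eq]

end Step

/-- Artin's basis. -/
theorem artin_basis (n : ℕ) : ∀ (Z : Type u) [CommRing Z],
    ∃ bf : Fin n.factorial → (Fin n →₀ ℕ), (∀ r i, bf r i ≤ n) ∧
      Function.Bijective (artinMap (Z := Z) bf) := by
  induction n with
  | zero =>
    intro Z _
    refine ⟨fun _ => 0, fun r i => i.elim0, ?_⟩
    have h : esHom 0 Z = AlgHom.id Z _ := MvPolynomial.algHom_ext fun i => i.elim0
    constructor
    · intro c c' hc
      refine funext fun r => ?_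
      have h1 : ∀ d : Fin (Nat.factorial 0) → MvPolynomial (Fin 0) Z,
          artinMap (fun _ => 0) d = d r := fun d => by
        rw [artinMap, Finset.sum_eq_single r (fun b _ hb => absurd (Subsingleton.elim (α := Fin 1) b r) hb)
          (fun hr => absurd (Finset.mem_univ r) hr), h]
        simp
      rwa [h1, h1] at hc
    · exact fun y => ⟨fun _ => y, by
        rw [artinMap, Fintype.sum_eq_single (⟨0, Nat.zero_lt_one⟩ : Fin (Nat.factorial 0))
          fun b hb => absurd (Subsingleton.elim (α := Fin 1) b _) hb, h]
        simp⟩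
  | succ n ih =>
    intro Z _
    obtain ⟨bf, hb, hbij⟩ := ih (Polynomial Z)
    let e : Fin (n + 1).factorial ≃ Fin (n + 1) × Fin n.factorial :=
      (finCongr (Nat.factorial_succ n)).trans finProdFinEquiv.symm
    let bf' : Fin (n + 1).factorial → (Fin (n + 1) →₀ ℕ) := fun r =>
      Finsupp.single 0 ((e r).1 : ℕ) + (bf (e r).2).mapDomain Fin.succ
    refine ⟨bf', fun r i => ?_, ?_⟩
    · refine Fin.cases ?_ (fun j => ?_) i
      · simp [bf', Finsupp.mapDomain_of_notMem_range, Fin.range_succ]
      · simp [bf', Finsupp.mapDomain_apply (Fin.succ_injective n)]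
        exact (hb _ j).trans (Nat.le_succ n)
    rcases subsingleton_or_nontrivial Z with hZ | hZ
    · exact ⟨fun _ _ _ => Subsingleton.elim _ _, fun y => ⟨0, Subsingleton.elim _ _⟩⟩
    set f := firstEq n Z (n + 1)
    obtain ⟨hfm, hfd⟩ := firstEq_monic n Z (n + 1)
    let B : Module.Basis (Fin (n + 1)) (MvPolynomial (Fin (n + 1)) Z) (AdjoinRoot f) :=
      (AdjoinRoot.powerBasis' hfm).basis.reindex (finCongr hfd)
    have hB : ∀ i, B i = AdjoinRoot.root f ^ (i : ℕ) := fun i => by
      simp [B, f, PowerBasis.coe_basis, AdjoinRoot.powerBasis'_gen]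
      rfl
    let T : (Fin (n + 1).factorial → MvPolynomial (Fin (n + 1)) Z) →
        (Fin n.factorial → MvPolynomial (Fin n) (Polynomial Z)) :=
      fun c r => rootToLast n Z (B.equivFun.symm fun i => c (e.symm (i, r)))
    have hT : Function.Bijective T := by
      have h1 : Function.Bijective fun (c : Fin (n + 1).factorial → MvPolynomial (Fin (n + 1)) Z)
          (r : Fin n.factorial) (i : Fin (n + 1)) => c (e.symm (i, r)) :=
        Function.bijective_iff_has_inverse.2
          ⟨fun d r => d (e r).2 (e r).1, fun c => funext fun r => by simp,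
            fun d => funext fun r => funext fun i => by simp⟩
      exact (Function.Bijective.piMap fun _ =>
        (rootToLast_bijective n Z).comp B.equivFun.symm.bijective).comp h1
    have key : artinMap (Z := Z) bf' = firstVar n Z ∘ artinMap bf ∘ T := by
      refine funext fun c => ?_
      simp only [Function.comp_apply, artinMap, T, Module.Basis.equivFun_symm_apply, map_sum,
        Finset.sum_mul, Algebra.smul_def, map_mul, AdjoinRoot.algebraMap_eq, hB, map_pow]
      rw [Finset.sum_comm, ← Fintype.sum_prod_type', ← Equiv.sum_comp e]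
      refine Finset.sum_congr rfl fun r _ => ?_
      have hr : rootToLast n Z (AdjoinRoot.root f) = C Polynomial.X := AdjoinRoot.lift_root _
      have ho : rootToLast n Z (AdjoinRoot.of f (c r)) = allE n Z (c r) := AdjoinRoot.lift_of _
      have hx : firstVar n Z (esHom n (Polynomial Z) (C Polynomial.X)) = X 0 := by
        simp [esHom, firstVar, MvPolynomial.algebraMap_eq]
      have hm : firstVar n Z (monomial (bf (e r).2) 1) =
          monomial ((bf (e r).2).mapDomain Fin.succ) 1 := by
        rw [firstVar, eval₂Hom_monomial, map_one, one_mul, monomial_eq, map_one, one_mul,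
          Finsupp.prod_mapDomain_index_inj (Fin.succ_injective n)]
      rw [Equiv.symm_apply_apply, hr, ho, hx, hm, firstVar_esHom, mul_assoc,
        X_pow_eq_monomial, monomial_mul, one_mul]
    rw [key]
    exact (firstVar_bijective n Z).comp (hbij.comp hT)

end Vale.Agent.P202.Char
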