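import Vale.Agent.P202.Char.Slice

/-!
P202, Lech in characteristic `p`: cohomology of free slices on `(P^1)^n` is spanned by bands of
monomials; multiplication by a nonzero form has small kernel and cokernel there.
-/

namespace Vale.Agent.P202.Char

universe u v w
open Finset

variable {Z : Type u} [CommRing Z] {n : ℕ} {ι : Type w}

/-- exponents carrying the cohomology of degree `q` -/
def Band (a : Fin n → ℤ) (δ : ι → ℤ) (N : ℤ) (q : ℕ) : Set (ι × Expo n) :=
  {x | δ x.1 + x.2.2 = N ∧ ∃ s : Finset (Fin n), s.card = q ∧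
    (∀ j ∈ s, x.2.1 j < 0 ∧ x.2.2 + a j < x.2.1 j) ∧
    ∀ j ∉ s, 0 ≤ x.2.1 j ∧ x.2.1 j ≤ x.2.2 + a j}

/-- both charts of the factor `j` contain the monomial -/
def BothCh (a : Fin n → ℤ) (e : Expo n) (j : Fin n) : Prop :=
  0 ≤ e.1 j ∧ e.1 j ≤ e.2 + a j

/-- no chart of the factor `j` contains the monomial -/
def NoCh (a : Fin n → ℤ) (e : Expo n) (j : Fin n) : Prop :=
  e.1 j < 0 ∧ e.2 + a j < e.1 j

/-- the chart at which a band monomial is read -/
noncomputable def canonCh (a : Fin n → ℤ) (e : Expo n) : Chart n :=
  open Classical in fun j => if NoCh a e j then 2 else 0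

theorem canonCh_eq_two (a : Fin n → ℤ) (e : Expo n) (j : Fin n) :
    canonCh a e j = 2 ↔ NoCh a e j := by
  unfold canonCh
  split_ifs with h <;> simp [h]

theorem canonCh_ne_two {a : Fin n → ℤ} {e : Expo n} {j : Fin n} (h : ¬ NoCh a e j) :
    canonCh a e j = 0 := by
  simp [canonCh, h]

theorem mem_band {a : Fin n → ℤ} {δ : ι → ℤ} {N : ℤ} {q : ℕ} {x : ι × Expo n} :
    x ∈ Band a δ N q ↔ δ x.1 + x.2.2 = N ∧ (∀ j, BothCh a x.2 j ∨ NoCh a x.2 j) ∧
      chartDeg (canonCh a x.2) = q := by
  classical
  constructor
  · rintro ⟨hN, s, hs, h1, h2⟩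
    refine ⟨hN, fun j => ?_, ?_⟩
    · by_cases hj : j ∈ s
      · exact Or.inr (h1 j hj)
      · exact Or.inl (h2 j hj)
    · rw [← hs, chartDeg]
      congr 1
      ext j
      simp only [mem_filter, mem_univ, true_and, canonCh_eq_two]
      refine ⟨fun h => ?_, h1 j⟩
      by_contra hj
      exact absurd (h2 j hj).1 (not_le.2 h.1)
  · rintro ⟨hN, hj, hq⟩
    refine ⟨hN, univ.filter (fun j => NoCh a x.2 j), ?_, fun j h => (mem_filter.1 h).2,
      fun j h => (hj j).resolve_right (by simpa using h)⟩
    rw [← hq, chartDeg]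
    congr 1
    ext j
    simp [canonCh_eq_two]

theorem band_top (a : Fin n → ℤ) (δ : ι → ℤ) (N : ℤ) (q : ℕ) (hq : 1 ≤ q) (x : ι × Expo n)
    (hx : x ∈ Band a δ N q) : ∃ j, x.2.2 + a j < 0 := by
  obtain ⟨-, s, hs, h1, -⟩ := hx
  obtain ⟨j, hj⟩ := Finset.card_pos.1 (by omega : 0 < s.card)
  exact ⟨j, (h1 j hj).2.trans (h1 j hj).1⟩

/-! ### The contracting homotopy at one monomial -/

/-- the sign of the `j`-th factor -/
def csign (Z : Type u) [CommRing Z] (η : Chart n) (j : Fin n) : Z :=
  (-1) ^ (univ.filter fun l => l < j ∧ η l = 2).card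

theorem csign_sq (η : Chart n) (j : Fin n) : csign Z η j * csign Z η j = 1 := by
  rw [csign, ← mul_pow]; simp

theorem csign_update_self (η : Chart n) (j : Fin n) (v : Fin 3) :
    csign Z (Function.update η j v) j = csign Z η j := by
  unfold csign
  congr 2
  ext l
  simp only [mem_filter, mem_univ, true_and]
  constructor <;> rintro ⟨h1, h2⟩ <;> refine ⟨h1, ?_⟩ <;>
    simp [Function.update_of_ne h1.ne] at h2 ⊢ <;> exact h2

theorem csign_remove {η : Chart n} {j l : Fin n} {v : Fin 3} (hv : v ≠ 2) (hl : η l = 2)
    (hlj : l < j) : csign Z (Function.update η l v) j = -csign Z η j := by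
  unfold csign
  have : (univ.filter fun i => i < j ∧ η i = 2) =
      insert l (univ.filter fun i => i < j ∧ Function.update η l v i = 2) := by
    ext i
    by_cases hi : i = l
    · subst hi; simp [hlj, hl]
    · simp [hi]
  rw [this, card_insert_of_notMem (by simp [hv]), pow_succ]
  ring

theorem csign_update_ge (η : Chart n) {j l : Fin n} (v : Fin 3) (hlj : j ≤ l) :
    csign Z (Function.update η l v) j = csign Z η j := by
  unfold csign
  congr 2
  ext i
  simp only [mem_filter, mem_univ, true_and]
  constructor <;> rintro ⟨h1, h2⟩ <;> refine ⟨h1, ?_⟩ <;>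
    simp [Function.update_of_ne (h1.trans_le hlj).ne] at h2 ⊢ <;> exact h2

theorem csign_comm {η : Chart n} {j l : Fin n} {v : Fin 3} (hj : η j ≠ 2) (hl : η l = 2)
    (hv : v ≠ 2) :
    csign Z η j * csign Z (Function.update η j 2) l +
      csign Z η l * csign Z (Function.update η l v) j = 0 := by
  have hne : l ≠ j := fun h => hj (h ▸ hl)
  rcases lt_or_gt_of_ne hne with h | h
  · rw [csign_remove hv hl h, csign_update_ge η 2 h.le]; ring
  · have h2 := csign_remove (Z := Z) (η := Function.update η j 2) (j := l) (l := j) (v := η j)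
      hj (by simp) h
    rw [Function.update_idem, Function.update_eq_self] at h2
    rw [csign_update_ge η v h.le, h2]; ring

open Classical in
/-- the homotopy of the factor `j` at a monomial `e` -/
noncomputable def htp (a : Fin n → ℤ) (e : Expo n) (j : Fin n) (η : Chart n) : Z :=
  if η j = 1 then (if 0 ≤ e.1 j then csign Z η j else 0)
  else if η j = 0 then (if e.1 j < 0 ∧ e.1 j ≤ e.2 + a j then -csign Z η j else 0) else 0

open Classical in
/-- the value after the homotopy of the factor `j` -/
noncomputable def htpRed (a : Fin n → ℤ) (e : Expo n) (j : Fin n) (φ : Chart n → Z) (η : Chart n) :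
    Z :=
  if η j = 2 then (if NoCh a e j then φ η else 0)
  else (if BothCh a e j then φ (Function.update η j 0) else 0)

theorem htpRed_eq {a : Fin n → ℤ} {e : Expo n} (φ : Chart n → Z)
    (hφ : ∀ η, ¬ InBox a η e → φ η = 0) (hz : cechD Z φ = 0) (j : Fin n) (η : Chart n) :
    φ η - cechD Z (fun η' => htp a e j η' * φ (Function.update η' j 2)) η = htpRed a e j φ η := by
  classical
  have hbad : ∀ η : Chart n, ∀ v : Fin 3, η j = v →
      ((v = 1 ∧ e.1 j < 0) ∨ (v = 0 ∧ e.2 + a j < e.1 j)) → φ η = 0 := by
    intro η v hv h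
    refine hφ η fun hb => ?_
    obtain ⟨h1, h0⟩ := hb j
    rcases h with ⟨rfl, h⟩ | ⟨rfl, h⟩
    · exact absurd (h1 hv) (not_le.2 h)
    · exact absurd (h0 hv) (not_le.2 h)
  by_cases hη : η j = 2
  · have hD : cechD Z (fun η' => htp a e j η' * φ (Function.update η' j 2)) η =
        csign Z η j * (htp a e j (Function.update η j 1) - htp a e j (Function.update η j 0)) *
          φ η := by
      rw [cechD_apply, Finset.sum_eq_single j]
      · simp only [Function.update_idem]
        rw [show Function.update η j 2 = η from by rw [← hη]; exact Function.update_eq_self j η,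
          smul_eq_mul, csign]
        ring
      · intro l hl hlj
        simp [htp, Function.update_of_ne (Ne.symm hlj), hη]
      · simp [hη]
    rw [hD]
    simp only [htpRed, hη, if_true, htp, Function.update_self, csign_update_self,
      show ((0 : Fin 3) = 1) = False from by decide, if_false]
    by_cases h1 : 0 ≤ e.1 j
    · have : ¬ NoCh a e j := fun h => absurd h.1 (not_lt.2 h1)
      simp [h1, this, csign_sq, not_lt.2 h1]
    · by_cases h0 : e.1 j ≤ e.2 + a j
      · have : ¬ NoCh a e j := fun h => absurd h.2 (not_lt.2 h0)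
        simp [h1, h0, this, csign_sq, not_le.1 h1]
      · simp [h1, h0, NoCh, not_le.1 h1, not_le.1 h0]
  · obtain ⟨u, hu⟩ : ∃ u, η j = u := ⟨_, rfl⟩
    set c : Z := htp a e j η * csign Z η j with hc
    have hh : ∀ l, η l = 2 → ∀ v : Fin 3, v ≠ 2 →
        htp a e j (Function.update η l v) = c * csign Z (Function.update η l v) j := by
      intro l hl v hv
      have hne : j ≠ l := fun h => hη (h ▸ hl)
      simp only [hc, htp, Function.update_of_ne hne]
      split_ifs <;> simp [csign_sq]
    have hz' := congrFun hz (Function.update η j 2)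
    rw [cechD_apply, Pi.zero_apply] at hz'
    have hset : (univ.filter fun l => Function.update η j 2 l = 2) =
        insert j (univ.filter fun l => η l = 2) := by
      ext l
      by_cases hl : l = j
      · subst hl; simp
      · simp [hl]
    rw [hset, sum_insert (by simp [hη])] at hz'
    simp only [Function.update_idem, smul_eq_mul] at hz'
    have hD : cechD Z (fun η' => htp a e j η' * φ (Function.update η' j 2)) η =
        c * (φ (Function.update η j 1) - φ (Function.update η j 0)) := by
      rw [cechD_apply]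
      have : ∀ l ∈ univ.filter (fun l => η l = 2),
          ((-1 : Z) ^ (univ.filter fun i => i < l ∧ η i = 2).card) •
            ((fun η' => htp a e j η' * φ (Function.update η' j 2)) (Function.update η l 1) -
              (fun η' => htp a e j η' * φ (Function.update η' j 2)) (Function.update η l 0)) =
          -(c * csign Z η j) *
            (((-1 : Z) ^ (univ.filter fun i => i < l ∧ Function.update η j 2 i = 2).card) *
              (φ (Function.update (Function.update η j 2) l 1) -
                φ (Function.update (Function.update η j 2) l 0))) := by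
        intro l hl
        have hl2 : η l = 2 := (mem_filter.1 hl).2
        have hne : l ≠ j := fun h => hη (h ▸ hl2)
        simp only [smul_eq_mul]
        rw [hh l hl2 1 (by decide), hh l hl2 0 (by decide), Function.update_comm hne,
          Function.update_comm hne]
        have e1 := csign_comm (Z := Z) (v := 1) hη hl2 (by decide)
        have e0 := csign_comm (Z := Z) (v := 0) hη hl2 (by decide)
        simp only [csign] at e1 e0 ⊢
        linear_combination (c * φ (Function.update (Function.update η j 2) l 1)) * e1 -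
          (c * φ (Function.update (Function.update η j 2) l 0)) * e0
      rw [sum_congr rfl this, ← mul_sum]
      have hs : (-1 : Z) ^ (univ.filter fun i => i < j ∧ Function.update η j 2 i = 2).card =
          csign Z η j := csign_update_self η j 2
      rw [hs] at hz'
      have := csign_sq (Z := Z) η j
      linear_combination (c * csign Z η j) * (-hz') +
        (c * (φ (Function.update η j 1) - φ (Function.update η j 0))) * this
    rw [hD, htpRed, if_neg hη]
    have hself : Function.update η j u = η := by rw [← hu]; exact Function.update_eq_self j η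
    fin_cases u
    · simp only [Fin.zero_eta] at hu hself
      rw [hself]
      simp only [hc, htp, hu, show ((0 : Fin 3) = 1) = False from by decide, if_false, if_true]
      by_cases h1 : 0 ≤ e.1 j
      · by_cases h0 : e.1 j ≤ e.2 + a j
        · simp [BothCh, h1, h0, not_lt.2 h1]
        · simp [BothCh, h1, h0, hbad η 0 hu (Or.inr ⟨rfl, not_le.1 h0⟩)]
      · have hz1 := hbad (Function.update η j 1) 1 (by simp) (Or.inl ⟨rfl, not_le.1 h1⟩)
        by_cases h0 : e.1 j ≤ e.2 + a j
        · simp [BothCh, h1, h0, hz1, not_le.1 h1, csign_sq]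
        · simp [BothCh, h1, h0, hbad η 0 hu (Or.inr ⟨rfl, not_le.1 h0⟩)]
    · simp only [Fin.mk_one] at hu hself
      rw [hself]
      simp only [hc, htp, hu, if_true]
      by_cases h1 : 0 ≤ e.1 j
      · by_cases h0 : e.1 j ≤ e.2 + a j
        · simp [BothCh, h1, h0, csign_sq]
        · simp [BothCh, h1, h0, csign_sq,
            hbad (Function.update η j 0) 0 (by simp) (Or.inr ⟨rfl, not_le.1 h0⟩)]
      · simp [BothCh, h1, hbad η 1 hu (Or.inl ⟨rfl, not_le.1 h1⟩)]
    · exact absurd hu hη

/-! ### Reading and representing classes -/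

open Classical in
/-- restriction to the points satisfying `P` -/
noncomputable def filTot (P : ι × Expo n → Prop) : Tot Z n ι →ₗ[Z] Tot Z n ι :=
  Finsupp.lsum Z fun x => if P x then Finsupp.lsingle x else 0

open Classical in
theorem filTot_apply (P : ι × Expo n → Prop) (f : Tot Z n ι) (y : ι × Expo n) :
    filTot P f y = if P y then f y else 0 := by
  induction f using Finsupp.induction_linear with
  | zero => simp
  | add f g hf hg => rw [map_add, Finsupp.add_apply, hf, hg]; split_ifs <;> simp
  | single x r =>
    rw [filTot, Finsupp.lsum_single]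
    by_cases hxy : x = y
    · subst hxy; split_ifs <;> simp
    · split_ifs <;> simp [Finsupp.single_eq_of_ne (Ne.symm hxy)]

variable (a : Fin n → ℤ) (δ : ι → ℤ) (N : ℤ) (q : ℕ)

/-- the coefficients at the band, read at the canonical charts -/
noncomputable def bandRead : (Chart n → Tot Z n ι) →ₗ[Z] (Band a δ N q →₀ Z) :=
  Finsupp.lcomapDomain (Subtype.val : Band a δ N q → ι × Expo n) Subtype.val_injective ∘ₗ
    ∑ ε : Chart n, filTot (fun x => canonCh a x.2 = ε) ∘ₗ LinearMap.proj ε

theorem bandRead_apply (f : Chart n → Tot Z n ι) (x : Band a δ N q) :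
    bandRead a δ N q f x = f (canonCh a x.1.2) x.1 := by
  classical
  simp [bandRead, Finsupp.lcomapDomain, Finsupp.comapDomain_apply, Finsupp.finsetSum_apply,
    filTot_apply]
  rw [Finset.sum_eq_single (canonCh a x.1.2)] <;> simp +contextual [eq_comm]

/-- the standard cycle of a family of band monomials -/
noncomputable def bandRep : (Band a δ N q →₀ Z) →ₗ[Z] (Chart n → Tot Z n ι) :=
  LinearMap.pi fun η => filTot (fun x => ∀ j, η j = 2 ↔ NoCh a x.2 j) ∘ₗ
    Finsupp.lmapDomain Z Z Subtype.val

theorem bandRep_apply_mem (v : Band a δ N q →₀ Z) (η : Chart n) (x : Band a δ N q) :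
    bandRep a δ N q v η x.1 =
      open Classical in if (∀ j, η j = 2 ↔ NoCh a x.1.2 j) then v x else 0 := by
  classical
  simp [bandRep, filTot_apply, Finsupp.mapDomain_apply Subtype.val_injective]

theorem bandRep_apply_notMem (v : Band a δ N q →₀ Z) (η : Chart n) (y : ι × Expo n)
    (hy : y ∉ Band a δ N q) : bandRep a δ N q v η y = 0 := by
  classical
  simp [bandRep, filTot_apply,
    Finsupp.mapDomain_of_notMem_range (f := (Subtype.val : Band a δ N q → ι × Expo n)) v y
      (fun ⟨z, hz⟩ => hy (hz ▸ z.2))]

theorem bandRead_bandRep (v : Band a δ N q →₀ Z) :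
    bandRead a δ N q (bandRep a δ N q v) = v := by
  refine Finsupp.ext fun x => ?_
  rw [bandRead_apply, bandRep_apply_mem, if_pos fun j => canonCh_eq_two a x.1.2 j]

theorem cechD_point (f : Chart n → Tot Z n ι) (η : Chart n) (y : ι × Expo n) :
    cechD Z f η y = cechD Z (fun η' => f η' y) η := by
  simp [cechD_apply, Finsupp.finsetSum_apply]

variable {a δ N q}

theorem mem_freeSlice_iff {ε : Chart n} {f : Tot Z n ι} :
    f ∈ freeSlice Z a ε δ N ↔ ∀ y, ¬(InBox a ε y.2 ∧ δ y.1 + y.2.2 = N) → f y = 0 := by
  simp [freeSlice, Finsupp.mem_supported']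

theorem mem_cechDeg_iff {M : Type v} [AddCommGroup M] [Module Z M] {f : Chart n → M} {k : ℤ} :
    f ∈ cechDeg Z M k ↔ ∀ ε, -(chartDeg ε : ℤ) ≠ k → f ε = 0 := by
  simp only [cechDeg, Submodule.mem_pi, Set.mem_univ, true_implies]
  refine ⟨fun h ε hε => ?_, fun h ε => ?_⟩
  · simpa [hε] using h ε
  · by_cases hε : -(chartDeg ε : ℤ) = k
    · simp [hε]
    · simp [hε, h ε hε]

theorem bandRep_mem (v : Band a δ N q →₀ Z) :
    bandRep a δ N q v ∈ (cechGC Z n (Tot Z n ι)).cyc ⊥ (freeCech Z a δ N) (-(q : ℤ)) := by
  classical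
  refine ⟨⟨fun ε _ => mem_freeSlice_iff.2 fun y hy => ?_, mem_cechDeg_iff.2 fun ε hε => ?_⟩, ?_⟩
  · by_cases hb : y ∈ Band a δ N q
    · rw [show y = (⟨y, hb⟩ : Band a δ N q).1 from rfl, bandRep_apply_mem, if_neg]
      intro h
      obtain ⟨hN, hj, -⟩ := mem_band.1 hb
      refine hy ⟨fun j => ⟨fun h1 => ?_, fun h0 => ?_⟩, hN⟩
      · refine ((hj j).resolve_right fun hn => ?_).1
        have := (h j).2 hn; rw [h1] at this; exact absurd this (by decide)
      · refine ((hj j).resolve_right fun hn => ?_).2
        have := (h j).2 hn; rw [h0] at this; exact absurd this (by decide)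
    · exact bandRep_apply_notMem a δ N q v ε y hb
  · refine Finsupp.ext fun y => ?_
    by_cases hb : y ∈ Band a δ N q
    · rw [show y = (⟨y, hb⟩ : Band a δ N q).1 from rfl, bandRep_apply_mem, if_neg]
      · rfl
      intro h
      apply hε
      rw [Int.neg_inj, Nat.cast_inj, ← (mem_band.1 hb).2.2, chartDeg, chartDeg]
      congr 1
      ext j
      simp [h j, canonCh_eq_two]
    · exact bandRep_apply_notMem a δ N q v ε y hb
  · simp only [Submodule.mem_comap, Submodule.mem_bot, SetLike.mem_coe, cechGC]
    refine funext fun η => Finsupp.ext fun y => ?_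
    rw [cechD_point, cechD_apply]
    refine sum_eq_zero fun j hj => ?_
    convert smul_zero ((-1 : Z) ^ (univ.filter fun l => l < j ∧ η l = 2).card)
    rw [sub_eq_zero]
    by_cases hb : y ∈ Band a δ N q
    · rw [show y = (⟨y, hb⟩ : Band a δ N q).1 from rfl, bandRep_apply_mem, bandRep_apply_mem]
      congr 1
      refine propext (forall_congr' fun l => ?_)
      by_cases hl : l = j
      · subst hl; simp
      · simp [hl]
    · rw [bandRep_apply_notMem a δ N q v _ y hb, bandRep_apply_notMem a δ N q v _ y hb]

theorem bandRead_cechD {g : Chart n → Tot Z n ι} (hg : g ∈ freeCech Z a δ N) :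
    bandRead a δ N q (cechD Z g) = 0 := by
  refine Finsupp.ext fun x => ?_
  rw [bandRead_apply, cechD_point, cechD_apply, Finsupp.zero_apply]
  refine sum_eq_zero fun j hj => ?_
  have hno : NoCh a x.1.2 j := (canonCh_eq_two a x.1.2 j).1 (mem_filter.1 hj).2
  rw [mem_freeSlice_iff.1 (hg _ trivial) x.1 fun h => ?_,
    mem_freeSlice_iff.1 (hg _ trivial) x.1 fun h => ?_, sub_zero, smul_zero]
  · exact absurd ((h.1 j).2 (by simp)) (not_le.2 hno.2)
  · exact absurd ((h.1 j).1 (by simp)) (not_le.2 hno.1)

/-- a cycle which reads zero is a boundary -/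
theorem exists_boundary {f : Chart n → Tot Z n ι}
    (hf : f ∈ (cechGC Z n (Tot Z n ι)).cyc ⊥ (freeCech Z a δ N) (-(q : ℤ)))
    (h0 : bandRead a δ N q f = 0) :
    ∃ g ∈ freeCech Z a δ N, g ∈ cechDeg Z (Tot Z n ι) (-(q : ℤ) + 1) ∧ cechD Z g = f := by
  classical
  obtain ⟨⟨hF, hd⟩, hz⟩ := hf
  simp only [SetLike.mem_coe, Submodule.mem_comap, Submodule.mem_bot, cechGC] at hz hd
  suffices H : ∀ s : Finset (Fin n), ∃ g ∈ freeCech Z a δ N,
      g ∈ cechDeg Z (Tot Z n ι) (-(q : ℤ) + 1) ∧
      ∀ j ∈ s, ∀ η y, ((η j = 2 ∧ ¬ NoCh a y.2 j) ∨ (η j ≠ 2 ∧ ¬ BothCh a y.2 j) →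
          (f - cechD Z g) η y = 0) ∧
        (η j ≠ 2 → (f - cechD Z g) η y = (f - cechD Z g) (Function.update η j 0) y) by
    obtain ⟨g, hg, hgd, hall⟩ := H univ
    refine ⟨g, hg, hgd, (sub_eq_zero.1 ?_).symm⟩
    refine funext fun η => Finsupp.ext fun y => ?_
    rw [Pi.zero_apply, Finsupp.zero_apply]
    by_contra hne
    have hf' : f - cechD Z g ∈ freeCech Z a δ N :=
      Submodule.sub_mem _ hF (cechD_mem ⟨g, hg, rfl⟩)
    have hd' : f - cechD Z g ∈ cechDeg Z (Tot Z n ι) (-(q : ℤ)) :=
      Submodule.sub_mem _ hd (by simpa [cechGC] using (cechGC Z n (Tot Z n ι)).map_deg _ ⟨g, hgd, rfl⟩)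
    have hq : chartDeg η = q := by
      by_contra h
      exact hne (by rw [mem_cechDeg_iff.1 hd' η (by omega)]; rfl)
    have hN : δ y.1 + y.2.2 = N := by
      by_contra h
      exact hne (mem_freeSlice_iff.1 (hf' η trivial) y fun h' => h h'.2)
    have htype : ∀ j, (η j = 2 → NoCh a y.2 j) ∧ (η j ≠ 2 → BothCh a y.2 j) := fun j =>
      ⟨fun h => by_contra fun h' => hne ((hall j (mem_univ j) η y).1 (Or.inl ⟨h, h'⟩)),
       fun h => by_contra fun h' => hne ((hall j (mem_univ j) η y).1 (Or.inr ⟨h, h'⟩))⟩
    have hiff : ∀ j, η j = 2 ↔ NoCh a y.2 j := fun j => ⟨(htype j).1, fun h => by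
      by_contra h'
      exact absurd ((htype j).2 h').1 (not_le.2 h.1)⟩
    have hb : y ∈ Band a δ N q := by
      refine mem_band.2 ⟨hN, fun j => ?_, ?_⟩
      · by_cases h : η j = 2
        · exact Or.inr ((htype j).1 h)
        · exact Or.inl ((htype j).2 h)
      · rw [← hq, chartDeg, chartDeg]
        congr 1
        ext j
        simp [hiff j, canonCh_eq_two]
    have hcan : ∀ s : Finset (Fin n), (f - cechD Z g) η y =
        (f - cechD Z g) (fun j => if η j ≠ 2 ∧ j ∈ s then 0 else η j) y := by
      intro s
      induction s using Finset.induction_on with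
      | empty => simp
      | insert i s hi ih =>
        rw [ih]
        by_cases h2 : η i = 2
        · refine congrArg (fun η' => (f - cechD Z g) η' y) (funext fun j => ?_)
          by_cases hj : j = i
          · subst hj; simp [h2, hi]
          · simp [hj]
        · rw [(hall i (mem_univ i) _ y).2 (by simp [hi, h2])]
          refine congrArg (fun η' => (f - cechD Z g) η' y) (funext fun j => ?_)
          by_cases hj : j = i
          · subst hj; simp [h2]
          · simp [hj]
    apply hne
    rw [hcan univ]
    have hc : (fun j => if η j ≠ 2 ∧ j ∈ (univ : Finset (Fin n)) then 0 else η j) =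
        canonCh a y.2 := by
      funext j
      by_cases h : η j = 2
      · simp [h, (canonCh_eq_two a y.2 j).2 ((htype j).1 h)]
      · simp [h, canonCh_ne_two fun h' => h ((hiff j).2 h')]
    have h1 := congrArg (fun v => v (⟨y, hb⟩ : Band a δ N q))
      (bandRead_cechD (q := q) (a := a) (δ := δ) (N := N) hg)
    have h2 := congrArg (fun v => v (⟨y, hb⟩ : Band a δ N q)) h0
    simp only [bandRead_apply, Finsupp.zero_apply] at h1 h2
    rw [hc]
    simp [h1, h2]
  intro s
  induction s using Finset.induction_on with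
  | empty => exact ⟨0, Submodule.zero_mem _, Submodule.zero_mem _, by simp⟩
  | insert j s hj ih =>
    obtain ⟨g, hg, hgd, hgood⟩ := ih
    set f' := f - cechD Z g with hf'
    have hF' : f' ∈ freeCech Z a δ N := Submodule.sub_mem _ hF (cechD_mem ⟨g, hg, rfl⟩)
    have hd' : f' ∈ cechDeg Z (Tot Z n ι) (-(q : ℤ)) :=
      Submodule.sub_mem _ hd (by simpa [cechGC] using (cechGC Z n (Tot Z n ι)).map_deg _ ⟨g, hgd, rfl⟩)
    have hz' : cechD Z f' = 0 := by
      rw [hf', map_sub, hz, zero_sub, neg_eq_zero]
      exact LinearMap.congr_fun cechD_sq g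
    set k : Chart n → Tot Z n ι := fun η => if η j = 2 then 0 else
      if η j = 1 then csign Z η j • filTot (fun y => 0 ≤ y.2.1 j) (f' (Function.update η j 2))
      else -(csign Z η j • filTot (fun y => y.2.1 j < 0 ∧ y.2.1 j ≤ y.2.2 + a j)
        (f' (Function.update η j 2))) with hk
    have hkp : ∀ η y, k η y = htp a y.2 j η * f' (Function.update η j 2) y := by
      intro η y
      simp only [hk, htp]
      rcases (by decide : ∀ u : Fin 3, u = 0 ∨ u = 1 ∨ u = 2) (η j) with h | h | h <;>
        simp only [h] <;> simp [filTot_apply] <;> split_ifs <;> simp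
    have hkF : k ∈ freeCech Z a δ N := by
      refine fun η _ => mem_freeSlice_iff.2 fun y hy => ?_
      rw [hkp]
      by_cases hy' : InBox a (Function.update η j 2) y.2 ∧ δ y.1 + y.2.2 = N
      · rw [show htp (Z := Z) a y.2 j η = 0 from ?_, zero_mul]
        simp only [htp]
        by_cases h1 : η j = 1
        · rw [if_pos h1, if_neg]
          intro h
          refine hy ⟨fun l => ?_, hy'.2⟩
          by_cases hl : l = j
          · subst hl; simp [h1, h]
          · simpa [hl] using hy'.1 l
        · rw [if_neg h1]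
          by_cases h0 : η j = 0
          · rw [if_pos h0, if_neg]
            intro h
            refine hy ⟨fun l => ?_, hy'.2⟩
            by_cases hl : l = j
            · subst hl; simp [h0, h.2]
            · simpa [hl] using hy'.1 l
          · rw [if_neg h0]
      · rw [mem_freeSlice_iff.1 (hF' _ trivial) y hy', mul_zero]
    have hkd : k ∈ cechDeg Z (Tot Z n ι) (-(q : ℤ) + 1) := by
      refine mem_cechDeg_iff.2 fun η hη => ?_
      by_cases h2 : η j = 2
      · simp [hk, h2]
      · have : chartDeg (Function.update η j 2) = chartDeg η + 1 := by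
          simp only [chartDeg]
          rw [show (univ.filter fun l => Function.update η j 2 l = 2) =
            insert j (univ.filter fun l => η l = 2) by
              ext l
              by_cases hl : l = j
              · subst hl; simp
              · simp [hl], card_insert_of_notMem (by simp [h2])]
        refine Finsupp.ext fun y => ?_
        rw [hkp, mem_cechDeg_iff.1 hd' _ (by omega)]
        simp
    refine ⟨g + k, Submodule.add_mem _ hg hkF, Submodule.add_mem _ hgd hkd, ?_⟩
    have hnew : ∀ η y, (f - cechD Z (g + k)) η y = htpRed a y.2 j (fun η => f' η y) η := by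
      intro η y
      rw [map_add, ← sub_sub, ← hf']
      rw [← htpRed_eq (fun η => f' η y) (fun η hη => mem_freeSlice_iff.1 (hF' η trivial) y
        fun h => hη h.1) ?_ j η]
      · simp only [Pi.sub_apply, Finsupp.sub_apply]
        rw [cechD_point k]
        simp_rw [hkp]
      · refine funext fun η => ?_
        rw [← cechD_point, hz']
        rfl
    intro i hi η y
    simp only [hnew, htpRed]
    rcases mem_insert.1 hi with rfl | hi
    · constructor
      · rintro (⟨h, h'⟩ | ⟨h, h'⟩) <;> simp [h, h']
      · intro h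
        simp [h]
    · have hne : i ≠ j := fun h => hj (h ▸ hi)
      constructor
      · intro hcond
        have a1 := (hgood i hi η y).1 hcond
        have a2 := (hgood i hi (Function.update η j 0) y).1
          (by simpa [Function.update_of_ne hne] using hcond)
        simp only [a1, a2]
        split_ifs <;> rfl
      · intro h
        have a1 := (hgood i hi η y).2 h
        have a2 := (hgood i hi (Function.update η j 0) y).2
          (by simpa [Function.update_of_ne hne] using h)
        rw [Function.update_comm hne.symm] at a2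
        simp only [Function.update_of_ne hne.symm, a1, a2]

/-- the cohomology of a free slice -/
theorem free_cech_equiv (a : Fin n → ℤ) (δ : ι → ℤ) (N : ℤ) (q : ℕ) :
    Nonempty ((cechGC Z n (Tot Z n ι)).H ⊥ (freeCech Z a δ N) (-(q : ℤ)) ≃ₗ[Z]
      (Band a δ N q →₀ Z)) := by
  set C := cechGC Z n (Tot Z n ι)
  let Φ : C.cyc ⊥ (freeCech Z a δ N) (-(q : ℤ)) →ₗ[Z] (Band a δ N q →₀ Z) :=
    bandRead a δ N q ∘ₗ Submodule.subtype _
  have hker : LinearMap.ker Φ =
      (C.bd ⊥ (freeCech Z a δ N) (-(q : ℤ))).comap (Submodule.subtype _) := by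
    refine le_antisymm (fun f hf => ?_) (fun f hf => ?_)
    · obtain ⟨g, hg, hgd, hgf⟩ := exists_boundary f.2 hf
      exact Submodule.mem_sup_left ⟨g, ⟨hg, hgd⟩, hgf⟩
    · obtain ⟨z, ⟨g, hg, rfl⟩, b, hb, hsum⟩ := Submodule.mem_sup.1 hf
      rw [(Submodule.mem_bot Z).1 hb.1, add_zero] at hsum
      rw [LinearMap.mem_ker]
      show bandRead a δ N q (f : Chart n → Tot Z n ι) = 0
      rw [show (f : Chart n → Tot Z n ι) = cechD Z g from hsum.symm]
      exact bandRead_cechD hg.1
  have hsurj : Function.Surjective Φ :=
    fun v => ⟨⟨bandRep a δ N q v, bandRep_mem v⟩, bandRead_bandRep a δ N q v⟩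
  exact ⟨(Submodule.quotEquivOfEq _ _ hker.symm).trans (Φ.quotKerEquivOfSurjective hsurj)⟩

/-- the interval of exponents in one factor -/
noncomputable def bandIv (c : ℤ) : Finset ℤ := if c < 0 then Finset.Ioo (c - 1) 0 else Finset.Ico 0 c

theorem band_card [Fintype ι] (a : Fin n → ℤ) (δ : ι → ℤ) (N : ℤ) (q : ℕ) :
    (Band a δ N q).Finite ∧
      Set.ncard (Band a δ N q) = ∑ i, hP a (N - δ i) q := by
  classical
  let emb' : (Σ _ : ι, Fin n → ℤ) ↪ ι × Expo n :=
    ⟨fun x => (x.1, (x.2, N - δ x.1)), fun x y h => by
      simp only [Prod.mk.injEq] at h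
      exact Sigma.ext h.1 (heq_of_eq h.2.1)⟩
  let T : ι → Finset (Fin n → ℤ) := fun i =>
    if (univ.filter fun j => (N - δ i) + a j + 1 < 0).card = q then
      Fintype.piFinset (fun j => bandIv ((N - δ i) + a j + 1)) else ∅
  have hmem : Band a δ N q = ↑((univ.sigma T).map emb') := by
    ext ⟨i, α, m⟩
    simp only [coe_map, Set.mem_image, mem_coe, mem_sigma, mem_univ, true_and]
    constructor
    · rintro ⟨hN, s, hs, h1, h2⟩
      simp only at hN h1 h2
      obtain rfl : m = N - δ i := by omega
      refine ⟨⟨i, α⟩, ?_, rfl⟩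
      have hs' : s = univ.filter fun j => (N - δ i) + a j + 1 < 0 := by
        ext j
        simp only [mem_filter, mem_univ, true_and]
        refine ⟨fun h => by have := h1 j h; omega, fun h => ?_⟩
        by_contra hj
        have := h2 j hj
        omega
      simp only [T]
      rw [if_pos (by rw [← hs']; exact hs), Fintype.mem_piFinset]
      intro j
      by_cases hj : j ∈ s
      · have := h1 j hj
        rw [bandIv, if_pos (by omega), mem_Ioo]
        omega
      · have := h2 j hj
        rw [bandIv, if_neg (by omega), mem_Ico]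
        omega
    · rintro ⟨⟨i', α'⟩, hx, hxy⟩
      simp only [emb', Function.Embedding.coeFn_mk, Prod.mk.injEq] at hxy
      obtain ⟨rfl, rfl, rfl⟩ := hxy
      simp only [T] at hx
      split_ifs at hx with hq
      · rw [Fintype.mem_piFinset] at hx
        refine ⟨by simp, _, hq, fun j hj => ?_, fun j hj => ?_⟩
        · have := hx j
          simp only [mem_filter, mem_univ, true_and] at hj
          rw [bandIv, if_pos hj, mem_Ioo] at this
          simp only
          omega
        · have := hx j
          simp only [mem_filter, mem_univ, true_and] at hj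
          rw [bandIv, if_neg hj, mem_Ico] at this
          simp only
          omega
      · simp at hx
  rw [hmem]
  refine ⟨Finset.finite_toSet _, ?_⟩
  rw [Set.ncard_coe_finset, card_map, card_sigma]
  refine sum_congr rfl fun i _ => ?_
  simp only [T, hP]
  split_ifs with hq
  · rw [Fintype.card_piFinset]
    refine prod_congr rfl fun j _ => ?_
    rw [bandIv]
    split_ifs with h
    · rw [Int.card_Ioo]; omega
    · rw [Int.card_Ico]; omega
  · rfl

end Vale.Agent.P202.Char
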