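import Vale.Agent.P202.Char.Band

/-!
P202, Lech in characteristic `p`: multiplication by a nonzero form on the bands of a free slice has
small kernel and cokernel.
-/

namespace Vale.Agent.P202.Char

universe u v w
open Finset

variable {K : Type u} [Field K] {n : ℕ} {ι : Type w}

theorem support_rho (lam : Fin (n + 1) → K) {g : MvPolynomial (Fin (n + 1)) K} {γ : ℕ}
    (hh : g.IsHomogeneous γ) {β : Expo n} (hβ : (rho lam g).coeff β ≠ 0) :
    β.2 = γ ∧ ∀ j, 0 ≤ β.1 j ∧ β.1 j ≤ γ := by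
  have hdeg : ∀ c ∈ g.support, (c.sum fun _ v => (v : ℤ)) = (γ : ℤ) := by
    intro c hc
    have h := hh (MvPolynomial.mem_support_iff.1 hc)
    simp only [Finsupp.weight_apply, Pi.one_apply, smul_eq_mul, mul_one] at h
    rw [← h, Finsupp.sum, Finsupp.sum, Nat.cast_sum]
  have h1 := lauMem_rho lam (fun _ => 1) g γ hdeg β (Finsupp.mem_support_iff.2 hβ)
  have h0 := lauMem_rho lam (fun _ => 0) g γ hdeg β (Finsupp.mem_support_iff.2 hβ)
  refine ⟨h1.2, fun j => ⟨(h1.1 j).1 rfl, ?_⟩⟩
  have := (h0.1 j).2 rfl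
  rw [h0.2] at this
  simpa using this

theorem homog_support_sum {g : MvPolynomial (Fin (n + 1)) K} {γ : ℕ} (hh : g.IsHomogeneous γ)
    {c : Fin (n + 1) →₀ ℕ} (hc : c ∈ g.support) : (c.sum fun _ v => (v : ℤ)) = (γ : ℤ) := by
  have h := hh (MvPolynomial.mem_support_iff.1 hc)
  simp only [Finsupp.weight_apply, Pi.one_apply, smul_eq_mul, mul_one] at h
  rw [← h, Finsupp.sum, Finsupp.sum, Nat.cast_sum]

theorem isHomog_gen (δ : ι → ℤ) {g : MvPolynomial (Fin (n + 1)) K} {γ : ℕ}
    (hh : g.IsHomogeneous γ) (i : ι) : IsHomog δ (Finsupp.single i g) (δ i + γ) := by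
  classical
  intro i' c hc
  by_cases h : i' = i
  · subst h
    rw [Finsupp.single_eq_same] at hc
    rw [homog_support_sum hh hc]
  · rw [Finsupp.single_eq_of_ne h] at hc
    simp at hc

/-- multiplication by `g` on every component -/
noncomputable def mulFam (lam : Fin (n + 1) → K) (g : MvPolynomial (Fin (n + 1)) K) :
    Tot K n ι →ₗ[K] Tot K n ι :=
  push lam (fun i => Finsupp.single i g)

theorem mulFam_apply (lam : Fin (n + 1) → K) (g : MvPolynomial (Fin (n + 1)) K) (x : Tot K n ι)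
    (i : ι) (e : Expo n) :
    mulFam lam g x (i, e) = x.sum fun z r =>
      open Classical in if z.1 = i then r * (rho lam g).coeff (e - z.2) else 0 := by
  classical
  induction x using Finsupp.induction_linear with
  | zero => simp
  | add x y hx hy =>
    rw [map_add, Finsupp.add_apply, hx, hy, Finsupp.sum_add_index']
    · intro z; split_ifs <;> simp
    · intro z r s; split_ifs <;> simp [add_mul]
  | single z r =>
    obtain ⟨l, f⟩ := z
    rw [Finsupp.sum_single_index (by simp), mulFam, push_single, emb_single]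
    by_cases h : l = i
    · subst h
      simp [inComp, Finsupp.mapDomain_apply (Prod.mk_right_injective l), sub_eq_add_neg]
    · rw [if_neg h]
      simp only [inComp, LinearMap.comp_apply, Finsupp.lmapDomain_apply, Finsupp.smul_apply]
      rw [Finsupp.mapDomain_of_notMem_range]
      · simp
      · rintro ⟨z, hz⟩
        exact h (congrArg Prod.fst hz)

/-- a product has a coefficient coming from one pair only -/
theorem exists_lead (lam : Fin (n + 1) → K) (g : MvPolynomial (Fin (n + 1)) K)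
    (hρ : rho lam g ≠ 0) {x : Tot K n ι} (hx : x ≠ 0) :
    ∃ z ∈ x.support, ∃ β : Expo n, (rho lam g).coeff β ≠ 0 ∧
      mulFam lam g x (z.1, z.2 + β) = x z * (rho lam g).coeff β ∧
      ∀ z' ∈ x.support, z'.1 = z.1 → (rho lam g).coeff (z.2 + β - z'.2) ≠ 0 → z' = z := by
  classical
  obtain ⟨z₀, hz₀⟩ := Finsupp.support_nonempty_iff.2 hx
  let B := (x.support.filter fun z => z.1 = z₀.1).image Prod.snd
  have hA : (rho lam g).coeff.support.Nonempty :=
    Finsupp.support_nonempty_iff.2 fun h => hρ (AddMonoidAlgebra.ext h)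
  obtain ⟨β, hβ, e, he, hu⟩ := UniqueSums.uniqueAdd_of_nonempty hA
    (⟨z₀.2, mem_image.2 ⟨z₀, by simp [Finsupp.mem_support_iff.1 hz₀], rfl⟩⟩ : B.Nonempty)
  obtain ⟨z, hz, rfl⟩ := mem_image.1 he
  obtain ⟨hzs, hz1⟩ := mem_filter.1 hz
  have huniq : ∀ z' ∈ x.support, z'.1 = z.1 → (rho lam g).coeff (z.2 + β - z'.2) ≠ 0 → z' = z := by
    intro z' hz' h1 hc
    have := hu (Finsupp.mem_support_iff.2 hc)
      (mem_image.2 ⟨z', mem_filter.2 ⟨hz', h1.trans hz1⟩, rfl⟩) (by abel)
    exact Prod.ext h1 this.2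
  refine ⟨z, hzs, β, Finsupp.mem_support_iff.1 hβ, ?_, huniq⟩
  rw [mulFam_apply, Finsupp.sum, Finset.sum_eq_single z]
  · simp
  · intro z' hz' hne
    split_ifs with h1
    · by_contra hc
      exact hne (huniq z' hz' h1 (right_ne_zero_of_mul hc))
    · rfl
  · exact fun h => absurd hzs h

theorem mulFam_injective (lam : Fin (n + 1) → K) (g : MvPolynomial (Fin (n + 1)) K)
    (hρ : rho lam g ≠ 0) : Function.Injective (mulFam (ι := ι) lam g) := by
  refine (injective_iff_map_eq_zero _).2 fun x hx => ?_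
  by_contra h
  obtain ⟨z, hz, β, hβ, h1, -⟩ := exists_lead lam g hρ h
  rw [hx] at h1
  exact mul_ne_zero (Finsupp.mem_support_iff.1 hz) hβ h1.symm

/-- multiplication by `g` on cochains -/
noncomputable def mulCech (lam : Fin (n + 1) → K) (g : MvPolynomial (Fin (n + 1)) K) :
    (Chart n → Tot K n ι) →ₗ[K] (Chart n → Tot K n ι) :=
  LinearMap.pi fun η => mulFam lam g ∘ₗ LinearMap.proj η

theorem mulCech_apply (lam : Fin (n + 1) → K) (g : MvPolynomial (Fin (n + 1)) K)
    (f : Chart n → Tot K n ι) (η : Chart n) : mulCech lam g f η = mulFam lam g (f η) := rfl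

theorem cechD_mulCech (lam : Fin (n + 1) → K) (g : MvPolynomial (Fin (n + 1)) K)
    (f : Chart n → Tot K n ι) :
    cechD K (mulCech lam g f) = mulCech lam g (cechD K f) := by
  funext η
  simp only [cechD_apply, mulCech_apply, map_sum, map_smul, map_sub]

variable (a : Fin n → ℤ) (δ : ι → ℤ) (N : ℤ) (γ : ℕ)

theorem mulCech_mem (lam : Fin (n + 1) → K) {g : MvPolynomial (Fin (n + 1)) K}
    (hh : g.IsHomogeneous γ) {f : Chart n → Tot K n ι}
    (hf : f ∈ freeCech K a (fun i => δ i + γ) N) :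
    mulCech lam g f ∈ relCech lam a δ (Set.range fun i => Finsupp.single i g) N := fun η _ => by
  have := push_mem_rel (K := Set.range fun i => Finsupp.single i g) lam
    (p := fun i => Finsupp.single i g) (δ := δ) (fun l => ⟨l, rfl⟩) (J := 0)
    (δ' := fun i => δ i + (γ : ℤ)) (fun l => by simpa using isHomog_gen δ hh l) (hf η trivial)
  rw [add_zero] at this
  exact this

theorem exists_preimage (lam : Fin (n + 1) → K) {g : MvPolynomial (Fin (n + 1)) K} (hg : g ≠ 0)
    (hh : g.IsHomogeneous γ) {ε : Chart n} {x : Tot K n ι}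
    (hx : x ∈ relSlice lam a ε δ (Set.range fun i => Finsupp.single i g) N) :
    ∃ w ∈ freeSlice K a ε (fun i => δ i + (γ : ℤ)) N, mulFam lam g w = x := by
  classical
  induction hx using Submodule.span_induction with
  | mem y hy =>
    obtain ⟨p, ⟨i, rfl⟩, D, e, hD, he, hN, rfl⟩ := hy
    obtain ⟨c, hc⟩ : g.support.Nonempty :=
      Finset.nonempty_iff_ne_empty.2 fun h => hg (MvPolynomial.support_eq_empty.1 h)
    have := hD i c (by rw [Finsupp.single_eq_same]; exact hc)
    rw [homog_support_sum hh hc] at this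
    refine ⟨Finsupp.single (i, e) 1,
      Finsupp.single_mem_supported K _ ⟨he, by simp only; omega⟩, ?_⟩
    rw [mulFam, push_single, one_smul]
  | zero => exact ⟨0, Submodule.zero_mem _, map_zero _⟩
  | add x y _ _ hx hy =>
    obtain ⟨w, hw, rfl⟩ := hx
    obtain ⟨w', hw', rfl⟩ := hy
    exact ⟨w + w', Submodule.add_mem _ hw hw', map_add _ _ _⟩
  | smul r x _ hx =>
    obtain ⟨w, hw, rfl⟩ := hx
    exact ⟨r • w, Submodule.smul_mem _ r hw, map_smul _ _ _⟩

/-- multiplication by `g` on band classes -/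
noncomputable def bandMap (lam : Fin (n + 1) → K) (g : MvPolynomial (Fin (n + 1)) K) (q : ℕ) :
    (Band a (fun i => δ i + (γ : ℤ)) N q →₀ K) →ₗ[K] (Band a δ N q →₀ K) :=
  bandRead a δ N q ∘ₗ mulCech lam g ∘ₗ bandRep a (fun i => δ i + (γ : ℤ)) N q

/-- band monomials all whose translates stay in the band with the same type -/
def Good (q : ℕ) : Set (ι × Expo n) :=
  {x | x ∈ Band a (fun i => δ i + (γ : ℤ)) N q ∧
    ∀ j, BothCh a x.2 j ∨ (x.2.1 j + γ < 0 ∧ x.2.2 + γ + a j < x.2.1 j)}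

/-- the exceptional values of one coordinate -/
noncomputable def badVals (i : ι) (j : Fin n) : Finset ℤ :=
  Finset.Ico (-(γ : ℤ)) 0 ∪ Finset.Ioc (N - δ i + a j - γ) (N - δ i + a j)

theorem bad_src {q : ℕ} {x : ι × Expo n} (hx : x ∈ Band a (fun i => δ i + (γ : ℤ)) N q)
    (hg : x ∉ Good a δ N γ q) : ∃ j, x.2.1 j ∈ badVals a δ N γ x.1 j := by
  obtain ⟨hN, hj, -⟩ := mem_band.1 hx
  by_contra hall
  push Not at hall
  refine hg ⟨hx, fun j => (hj j).imp id fun h => ?_⟩
  have := hall j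
  simp only [badVals, mem_union, mem_Ico, mem_Ioc, not_or, not_and, not_lt, not_le] at this
  obtain ⟨h1, h2⟩ := h
  omega

theorem bad_tgt {q : ℕ} {y : ι × Expo n} (hy : y ∈ Band a δ N q)
    (hg : ((y.1, (y.2.1, y.2.2 - γ)) : ι × Expo n) ∉ Good a δ N γ q) :
    ∃ j, y.2.1 j ∈ badVals a δ N γ y.1 j := by
  obtain ⟨hN, hj, hq⟩ := mem_band.1 hy
  by_contra hall
  push Not at hall
  have hgood : ∀ j, (BothCh a (y.2.1, y.2.2 - γ) j ∧ BothCh a y.2 j) ∨
      ((y.2.1 j + γ < 0 ∧ (y.2.2 - γ) + γ + a j < y.2.1 j) ∧ NoCh a y.2 j) := fun j => by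
    have := hall j
    simp only [badVals, mem_union, mem_Ico, mem_Ioc, not_or, not_and, not_lt, not_le] at this
    rcases hj j with h | h
    · exact Or.inl ⟨⟨h.1, by obtain ⟨h1, h2⟩ := h; simp only; omega⟩, h⟩
    · exact Or.inr ⟨by obtain ⟨h1, h2⟩ := h; omega, h⟩
  refine hg ⟨mem_band.2 ⟨by simp only; omega, fun j => ?_, ?_⟩, fun j => ?_⟩
  · rcases hgood j with h | h
    · exact Or.inl h.1
    · exact Or.inr ⟨by have := h.1; simp only; omega, by have := h.1; simp only; omega⟩
  · rw [← hq]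
    congr 1
    funext j
    rcases hgood j with h | h
    · rw [canonCh_ne_two, canonCh_ne_two] <;> intro h'
      · exact absurd h.2.1 (not_le.2 h'.1)
      · exact absurd h.1.1 (not_le.2 h'.1)
    · rw [(canonCh_eq_two _ _ j).2, (canonCh_eq_two _ _ j).2 h.2]
      exact ⟨by have := h.1; simp only; omega, by have := h.1; simp only; omega⟩
  · rcases hgood j with h | h
    · exact Or.inl h.1
    · exact Or.inr h.1

/-- the bad monomials of one degree -/
noncomputable def badBox [Fintype ι] (m : ι → ℤ) (R : ℕ) : Finset (ι × Expo n) :=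
  open Classical in univ.biUnion fun i => univ.biUnion fun j =>
    (Fintype.piFinset fun l => if l = j then badVals a δ N γ i j
      else Finset.Icc (-(R : ℤ)) R).image fun α => (i, (α, m i))

theorem card_badBox [Fintype ι] (m : ι → ℤ) (R : ℕ) :
    (badBox a δ N γ m R).card ≤
      Fintype.card ι * (n * (2 * γ * (2 * R + 1) ^ (n - 1))) := by
  classical
  refine card_biUnion_le.trans ?_
  refine (sum_le_card_nsmul _ _ _ fun i _ => ?_).trans (by rw [card_univ, smul_eq_mul])
  refine card_biUnion_le.trans ?_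
  refine (sum_le_card_nsmul _ _ _ fun j _ => ?_).trans (by rw [card_univ, smul_eq_mul, Fintype.card_fin])
  refine card_image_le.trans ?_
  rw [Fintype.card_piFinset, ← mul_prod_erase _ _ (mem_univ j), if_pos rfl]
  refine Nat.mul_le_mul ?_ ?_
  · refine (card_union_le _ _).trans ?_
    simp
    omega
  · refine le_of_eq ?_
    rw [prod_congr rfl (g := fun _ => 2 * R + 1) fun l hl => ?_, prod_const, card_erase_of_mem
      (mem_univ j), card_univ, Fintype.card_fin]
    rw [if_neg (ne_of_mem_erase hl), Int.card_Icc]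
    omega

theorem mem_badBox [Fintype ι] (m : ι → ℤ) (R : ℕ) {x : ι × Expo n} (hm : x.2.2 = m x.1)
    (hj : ∀ j, BothCh a x.2 j ∨ NoCh a x.2 j) (hR : ∀ j, (x.2.2 + a j).natAbs ≤ R)
    (hb : ∃ j, x.2.1 j ∈ badVals a δ N γ x.1 j) : x ∈ badBox a δ N γ m R := by
  classical
  obtain ⟨j, hjb⟩ := hb
  refine mem_biUnion.2 ⟨x.1, mem_univ _, mem_biUnion.2 ⟨j, mem_univ _, mem_image.2 ⟨x.2.1, ?_,
    Prod.ext rfl (Prod.ext rfl hm.symm)⟩⟩⟩
  refine Fintype.mem_piFinset.2 fun l => ?_
  split_ifs with h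
  · subst h; exact hjb
  · have := hR l
    rw [mem_Icc]
    rcases hj l with ⟨h1, h2⟩ | ⟨h1, h2⟩ <;> omega

/-- the translation of a good monomial into the target band -/
theorem good_shift {q : ℕ} {x : ι × Expo n} (hx : x ∈ Good a δ N γ q) {β : Expo n}
    (hβ : β.2 = γ) (hb : ∀ j, 0 ≤ β.1 j ∧ β.1 j ≤ γ) :
    (x.1, x.2 + β) ∈ Band a δ N q ∧ canonCh a (x.2 + β) = canonCh a x.2 := by
  obtain ⟨hxb, hs⟩ := hx
  obtain ⟨hN, -, hq⟩ := mem_band.1 hxb
  have key : ∀ j, (BothCh a x.2 j ∧ BothCh a (x.2 + β) j) ∨ (NoCh a x.2 j ∧ NoCh a (x.2 + β) j) :=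
    fun j => by
      have := hb j
      simp only [BothCh, NoCh, Prod.fst_add, Prod.snd_add, Pi.add_apply]
      rcases hs j with ⟨h1, h2⟩ | ⟨h1, h2⟩ <;> omega
  have hcan : canonCh a (x.2 + β) = canonCh a x.2 := by
    funext j
    rcases key j with ⟨h1, h2⟩ | ⟨h1, h2⟩
    · rw [canonCh_ne_two, canonCh_ne_two] <;> intro h'
      · exact absurd h1.1 (not_le.2 h'.1)
      · exact absurd h2.1 (not_le.2 h'.1)
    · rw [(canonCh_eq_two _ _ j).2 h1, (canonCh_eq_two _ _ j).2 h2]
  refine ⟨mem_band.2 ⟨by simp only [Prod.snd_add] at hN ⊢; omega, fun j => ?_, by rw [hcan, hq]⟩,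
    hcan⟩
  rcases key j with h | h
  · exact Or.inl h.2
  · exact Or.inr h.2

theorem bandMap_good_injective (lam : Fin (n + 1) → K) {g : MvPolynomial (Fin (n + 1)) K}
    (hh : g.IsHomogeneous γ) (hρ : rho lam g ≠ 0) (q : ℕ) :
    Function.Injective (bandMap a δ N γ lam g q ∘ₗ
      Finsupp.lmapDomain K K (Set.inclusion fun _ h => h.1 :
        Good a δ N γ q → Band a (fun i => δ i + (γ : ℤ)) N q)) := by
  classical
  refine (injective_iff_map_eq_zero _).2 fun v hv => ?_
  by_contra hne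
  set w : Tot K n ι := v.mapDomain Subtype.val with hw
  have hw0 : w ≠ 0 := fun h => hne
    (Finsupp.mapDomain_injective Subtype.val_injective (h.trans Finsupp.mapDomain_zero.symm))
  have hgood : ∀ z ∈ w.support, z ∈ Good a δ N γ q := fun z hz => by
    obtain ⟨s, -, rfl⟩ := mem_image.1 (Finsupp.mapDomain_support hz)
    exact s.2
  obtain ⟨z, hz, β, hβ, h1, huniq⟩ := exists_lead lam g hρ hw0
  obtain ⟨hb2, hb1⟩ := support_rho lam hh hβ
  obtain ⟨hband, hcan⟩ := good_shift a δ N γ (hgood z hz) hb2 hb1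
  have h2 := congrArg (fun u => u (⟨(z.1, z.2 + β), hband⟩ : Band a δ N q)) hv
  simp only [LinearMap.comp_apply, bandMap, bandRead_apply, mulCech_apply, Finsupp.zero_apply,
    Finsupp.lmapDomain_apply, bandRep, LinearMap.pi_apply] at h2
  have hsame : Finsupp.mapDomain Subtype.val (Finsupp.mapDomain (Set.inclusion fun _ h => h.1 :
      Good a δ N γ q → Band a (fun i => δ i + (γ : ℤ)) N q) v) = w := by
    rw [hw, ← Finsupp.mapDomain_comp]
    rfl
  rw [hsame] at h2
  apply mul_ne_zero (Finsupp.mem_support_iff.1 hz) hβ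
  rw [← h1, ← h2, mulFam_apply, mulFam_apply]
  refine (Finsupp.sum_of_support_subset (s := w.support) _ (fun y hy => ?_) _
    (fun y _ => by simp)).trans ?_ |>.symm
  · rw [Finsupp.mem_support_iff, filTot_apply] at hy
    exact Finsupp.mem_support_iff.2 fun h => hy (by simp [h])
  · refine sum_congr rfl fun y hy => ?_
    rw [filTot_apply]
    by_cases hy1 : y.1 = z.1
    · by_cases hc : (rho lam g).coeff (z.2 + β - y.2) = 0
      · simp [hc]
      · obtain rfl := huniq y hy hy1 hc
        dsimp only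
        rw [if_pos rfl, if_pos rfl, if_pos fun j => ?_]
        rw [hcan]
        exact canonCh_eq_two a y.2 j
    · simp [hy1]

/-- reading commutes with multiplication, on cycles -/
theorem bandRead_mulCech (lam : Fin (n + 1) → K) {g : MvPolynomial (Fin (n + 1)) K}
    (hh : g.IsHomogeneous γ) {q : ℕ} {f : Chart n → Tot K n ι}
    (hf : f ∈ (cechGC K n (Tot K n ι)).cyc ⊥ (freeCech K a (fun i => δ i + (γ : ℤ)) N) (-(q : ℤ))) :
    bandRead a δ N q (mulCech lam g f) =
      bandMap a δ N γ lam g q (bandRead a (fun i => δ i + (γ : ℤ)) N q f) := by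
  set v := bandRead a (fun i => δ i + (γ : ℤ)) N q f
  obtain ⟨b, hb, -, hfb⟩ := exists_boundary (Submodule.sub_mem _ hf (bandRep_mem v))
    (by rw [map_sub, bandRead_bandRep, sub_self])
  rw [bandMap, LinearMap.comp_apply, LinearMap.comp_apply, ← sub_eq_zero, ← map_sub, ← map_sub,
    ← hfb, ← cechD_mulCech]
  exact bandRead_cechD (relCech_le_free lam (mulCech_mem a δ N γ lam hh hb))

theorem length_bounds [Fintype ι] (lam : Fin (n + 1) → K) {g : MvPolynomial (Fin (n + 1)) K}
    (hh : g.IsHomogeneous γ) (hρ : rho lam g ≠ 0) (q R : ℕ)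
    (hR : ∀ i j, (N - δ i + a j).natAbs + γ ≤ R) :
    Module.length K ((Band a δ N q →₀ K) ⧸ LinearMap.range (bandMap a δ N γ lam g q)) ≤
      ((badBox a δ N γ (fun i => N - δ i) R).card : ℕ∞) ∧
    Module.length K (LinearMap.ker (bandMap a δ N γ lam g q)) ≤
      ((badBox a δ N γ (fun i => N - δ i - γ) R).card : ℕ∞) := by
  classical
  haveI hsf := (band_card a (fun i => δ i + (γ : ℤ)) N q).1.fintype
  haveI htf := (band_card a δ N q).1.fintype
  have hsub : Good a δ N γ q ⊆ Band a (fun i => δ i + (γ : ℤ)) N q := fun _ h => h.1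
  haveI hgf := ((band_card a (fun i => δ i + (γ : ℤ)) N q).1.subset hsub).fintype
  have hrank : (Good a δ N γ q).toFinset.card ≤
      Module.finrank K (LinearMap.range (bandMap a δ N γ lam g q)) := by
    have h := LinearMap.finrank_range_of_inj (bandMap_good_injective a δ N γ lam hh hρ q)
    rw [Module.finrank_finsupp_self, ← Set.toFinset_card] at h
    rw [← h]
    exact Submodule.finrank_mono (LinearMap.range_comp_le_range _ _)
  have htgt : (Band a δ N q).toFinset ⊆ badBox a δ N γ (fun i => N - δ i) R ∪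
      (Good a δ N γ q).toFinset.image (fun x => (x.1, (x.2.1, x.2.2 + γ))) := by
    intro y hy
    rw [Set.mem_toFinset] at hy
    obtain ⟨hN, hj, -⟩ := mem_band.1 hy
    by_cases hg : ((y.1, (y.2.1, y.2.2 - γ)) : ι × Expo n) ∈ Good a δ N γ q
    · exact mem_union_right _ (mem_image.2 ⟨_, Set.mem_toFinset.2 hg, by simp⟩)
    · refine mem_union_left _ (mem_badBox a δ N γ _ R (by omega) hj (fun j => ?_)
        (bad_tgt a δ N γ hy hg))
      have := hR y.1 j
      omega
  have hsrc : (Band a (fun i => δ i + (γ : ℤ)) N q).toFinset ⊆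
      badBox a δ N γ (fun i => N - δ i - γ) R ∪ (Good a δ N γ q).toFinset := by
    intro x hx
    rw [Set.mem_toFinset] at hx
    obtain ⟨hN, hj, -⟩ := mem_band.1 hx
    by_cases hg : x ∈ Good a δ N γ q
    · exact mem_union_right _ (Set.mem_toFinset.2 hg)
    · refine mem_union_left _ (mem_badBox a δ N γ _ R (by omega) hj (fun j => ?_)
        (bad_src a δ N γ hx hg))
      have := hR x.1 j
      omega
  have ht := (card_le_card htgt).trans ((card_union_le _ _).trans
    (Nat.add_le_add_left card_image_le _))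
  have hs := (card_le_card hsrc).trans (card_union_le _ _)
  rw [Set.toFinset_card] at ht hs
  have q1 := Submodule.finrank_quotient_add_finrank (LinearMap.range (bandMap a δ N γ lam g q))
  have q2 := LinearMap.finrank_range_add_finrank_ker (bandMap a δ N γ lam g q)
  rw [Module.finrank_finsupp_self] at q1 q2
  rw [Module.length_eq_finrank, Module.length_eq_finrank, Nat.cast_le, Nat.cast_le]
  exact ⟨by omega, by omega⟩

theorem mulCech_deg (lam : Fin (n + 1) → K) (g : MvPolynomial (Fin (n + 1)) K)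
    {f : Chart n → Tot K n ι} {k : ℤ} (hf : f ∈ cechDeg K (Tot K n ι) k) :
    mulCech lam g f ∈ cechDeg K (Tot K n ι) k :=
  mem_cechDeg_iff.2 fun ε hε => by rw [mulCech_apply, mem_cechDeg_iff.1 hf ε hε, map_zero]

variable (lam : Fin (n + 1) → K) (g : MvPolynomial (Fin (n + 1)) K)

/-- cycles modulo the multiples of `g` -/
noncomputable abbrev relCyc (q : ℕ) : Submodule K (Chart n → Tot K n ι) :=
  (cechGC K n (Tot K n ι)).cyc (relCech lam a δ (Set.range fun i => Finsupp.single i g) N)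
    (freeCech K a δ N) (-(q : ℤ))

theorem bandRep_mem_relCyc (q : ℕ) (v : Band a δ N q →₀ K) :
    bandRep a δ N q v ∈ relCyc a δ N lam g q :=
  ⟨(bandRep_mem v).1, Submodule.comap_mono bot_le (bandRep_mem v).2⟩

/-- band classes modulo the multiples of `g` -/
noncomputable def bandClass (q : ℕ) : (Band a δ N q →₀ K) →ₗ[K]
    (cechGC K n (Tot K n ι)).H (relCech lam a δ (Set.range fun i => Finsupp.single i g) N)
      (freeCech K a δ N) (-(q : ℤ)) :=
  Submodule.mkQ _ ∘ₗ (bandRep a δ N q).codRestrict _ (bandRep_mem_relCyc a δ N lam g q)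

variable {lam g}

/-- cycles of the free slice give band classes -/
theorem mk_eq_bandClass {q : ℕ} {f : Chart n → Tot K n ι} (hf : f ∈ relCyc a δ N lam g q)
    (hfc : f ∈ (cechGC K n (Tot K n ι)).cyc ⊥ (freeCech K a δ N) (-(q : ℤ))) :
    Submodule.Quotient.mk ⟨f, hf⟩ = bandClass a δ N lam g q (bandRead a δ N q f) := by
  obtain ⟨b, hb, hbd, hfb⟩ := exists_boundary (Submodule.sub_mem _ hfc
    (bandRep_mem (bandRead a δ N q f))) (by rw [map_sub, bandRead_bandRep, sub_self])
  exact (Submodule.Quotient.eq _).2 (Submodule.mem_sup_left ⟨b, ⟨hb, hbd⟩, hfb⟩)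

theorem range_bandMap_le (hh : g.IsHomogeneous γ) (q : ℕ) :
    LinearMap.range (bandMap a δ N γ lam g q) ≤ LinearMap.ker (bandClass a δ N lam g q) := by
  rintro _ ⟨v, rfl⟩
  have hv := bandRep_mem (Z := K) (a := a) (δ := fun i => δ i + (γ : ℤ)) (N := N) (q := q) v
  have hm := mulCech_mem a δ N γ lam hh hv.1.1
  have hd := mulCech_deg lam g hv.1.2
  have hc : mulCech lam g (bandRep a (fun i => δ i + (γ : ℤ)) N q v) ∈
      (cechGC K n (Tot K n ι)).cyc ⊥ (freeCech K a δ N) (-(q : ℤ)) := by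
    refine ⟨⟨relCech_le_free lam hm, hd⟩, ?_⟩
    have := hv.2
    simp only [Submodule.mem_comap, Submodule.mem_bot, SetLike.mem_coe, cechGC] at this ⊢
    rw [cechD_mulCech, this, map_zero]
  rw [LinearMap.mem_ker]
  show bandClass a δ N lam g q
    (bandRead a δ N q (mulCech lam g (bandRep a (fun i => δ i + (γ : ℤ)) N q v))) = 0
  rw [← mk_eq_bandClass a δ N ⟨hc.1, Submodule.comap_mono bot_le hc.2⟩ hc,
    Submodule.Quotient.mk_eq_zero]
  exact Submodule.mem_sup_right ⟨hm, hd⟩

/-- a cycle modulo the multiples together with the cycle it connects to -/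
noncomputable def connPairs (lam : Fin (n + 1) → K) (g : MvPolynomial (Fin (n + 1)) K) (q : ℕ) :
    Submodule K ((Chart n → Tot K n ι) × (Chart n → Tot K n ι)) :=
  (relCyc a δ N lam g q).comap (LinearMap.fst K _ _) ⊓
  ((cechGC K n (Tot K n ι)).cyc ⊥ (freeCech K a (fun i => δ i + (γ : ℤ)) N)
    (-((q + 1 : ℕ) : ℤ))).comap (LinearMap.snd K _ _) ⊓
  LinearMap.ker (cechD K ∘ₗ LinearMap.fst K _ _ - mulCech lam g ∘ₗ LinearMap.snd K _ _)

theorem mem_connPairs {q : ℕ} {p : (Chart n → Tot K n ι) × (Chart n → Tot K n ι)} :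
    p ∈ connPairs a δ N γ lam g q ↔ (p.1 ∈ relCyc a δ N lam g q ∧
      p.2 ∈ (cechGC K n (Tot K n ι)).cyc ⊥ (freeCech K a (fun i => δ i + (γ : ℤ)) N)
        (-((q + 1 : ℕ) : ℤ))) ∧ cechD K p.1 = mulCech lam g p.2 := by
  simp only [connPairs, Submodule.mem_inf, Submodule.mem_comap, LinearMap.mem_ker,
    LinearMap.sub_apply, LinearMap.comp_apply, LinearMap.fst_apply, LinearMap.snd_apply, sub_eq_zero]

theorem exists_connPair (hg : g ≠ 0) (hh : g.IsHomogeneous γ) (hρ : rho lam g ≠ 0) {q : ℕ}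
    {z : Chart n → Tot K n ι} (hz : z ∈ relCyc a δ N lam g q) :
    ∃ w, (z, w) ∈ connPairs a δ N γ lam g q := by
  have hinj := mulFam_injective (ι := ι) lam g hρ
  have hdz : cechD K z ∈ cechDeg K (Tot K n ι) (-((q + 1 : ℕ) : ℤ)) := by
    have := (cechGC K n (Tot K n ι)).map_deg _ ⟨z, hz.1.2, rfl⟩
    rwa [show -((q + 1 : ℕ) : ℤ) = -(q : ℤ) - 1 by push_cast; ring]
  choose w hw hwz using fun ε => exists_preimage a δ N γ lam hg hh (hz.2 ε trivial)
  have hMw : mulCech lam g w = cechD K z := funext hwz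
  refine ⟨w, (mem_connPairs a δ N γ).2 ⟨⟨hz,
    ⟨⟨fun ε _ => hw ε, mem_cechDeg_iff.2 fun ε hε => hinj ?_⟩, ?_⟩⟩, hMw.symm⟩⟩
  · rw [map_zero, ← mem_cechDeg_iff.1 hdz ε hε]
    exact hwz ε
  · simp only [Submodule.mem_comap, Submodule.mem_bot, SetLike.mem_coe, cechGC]
    refine funext fun ε => hinj ?_
    have h := congrFun (cechD_mulCech lam g w) ε
    rw [hMw] at h
    rw [Pi.zero_apply, map_zero, ← mulCech_apply, ← h]
    exact congrFun (LinearMap.congr_fun cechD_sq z) ε

theorem bandRead_connPair (hh : g.IsHomogeneous γ) {q : ℕ}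
    {p : (Chart n → Tot K n ι) × (Chart n → Tot K n ι)} (hp : p ∈ connPairs a δ N γ lam g q) :
    bandMap a δ N γ lam g (q + 1) (bandRead a (fun i => δ i + (γ : ℤ)) N (q + 1) p.2) = 0 := by
  obtain ⟨⟨hz, hw⟩, hD⟩ := (mem_connPairs a δ N γ).1 hp
  rw [← bandRead_mulCech a δ N γ lam hh hw, ← hD]
  exact bandRead_cechD hz.1.1

theorem connPair_class (hh : g.IsHomogeneous γ) {q : ℕ}
    {p : (Chart n → Tot K n ι) × (Chart n → Tot K n ι)} (hp : p ∈ connPairs a δ N γ lam g q)
    (h0 : bandRead a (fun i => δ i + (γ : ℤ)) N (q + 1) p.2 = 0) :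
    Submodule.Quotient.mk (⟨p.1, ((mem_connPairs a δ N γ).1 hp).1.1⟩ : relCyc a δ N lam g q) ∈
      LinearMap.range (bandClass a δ N lam g q) := by
  obtain ⟨⟨hz, hw⟩, hD⟩ := (mem_connPairs a δ N γ).1 hp
  obtain ⟨b, hb, hbd, hbw⟩ := exists_boundary hw h0
  rw [show -((q + 1 : ℕ) : ℤ) + 1 = -(q : ℤ) by push_cast; ring] at hbd
  have hm := mulCech_mem a δ N γ lam hh hb
  have hd := mulCech_deg lam g hbd
  have hzc : p.1 - mulCech lam g b ∈
      (cechGC K n (Tot K n ι)).cyc ⊥ (freeCech K a δ N) (-(q : ℤ)) := by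
    refine ⟨⟨Submodule.sub_mem _ hz.1.1 (relCech_le_free lam hm),
      Submodule.sub_mem _ hz.1.2 hd⟩, ?_⟩
    simp only [Submodule.mem_comap, Submodule.mem_bot, SetLike.mem_coe, cechGC]
    rw [map_sub, hD, cechD_mulCech, hbw, sub_self]
  refine ⟨bandRead a δ N q (p.1 - mulCech lam g b), ?_⟩
  rw [← mk_eq_bandClass a δ N ⟨hzc.1, Submodule.comap_mono bot_le hzc.2⟩ hzc]
  refine (Submodule.Quotient.eq _).2 ?_
  show p.1 - mulCech lam g b - p.1 ∈ (cechGC K n (Tot K n ι)).bd
    (relCech lam a δ (Set.range fun i => Finsupp.single i g) N) (freeCech K a δ N) (-(q : ℤ))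
  rw [sub_right_comm, sub_self, zero_sub]
  exact Submodule.neg_mem _ (Submodule.mem_sup_right ⟨hm, hd⟩)

theorem length_le_two {R : Type*} [CommRing R] {A B H P : Type*} [AddCommGroup A] [Module R A]
    [AddCommGroup B] [Module R B] [AddCommGroup H] [Module R H] [AddCommGroup P] [Module R P]
    (T : Submodule R A) (θ : A →ₗ[R] H) (hT : T ≤ LinearMap.ker θ) (φ : P →ₗ[R] H)
    (ψ : P →ₗ[R] B) (hsurj : ∀ h, ∃ p, φ p - h ∈ LinearMap.range θ)
    (hker : ∀ p, ψ p = 0 → φ p ∈ LinearMap.range θ) :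
    Module.length R H ≤ Module.length R (A ⧸ T) + Module.length R B := by
  have h1 : Module.length R (LinearMap.range θ) ≤ Module.length R (A ⧸ T) := by
    refine Module.length_le_of_surjective ((Submodule.liftQ T θ hT).codRestrict _ fun x => ?_) ?_
    · obtain ⟨v, rfl⟩ := Submodule.mkQ_surjective _ x
      exact ⟨v, rfl⟩
    · rintro ⟨_, v, rfl⟩
      exact ⟨Submodule.Quotient.mk v, rfl⟩
  let π := (LinearMap.range θ).mkQ ∘ₗ φ
  have hπ : Function.Surjective π := fun y => by
    obtain ⟨h, rfl⟩ := Submodule.mkQ_surjective _ y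
    obtain ⟨p, hp⟩ := hsurj h
    exact ⟨p, (Submodule.Quotient.eq _).2 hp⟩
  have hψπ : LinearMap.ker ψ ≤ LinearMap.ker π := fun p hp =>
    (Submodule.Quotient.mk_eq_zero _).2 (hker p hp)
  have h2 := ((π.quotKerEquivOfSurjective hπ).length_eq.symm.le.trans
    (Module.length_le_of_surjective (Submodule.factor hψπ) (Submodule.factor_surjective hψπ))).trans
    (ψ.quotKerEquivRange.length_eq.le.trans
      (Module.length_le_of_injective (LinearMap.range ψ).subtype (Submodule.injective_subtype _)))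
  refine le_trans (le_of_eq ?_) (add_le_add h1 h2)
  exact Module.length_eq_add_of_exact (LinearMap.range θ).subtype (LinearMap.range θ).mkQ
    (Submodule.injective_subtype _) (Submodule.mkQ_surjective _) (LinearMap.exact_subtype_mkQ _)

/-- the class of the first entry -/
noncomputable def connFst (lam : Fin (n + 1) → K) (g : MvPolynomial (Fin (n + 1)) K) (q : ℕ) :
    connPairs a δ N γ lam g q →ₗ[K]
      (cechGC K n (Tot K n ι)).H (relCech lam a δ (Set.range fun i => Finsupp.single i g) N)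
        (freeCech K a δ N) (-(q : ℤ)) :=
  Submodule.mkQ _ ∘ₗ ((LinearMap.fst K _ _).domRestrict (connPairs a δ N γ lam g q)).codRestrict _
    fun p => ((mem_connPairs a δ N γ).1 p.2).1.1

/-- the band classes of the second entry -/
noncomputable def connSnd (hh : g.IsHomogeneous γ) (q : ℕ) :
    connPairs a δ N γ lam g q →ₗ[K] LinearMap.ker (bandMap a δ N γ lam g (q + 1)) :=
  ((bandRead a (fun i => δ i + (γ : ℤ)) N (q + 1) ∘ₗ LinearMap.snd K _ _).domRestrict
    (connPairs a δ N γ lam g q)).codRestrict _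
    fun p => LinearMap.mem_ker.2 (bandRead_connPair a δ N γ hh p.2)

theorem length_H_le (hg : g ≠ 0) (hh : g.IsHomogeneous γ) (hρ : rho lam g ≠ 0) (q : ℕ) :
    Module.length K ((cechGC K n (Tot K n ι)).H
        (relCech lam a δ (Set.range fun i => Finsupp.single i g) N) (freeCech K a δ N)
        (-(q : ℤ))) ≤
      Module.length K ((Band a δ N q →₀ K) ⧸ LinearMap.range (bandMap a δ N γ lam g q)) +
      Module.length K (LinearMap.ker (bandMap a δ N γ lam g (q + 1))) := by
  refine length_le_two (R := K) (P := connPairs a δ N γ lam g q)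
    (B := LinearMap.ker (bandMap a δ N γ lam g (q + 1))) (LinearMap.range (bandMap a δ N γ lam g q)) (bandClass a δ N lam g q)
    (range_bandMap_le a δ N γ hh q) (connFst a δ N γ lam g q) (connSnd (lam := lam) a δ N γ hh q) ?_ ?_
  · intro h
    obtain ⟨⟨z, hz⟩, rfl⟩ := Submodule.mkQ_surjective _ h
    obtain ⟨w, hw⟩ := exists_connPair a δ N γ hg hh hρ hz
    refine ⟨⟨(z, w), hw⟩, ?_⟩
    convert Submodule.zero_mem _
    exact sub_eq_zero.2 rfl
  · intro p hp
    exact connPair_class a δ N γ hh p.2 (congrArg Subtype.val hp)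

/-- multiplication by a form with nonzero image changes little -/
theorem mul_bound_of_rho (lam : Fin (n + 1) → K) [Fintype ι]
    (δ : ι → ℤ) {g : MvPolynomial (Fin (n + 1)) K} {γ : ℕ} (hg : g ≠ 0)
    (hh : g.IsHomogeneous γ) (hρ : rho lam g ≠ 0) :
    ∃ C : ℕ, ∀ (a : Fin n → ℤ), (∀ j, 0 ≤ a j) → ∀ (N : ℤ) (q : ℕ),
      (cechGC K n (Tot K n ι)).FinH
        (relCech lam a δ (Set.range fun i => Finsupp.single i g) N) (freeCech K a δ N)
        (-(q : ℤ)) ∧
      (cechGC K n (Tot K n ι)).h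
        (relCech lam a δ (Set.range fun i => Finsupp.single i g) N) (freeCech K a δ N)
        (-(q : ℤ)) * (1 + N.natAbs + ∑ j, (a j).natAbs) ≤
          C * (1 + N.natAbs + ∑ j, (a j).natAbs) ^ n := by
  set Δ : ℕ := γ + ∑ i, (δ i).natAbs
  refine ⟨2 * (Fintype.card ι * (n * (2 * γ * (2 * Δ + 3) ^ (n - 1)))), fun a _ N q => ?_⟩
  set S := 1 + N.natAbs + ∑ j, (a j).natAbs with hS
  set R := S + Δ with hRdef
  have hR : ∀ i j, (N - δ i + a j).natAbs + γ ≤ R := by
    intro i j
    have h1 := single_le_sum (f := fun i => (δ i).natAbs) (fun _ _ => Nat.zero_le _) (mem_univ i)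
    have h2 := single_le_sum (f := fun j => (a j).natAbs) (fun _ _ => Nat.zero_le _) (mem_univ j)
    omega
  have b1 := (length_bounds a δ N γ lam hh hρ q R hR).1
  have b2 := (length_bounds a δ N γ lam hh hρ (q + 1) R hR).2
  have hle := (length_H_le a δ N γ hg hh hρ q).trans (add_le_add b1 b2)
  refine ⟨ne_top_of_le_ne_top (by simp) hle, ?_⟩
  have hnum := ENat.toNat_le_toNat hle (by simp)
  rw [← Nat.cast_add, ENat.toNat_natCast] at hnum
  have h3 := card_badBox a δ N γ (fun i => N - δ i) R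
  have h4 := card_badBox a δ N γ (fun i => N - δ i - γ) R
  refine (Nat.mul_le_mul_right S (hnum.trans (add_le_add h3 h4))).trans ?_
  rcases n.eq_zero_or_pos with hn | hn
  · subst hn; simp
  · have hb : (2 * R + 1) ^ (n - 1) ≤ (2 * Δ + 3) ^ (n - 1) * S ^ (n - 1) := by
      rw [← mul_pow]
      refine Nat.pow_le_pow_left ?_ _
      have : 1 ≤ S := by omega
      nlinarith
    calc (Fintype.card ι * (n * (2 * γ * (2 * R + 1) ^ (n - 1))) +
          Fintype.card ι * (n * (2 * γ * (2 * R + 1) ^ (n - 1)))) * S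
        = 2 * (Fintype.card ι * (n * (2 * γ))) * ((2 * R + 1) ^ (n - 1) * S) := by ring
      _ ≤ 2 * (Fintype.card ι * (n * (2 * γ))) * ((2 * Δ + 3) ^ (n - 1) * S ^ (n - 1) * S) := by
          gcongr
      _ = _ := by
          rw [mul_assoc ((2 * Δ + 3) ^ (n - 1)), ← pow_succ, show n - 1 + 1 = n by omega]
          ring

end Vale.Agent.P202.Char
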