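import Vale.Agent.P202.Char.FrobCore
import Vale.Agent.P202.Lech

/-!
P202, Lech in characteristic `p`: applying Frobenius to a Koszul matrix complex multiplies its
Euler characteristic by `q ^ d`.
-/

namespace Vale.Agent.P202.Char

open Finset IsLocalRing
open scoped TensorProduct

universe u

/-- A ring on which Frobenius acts through a different algebra structure. -/
def FrobT (D : Type u) : Type u := D

instance (D : Type u) [CommRing D] : CommRing (FrobT D) := inferInstanceAs (CommRing D)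
instance (D : Type u) [CommRing D] [IsDomain D] : IsDomain (FrobT D) :=
  inferInstanceAs (IsDomain D)
instance (D : Type u) [CommRing D] [IsNoetherianRing D] : IsNoetherianRing (FrobT D) :=
  inferInstanceAs (IsNoetherianRing D)
instance (D : Type u) [CommRing D] [IsLocalRing D] : IsLocalRing (FrobT D) :=
  inferInstanceAs (IsLocalRing D)

/-- Changing the scalars along a surjection. -/
theorem length_map_semi {R : Type u} [CommRing R] (P : MCx R) {R' : Type u} [CommRing R']
    (τ : R →+* R') (hτ : Function.Surjective τ) {M : Type u} [AddCommGroup M] [Module R M]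
    {M' : Type u} [AddCommGroup M'] [Module R' M'] (j : M ≃+ M')
    (hj : ∀ (r : R) m, j (r • m) = τ r • j m) (k : ℤ) :
    Module.length R ((P.gc M).H ⊥ ⊤ k) = Module.length R' (((P.map τ).gc M').H ⊥ ⊤ k) := by
  have : RingHomSurjective τ := ⟨hτ⟩
  let f : (P.β → M) →ₛₗ[τ] ((P.map τ).β → M') :=
    { toFun := fun v (b : P.β) => j (v b)
      map_add' := fun v w => funext fun b => map_add j (v b) (w b)
      map_smul' := fun r v => funext fun b => hj r (v b) }
  refine GC.length_H_semi _ _ τ f ⟨?_, ?_⟩ ?_ ?_ k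
  · exact fun v w h => funext fun b => j.injective (congrFun h b)
  · exact fun w => ⟨fun b => j.symm (w b), funext fun b => j.apply_symm_apply (w b)⟩
  · intro v
    funext b
    change j (P.dlin M v b) = (P.map τ).dlin M' (fun a : P.β => j (v a)) b
    simp only [MCx.dlin, MCx.map, LinearMap.pi_apply]
    refine (congrArg j (LinearMap.sum_apply Finset.univ _ v)).trans ?_
    refine ((map_sum j _ _).trans (Finset.sum_congr rfl fun a _ => hj (P.D b a) (v a))).trans ?_
    exact (LinearMap.sum_apply (Finset.univ : Finset P.β)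
      (fun a : P.β => τ (P.D b a) • (LinearMap.proj a : (P.β → M') →ₗ[R'] M'))
      (fun a : P.β => j (v a))).symm
  · intro i v
    change v ∈ P.degSub M i ↔ (fun a : P.β => j (v a)) ∈ (P.map τ).degSub M' i
    unfold MCx.degSub
    rw [mem_pi_deg (fun b : P.β => (P.deg b : ℤ))]
    refine Iff.trans ?_ (mem_pi_deg (fun b : P.β => (P.deg b : ℤ)) i _).symm
    simp

theorem chi_map_semi {R : Type u} [CommRing R] (P : MCx R) {R' : Type u} [CommRing R']
    (τ : R →+* R') (hτ : Function.Surjective τ) {M : Type u} [AddCommGroup M] [Module R M]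
    {M' : Type u} [AddCommGroup M'] [Module R' M'] (j : M ≃+ M')
    (hj : ∀ (r : R) m, j (r • m) = τ r • j m) (s : Finset ℤ) :
    (P.gc M).chi s ⊥ ⊤ = ((P.map τ).gc M').chi s ⊥ ⊤ := by
  unfold GC.chi
  exact sum_congr rfl fun k _ => by simp only [GC.h, len, length_map_semi P τ hτ j hj k]

/-- Two matrix complexes with equal differentials after the change of rings. -/
theorem chi_map_congr {R R' : Type u} [CommRing R] [CommRing R'] (P : MCx R) {φ ψ : R →+* R'}
    (h : φ = ψ) (M : Type u) [AddCommGroup M] [Module R' M] (s : Finset ℤ) :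
    ((P.map φ).gc M).chi s ⊥ ⊤ = ((P.map ψ).gc M).chi s ⊥ ⊤ := by
  subst h; rfl

section

variable {R : Type u} [CommRing R] [IsLocalRing R] {S : Type u} [CommRing S] [Algebra R S]
  [Module.Finite R S] [Module.Free R S] {d : ℕ} (x : Fin d → S)
  (hx : ∃ c, (maximalIdeal R).map (algebraMap R S) ^ c ≤ Ideal.span (Set.range x))
  (P : MCx R) (hP : ∀ (R' : Type u) [CommRing R'] [Algebra R R'] (N : Type u) [AddCommGroup N]
    [Module R' N] (n : ℤ),
    Module.length R' (((P.map (algebraMap R R')).gc N).H ⊥ ⊤ n) =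
      Module.length R' ((koszulGC R'
        (fun j => (1 : R') ⊗ₜ[R] x j) ((R' ⊗[R] S) ⊗[R'] N)).H ⊥ ⊤ n))

include hP

/-- The matrix complex after a change of rings computes Koszul Euler characteristics. -/
theorem chi_eq_kchi (R' : Type u) [CommRing R'] [Algebra R R'] (N : Type u) [AddCommGroup N]
    [Module R' N] :
    ((P.map (algebraMap R R')).gc N).chi (Icc 0 (d : ℤ)) ⊥ ⊤ =
      kchi R' (fun j => (1 : R') ⊗ₜ[R] x j) ((R' ⊗[R] S) ⊗[R'] N) := by
  unfold kchi GC.chi
  exact sum_congr rfl fun k _ => by simp only [GC.h, len, hP]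

include hx

/-- Finite homology and additivity after a change of rings. -/
theorem map_props {R' : Type u} [CommRing R'] [IsNoetherianRing R'] [IsLocalRing R']
    (ψ : R →+* R') (hrad : ∀ r ∈ maximalIdeal R', ∃ n, r ^ n ∈ (maximalIdeal R).map ψ) :
    (∀ (M : Type u) [AddCommGroup M] [Module R' M] [Module.Finite R' M] (n : ℤ),
      ((P.map ψ).gc M).FinH ⊥ ⊤ n) ∧
    ∀ (M₁ M₂ M₃ : Type u) [AddCommGroup M₁] [AddCommGroup M₂] [AddCommGroup M₃] [Module R' M₁]
      [Module R' M₂] [Module R' M₃] [Module.Finite R' M₁] [Module.Finite R' M₃]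
      (f : M₁ →ₗ[R'] M₂) (g : M₂ →ₗ[R'] M₃), Function.Injective f → Function.Surjective g →
      Function.Exact f g →
      ((P.map ψ).gc M₂).chi (Icc 0 (d : ℤ)) ⊥ ⊤ = ((P.map ψ).gc M₁).chi (Icc 0 (d : ℤ)) ⊥ ⊤ +
        ((P.map ψ).gc M₃).chi (Icc 0 (d : ℤ)) ⊥ ⊤ := by
  let _ : Algebra R R' := ψ.toAlgebra
  have hy := exists_pow_map_le x hx hrad
  constructor
  · intro M _ _ _ n
    have h := hP R' M n
    change Module.length R' _ ≠ ⊤
    rw [show P.map ψ = P.map (algebraMap R R') from rfl, h]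
    exact kfin _ hy ((R' ⊗[R] S) ⊗[R'] M) n
  · intro M₁ M₂ M₃ _ _ _ _ _ _ _ _ f g hf hg he
    rw [show P.map ψ = P.map (algebraMap R R') from rfl, chi_eq_kchi x P hP R' M₁,
      chi_eq_kchi x P hP R' M₂, chi_eq_kchi x P hP R' M₃]
    refine kchi_exact _ hy (f.baseChange (R' ⊗[R] S)) (g.baseChange (R' ⊗[R] S))
      (Module.Flat.lTensor_preserves_injective_linearMap f hf)
      (LinearMap.lTensor_surjective _ hg) ?_
    exact lTensor_exact (R' ⊗[R] S) he hg

/-- The case of a domain. -/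
theorem frob_domain [Nontrivial S] {D : Type u} [CommRing D] [IsNoetherianRing D] [IsLocalRing D]
    [IsDomain D] (mk : R →+* D) (hmk : Function.Surjective mk) (p k : ℕ) [Fact p.Prime]
    [CharP D p] :
    ((P.map ((iterateFrobenius D p k).comp mk)).gc D).chi (Icc 0 (d : ℤ)) ⊥ ⊤ =
      ((p : ℤ) ^ k) ^ d * ((P.map mk).gc D).chi (Icc 0 (d : ℤ)) ⊥ ⊤ := by
  let _ : Algebra R D := mk.toAlgebra
  let φ : D →+* FrobT D := iterateFrobenius D p k
  let _ : Algebra D (FrobT D) := φ.toAlgebra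
  let _ : Algebra R (FrobT D) := (φ.comp mk).toAlgebra
  have : IsScalarTower R D (FrobT D) := IsScalarTower.of_algebraMap_eq fun _ => rfl
  have hxD : ∃ c, (maximalIdeal D).map (algebraMap D (D ⊗[R] S)) ^ c ≤
      Ideal.span (Set.range fun j => (1 : D) ⊗ₜ[R] x j) :=
    exists_pow_map_le x hx fun r hr => ⟨1, by
      obtain ⟨r, rfl⟩ := hmk r
      rw [pow_one]
      refine Ideal.mem_map_of_mem _ ?_
      rw [mem_maximalIdeal, mem_nonunits_iff] at hr ⊢
      exact fun h => hr (h.map mk)⟩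
  have : Nontrivial (D ⊗[R] S) := by
    have : Nonempty (Module.Free.ChooseBasisIndex R S) :=
      (Module.Free.chooseBasis R S).index_nonempty
    exact (Algebra.TensorProduct.basis D (Module.Free.chooseBasis R S)).repr.toEquiv.nontrivial
  let σ : FrobT D ≃+* D := RingEquiv.refl D
  have hσ : ∀ r, σ (algebraMap D (FrobT D) r) = r ^ p ^ k := fun r =>
    iterateFrobenius_def p k r
  have key := kchi_frob p k σ hσ (fun j => (1 : D) ⊗ₜ[R] x j) hxD
  have e1 := chi_eq_kchi x P hP (FrobT D) (FrobT D)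
  have e2 := chi_eq_kchi x P hP D D
  change ((P.map ((iterateFrobenius D p k).comp mk)).gc D).chi (Icc 0 (d : ℤ)) ⊥ ⊤ = _ at e1
  change ((P.map mk).gc D).chi (Icc 0 (d : ℤ)) ⊥ ⊤ = _ at e2
  rw [e1, e2]
  have hrid : ∀ (A : Type u) [CommRing A] [Algebra R A],
      kchi A (fun j => (1 : A) ⊗ₜ[R] x j) ((A ⊗[R] S) ⊗[A] A) =
        kchi A (fun j => (1 : A) ⊗ₜ[R] x j) (A ⊗[R] S) := fun A _ _ =>
    kchi_congr _ _ (RingHom.id A) Function.surjective_id
      (TensorProduct.AlgebraTensorModule.rid A (A ⊗[R] S) (A ⊗[R] S)).toAddEquiv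
      (fun r m => ((TensorProduct.AlgebraTensorModule.rid A (A ⊗[R] S) (A ⊗[R] S)).restrictScalars
        A).map_smul r m)
      (fun i m => (TensorProduct.AlgebraTensorModule.rid A (A ⊗[R] S) (A ⊗[R] S)).map_smul _ m)
  let c := Algebra.TensorProduct.cancelBaseChange R D (FrobT D) (FrobT D) S
  have hc : kchi (FrobT D) (fun j => (1 : FrobT D) ⊗ₜ[D] ((1 : D) ⊗ₜ[R] x j))
        (FrobT D ⊗[D] (D ⊗[R] S)) =
      kchi (FrobT D) (fun j => (1 : FrobT D) ⊗ₜ[R] x j) (FrobT D ⊗[R] S) :=
    kchi_congr _ _ (RingHom.id _) Function.surjective_id c.toAddEquiv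
      (fun r m => c.toLinearEquiv.map_smul r m)
      (fun i m => by
        change c (_ * m) = _ * c m
        rw [map_mul, Algebra.TensorProduct.cancelBaseChange_tmul, one_smul])
  rw [hrid, hrid, ← hc, key]
  push_cast
  rfl

end

section

variable {R : Type u} [CommRing R] [IsNoetherianRing R] {S : Type u} [CommRing S] [Algebra R S]
  [Module.Finite R S] {d : ℕ} (x : Fin d → S)

theorem frobenius_chi [IsLocalRing R] [IsLocalRing S] [Module.Free R S]
    [IsLocalHom (algebraMap R S)] (p : ℕ) [Fact p.Prime] [CharP R p]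
    (hx : ∃ c, maximalIdeal S ^ c ≤ Ideal.span (Set.range x))
    (_hx' : ∀ j, x j ∈ maximalIdeal S)
    (_hd : ∃ e : ℝ, IsMultiplicity R d e)
    (P : MCx R) (hP : ∀ (R' : Type u) [CommRing R'] [Algebra R R'] (N : Type u) [AddCommGroup N]
        [Module R' N] (n : ℤ),
        Module.length R' (((P.map (algebraMap R R')).gc N).H ⊥ ⊤ n) =
          Module.length R' ((koszulGC R'
            (fun j => (1 : R') ⊗ₜ[R] x j) ((R' ⊗[R] S) ⊗[R'] N)).H ⊥ ⊤ n)) (k : ℕ) :
    (∀ n, ((P.map (iterateFrobenius R p k)).gc R).FinH ⊥ ⊤ n) ∧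
    ((P.map (iterateFrobenius R p k)).gc R).chi (Finset.Icc 0 (d : ℤ)) ⊥ ⊤ =
      ((p : ℤ) ^ k) ^ d * (P.gc R).chi (Finset.Icc 0 (d : ℤ)) ⊥ ⊤ := by
  have hx0 : ∃ c, (maximalIdeal R).map (algebraMap R S) ^ c ≤ Ideal.span (Set.range x) := by
    obtain ⟨c, hc⟩ := hx
    exact ⟨c, (Ideal.pow_right_mono (map_maximalIdeal_le (algebraMap R S)) c).trans hc⟩
  have hq : 0 < p ^ k := pow_pos (Fact.out (p := p.Prime)).pos k
  obtain ⟨hfin, haddφ⟩ := map_props x hx0 P hP (iterateFrobenius R p k) fun r hr =>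
    ⟨p ^ k, iterateFrobenius_def (R := R) p k r ▸ Ideal.mem_map_of_mem _ hr⟩
  obtain ⟨-, haddP⟩ := map_props x hx0 P hP (RingHom.id R) fun r hr =>
    ⟨1, by rw [pow_one, Ideal.map_id]; exact hr⟩
  refine ⟨fun n => hfin R n, ?_⟩
  suffices h : ∀ (M : Type u) [AddCommGroup M] [Module R M] [Module.Finite R M],
      ((P.map (iterateFrobenius R p k)).gc M).chi (Finset.Icc 0 (d : ℤ)) ⊥ ⊤ =
        ((p : ℤ) ^ k) ^ d * ((P.map (RingHom.id R)).gc M).chi (Finset.Icc 0 (d : ℤ)) ⊥ ⊤ from h R
  intro M _ _ hM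
  induction hM using IsNoetherianRing.induction_on_isQuotientEquivQuotientPrime R with
  | subsingleton N =>
    have hz : ∀ ψ : R →+* R, (∀ r ∈ maximalIdeal R, ∃ n, r ^ n ∈ (maximalIdeal R).map ψ) →
        ((P.map ψ).gc N).chi (Finset.Icc 0 (d : ℤ)) ⊥ ⊤ = 0 := fun ψ hψ => by
      have h := (map_props x hx0 P hP ψ hψ).2 N N N 0 0 (Function.injective_of_subsingleton _)
        (Function.surjective_to_subsingleton _) (fun z => ⟨fun _ => ⟨z, Subsingleton.elim _ _⟩,
          fun _ => Subsingleton.elim _ _⟩)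
      omega
    rw [hz _ fun r hr => ⟨p ^ k, iterateFrobenius_def (R := R) p k r ▸ Ideal.mem_map_of_mem _ hr⟩,
      hz _ fun r hr => ⟨1, by rw [pow_one, Ideal.map_id]; exact hr⟩, mul_zero]
  | quotient N Q e =>
    have := Q.2
    let D := R ⧸ Q.1
    let mk : R →+* D := Ideal.Quotient.mk Q.1
    have hmk : Function.Surjective mk := Ideal.Quotient.mk_surjective
    have : IsLocalRing D := IsLocalRing.of_surjective' mk hmk
    have hp0 : (p : D) = 0 := by rw [← map_natCast mk, CharP.cast_eq_zero, map_zero]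
    have : CharP D p := (CharP.charP_iff_prime_eq_zero (Fact.out (p := p.Prime))).mpr hp0
    have hj : ∀ (r : R) (m : N), e.toAddEquiv (r • m) = mk r • e.toAddEquiv m := fun r m =>
      e.map_smul r m
    rw [chi_map_semi (P.map (iterateFrobenius R p k)) mk hmk e.toAddEquiv hj,
      chi_map_semi (P.map (RingHom.id R)) mk hmk e.toAddEquiv hj]
    change ((P.map (mk.comp (iterateFrobenius R p k))).gc D).chi _ ⊥ ⊤ = _ *
      ((P.map mk).gc D).chi _ ⊥ ⊤
    rw [chi_map_congr P (φ := mk.comp (iterateFrobenius R p k))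
      (ψ := (iterateFrobenius D p k).comp mk)
      (RingHom.ext fun r => by simp [iterateFrobenius_def])]
    exact frob_domain x hx0 P hP mk hmk p k
  | exact N₁ N₂ N₃ f g hf hg he h1 h3 =>
    rw [haddφ N₁ N₂ N₃ f g hf hg he, haddP N₁ N₂ N₃ f g hf hg he, h1, h3]
    ring

end

end Vale.Agent.P202.Char
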