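import Vale.Agent.P202.Char.GC

/-! P202, Lech in characteristic `p`: matrix complexes up to homotopy, minimal complexes. -/

namespace Vale.Agent.P202.Char

universe u v w

open IsLocalRing Matrix

/-! ### Matrices acting on tuples of module elements -/

section MLin

variable {R : Type u} [CommRing R] {α β γ : Type} [Fintype α] [Fintype β] [Fintype γ]
  (N : Type v) [AddCommGroup N] [Module R N]

/-- A matrix acting on tuples. -/
noncomputable def mlin (M : Matrix α β R) : (β → N) →ₗ[R] (α → N) :=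
  LinearMap.pi fun a => ∑ b, M a b • LinearMap.proj b

theorem mlin_apply (M : Matrix α β R) (x : β → N) (a : α) :
    mlin N M x a = ∑ b, M a b • x b := by
  simp [mlin]

theorem mlin_mul (M : Matrix α β R) (M' : Matrix β γ R) (x : γ → N) :
    mlin N (M * M') x = mlin N M (mlin N M' x) := by
  funext a
  simp only [mlin_apply, Matrix.mul_apply, Finset.sum_smul, Finset.smul_sum, smul_smul]
  exact Finset.sum_comm

theorem mlin_add (M M' : Matrix α β R) (x : β → N) :
    mlin N (M + M') x = mlin N M x + mlin N M' x := by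
  funext a
  simp [mlin_apply, add_smul, Finset.sum_add_distrib]

theorem mlin_one [DecidableEq β] (x : β → N) : mlin N (1 : Matrix β β R) x = x := by
  funext a
  simp [mlin_apply, Matrix.one_apply, ite_smul]

theorem mlin_smul (r : R) (M : Matrix α β R) (x : β → N) :
    mlin N (r • M) x = r • mlin N M x := by
  funext a
  simp [mlin_apply, Finset.smul_sum, smul_smul]

theorem exists_ne_zero_of_mul {M : Matrix α β R} {M' : Matrix β γ R} {a : α} {c : γ}
    (h : (M * M') a c ≠ 0) : ∃ b, M a b ≠ 0 ∧ M' b c ≠ 0 := by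
  rw [Matrix.mul_apply] at h
  obtain ⟨b, -, hb⟩ := Finset.exists_ne_zero_of_sum_ne_zero h
  exact ⟨b, left_ne_zero_of_mul hb, right_ne_zero_of_mul hb⟩

end MLin

namespace MCx

variable {R : Type u} [CommRing R]

/-! ### Homotopy equivalences -/

/-- The identity. -/
def htpyRefl (P : MCx R) : Htpy P P where
  f := 1
  g := 1
  h := 0
  k := 0
  f_deg a b h := by
    rcases eq_or_ne a b with rfl | hab
    · rfl
    · exact absurd (Matrix.one_apply_ne hab) h
  g_deg a b h := by
    rcases eq_or_ne a b with rfl | hab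
    · rfl
    · exact absurd (Matrix.one_apply_ne hab) h
  h_deg a b h := absurd rfl h
  k_deg a b h := absurd rfl h
  f_comm := by simp
  g_comm := by simp
  gf := by simp
  fg := by simp

/-- Composition. -/
def htpyTrans {P Q S : MCx R} (e : Htpy P Q) (e' : Htpy Q S) : Htpy P S where
  f := e'.f * e.f
  g := e.g * e'.g
  h := e.h + e.g * (e'.h * e.f)
  k := e'.k + e'.f * (e.k * e'.g)
  f_deg a b h := by
    obtain ⟨c, h1, h2⟩ := exists_ne_zero_of_mul h
    exact (e'.f_deg _ _ h1).trans (e.f_deg _ _ h2)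
  g_deg a b h := by
    obtain ⟨c, h1, h2⟩ := exists_ne_zero_of_mul h
    exact (e.g_deg _ _ h1).trans (e'.g_deg _ _ h2)
  h_deg a b h := by
    by_cases h0 : e.h a b = 0
    · rw [Matrix.add_apply, h0, zero_add] at h
      obtain ⟨c, h1, h2⟩ := exists_ne_zero_of_mul h
      obtain ⟨c', h3, h4⟩ := exists_ne_zero_of_mul h2
      have := e.g_deg _ _ h1; have := e'.h_deg _ _ h3; have := e.f_deg _ _ h4
      omega
    · exact e.h_deg _ _ h0
  k_deg a b h := by
    by_cases h0 : e'.k a b = 0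
    · rw [Matrix.add_apply, h0, zero_add] at h
      obtain ⟨c, h1, h2⟩ := exists_ne_zero_of_mul h
      obtain ⟨c', h3, h4⟩ := exists_ne_zero_of_mul h2
      have := e'.f_deg _ _ h1; have := e.k_deg _ _ h3; have := e'.g_deg _ _ h4
      omega
    · exact e'.k_deg _ _ h0
  f_comm := by rw [← Matrix.mul_assoc, e'.f_comm, Matrix.mul_assoc, e.f_comm, ← Matrix.mul_assoc]
  g_comm := by rw [← Matrix.mul_assoc, e.g_comm, Matrix.mul_assoc, e'.g_comm, ← Matrix.mul_assoc]
  gf := by
    calc e.g * e'.g * (e'.f * e.f) = e.g * (e'.g * e'.f * e.f) := by simp only [Matrix.mul_assoc]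
      _ = e.g * e.f + (e.g * (Q.D * (e'.h * e.f)) + e.g * (e'.h * (Q.D * e.f))) := by
        rw [e'.gf]
        simp only [Matrix.add_mul, Matrix.mul_add, Matrix.one_mul, Matrix.mul_assoc]
      _ = _ := by
        rw [e.gf, ← Matrix.mul_assoc e.g Q.D, ← e.g_comm, e.f_comm]
        simp only [Matrix.add_mul, Matrix.mul_add, Matrix.mul_assoc]
        abel
  fg := by
    calc e'.f * e.f * (e.g * e'.g) = e'.f * (e.f * e.g * e'.g) := by simp only [Matrix.mul_assoc]
      _ = e'.f * e'.g + (e'.f * (Q.D * (e.k * e'.g)) + e'.f * (e.k * (Q.D * e'.g))) := by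
        rw [e.fg]
        simp only [Matrix.add_mul, Matrix.mul_add, Matrix.one_mul, Matrix.mul_assoc]
      _ = _ := by
        rw [e'.fg, ← Matrix.mul_assoc e'.f Q.D, ← e'.f_comm, e'.g_comm]
        simp only [Matrix.add_mul, Matrix.mul_add, Matrix.mul_assoc]
        abel

theorem Htpy.map_nonempty {R' : Type v} [CommRing R'] (φ : R →+* R') {P Q : MCx R}
    (e : Htpy P Q) : Nonempty (Htpy (P.map φ) (Q.map φ)) := by
  refine ⟨{
    f := e.f.map φ
    g := e.g.map φ
    h := e.h.map φ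
    k := e.k.map φ
    f_deg := fun a b h => e.f_deg a b fun h0 => h ((congrArg φ h0).trans (map_zero φ))
    g_deg := fun a b h => e.g_deg a b fun h0 => h ((congrArg φ h0).trans (map_zero φ))
    h_deg := fun a b h => e.h_deg a b fun h0 => h ((congrArg φ h0).trans (map_zero φ))
    k_deg := fun a b h => e.k_deg a b fun h0 => h ((congrArg φ h0).trans (map_zero φ))
    f_comm := ?_
    g_comm := ?_
    gf := ?_
    fg := ?_ }⟩
  · change Q.D.map φ * e.f.map φ = e.f.map φ * P.D.map φ
    rw [← Matrix.map_mul, ← Matrix.map_mul, e.f_comm]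
  · change P.D.map φ * e.g.map φ = e.g.map φ * Q.D.map φ
    rw [← Matrix.map_mul, ← Matrix.map_mul, e.g_comm]
  · change e.g.map φ * e.f.map φ = (1 : Matrix P.β P.β R') +
      (P.D.map φ * e.h.map φ + e.h.map φ * P.D.map φ)
    rw [← Matrix.map_mul, e.gf, ← Matrix.map_mul, ← Matrix.map_mul, ← Matrix.map_add φ (map_add φ),
      ← Matrix.map_one φ (map_zero φ) (map_one φ), ← Matrix.map_add φ (map_add φ)]
  · change e.f.map φ * e.g.map φ = (1 : Matrix Q.β Q.β R') +
      (Q.D.map φ * e.k.map φ + e.k.map φ * Q.D.map φ)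
    rw [← Matrix.map_mul, e.fg, ← Matrix.map_mul, ← Matrix.map_mul, ← Matrix.map_add φ (map_add φ),
      ← Matrix.map_one φ (map_zero φ) (map_one φ), ← Matrix.map_add φ (map_add φ)]

theorem Htpy.nullHtpic {P Q : MCx R} (e : Htpy P Q) {r : R} (h : P.IsNullHtpic r) :
    Q.IsNullHtpic r := by
  obtain ⟨η, hη, hh⟩ := h
  refine ⟨e.f * (η * e.g) - r • e.k, fun a b h => ?_, ?_⟩
  · by_cases h0 : (e.f * (η * e.g)) a b = 0
    · rw [Matrix.sub_apply, h0, Matrix.smul_apply, zero_sub, neg_ne_zero, smul_eq_mul] at h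
      exact e.k_deg _ _ (right_ne_zero_of_mul h)
    · obtain ⟨c, h1, h2⟩ := exists_ne_zero_of_mul h0
      obtain ⟨c', h3, h4⟩ := exists_ne_zero_of_mul h2
      have := e.f_deg _ _ h1; have := hη _ _ h3; have := e.g_deg _ _ h4
      omega
  · calc Q.D * (e.f * (η * e.g) - r • e.k) + (e.f * (η * e.g) - r • e.k) * Q.D
        = e.f * ((P.D * η + η * P.D) * e.g) - r • (Q.D * e.k + e.k * Q.D) := by
          rw [Matrix.mul_sub, Matrix.sub_mul, ← Matrix.mul_assoc Q.D, e.f_comm, Matrix.mul_smul,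
            Matrix.smul_mul, Matrix.add_mul, Matrix.mul_add, smul_add]
          simp only [Matrix.mul_assoc, e.g_comm]
          abel
      _ = r • (1 : Matrix Q.β Q.β R) := by
          rw [hh, Matrix.smul_mul, Matrix.one_mul, Matrix.mul_smul, e.fg, smul_add,
            add_sub_cancel_right]

theorem IsNullHtpic.map {R' : Type v} [CommRing R'] (φ : R →+* R') {P : MCx R} {r : R}
    (h : P.IsNullHtpic r) : (P.map φ).IsNullHtpic (φ r) := by
  obtain ⟨η, hη, hh⟩ := h
  refine ⟨η.map φ, fun a b h => hη a b fun h0 => h ((congrArg φ h0).trans (map_zero φ)), ?_⟩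
  change P.D.map φ * η.map φ + η.map φ * P.D.map φ = φ r • (1 : Matrix P.β P.β R')
  rw [← Matrix.map_mul, ← Matrix.map_mul, ← Matrix.map_add φ (map_add φ), hh]
  ext a b
  by_cases hab : a = b <;> simp [Matrix.map_apply, Matrix.one_apply, hab]

section Homology

variable (N : Type v) [AddCommGroup N] [Module R N]

theorem mem_degSub {P : MCx R} {n : ℤ} {x : P.β → N} :
    x ∈ P.degSub N n ↔ ∀ b, (P.deg b : ℤ) ≠ n → x b = 0 := by
  simp only [degSub, Submodule.mem_pi, Set.mem_univ, true_implies]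
  refine forall_congr' fun b => ?_
  split_ifs with h <;> simp [h]

theorem mlin_deg {P Q : MCx R} (M : Matrix Q.β P.β R) (s n : ℤ)
    (hM : ∀ a b, M a b ≠ 0 → (Q.deg a : ℤ) = P.deg b + s) {x : P.β → N}
    (hx : x ∈ P.degSub N n) : mlin N M x ∈ Q.degSub N (n + s) := by
  rw [mem_degSub] at hx ⊢
  intro a ha
  rw [mlin_apply]
  refine Finset.sum_eq_zero fun b _ => ?_
  by_cases h : M a b = 0
  · rw [h, zero_smul]
  · rw [hx b fun hb => ha (by rw [hM a b h, hb]), smul_zero]

theorem gc_D (P : MCx R) : (P.gc N).D = mlin N P.D := rfl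

theorem mem_cyc {P : MCx R} {n : ℤ} {x : P.β → N} :
    x ∈ (P.gc N).cyc ⊥ ⊤ n ↔ x ∈ P.degSub N n ∧ mlin N P.D x = 0 := by
  simp [GC.cyc, MCx.gc, MCx.dlin, mlin]

theorem D_mem_bd {P : MCx R} {n : ℤ} {y : P.β → N} (hy : y ∈ P.degSub N (n + 1)) :
    mlin N P.D y ∈ (P.gc N).bd ⊥ ⊤ n :=
  Submodule.mem_sup_left ⟨y, ⟨Submodule.mem_top, hy⟩, rfl⟩

/-- The map on homology of a map of matrix complexes. -/
noncomputable def hMat {P Q : MCx R} (M : Matrix Q.β P.β R)
    (hdeg : ∀ a b, M a b ≠ 0 → Q.deg a = P.deg b) (hc : Q.D * M = M * P.D) (n : ℤ) :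
    (P.gc N).H ⊥ ⊤ n →ₗ[R] (Q.gc N).H ⊥ ⊤ n :=
  (P.gc N).hMap (Q.gc N) (mlin N M)
    (fun x hx => by
      obtain ⟨h1, h2⟩ := (mem_cyc N).1 hx
      refine (mem_cyc N).2 ⟨?_, ?_⟩
      · simpa using mlin_deg N M 0 n (fun a b h => by simp [hdeg a b h]) h1
      · rw [← mlin_mul, hc, mlin_mul, h2, map_zero])
    (sup_le (by
        rintro _ ⟨y, hy, rfl⟩
        change mlin N M (mlin N P.D y) ∈ (Q.gc N).bd ⊥ ⊤ n
        rw [← mlin_mul, ← hc, mlin_mul]
        exact D_mem_bd N (by
          simpa using mlin_deg N M 0 (n + 1) (fun a b h => by simp [hdeg a b h]) hy.2))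
      (by simp))

theorem hMat_comp {P Q : MCx R} (M : Matrix Q.β P.β R) (M' : Matrix P.β Q.β R)
    (η : Matrix P.β P.β R) (hdeg : ∀ a b, M a b ≠ 0 → Q.deg a = P.deg b)
    (hc : Q.D * M = M * P.D) (hdeg' : ∀ a b, M' a b ≠ 0 → P.deg a = Q.deg b)
    (hc' : P.D * M' = M' * Q.D) (hη : ∀ a b, η a b ≠ 0 → P.deg a = P.deg b + 1)
    (h : M' * M = 1 + (P.D * η + η * P.D)) (n : ℤ) (a : (P.gc N).H ⊥ ⊤ n) :
    hMat N M' hdeg' hc' n (hMat N M hdeg hc n a) = a := by
  induction a using Submodule.Quotient.induction_on with | _ x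
  change (Submodule.Quotient.mk _ : (P.gc N).H ⊥ ⊤ n) = Submodule.Quotient.mk _
  rw [Submodule.Quotient.eq]
  change mlin N M' (mlin N M x.1) - x.1 ∈ (P.gc N).bd ⊥ ⊤ n
  obtain ⟨h1, h2⟩ := (mem_cyc N).1 x.2
  rw [← mlin_mul, h, mlin_add, mlin_add, mlin_one, mlin_mul, mlin_mul, h2, map_zero, add_zero,
    add_sub_cancel_left]
  exact D_mem_bd N (mlin_deg N η 1 n (fun a b h => by exact_mod_cast hη a b h) h1)

theorem Htpy.length_eq {P Q : MCx R} (e : Htpy P Q) (N : Type v) [AddCommGroup N] [Module R N]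
    (n : ℤ) : Module.length R ((P.gc N).H ⊥ ⊤ n) = Module.length R ((Q.gc N).H ⊥ ⊤ n) :=
  (LinearEquiv.ofLinearMap (hMat N e.f e.f_deg e.f_comm n) (hMat N e.g e.g_deg e.g_comm n)
    (LinearMap.ext fun a => hMat_comp N e.g e.f e.k e.g_deg e.g_comm e.f_deg e.f_comm e.k_deg
      e.fg n a)
    (LinearMap.ext fun a => hMat_comp N e.f e.g e.h e.f_deg e.f_comm e.g_deg e.g_comm e.h_deg
      e.gf n a)).length_eq

/-- Tuples supported in degree `i` are tuples indexed by the basis elements of degree `i`. -/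
noncomputable def degSubEquiv (P : MCx R) (i : ℕ) :
    ↥(P.degSub N (i : ℤ)) ≃ₗ[R] ({b // P.deg b = i} → N) where
  toFun x b := x.1 b.1
  map_add' _ _ := rfl
  map_smul' _ _ := rfl
  invFun y := ⟨fun b => if h : P.deg b = i then y ⟨b, h⟩ else 0,
    (mem_degSub N).2 fun b hb => dif_neg fun h => hb (by rw [h])⟩
  left_inv x := Subtype.ext <| funext fun b => by
    by_cases h : P.deg b = i
    · simp [h]
    · simp only [h, dite_false]
      exact ((mem_degSub N).1 x.2 b fun h' => h (by exact_mod_cast h')).symm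
  right_inv y := funext fun b => by simp [b.2]

theorem length_degSub (P : MCx R) (i : ℕ) :
    Module.length R ↥(P.degSub N (i : ℤ)) = P.rank i * Module.length R N := by
  rw [(degSubEquiv N P i).length_eq, Module.length_pi_of_fintype]
  simp [MCx.rank, Fintype.card_subtype]

theorem degSub_eq_bot (P : MCx R) {k : ℤ} (h : ∀ b, (P.deg b : ℤ) ≠ k) : P.degSub N k = ⊥ :=
  (Submodule.eq_bot_iff _).2 fun x hx => funext fun b => (mem_degSub N).1 hx b (h b)

end Homology

theorem length_residue [IsLocalRing R] (Q : MCx R) (hQ : Q.EntriesIn (maximalIdeal R)) (i : ℕ) :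
    Module.length R ((Q.gc (ResidueField R)).H ⊥ ⊤ i) = Q.rank i := by
  have hD : ∀ x, mlin (ResidueField R) Q.D x = 0 := fun x => funext fun a => by
    rw [mlin_apply]
    refine Finset.sum_eq_zero fun b _ => ?_
    rw [Algebra.smul_def, IsLocalRing.ResidueField.algebraMap_eq,
      (IsLocalRing.residue_eq_zero_iff _).2 (hQ a b), zero_mul]
  have hc : (Q.gc (ResidueField R)).cyc ⊥ ⊤ i = Q.degSub (ResidueField R) i := by
    ext x
    exact ⟨fun h => ((mem_cyc _).1 h).1, fun h => (mem_cyc _).2 ⟨h, hD x⟩⟩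
  have hb : (Q.gc (ResidueField R)).bd ⊥ ⊤ i = ⊥ := by
    rw [GC.bd, bot_inf_eq, sup_bot_eq, Submodule.eq_bot_iff]
    rintro _ ⟨y, -, rfl⟩
    exact hD y
  have : IsSimpleModule R (ResidueField R) :=
    isSimpleModule_iff_isCoatom.2 (Ideal.isMaximal_def.1 (maximalIdeal.isMaximal R))
  rw [((Submodule.quotEquivOfEqBot _ (by rw [hb]; simp)).trans
      (LinearEquiv.ofEq _ _ hc)).length_eq, length_degSub, Module.length_eq_one, mul_one]

/-! ### Cancelling a unit entry -/

theorem exists_cancel (P : MCx R) {a b : P.β} (hu : IsUnit (P.D a b)) (hne : P.D a b ≠ 0) :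
    ∃ Q : MCx R, Nonempty (Htpy P Q) ∧ Fintype.card Q.β < Fintype.card P.β ∧
      ∀ i, Q.rank i ≤ P.rank i := by
  classical
  have hdeg : P.deg b = P.deg a + 1 := P.homog a b hne
  have hab : a ≠ b := fun h => by rw [h] at hdeg; omega
  obtain ⟨u, hu⟩ := hu
  set η : Matrix P.β P.β R := Matrix.single b a (-(↑u⁻¹ : R))
  have hηη : η * η = 0 := Matrix.single_mul_single_of_ne _ _ _ _ hab _
  have hηd : ∀ x y, η x y ≠ 0 → x = b ∧ y = a := fun x y h => by
    by_contra hc
    exact h (Matrix.single_apply_of_ne _ _ _ _ _ (fun hx => hc ⟨hx.1.symm, hx.2.symm⟩))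
  have hηDη : η * P.D * η = -η := by
    simp only [η, Matrix.single_mul_mul_single, ← hu, Matrix.single_neg]
    congr 1
    simp
  set π : Matrix P.β P.β R := 1 + (P.D * η + η * P.D) with hπdef
  have hπη : π * η = 0 := by
    rw [hπdef, Matrix.add_mul, Matrix.add_mul, Matrix.one_mul, Matrix.mul_assoc P.D, hηη, hηDη,
      Matrix.mul_zero, zero_add, add_neg_cancel]
  have hηπ : η * π = 0 := by
    rw [hπdef, Matrix.mul_add, Matrix.mul_add, Matrix.mul_one, ← Matrix.mul_assoc η P.D, hηDη,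
      ← Matrix.mul_assoc η η, hηη, Matrix.zero_mul, add_zero, add_neg_cancel]
  have hπD : π * P.D = P.D * π := by
    simp only [hπdef, Matrix.add_mul, Matrix.mul_add, Matrix.one_mul, Matrix.mul_one,
      Matrix.mul_assoc, P.sq, Matrix.mul_zero, ← Matrix.mul_assoc P.D P.D, Matrix.zero_mul,
      add_zero, zero_add]
  have hππ : π * π = π := by
    conv_lhs => arg 2; rw [hπdef]
    rw [Matrix.mul_add, Matrix.mul_add, Matrix.mul_one, ← Matrix.mul_assoc, hπD,
      Matrix.mul_assoc, hπη, Matrix.mul_zero, ← Matrix.mul_assoc, hπη, Matrix.zero_mul, add_zero,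
      add_zero]
  have hrow : ∀ d, π a d = 0 := fun d => by
    have h := congrFun (congrFun hηπ b) d
    rw [Matrix.single_mul_apply_same] at h
    simpa [neg_mul] using h
  have hcol : ∀ c, π c b = 0 := fun c => by
    have h := congrFun (congrFun hπη c) a
    rw [Matrix.mul_single_apply_same] at h
    simpa [mul_neg] using h
  have hπdeg : ∀ x y, π x y ≠ 0 → P.deg x = P.deg y := fun x y h => by
    by_contra hxy
    refine h ?_
    have h1 : (P.D * η) x y = 0 := by
      by_contra h0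
      obtain ⟨c, hc1, hc2⟩ := exists_ne_zero_of_mul h0
      obtain ⟨rfl, rfl⟩ := hηd _ _ hc2
      exact hxy (by have := P.homog _ _ hc1; omega)
    have h2 : (η * P.D) x y = 0 := by
      by_contra h0
      obtain ⟨c, hc1, hc2⟩ := exists_ne_zero_of_mul h0
      obtain ⟨rfl, rfl⟩ := hηd _ _ hc1
      exact hxy (by have := P.homog _ _ hc2; omega)
    rw [hπdef, Matrix.add_apply, Matrix.add_apply, h1, h2, Matrix.one_apply_ne fun h' => hxy (congrArg P.deg h')]
    simp
  let val : {c : P.β // c ≠ a ∧ c ≠ b} → P.β := Subtype.val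
  set f := π.submatrix val id
  set g := π.submatrix id val
  have hgf : g * f = π := by
    conv_rhs => rw [← hππ]
    ext c d
    simp only [g, f, Matrix.mul_apply, Matrix.submatrix_apply, id]
    rw [← Finset.sum_subtype (Finset.univ.filter fun x => x ≠ a ∧ x ≠ b) (by simp)
      (fun x => π c x * π x d)]
    refine Finset.sum_filter_of_ne fun x _ hx => ⟨?_, ?_⟩
    · rintro rfl; exact hx (by rw [hrow, mul_zero])
    · rintro rfl; exact hx (by rw [hcol, zero_mul])
  have hfg : f * g = 1 := by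
    ext c d
    change ∑ x, π c.1 x * π x d.1 = _
    rw [← Matrix.mul_apply, hππ, hπdef, Matrix.add_apply, Matrix.add_apply]
    have h1 : (P.D * η) c.1 d.1 = 0 := Matrix.mul_single_apply_of_ne _ _ _ _ _ d.2.1 _
    have h2 : (η * P.D) c.1 d.1 = 0 := Matrix.single_mul_apply_of_ne _ _ _ _ _ c.2.2 _
    rw [h1, h2, add_zero, add_zero]
    simp [Matrix.one_apply, Subtype.ext_iff]
  let Q : MCx R :=
    { β := {c : P.β // c ≠ a ∧ c ≠ b}
      deg := fun c => P.deg c.1
      D := f * P.D * g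
      sq := by
        calc f * P.D * g * (f * P.D * g) = f * P.D * (g * f) * (P.D * g) := by
              simp only [Matrix.mul_assoc]
          _ = f * (P.D * (π * P.D)) * g := by rw [hgf]; simp only [Matrix.mul_assoc]
          _ = 0 := by
              rw [hπD, ← Matrix.mul_assoc P.D P.D, P.sq]
              simp
      homog := fun x y h => by
        obtain ⟨d, h1, h2⟩ := exists_ne_zero_of_mul h
        obtain ⟨c, h3, h4⟩ := exists_ne_zero_of_mul h1
        have := hπdeg _ _ h3; have := hπdeg _ _ h2; have := P.homog _ _ h4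
        simp only [val, id] at *
        omega }
  refine ⟨Q, ⟨{
    f := f
    g := g
    h := η
    k := 0
    f_deg := fun x y h => (hπdeg _ _ h : _)
    g_deg := fun x y h => (hπdeg _ _ h : _)
    h_deg := fun x y h => by obtain ⟨rfl, rfl⟩ := hηd x y h; exact hdeg
    k_deg := fun x y h => absurd rfl h
    f_comm := ?_
    g_comm := ?_
    gf := hgf
    fg := ?_ }⟩, ?_, fun i => ?_⟩
  · change f * P.D * g * f = f * P.D
    rw [Matrix.mul_assoc _ g f, hgf, Matrix.mul_assoc f, ← hπD, ← Matrix.mul_assoc]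
    have : f * π = f := by
      calc f * π = f * (g * f) := by rw [hgf]
        _ = f := by rw [← Matrix.mul_assoc, hfg, Matrix.one_mul]
    rw [this]
  · change P.D * g = g * (f * P.D * g)
    rw [← Matrix.mul_assoc, ← Matrix.mul_assoc g f, hgf, hπD, Matrix.mul_assoc]
    have : π * g = g := by
      calc π * g = g * f * g := by rw [hgf]
        _ = g := by rw [Matrix.mul_assoc, hfg, Matrix.mul_one]
    rw [this]
  · exact hfg.trans (by simp)
  · exact Fintype.card_subtype_lt (x := a) fun h => h.1 rfl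
  · exact Finset.card_le_card_of_injOn (fun c => c.1) (fun c hc => by
      simpa [Q] using hc) fun c _ d _ h => Subtype.ext h

theorem exists_minimal [IsLocalRing R] (P : MCx R) :
    ∃ Q : MCx R, Nonempty (Htpy P Q) ∧ Q.EntriesIn (maximalIdeal R) ∧
      ∀ i, Q.rank i ≤ P.rank i := by
  induction hm : Fintype.card P.β using Nat.strong_induction_on generalizing P with
  | _ m ih =>
    by_cases h : P.EntriesIn (maximalIdeal R)
    · exact ⟨P, ⟨htpyRefl P⟩, h, fun i => le_rfl⟩
    · simp only [MCx.EntriesIn, not_forall] at h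
      obtain ⟨a, b, hab⟩ := h
      obtain ⟨Q, ⟨e⟩, hlt, hr⟩ := P.exists_cancel (IsLocalRing.notMem_maximalIdeal.1 hab)
        fun h0 => hab (h0 ▸ Submodule.zero_mem _)
      obtain ⟨Q', ⟨e'⟩, hE, hr'⟩ := ih _ (hm ▸ hlt) Q rfl
      exact ⟨Q', ⟨htpyTrans e e'⟩, hE, fun i => (hr' i).trans (hr i)⟩

theorem alternating_rank (Q : MCx R) {d : ℕ} (hd : ∀ b, Q.deg b ≤ d) {r : R}
    (h : Q.IsNullHtpic r) (hr : ¬ IsNilpotent r) :
    ∑ i ∈ Finset.range (d + 1), (-1 : ℤ) ^ i * (Q.rank i : ℤ) = 0 := by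
  obtain ⟨p, hp, hrp⟩ : ∃ p : Ideal R, p.IsPrime ∧ r ∉ p := by
    by_contra hc
    push Not at hc
    exact hr (nilpotent_iff_mem_prime.2 hc)
  let K := FractionRing (R ⧸ p)
  let φ : R →+* K := (algebraMap (R ⧸ p) K).comp (Ideal.Quotient.mk p)
  have hφ : φ r ≠ 0 := fun h0 => hrp (Ideal.Quotient.eq_zero_iff_mem.1
    ((map_eq_zero_iff _ (IsFractionRing.injective (R ⧸ p) K)).1 h0))
  obtain ⟨η, hη, hh⟩ := h.map φ
  have hQd : ∀ b, (Q.map φ).deg b ≤ d := hd
  have hQr : ∀ i, (Q.map φ).rank i = Q.rank i := fun _ => rfl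
  generalize Q.map φ = P at η hη hh hQd hQr
  set C := P.gc K
  have hH : ∀ k, Module.length K (C.H ⊥ ⊤ k) = 0 := fun k => by
    have : Subsingleton (C.H ⊥ ⊤ k) := by
      refine Submodule.Quotient.subsingleton_iff.2 (eq_top_iff.2 fun x _ => ?_)
      obtain ⟨h1, h2⟩ := (mem_cyc K).1 x.2
      have hx : (φ r) • x.1 = mlin K P.D (mlin K η x.1) := by
        calc (φ r) • x.1 = mlin K (φ r • (1 : Matrix P.β P.β K)) x.1 := by
              rw [mlin_smul, mlin_one]
          _ = _ := by rw [← hh, mlin_add, mlin_mul, mlin_mul, h2, map_zero, add_zero]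
      have hb := Submodule.smul_mem _ (φ r)⁻¹
        (hx.symm ▸ D_mem_bd K (mlin_deg K η 1 k (fun a b h => by exact_mod_cast hη a b h) h1) :
          (φ r) • x.1 ∈ (P.gc K).bd ⊥ ⊤ k)
      rwa [smul_smul, inv_mul_cancel₀ hφ, one_smul] at hb
    exact Module.length_eq_zero
  have hlen : ∀ k : ℤ, 0 ≤ k →
      Module.length K ↥((⊤ : Submodule K (P.β → K)) ⊓ C.deg k) = P.rank k.toNat := fun k hk => by
    rw [top_inf_eq]
    obtain ⟨i, rfl⟩ := Int.eq_ofNat_of_zero_le hk
    change Module.length K ↥(P.degSub K (i : ℤ)) = _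
    rw [length_degSub, Module.length_eq_one, mul_one, Int.toNat_natCast]
  have hbot : ∀ k, k ∉ Finset.Icc (0 : ℤ) d → C.deg k = ⊥ := fun k hk =>
    P.degSub_eq_bot K fun b hb => hk (Finset.mem_Icc.2 (by have := hQd b; omega))
  have hf : ∀ k, Module.length K ↥((⊤ : Submodule K (P.β → K)) ⊓ C.deg k) ≠ ⊤ := fun k => by
    rcases le_or_gt 0 k with hk | hk
    · rw [hlen k hk]; exact ENat.natCast_ne_top _
    · rw [hbot k (by simp only [Finset.mem_Icc]; omega), inf_bot_eq, Module.length_eq_zero]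
      exact ENat.zero_ne_top
  obtain ⟨-, hchi⟩ := C.chi_finite (Y := ⊤) 0 d hbot le_top hf
  rw [show C.chi (Finset.Icc (0 : ℤ) d) ⊥ ⊤ = 0 from
    Finset.sum_eq_zero fun k _ => by simp [GC.h, len, hH k]] at hchi
  rw [hchi]
  refine Finset.sum_nbij' (fun i : ℕ => (i : ℤ)) Int.toNat
    (fun i hi => ?_) (fun k hk => ?_) (fun i _ => Int.toNat_natCast i) (fun k hk => ?_)
    fun i _ => ?_
  · simp only [Finset.mem_range, Finset.mem_Icc] at *; omega
  · simp only [Finset.mem_range, Finset.mem_Icc] at *; omega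
  · simp only [Finset.mem_Icc] at hk; omega
  · rw [len, hlen _ (Int.natCast_nonneg i), ENat.toNat_natCast, Int.natAbs_natCast,
      Int.toNat_natCast, hQr]

end MCx

end Vale.Agent.P202.Char
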