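import Vale.Agent.P202.Char.BaseAux
import Vale.Agent.P202.Char.Matrix
import Vale.Agent.P202.Char.Frobenius

/-!
P202, Lech in characteristic `p`: the minimal Koszul complex of a reduction of the maximal ideal of
`S` and its Frobenius twists (`exists_base`).
-/

namespace Vale.Agent.P202.Char

open IsLocalRing Filter Topology
open scoped TensorProduct

universe u v w

variable {R S : Type u} [CommRing R] [CommRing S] [IsLocalRing R] [IsLocalRing S]
  [IsNoetherianRing R] [IsNoetherianRing S] [Algebra R S] [IsLocalHom (algebraMap R S)]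
  [Module.Finite R S] [Module.Free R S]

theorem exists_base (p : ℕ) [Fact p.Prime] [CharP R p] [Infinite (ResidueField R)] {n : ℕ}
    {e e' : ℝ} (he : IsMultiplicity R (n + 1) e) (he' : IsMultiplicity S (n + 1) e') (h0 : e ≠ 0)
    (z : Fin (n + 1) → R) (hz : ∀ l, z l ∈ maximalIdeal R) :
    ∃ (Q : MCx R) (A : ℤ) (f M₀ : ℕ), 0 < f ∧ f ≤ Q.rank 0 ∧ (A : ℝ) = (f : ℝ) * e' ∧
      (∀ b, Q.deg b ≤ n + 1) ∧ Q.EntriesIn (maximalIdeal R) ∧
      (∑ b, (-1 : ℤ) ^ Q.deg b = 0) ∧ (∀ l, Q.IsNullHtpic (z l ^ M₀)) ∧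
      ∀ k : ℕ,
        (∀ j, ((Q.map (iterateFrobenius R p k)).gc R).FinH ⊥ ⊤ j) ∧
        ((Q.map (iterateFrobenius R p k)).gc R).chi (Finset.Icc 0 ((n + 1 : ℕ) : ℤ)) ⊥ ⊤ =
          ((p : ℤ) ^ k) ^ (n + 1) * A ∧
        ∀ (M : Type u) [AddCommGroup M] [Module R M] [Module.Finite R M],
          Tendsto (fun j : ℕ => (len R (M ⧸ maximalIdeal R ^ j • (⊤ : Submodule R M)) : ℝ) /
            (j : ℝ) ^ (n + 1)) atTop (𝓝 0) →
          (∀ j, ((Q.map (iterateFrobenius R p k)).gc M).FinH ⊥ ⊤ j) ∧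
          ((Q.map (iterateFrobenius R p k)).gc M).chi (Finset.Icc 0 ((n + 1 : ℕ) : ℤ)) ⊥ ⊤ = 0 := by
  classical
  have : Infinite (ResidueField S) := Infinite.of_injective _
    (algebraMap (ResidueField R) (ResidueField S)).injective
  obtain ⟨x, hxm, ⟨c, hc⟩, hxlim⟩ :=
    exists_reduction he' (Base.ne_zero_of_ne_zero he he' h0)
  have hrad : ∀ r ∈ maximalIdeal R, algebraMap R S (r ^ c) ∈ Ideal.span (Set.range x) := by
    intro r hr
    rw [map_pow]
    exact hc (Ideal.pow_mem_pow ((mem_maximalIdeal _).2 fun h =>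
      (mem_maximalIdeal r).1 hr (IsLocalHom.map_nonunit r h)) c)
  obtain ⟨P, hPd, hPnull, hPlen, hPmap⟩ := exists_koszulMCx (R := R) x
  obtain ⟨Q, ⟨E⟩, hQm, hQr⟩ := P.exists_minimal
  have hQd : ∀ b, Q.deg b ≤ n + 1 := by
    intro b
    by_contra hb
    have h1 : 0 < Q.rank (Q.deg b) := Finset.card_pos.2 ⟨b, by simp⟩
    have h2 : P.rank (Q.deg b) = 0 := Finset.card_eq_zero.2 (Finset.filter_eq_empty_iff.2
      fun a _ ha => hb (ha ▸ hPd a))
    have := hQr (Q.deg b)
    omega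
  -- the rank in degree `0`
  set f := (Module.length R (ResidueField S)).toNat
  have hf0 : Module.length R (ResidueField S) ≤ (Q.rank 0 : ℕ∞) := by
    rw [← Q.length_residue hQm 0, Nat.cast_zero, ← E.length_eq, hPlen]
    exact Base.length_residue_le x hxm
  have hftop : Module.length R (ResidueField S) ≠ ⊤ :=
    ne_top_of_le_ne_top (ENat.natCast_ne_top _) hf0
  have hfpos : 0 < f := by
    refine Nat.pos_of_ne_zero fun h => ?_
    rw [ENat.toNat_eq_zero] at h
    exact h.elim Module.length_pos.ne' hftop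
  have hfle : f ≤ Q.rank 0 := by
    have := ENat.toNat_le_toNat hf0 (ENat.natCast_ne_top _)
    rwa [ENat.toNat_natCast] at this
  -- the Euler characteristic
  set I := Ideal.span (Set.range x)
  have hfld : Module.length (ResidueField R) (ResidueField S) =
      Module.length R (ResidueField S) :=
    (Module.length_eq_of_surjective (R := ResidueField R) (S := R) residue_surjective).symm
  have hq : ∀ k, Module.length R
      ((S ⊗[R] R) ⧸ I ^ k • (⊤ : Submodule S (S ⊗[R] R))) =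
        Module.length S (S ⧸ I ^ k) * Module.length R (ResidueField S) := by
    intro k
    rw [← hfld, IsLocalRing.length_restrictScalars R S]
    congr 1
    refine (Submodule.Quotient.equiv _ _ (TensorProduct.AlgebraTensorModule.rid R S S) ?_).length_eq
    rw [Submodule.map_smul'', Submodule.map_top, LinearEquiv.range, smul_eq_mul,
      Ideal.mul_top]
  have hfinI : ∀ k, Module.length S (S ⧸ I ^ k) ≠ ⊤ := fun k =>
    length_quotient_ne_top _ (c * k) (by rw [pow_mul]; exact Ideal.pow_right_mono hc k)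
  obtain ⟨hKfin, hKlim⟩ := koszul_tendsto (R := R) x (S ⊗[R] R) fun k => by
    rw [hq]
    exact WithTop.mul_ne_top (hfinI k) hftop
  set A := (koszulGC R x (S ⊗[R] R)).chi (Finset.Icc 0 ((n + 1 : ℕ) : ℤ)) ⊥ ⊤
  have hA : (A : ℝ) = (f : ℝ) * e' := by
    refine tendsto_nhds_unique hKlim ((hxlim.const_mul (f : ℝ)).congr fun k => ?_)
    rw [len, hq, ENat.toNat_mul, Nat.cast_mul]
    ring
  have hPchi := Base.chi_congr (P.gc R) (koszulGC R x (S ⊗[R] R))
    (Finset.Icc 0 ((n + 1 : ℕ) : ℤ)) (hPlen R)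
  -- null homotopies
  obtain ⟨r, hr, hrn⟩ := Base.exists_not_nilpotent he h0
  have halt : ∑ b, (-1 : ℤ) ^ Q.deg b = 0 := by
    rw [← Q.alternating_rank hQd (E.nullHtpic (hPnull _ (hrad r hr)))
      (fun h => hrn h.of_pow)]
    rw [← Finset.sum_fiberwise_of_maps_to (g := Q.deg) (t := Finset.range (n + 1 + 1))
      fun b _ => Finset.mem_range.2 (Nat.lt_succ_of_le (hQd b))]
    refine Finset.sum_congr rfl fun i _ => ?_
    rw [Finset.sum_congr rfl fun b hb => by rw [(Finset.mem_filter.1 hb).2], Finset.sum_const,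
      nsmul_eq_mul, mul_comm, MCx.rank]
  refine ⟨Q, A, f, c, hfpos, hfle, hA, hQd, hQm, halt,
    fun l => E.nullHtpic (hPnull _ (hrad _ (hz l))), fun k => ?_⟩
  obtain ⟨E'⟩ := E.map_nonempty (iterateFrobenius R p k)
  have hcongr := fun (M : Type u) [AddCommGroup M] [Module R M] =>
    Base.chi_congr ((P.map (iterateFrobenius R p k)).gc M)
      ((Q.map (iterateFrobenius R p k)).gc M) (Finset.Icc 0 ((n + 1 : ℕ) : ℤ)) (E'.length_eq M)
  obtain ⟨hF1, hF2⟩ := frobenius_chi x p ⟨c, hc⟩ hxm ⟨e, he⟩ P hPmap k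
  refine ⟨(hcongr R).1.1 hF1, ?_, fun M _ _ _ hM => ?_⟩
  · rw [← (hcongr R).2, hF2, hPchi.2]
  · obtain ⟨h1, h2⟩ := Base.small_twist p k x hrad P hPmap M hM
    exact ⟨(hcongr M).1.1 h1, (hcongr M).2 ▸ h2⟩

end Vale.Agent.P202.Char
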