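import Vale.Agent.P202.Char.Defs

/-! P202, Lech in characteristic `p`: the complexes of matrices, of Koszul and of Cech. -/
namespace Vale.Agent.P202.Char
universe u v w
open Finset

variable {R : Type u} [CommRing R]

theorem MCx.dlin_apply (P : MCx R) (N : Type v) [AddCommGroup N] [Module R N] (x : P.β → N)
    (a : P.β) : P.dlin N x a = ∑ b, P.D a b • x b := by
  simp [MCx.dlin, LinearMap.pi_apply]

noncomputable def MCx.gc (P : MCx R) (N : Type v) [AddCommGroup N] [Module R N] :
    GC R (P.β → N) where
  D := P.dlin N
  deg := P.degSub N
  sq := by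
    refine LinearMap.ext fun x => funext fun a => ?_
    simp only [LinearMap.comp_apply, MCx.dlin_apply, smul_sum, smul_smul, LinearMap.zero_apply,
      Pi.zero_apply]
    rw [sum_comm]
    refine sum_eq_zero fun c _ => ?_
    rw [← sum_smul]
    have h := congrFun (congrFun P.sq a) c
    simp only [Matrix.mul_apply, Matrix.zero_apply] at h
    rw [h, zero_smul]
  map_deg n := by
    rintro _ ⟨x, hx, rfl⟩ a -
    simp only [MCx.dlin_apply]
    split_ifs with ha
    · exact Submodule.mem_top
    · refine (Submodule.mem_bot R).2 (sum_eq_zero fun b _ => ?_)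
      by_cases hab : P.D a b = 0
      · simp [hab]
      · have h1 := hx b trivial
        have hd := P.homog a b hab
        simp only [SetLike.mem_coe] at h1
        rw [if_neg (by omega), Submodule.mem_bot] at h1
        simp [h1]

theorem koszulD_apply {S : Type u} [CommRing S] {d : ℕ} (x : Fin d → S) (N : Type v)
    [AddCommGroup N] [Module S N] (f : Finset (Fin d) → N) (s : Finset (Fin d)) :
    koszulD x N f s = ∑ j ∈ sᶜ, (ksign s j • x j) • f (insert j s) := by
  simp [koszulD, LinearMap.pi_apply]

theorem koszulD_sq {S : Type u} [CommRing S] {d : ℕ} (x : Fin d → S) (N : Type v)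
    [AddCommGroup N] [Module S N] : koszulD x N ∘ₗ koszulD x N = 0 := by
  refine LinearMap.ext fun f => funext fun s => ?_
  simp only [LinearMap.comp_apply, koszulD_apply, LinearMap.zero_apply, Pi.zero_apply, smul_sum,
    smul_smul]
  rw [sum_sigma']
  refine sum_involution (fun p _ => ⟨p.2, p.1⟩) ?_ ?_ ?_ ?_
  · rintro ⟨j, l⟩ hp
    simp only [mem_sigma, mem_compl, mem_insert, not_or] at hp
    obtain ⟨hj, hlj, hl⟩ := hp
    simp only
    rw [Finset.insert_comm j l s, ← add_smul]
    convert zero_smul S _
    simp only [ksign, filter_insert]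
    rcases lt_or_gt_of_ne hlj with h | h
    · rw [if_neg (not_lt.2 h.le), if_pos h, card_insert_of_notMem (by simp [hl]), pow_succ]
      simp [zsmul_eq_mul]; ring
    · rw [if_pos h, if_neg (not_lt.2 h.le), card_insert_of_notMem (by simp [hj]), pow_succ]
      simp [zsmul_eq_mul]; ring
  · rintro ⟨j, l⟩ hp _ h
    simp only [mem_sigma, mem_compl, mem_insert, not_or] at hp
    simp only [Sigma.mk.injEq] at h
    exact hp.2.1 h.1
  · rintro ⟨j, l⟩ hp
    simp only [mem_sigma, mem_compl, mem_insert, not_or] at hp ⊢
    exact ⟨hp.2.2, fun h => hp.2.1 h.symm, hp.1⟩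
  · rintro ⟨j, l⟩ _; rfl

noncomputable def koszulGC (R : Type u) [CommRing R] {S : Type u} [CommRing S] [Algebra R S]
    {d : ℕ} (x : Fin d → S) (N : Type v) [AddCommGroup N] [Module S N] [Module R N]
    [IsScalarTower R S N] : GC R (Finset (Fin d) → N) where
  D := (koszulD x N).restrictScalars R
  deg := koszulDeg R d N
  sq := LinearMap.ext fun f => LinearMap.congr_fun (koszulD_sq x N) f
  map_deg n := by
    rintro _ ⟨f, hf, rfl⟩ s -
    simp only [LinearMap.restrictScalars_apply, koszulD_apply]
    split_ifs with hs
    · exact Submodule.mem_top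
    · refine (Submodule.mem_bot R).2 (sum_eq_zero fun j hj => ?_)
      have h1 := hf (insert j s) trivial
      simp only [SetLike.mem_coe] at h1
      rw [card_insert_of_notMem (mem_compl.1 hj),
        if_neg (by push_cast; omega), Submodule.mem_bot] at h1
      simp [h1]

theorem cechD_apply {n : ℕ} {M : Type v} [AddCommGroup M] [Module R M] (x : Chart n → M)
    (ε : Chart n) : cechD R x ε = ∑ j ∈ univ.filter (fun j => ε j = 2),
      ((-1 : R) ^ (univ.filter fun l => l < j ∧ ε l = 2).card) •
        (x (Function.update ε j 1) - x (Function.update ε j 0)) := by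
  simp [cechD, LinearMap.pi_apply]

theorem cechD_sq {n : ℕ} {M : Type v} [AddCommGroup M] [Module R M] :
    (cechD R : (Chart n → M) →ₗ[R] _) ∘ₗ cechD R = 0 := by
  refine LinearMap.ext fun x => funext fun ε => ?_
  simp only [LinearMap.comp_apply, cechD_apply, LinearMap.zero_apply, Pi.zero_apply]
  -- value at the target of removing `j` and then `l`
  set cnt : Chart n → Fin n → ℕ := fun η j => (univ.filter fun l => l < j ∧ η l = 2).card
  have hcnt : ∀ (η : Chart n) (j l : Fin n) (v : Fin 3), η l = 2 → v ≠ 2 →
      cnt (Function.update η l v) j + (if l < j then 1 else 0) = cnt η j := by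
    intro η j l v hl hv
    have : (univ.filter fun i => i < j ∧ η i = 2) =
        if l < j then insert l (univ.filter fun i => i < j ∧ Function.update η l v i = 2)
        else univ.filter fun i => i < j ∧ Function.update η l v i = 2 := by
      ext i
      by_cases hi : i = l
      · subst hi
        split_ifs with h <;> simp [h, hl, hv]
      · split_ifs <;> simp [hi]
    simp only [cnt]
    rw [this]
    split_ifs <;> simp [Function.update_self, hv]
  have key : ∀ (j : Fin n) (v : Fin 3), v ≠ 2 →
      (univ.filter fun l => Function.update ε j v l = 2) =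
        (univ.filter fun l => ε l = 2).erase j := by
    intro j v hv
    ext l
    by_cases hl : l = j
    · subst hl; simp [hv]
    · simp [hl]
  set G : Fin n → Fin n → M := fun l j =>
    (x (Function.update (Function.update ε l 1) j 1) -
      x (Function.update (Function.update ε l 1) j 0)) -
    (x (Function.update (Function.update ε l 0) j 1) -
      x (Function.update (Function.update ε l 0) j 0))
  set E2 : Finset (Fin n) := univ.filter fun l => ε l = 2
  have hterm : ∀ l ∈ E2,
      ((-1 : R) ^ cnt ε l) •
        ((∑ j ∈ univ.filter (fun j => Function.update ε l 1 j = 2),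
            ((-1 : R) ^ cnt (Function.update ε l 1) j) •
              (x (Function.update (Function.update ε l 1) j 1) -
                x (Function.update (Function.update ε l 1) j 0))) -
          ∑ j ∈ univ.filter (fun j => Function.update ε l 0 j = 2),
            ((-1 : R) ^ cnt (Function.update ε l 0) j) •
              (x (Function.update (Function.update ε l 0) j 1) -
                x (Function.update (Function.update ε l 0) j 0))) =
        ∑ j ∈ E2.erase l, ((-1 : R) ^ (cnt ε l + cnt (Function.update ε l 1) j)) • G l j := by
    intro l hl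
    have hl2 : ε l = 2 := (mem_filter.1 hl).2
    rw [key l 1 (by decide), key l 0 (by decide), ← sum_sub_distrib, smul_sum]
    refine sum_congr rfl fun j _ => ?_
    have h1 := hcnt ε j l 1 hl2 (by decide)
    have h0 := hcnt ε j l 0 hl2 (by decide)
    rw [show cnt (Function.update ε l 0) j = cnt (Function.update ε l 1) j by omega, ← smul_sub,
      smul_smul, ← pow_add]
  refine (sum_congr rfl hterm).trans ?_
  rw [sum_sigma']
  refine sum_involution (fun p _ => ⟨p.2, p.1⟩) ?_ ?_ ?_ ?_
  · rintro ⟨l, j⟩ hp
    simp only [mem_sigma, mem_erase] at hp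
    obtain ⟨hl, hjl, hj⟩ := hp
    have hl2 : ε l = 2 := (mem_filter.1 hl).2
    have hj2 : ε j = 2 := (mem_filter.1 hj).2
    have hG : G j l = G l j := by
      simp only [G, Function.update_comm hjl]
      abel
    have h1 := hcnt ε j l 1 hl2 (by decide)
    have h2 := hcnt ε l j 1 hj2 (by decide)
    simp only
    rw [hG, ← add_smul]
    convert zero_smul R (G l j)
    rcases lt_or_gt_of_ne hjl with h | h
    · rw [if_neg (not_lt.2 h.le)] at h1
      rw [if_pos h] at h2
      rw [show cnt ε l + cnt (Function.update ε l 1) j =
        (cnt ε j + cnt (Function.update ε j 1) l) + 1 by omega, pow_succ]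
      ring
    · rw [if_pos h] at h1
      rw [if_neg (not_lt.2 h.le)] at h2
      rw [show cnt ε j + cnt (Function.update ε j 1) l =
        (cnt ε l + cnt (Function.update ε l 1) j) + 1 by omega, pow_succ]
      ring
  · rintro ⟨l, j⟩ hp _ h
    simp only [mem_sigma, mem_erase] at hp
    simp only [Sigma.mk.injEq] at h
    exact hp.2.1 h.1
  · rintro ⟨l, j⟩ hp
    simp only [mem_sigma, mem_erase] at hp ⊢
    exact ⟨hp.2.2, fun h => hp.2.1 h.symm, hp.1⟩
  · rintro ⟨l, j⟩ _; rfl

noncomputable def cechGC (R : Type u) [CommRing R] (n : ℕ) (M : Type v) [AddCommGroup M]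
    [Module R M] : GC R (Chart n → M) where
  D := cechD R
  deg := cechDeg R M
  sq := cechD_sq
  map_deg k := by
    rintro _ ⟨x, hx, rfl⟩ ε -
    simp only [cechD_apply]
    split_ifs with hε
    · exact Submodule.mem_top
    · refine (Submodule.mem_bot R).2 (sum_eq_zero fun j hj => ?_)
      have hj2 : ε j = 2 := (mem_filter.1 hj).2
      have hd : ∀ v : Fin 3, v ≠ 2 → x (Function.update ε j v) = 0 := by
        intro v hv
        have h1 := hx (Function.update ε j v) trivial
        simp only [SetLike.mem_coe] at h1
        rwa [if_neg, Submodule.mem_bot] at h1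
        intro h2
        refine hε ?_
        have : chartDeg (Function.update ε j v) + 1 = chartDeg ε := by
          simp only [chartDeg]
          rw [show (univ.filter fun l => Function.update ε j v l = 2) =
            (univ.filter fun l => ε l = 2).erase j by
              ext l
              by_cases hl : l = j
              · subst hl; simp [hv]
              · simp [hl]]
          exact card_erase_add_one (by simp [hj2])
        omega
      simp [hd 1 (by decide), hd 0 (by decide)]

end Vale.Agent.P202.Char
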