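import Vale.Agent.P202.Char.Reduction

/-!
P202, Lech in characteristic `p`: modules killed by a power of `z 0` have small growth.
-/

namespace Vale.Agent.P202.Char

open IsLocalRing Filter Topology MvPolynomial

universe u v w

namespace Red

variable {R : Type u} [CommRing R] [IsLocalRing R] {n : ℕ} (Z : RedData R n)

theorem length_le_of_ker {A : Type u} [CommRing A] {M N P : Type*} [AddCommGroup M]
    [AddCommGroup N] [AddCommGroup P] [Module A M] [Module A N] [Module A P] {p : Submodule A M}
    (f : p →ₗ[A] N) (g : p →ₗ[A] P) (hf : Function.Surjective f)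
    (h : LinearMap.ker g ≤ LinearMap.ker f) : Module.length A N ≤ Module.length A P := by
  have h1 : Function.Surjective ((LinearMap.ker g).liftQ f h) := by
    rw [← LinearMap.range_eq_top, Submodule.range_liftQ, LinearMap.range_eq_top.2 hf]
  refine (Module.length_le_of_surjective _ h1).trans ?_
  rw [g.quotKerEquivRange.length_eq]
  exact Module.length_le_of_injective (LinearMap.range g).subtype Subtype.val_injective

/-- Homogeneous tuples supported on `S`. -/
noncomputable def homS (S : Finset Z.ι) (N : ℕ) :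
    Submodule R (Z.ι →₀ MvPolynomial (Fin (n + 1)) R) :=
  hom R (Fin (n + 1)) Z.δ N ⊓
    (Finsupp.supported (MvPolynomial (Fin (n + 1)) R) (MvPolynomial (Fin (n + 1)) R)
      (S : Set Z.ι)).restrictScalars R

theorem homS_slot {S : Finset Z.ι} {N : ℕ} (q : homS Z S N) (s : S) :
    MvPolynomial.map (residue R) ((q : Z.ι →₀ MvPolynomial (Fin (n + 1)) R) s) ∈
      slot (ResidueField R) (Fin (n + 1)) (Z.δ s) N :=
  mem_slot.2 fun c hc => q.2.1 s c fun h0 => hc (by rw [coeff_map, h0, map_zero])

/-- Residues of the coordinates on `S`. -/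
noncomputable def resS (S : Finset Z.ι) (N : ℕ) :
    homS Z S N →ₗ[R] ∀ s : S, slot (ResidueField R) (Fin (n + 1)) (Z.δ s) N :=
  LinearMap.pi fun s =>
    ((Finsupp.lapply (s : Z.ι)) ∘ₗ red Z ∘ₗ (homS Z S N).subtype).codRestrict
      ((slot (ResidueField R) (Fin (n + 1)) (Z.δ s) N).restrictScalars R)
      fun q => homS_slot Z q s

theorem resS_surjective (S : Finset Z.ι) (N : ℕ) : Function.Surjective (resS Z S N) := by
  classical
  intro c
  obtain ⟨q, hq, hq'⟩ := exists_lift_hom Z (onS Z S N c).2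
  refine ⟨⟨q.filter (· ∈ S), fun i d hd => hq i d fun h0 => hd ?_, ?_⟩, funext fun s => ?_⟩
  · rw [Finsupp.filter_apply]
    split_ifs
    · exact h0
    · rfl
  · exact (Finsupp.mem_supported' _ _).2 fun i hi => Finsupp.filter_apply_neg _ _ (by simpa using hi)
  · refine Subtype.ext ?_
    have h1 := DFunLike.congr_fun hq' (s : Z.ι)
    rw [onS_apply, dif_pos s.2] at h1
    rw [← h1]
    show red Z (q.filter (· ∈ S)) (s : Z.ι) = red Z q (s : Z.ι)
    rw [red_apply, red_apply, Finsupp.filter_apply_pos _ _ s.2]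

theorem cum_le_length_colon [IsNoetherianRing R] [DecidableEq Z.ι] {S : Finset Z.ι}
    {g : MvPolynomial (Fin (n + 1)) (ResidueField R)} {γ : ℕ} (h : IsBasisData Z S g γ)
    (L J : ℕ) : ∀ N : ℕ, N + L ≤ J →
      ((∑ j ∈ Finset.range N, ∑ i ∈ S, cnt n (Z.δ i) j : ℕ) : ℕ∞) ≤
        Module.length R (R ⧸ (Submodule.comap (LinearMap.mulLeft R (Z.z 0 ^ L))
          (maximalIdeal R ^ J) ⊔ maximalIdeal R ^ N : Ideal R)) := by
  intro N
  induction N with
  | zero => simp
  | succ N ih =>
    intro hN
    set a := Z.z 0 ^ L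
    set K : Ideal R := Submodule.comap (LinearMap.mulLeft R a) (maximalIdeal R ^ J)
    set B : Ideal R := K ⊔ maximalIdeal R ^ (N + 1)
    set f : (↥(maximalIdeal R ^ N) ⧸ Submodule.comap (maximalIdeal R ^ N).subtype B) →ₗ[R] R ⧸ B :=
      Submodule.mapQ _ _ (maximalIdeal R ^ N).subtype le_rfl
    have hf : Function.Injective f := by
      rw [injective_iff_map_eq_zero]
      intro y hy
      obtain ⟨x, rfl⟩ := Submodule.Quotient.mk_surjective _ y
      exact (Submodule.Quotient.mk_eq_zero _).2 ((Submodule.Quotient.mk_eq_zero _).1 hy :)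
    set g' : (R ⧸ B) →ₗ[R] R ⧸ (K ⊔ maximalIdeal R ^ N : Ideal R) :=
      Submodule.factor (sup_le_sup_left (Ideal.pow_le_pow_right (Nat.le_succ N)) K)
    have hexact : Function.Exact f g' := by
      intro y
      obtain ⟨x, rfl⟩ := Submodule.Quotient.mk_surjective _ y
      refine ⟨fun h => ?_, ?_⟩
      · obtain ⟨k, hk, m, hm, hkm⟩ := Submodule.mem_sup.1 ((Submodule.Quotient.mk_eq_zero _).1 h :)
        refine ⟨Submodule.Quotient.mk ⟨m, hm⟩, (Submodule.Quotient.eq B).2 ?_⟩
        show m - x ∈ B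
        rw [show x = k + m from hkm.symm, sub_add_cancel_right]
        exact Submodule.mem_sup_left (neg_mem hk)
      · rintro ⟨y, hy⟩
        obtain ⟨z, rfl⟩ := Submodule.Quotient.mk_surjective _ y
        rw [← hy]
        exact (Submodule.Quotient.mk_eq_zero _).2 (Submodule.mem_sup_right z.2)
    rw [Module.length_eq_add_of_exact f g' hf (Submodule.factor_surjective _) hexact,
      Finset.sum_range_succ, Nat.cast_add, add_comm]
    refine add_le_add ?_ (ih (by omega))
    have := fun i => slot_finite (R := R) (n := n) (Z.δ i) N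
    have hlen : ((∑ i ∈ S, cnt n (Z.δ i) N : ℕ) : ℕ∞) =
        Module.length R (∀ s : S, slot (ResidueField R) (Fin (n + 1)) (Z.δ s) N) := by
      rw [Module.length_eq_of_surjective (R := ResidueField R) (S := R) residue_surjective,
        Module.length_eq_finrank, finrank_pi_slot, Finset.sum_coe_sort S fun i => cnt n (Z.δ i) N]
    rw [hlen]
    refine length_le_of_ker (resS Z S N) ((Submodule.comap (maximalIdeal R ^ N).subtype B).mkQ ∘ₗ
      (ev0 Z ∘ₗ (homS Z S N).subtype).codRestrict (maximalIdeal R ^ N)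
        fun q => ev0_mem_pow Z q.2.1) (resS_surjective Z S N) fun q hq => ?_
    rw [LinearMap.mem_ker, LinearMap.comp_apply, Submodule.mkQ_apply] at hq
    have hB : ev0 Z (q : Z.ι →₀ MvPolynomial (Fin (n + 1)) R) ∈ B := ((Submodule.Quotient.mk_eq_zero _).1 hq :)
    obtain ⟨k, hk, m, hm, hkm⟩ := Submodule.mem_sup.1 hB
    have ha : a ∈ maximalIdeal R ^ L := Ideal.pow_mem_pow (Z.z_mem 0) L
    have hev : a * ev0 Z (q : Z.ι →₀ MvPolynomial (Fin (n + 1)) R) ∈ maximalIdeal R ^ (N + L + 1) := by
      rw [← hkm, mul_add]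
      refine add_mem (Ideal.pow_le_pow_right (by omega) hk) ?_
      have := Ideal.mul_mem_mul ha hm
      rwa [← pow_add, show L + (N + 1) = N + L + 1 by omega] at this
    set q' := (X 0 : MvPolynomial (Fin (n + 1)) R) ^ L • (q : Z.ι →₀ MvPolynomial (Fin (n + 1)) R) with hq'
    have hmem : q' ∈ hom R (Fin (n + 1)) Z.δ (N + L) := by
      intro i c hc
      rw [hq', Finsupp.smul_apply, smul_eq_mul] at hc
      obtain ⟨c₁, h1, c₂, h2, rfl⟩ := Finset.mem_add.1 (support_mul _ _ (mem_support_iff.2 hc))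
      rw [X_pow_eq_monomial] at h1
      obtain rfl := Finset.mem_singleton.1 (support_monomial_subset h1)
      have := q.2.1 i c₂ (mem_support_iff.1 h2)
      rw [map_add, Finsupp.degree_single]
      omega
    have hrel : red Z q' ∈ W Z := Submodule.subset_span ((mem_grRel Z).2
      ⟨N + L, q', hmem, rfl, by
        rwa [hq', ev0, evt_smul, map_pow, aeval_X]⟩)
    have hsupp : red Z q' ∈ Finsupp.supported (MvPolynomial (Fin (n + 1)) (ResidueField R))
        (MvPolynomial (Fin (n + 1)) (ResidueField R)) (S : Set Z.ι) := by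
      rw [Finsupp.mem_supported']
      intro i hi
      rw [red_apply, hq', Finsupp.smul_apply, (Finsupp.mem_supported' _ _).1 q.2.2 i hi]
      simp
    have h0 := h.2.2.1 _ hsupp hrel
    rw [LinearMap.mem_ker]
    refine funext fun s => Subtype.ext ?_
    have h1 := DFunLike.congr_fun h0 (s : Z.ι)
    rw [red_apply, hq', Finsupp.smul_apply, smul_eq_mul, map_mul, map_pow, map_X,
      Finsupp.zero_apply, mul_eq_zero] at h1
    exact h1.resolve_left (pow_ne_zero _ (X_ne_zero _))

end Red

/-- A module killed by a power of `z 0` is small. -/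
theorem small_of_killed {R : Type u} [CommRing R] [IsLocalRing R] [IsNoetherianRing R] {n : ℕ}
    (Z : RedData R n) {e : ℝ} (he : IsMultiplicity R (n + 1) e)
    (M : Type u) [AddCommGroup M] [Module R M] [Module.Finite R M] (L : ℕ)
    (h : ∀ x : M, Z.z 0 ^ L • x = 0) :
    Tendsto (fun j : ℕ => (len R (M ⧸ maximalIdeal R ^ j • (⊤ : Submodule R M)) : ℝ) /
      (j : ℝ) ^ (n + 1)) atTop (𝓝 0) := by
  classical
  obtain ⟨S, g, γ, hB⟩ := Red.exists_basisData Z
  have hcard : (S.card : ℝ) = e := tendsto_nhds_unique (Red.multiplicity_eq_card Z hB) he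
  set a := Z.z 0 ^ L
  obtain ⟨t, v, hv⟩ := Module.Finite.exists_fin (R := R) (M := M)
  set A : ℕ → Ideal R := fun j => Ideal.span {a} ⊔ maximalIdeal R ^ j
  set len' : Ideal R → ℕ := fun I => (Module.length R (R ⧸ I)).toNat
  have hfinA : ∀ j, Module.length R (R ⧸ A j) ≠ ⊤ := fun j =>
    length_quotient_ne_top _ j le_sup_right
  have hM : ∀ j, len R (M ⧸ maximalIdeal R ^ j • (⊤ : Submodule R M)) ≤ t * len' (A j) := by
    intro j
    set U := maximalIdeal R ^ j • (⊤ : Submodule R M)
    have hker : ∀ i, A j ≤ LinearMap.ker (U.mkQ ∘ₗ LinearMap.toSpanSingleton R M (v i)) := by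
      intro i
      refine sup_le ((Ideal.span_singleton_le_iff_mem _).2 ?_) fun r hr => ?_
      · simp [a, h]
      · simp only [LinearMap.mem_ker, LinearMap.comp_apply, LinearMap.toSpanSingleton_apply,
          Submodule.mkQ_apply, Submodule.Quotient.mk_eq_zero]
        exact Submodule.smul_mem_smul hr trivial
    let q : (Fin t → R ⧸ A j) →ₗ[R] M ⧸ U :=
      ∑ i, (A j).liftQ _ (hker i) ∘ₗ LinearMap.proj i
    have hq : Function.Surjective q := by
      rw [← LinearMap.range_eq_top, eq_top_iff, ← Submodule.range_mkQ U, LinearMap.range_eq_map,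
        ← hv, Submodule.map_span, Submodule.span_le]
      rintro _ ⟨_, ⟨i, rfl⟩, rfl⟩
      refine ⟨Pi.single i (Submodule.Quotient.mk 1), ?_⟩
      simp only [q, LinearMap.coe_sum, Finset.sum_apply, LinearMap.comp_apply, LinearMap.proj_apply]
      rw [Finset.sum_eq_single i (fun l _ hl => by simp [Pi.single_eq_of_ne hl]) (by simp),
        Pi.single_eq_same, Submodule.liftQ_apply]
      simp
    have h1 := Module.length_le_of_surjective q hq
    simp only [Module.length_pi_of_fintype, Finset.sum_const, Finset.card_univ, Fintype.card_fin,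
      nsmul_eq_mul] at h1
    have h2 := ENat.toNat_le_toNat h1 (WithTop.mul_ne_top (ENat.natCast_ne_top _) (hfinA j))
    simpa [len, len', ENat.toNat_mul] using h2
  have hA : ∀ N, len' (A (N + L)) + ∑ i ∈ S, Red.cum n (Z.δ i) N ≤
      len' (maximalIdeal R ^ (N + L)) := by
    intro N
    set K : Ideal R := Submodule.comap (LinearMap.mulLeft R a) (maximalIdeal R ^ (N + L))
    let f : (R ⧸ K) →ₗ[R] R ⧸ maximalIdeal R ^ (N + L) :=
      Submodule.mapQ _ _ (LinearMap.mulLeft R a) le_rfl
    let g : (R ⧸ maximalIdeal R ^ (N + L)) →ₗ[R] R ⧸ A (N + L) := Submodule.factor le_sup_right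
    have hf : Function.Injective f := by
      rw [injective_iff_map_eq_zero]
      intro y hy
      obtain ⟨x, rfl⟩ := Submodule.Quotient.mk_surjective _ y
      exact (Submodule.Quotient.mk_eq_zero _).2 ((Submodule.Quotient.mk_eq_zero _).1 hy :)
    have hexact : Function.Exact f g := by
      intro y
      obtain ⟨x, rfl⟩ := Submodule.Quotient.mk_surjective _ y
      refine ⟨fun h => ?_, ?_⟩
      · obtain ⟨k, hk, m, hm, hkm⟩ := Submodule.mem_sup.1 ((Submodule.Quotient.mk_eq_zero _).1 h :)
        obtain ⟨c, rfl⟩ := Ideal.mem_span_singleton'.1 hk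
        refine ⟨Submodule.Quotient.mk c, (Submodule.Quotient.eq _).2 ?_⟩
        show a * c - x ∈ maximalIdeal R ^ (N + L)
        rw [show x = c * a + m from hkm.symm, show a * c - (c * a + m) = -m by ring]
        exact neg_mem hm
      · rintro ⟨y, hy⟩
        obtain ⟨z, rfl⟩ := Submodule.Quotient.mk_surjective _ y
        rw [← hy]
        exact (Submodule.Quotient.mk_eq_zero _).2 (Submodule.mem_sup_left
          (Ideal.mem_span_singleton'.2 ⟨z, mul_comm _ _⟩))
    have h1 := Module.length_eq_add_of_exact f g hf (Submodule.factor_surjective _) hexact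
    have h2 := Red.cum_le_length_colon Z hB L (N + L) N le_rfl
    have h3 : Module.length R (R ⧸ (K ⊔ maximalIdeal R ^ N : Ideal R)) ≤ Module.length R (R ⧸ K) :=
      Module.length_le_of_surjective (Submodule.factor le_sup_left) (Submodule.factor_surjective _)
    have hfin := length_quotient_ne_top (maximalIdeal R ^ (N + L)) (N + L) le_rfl
    rw [h1] at hfin
    have h4 := ENat.toNat_le_toNat (h2.trans h3) (fun h => hfin (by rw [h, top_add]))
    rw [ENat.toNat_natCast, Finset.sum_comm] at h4
    simp only [len']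
    rw [h1, ENat.toNat_add (fun h => hfin (by rw [h, top_add])) (hfinA _), add_comm]
    exact Nat.add_le_add_right h4 _
  -- the shifted sequences
  rw [← tendsto_add_atTop_iff_nat L]
  have hu : Tendsto (fun N : ℕ => ((n + 1).factorial : ℝ) *
      (len' (maximalIdeal R ^ (N + L)) : ℝ) / ((N + L : ℕ) : ℝ) ^ (n + 1)) atTop (𝓝 e) :=
    he.comp (tendsto_add_atTop_nat L)
  have hl : Tendsto (fun N : ℕ => ((n + 1).factorial : ℝ) *
      ((∑ i ∈ S, Red.cum n (Z.δ i) N : ℕ) : ℝ) / ((N + L : ℕ) : ℝ) ^ (n + 1)) atTop (𝓝 e) := by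
    have h2 : Tendsto (fun N : ℕ => ((N : ℝ) / (N + L)) ^ (n + 1)) atTop (𝓝 1) := by
      simpa using (tendsto_natCast_div_add_atTop (L : ℝ)).pow (n + 1)
    have := (Red.tendsto_sum_cum (n := n) S Z.δ).mul h2
    rw [hcard, mul_one] at this
    refine this.congr' ?_
    filter_upwards [eventually_ge_atTop 1] with N hN
    have : (0 : ℝ) < N := by exact_mod_cast hN
    rw [Nat.cast_add, div_pow]
    field_simp
  have h0 := (hu.sub hl).const_mul ((t : ℝ) / ((n + 1).factorial : ℝ))
  rw [sub_self, mul_zero] at h0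
  refine squeeze_zero (fun N => by positivity) (fun N => ?_) h0
  have hfac : (0 : ℝ) < ((n + 1).factorial : ℝ) := by positivity
  have h1 : (len R (M ⧸ maximalIdeal R ^ (N + L) • (⊤ : Submodule R M)) : ℝ) ≤
      t * ((len' (maximalIdeal R ^ (N + L)) : ℝ) - ((∑ i ∈ S, Red.cum n (Z.δ i) N : ℕ) : ℝ)) := by
    refine le_trans (Nat.cast_le.2 (hM _)) ?_
    rw [Nat.cast_mul]
    refine mul_le_mul_of_nonneg_left ?_ (Nat.cast_nonneg _)
    rw [le_sub_iff_add_le, ← Nat.cast_add, Nat.cast_le]
    exact hA N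
  refine le_trans (div_le_div_of_nonneg_right h1 (by positivity)) (le_of_eq ?_)
  field_simp

end Vale.Agent.P202.Char
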