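import Vale.Agent.P202.Char.KoszulSmall
import Vale.Agent.P202.Char.Small
import Vale.Agent.P202.Char.Complexes

/-!
P202, Lech in characteristic `p`: preparations for `exists_base`.
-/

namespace Vale.Agent.P202.Char

open IsLocalRing Filter Topology
open scoped TensorProduct

universe u v w

namespace Base

/-- A copy of `R`, the target of a Frobenius twist. -/
def Copy (R : Type u) : Type u := R

instance (R : Type u) [i : CommRing R] : CommRing (Copy R) := i

instance (R : Type u) [CommRing R] [i : IsLocalRing R] : IsLocalRing (Copy R) := i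

instance (R : Type u) [CommRing R] [i : IsNoetherianRing R] : IsNoetherianRing (Copy R) := i

/-- Nilpotent maximal ideals give multiplicity zero. -/
theorem eq_zero_of_pow_bot {R : Type u} [CommRing R] [IsLocalRing R] {n : ℕ} {e : ℝ}
    (he : IsMultiplicity R (n + 1) e) {c : ℕ} (h : maximalIdeal R ^ c = ⊥) : e = 0 := by
  refine tendsto_nhds_unique he ?_
  have : Tendsto (fun N : ℕ => ((n + 1).factorial : ℝ) *
      ((Module.length R (R ⧸ maximalIdeal R ^ c)).toNat : ℝ) / (N : ℝ) ^ (n + 1)) atTop (𝓝 0) :=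
    tendsto_const_nhds.div_atTop
      ((tendsto_pow_atTop (by omega)).comp tendsto_natCast_atTop_atTop)
  refine this.congr' ?_
  filter_upwards [eventually_ge_atTop c] with N hN
  rw [show maximalIdeal R ^ N = maximalIdeal R ^ c from
    le_antisymm (Ideal.pow_le_pow_right hN) (h ▸ bot_le)]

variable {R S : Type u} [CommRing R] [CommRing S] [IsLocalRing R] [IsLocalRing S]
  [IsNoetherianRing R] [Algebra R S] [IsLocalHom (algebraMap R S)]

omit [IsNoetherianRing R] in
omit [IsLocalHom (algebraMap R S)] in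
theorem exists_pow_le_map [IsNoetherianRing S] [Module.Finite R S] :
    ∃ c, maximalIdeal S ^ c ≤ (maximalIdeal R).map (algebraMap R S) := by
  refine Ideal.exists_pow_le_of_le_radical_of_fg ?_ (IsNoetherian.noetherian _)
  rw [Ideal.radical_eq_sInf]
  refine le_sInf ?_
  rintro Q ⟨hQ, hQp⟩
  have h1 : Q.comap (algebraMap R S) = maximalIdeal R :=
    ((IsLocalRing.maximalIdeal.isMaximal R).eq_of_le (hQp.comap _).ne_top
      (Ideal.map_le_iff_le_comap.1 hQ)).symm
  have : Q.IsMaximal := Ideal.isMaximal_of_isIntegral_of_isMaximal_comap (R := R) Q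
    (h1 ▸ IsLocalRing.maximalIdeal.isMaximal R)
  exact (IsLocalRing.eq_maximalIdeal this).ge

omit [IsNoetherianRing R] in
theorem ne_zero_of_ne_zero [IsNoetherianRing S] [Module.Finite R S] [Module.Free R S] {n : ℕ}
    {e e' : ℝ} (he : IsMultiplicity R (n + 1) e) (he' : IsMultiplicity S (n + 1) e')
    (h0 : e ≠ 0) : e' ≠ 0 := by
  obtain ⟨c, hc⟩ := exists_pow_le_map (R := R) (S := S)
  intro he0
  refine h0 (le_antisymm ?_ (ge_of_tendsto' he fun N => by positivity))
  have h1 : ∀ N, (Module.length R (R ⧸ maximalIdeal R ^ N)).toNat ≤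
      (Module.length S (S ⧸ maximalIdeal S ^ ((c + 1) * N))).toNat := by
    intro N
    refine ENat.toNat_le_toNat ?_ (length_quotient_ne_top _ _ le_rfl)
    have h2 : (1 : ℕ∞) ≤ Module.length S (S ⧸ (maximalIdeal R).map (algebraMap R S)) := by
      rw [Order.one_le_iff_pos, Module.length_pos_iff]
      exact Ideal.Quotient.nontrivial_iff.2 (IsLocalRing.map_maximalIdeal_lt_top _).ne
    calc Module.length R (R ⧸ maximalIdeal R ^ N)
        ≤ Module.length R (R ⧸ maximalIdeal R ^ N) *
            Module.length S (S ⧸ (maximalIdeal R).map (algebraMap R S)) :=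
          le_mul_of_one_le_right' h2
      _ = Module.length S (S ⧸ (maximalIdeal R).map (algebraMap R S) ^ N) := (length_map N).symm
      _ ≤ _ := by
          refine length_quotient_mono ?_
          rw [pow_mul]
          exact Ideal.pow_right_mono ((Ideal.pow_le_pow_right (Nat.le_succ c)).trans hc) N
  have h3 : Tendsto (fun N : ℕ => ((n + 1).factorial : ℝ) *
      ((Module.length S (S ⧸ maximalIdeal S ^ ((c + 1) * N))).toNat : ℝ) / (N : ℝ) ^ (n + 1))
      atTop (𝓝 0) := by
    have h4 : Tendsto (fun N : ℕ => (c + 1) * N) atTop atTop :=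
      tendsto_id.const_mul_atTop' (by omega)
    have h5 := (he'.comp h4).mul_const (((c + 1 : ℕ) : ℝ) ^ (n + 1))
    rw [he0, zero_mul] at h5
    refine h5.congr' ?_
    filter_upwards [eventually_ge_atTop 1] with N hN
    have hN' : (0 : ℝ) < N := by exact_mod_cast hN
    simp only [Function.comp_apply, Nat.cast_mul, mul_pow]
    field_simp
  exact le_of_tendsto_of_tendsto' he h3 fun N => div_le_div_of_nonneg_right
    (mul_le_mul_of_nonneg_left (Nat.cast_le.2 (h1 N)) (Nat.cast_nonneg _)) (by positivity)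

theorem exists_not_nilpotent {n : ℕ} {e : ℝ} (he : IsMultiplicity R (n + 1) e) (h0 : e ≠ 0) :
    ∃ r ∈ maximalIdeal R, ¬ IsNilpotent r := by
  by_contra h
  push Not at h
  obtain ⟨c, hc⟩ := Ideal.exists_pow_le_of_le_radical_of_fg (I := (maximalIdeal R)) (J := ⊥)
    (fun r hr => by obtain ⟨m, hm⟩ := h r hr; exact ⟨m, by simp [hm]⟩) (IsNoetherian.noetherian _)
  exact h0 (eq_zero_of_pow_bot he (le_bot_iff.1 hc))

omit [IsNoetherianRing R] [IsLocalRing R] [IsLocalRing S] [Algebra R S]
  [IsLocalHom (algebraMap R S)] in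
theorem chi_congr {T : Type v} [AddCommGroup T] [Module R T] (C : GC R T) {T' : Type w}
    [AddCommGroup T'] [Module R T'] (C' : GC R T') (s : Finset ℤ)
    (h : ∀ j, Module.length R (C.H ⊥ ⊤ j) = Module.length R (C'.H ⊥ ⊤ j)) :
    ((∀ j, C.FinH ⊥ ⊤ j) ↔ ∀ j, C'.FinH ⊥ ⊤ j) ∧ C.chi s ⊥ ⊤ = C'.chi s ⊥ ⊤ :=
  ⟨by simp only [GC.FinH, h], Finset.sum_congr rfl fun j _ => by simp only [GC.h, len, h]⟩

omit [IsNoetherianRing R] in
/-- Koszul homology in degree `0` of the fibre surjects onto the residue field. -/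
theorem length_residue_le {d : ℕ} (x : Fin d → S) (hx : ∀ j, x j ∈ maximalIdeal S) :
    Module.length R (ResidueField S) ≤
      Module.length R ((koszulGC R x (S ⊗[R] ResidueField R)).H ⊥ ⊤ (0 : ℤ)) := by
  classical
  set C := koszulGC R x (S ⊗[R] ResidueField R)
  let φ : S ⊗[R] ResidueField R →ₗ[S] ResidueField S :=
    TensorProduct.AlgebraTensorModule.lift
      { toFun := fun s =>
          s • ((IsScalarTower.toAlgHom R (ResidueField R) (ResidueField S)).toLinearMap)
        map_add' := fun a b => add_smul a b _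
        map_smul' := fun a b => mul_smul a b _ }
  have hφ : ∀ (s : S) (a : ResidueField R),
      φ (s ⊗ₜ a) = s • algebraMap (ResidueField R) (ResidueField S) a := fun s a => rfl
  let ψ : C.cyc ⊥ ⊤ 0 →ₗ[R] ResidueField S :=
    φ.restrictScalars R ∘ₗ LinearMap.proj (∅ : Finset (Fin d)) ∘ₗ (C.cyc ⊥ ⊤ 0).subtype
  have hψ : (C.bd ⊥ ⊤ 0).comap (C.cyc ⊥ ⊤ 0).subtype ≤ LinearMap.ker ψ := by
    rintro ⟨v, hv⟩ hb
    obtain ⟨_, ⟨w, -, rfl⟩, z, hz, hwz⟩ := Submodule.mem_sup.1 hb
    obtain rfl : z = 0 := hz.1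
    rw [add_zero] at hwz
    show φ (v ∅) = 0
    rw [show v = koszulD x _ w from hwz.symm, koszulD_apply, map_sum]
    refine Finset.sum_eq_zero fun j _ => ?_
    rw [map_smul, Algebra.smul_def, IsLocalRing.ResidueField.algebraMap_eq, map_zsmul,
      (residue_eq_zero_iff _).2 (hx j), smul_zero, zero_mul]
  refine Module.length_le_of_surjective (Submodule.liftQ _ ψ hψ) fun y => ?_
  obtain ⟨s, rfl⟩ := residue_surjective y
  set v : Finset (Fin d) → S ⊗[R] ResidueField R := Pi.single ∅ (s ⊗ₜ 1)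
  have hv : v ∈ C.cyc ⊥ ⊤ 0 := by
    refine ⟨⟨trivial, mem_koszulDeg.2 fun t ht => Pi.single_eq_of_ne ?_ _⟩, ?_⟩
    · rintro rfl; simp at ht
    · show koszulD x _ v = 0
      funext t
      rw [koszulD_apply]
      exact Finset.sum_eq_zero fun j _ => by
        simp only [v, Pi.single_eq_of_ne (Finset.insert_ne_empty _ _), smul_zero]
  refine ⟨Submodule.Quotient.mk ⟨v, hv⟩, ?_⟩
  show φ (v ∅) = residue S s
  rw [show v ∅ = s ⊗ₜ[R] 1 from Pi.single_eq_same _ _, hφ, map_one, Algebra.smul_def, mul_one]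
  rfl

variable [Module.Finite R S] [Module.Free R S]

omit [IsLocalRing S] [IsLocalHom (algebraMap R S)] in
/-- Small modules are killed by the Frobenius twists. -/
theorem small_twist (p : ℕ) [Fact p.Prime] [CharP R p] (k : ℕ) {d : ℕ} (x : Fin d → S)
    {c : ℕ} (hc : ∀ r ∈ maximalIdeal R, algebraMap R S (r ^ c) ∈ Ideal.span (Set.range x))
    (P : MCx R)
    (hP : ∀ (R' : Type u) [CommRing R'] [Algebra R R'] (N : Type u) [AddCommGroup N] [Module R' N]
        (n : ℤ), Module.length R' (((P.map (algebraMap R R')).gc N).H ⊥ ⊤ n) =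
          Module.length R' ((koszulGC R'
            (fun j => (1 : R') ⊗ₜ[R] x j) ((R' ⊗[R] S) ⊗[R'] N)).H ⊥ ⊤ n))
    (M : Type u) [AddCommGroup M] [Module R M] [Module.Finite R M]
    (hM : Tendsto (fun j : ℕ => (len R (M ⧸ maximalIdeal R ^ j • (⊤ : Submodule R M)) : ℝ) /
      (j : ℝ) ^ d) atTop (𝓝 0)) :
    (∀ j, ((P.map (iterateFrobenius R p k)).gc M).FinH ⊥ ⊤ j) ∧
      ((P.map (iterateFrobenius R p k)).gc M).chi (Finset.Icc 0 (d : ℤ)) ⊥ ⊤ = 0 := by
  let φ : R →+* Copy R := iterateFrobenius R p k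
  let := φ.toAlgebra
  let : Module (Copy R) M := ‹Module R M›
  have : Module.Finite (Copy R) M := ‹Module.Finite R M›
  have hx' : ∃ N, (maximalIdeal (Copy R)).map (algebraMap (Copy R) (Copy R ⊗[R] S)) ^ N ≤
      Ideal.span (Set.range fun j => (1 : Copy R) ⊗ₜ[R] x j) := by
    have : IsNoetherianRing (Copy R ⊗[R] S) := IsNoetherianRing.of_finite (Copy R) _
    refine Ideal.exists_pow_le_of_le_radical_of_fg ?_ (IsNoetherian.noetherian _)
    rw [Ideal.map_le_iff_le_comap]
    intro a ha
    refine ⟨p ^ k * c, ?_⟩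
    have e0 : ∀ r : R, r ^ (p ^ k * c) = iterateFrobenius R p k (r ^ c) := fun r => by
      rw [iterateFrobenius_def, ← pow_mul, mul_comm c]
    have e1 : (a : Copy R) ^ (p ^ k * c) = algebraMap R (Copy R) (show R from a ^ c) := e0 a
    rw [← map_pow, e1, ← IsScalarTower.algebraMap_apply R (Copy R) (Copy R ⊗[R] S),
      ← (Algebra.TensorProduct.includeRight : S →ₐ[R] Copy R ⊗[R] S).commutes]
    have := Ideal.mem_map_of_mem
      (Algebra.TensorProduct.includeRight : S →ₐ[R] Copy R ⊗[R] S) (hc a ha)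
    rw [Ideal.map_span, ← Set.range_comp] at this
    exact this
  exact chi_small (R := Copy R) (S := Copy R ⊗[R] S) (fun j => (1 : Copy R) ⊗ₜ[R] x j) hx'
    (P.map (algebraMap R (Copy R))) (fun N _ _ n => hP (Copy R) N n) M hM

end Base

end Vale.Agent.P202.Char
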