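import Vale.Agent.P202.Char.GC

/-!
P202, Lech in characteristic `p`: a matrix complex applied to a complex, filtered by canonical
truncation of the inner complex: the Euler characteristic is the alternating sum of those of the
matrix complex on the homology.
-/

namespace Vale.Agent.P202.Char

universe u v

namespace Bic

variable {R : Type u} [CommRing R] {F : Type v} [AddCommGroup F] [Module R F]

theorem length_H_eq_zero {T : Type v} [AddCommGroup T] [Module R T] (C : GC R T)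
    {X Y : Submodule R T} {k : ℤ} (h : C.cyc X Y k ≤ C.bd X Y k) :
    Module.length R (C.H X Y k) = 0 := by
  have : Subsingleton (C.H X Y k) :=
    Submodule.Quotient.subsingleton_iff.2 (eq_top_iff.2 fun x _ => h x.2)
  exact Module.length_eq_zero

/-- A matrix complex applied to a complex. -/
noncomputable def bic (Q : MCx R) (C : GC R F) : GC R (Q.β → F) where
  D := LinearMap.pi fun b => (∑ b', Q.D b b' • LinearMap.proj b') +
    ((-1 : R) ^ Q.deg b) • (C.D ∘ₗ LinearMap.proj b)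
  deg k := Submodule.pi Set.univ fun b => C.deg (k - Q.deg b)
  sq := by
    refine LinearMap.ext fun x => funext fun b => ?_
    have h2 : ∀ y, C.D (C.D y) = 0 := LinearMap.congr_fun C.sq
    have hsc : ∀ b', Q.D b b' * (-1 : R) ^ Q.deg b' + (-1) ^ Q.deg b * Q.D b b' = 0 := by
      intro b'
      by_cases hd : Q.D b b' = 0
      · simp [hd]
      · rw [Q.homog b b' hd, pow_succ]; ring
    have h1 := LinearMap.congr_fun (Q.gc F).sq x
    replace h1 := congrFun h1 b
    simp only [LinearMap.comp_apply, MCx.gc, MCx.dlin_apply, LinearMap.zero_apply,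
      Pi.zero_apply] at h1
    simp only [LinearMap.comp_apply, LinearMap.pi_apply, LinearMap.add_apply, LinearMap.coe_sum,
      Finset.sum_apply, LinearMap.smul_apply, LinearMap.proj_apply, smul_add, map_add, map_sum,
      map_smul, h2, smul_zero, add_zero, Finset.smul_sum, smul_smul, ← Finset.sum_add_distrib,
      LinearMap.zero_apply, Pi.zero_apply]
    simp only [add_assoc, ← add_smul, hsc, zero_smul, add_zero]
    simpa [Finset.smul_sum, smul_smul] using h1
  map_deg k := by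
    rintro _ ⟨x, hx, rfl⟩ b -
    simp only [SetLike.mem_coe, LinearMap.pi_apply, LinearMap.add_apply, LinearMap.coe_sum,
      Finset.sum_apply, LinearMap.smul_apply, LinearMap.comp_apply, LinearMap.proj_apply]
    refine Submodule.add_mem _ (Submodule.sum_mem _ fun b' _ => ?_) (Submodule.smul_mem _ _ ?_)
    · by_cases hd : Q.D b b' = 0
      · simp [hd]
      · have h := hx b' trivial
        simp only [SetLike.mem_coe, Q.homog b b' hd] at h
        refine Submodule.smul_mem _ _ ?_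
        convert h using 2
        push_cast; ring
    · have h := C.map_deg _ (Submodule.mem_map_of_mem (f := C.D) (hx b trivial))
      convert h using 2
      ring

theorem bic_apply (Q : MCx R) (C : GC R F) (x : Q.β → F) (b : Q.β) :
    (bic Q C).D x b = (∑ b', Q.D b b' • x b') + ((-1 : R) ^ Q.deg b) • C.D (x b) := by
  simp [bic]

theorem isSub_pi (Q : MCx R) (C : GC R F) {S : Submodule R F} (hS : C.IsSub S) :
    (bic Q C).IsSub (Submodule.pi Set.univ fun _ : Q.β => S) := by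
  rintro _ ⟨x, hx, rfl⟩ b -
  rw [SetLike.mem_coe, bic_apply]
  exact Submodule.add_mem _ (Submodule.sum_mem _ fun b' _ => Submodule.smul_mem _ _ (hx b' trivial))
    (Submodule.smul_mem _ _ (hS (Submodule.mem_map_of_mem (hx b trivial))))

theorem bic_deg_eq_bot (Q : MCx R) (C : GC R F) {d : ℕ} (hd : ∀ b, Q.deg b ≤ d) {lo : ℤ}
    (hC : ∀ j, j ∉ Finset.Icc lo 0 → C.deg j = ⊥) {k : ℤ} (hk : k ∉ Finset.Icc lo (d : ℤ)) :
    (bic Q C).deg k = ⊥ := by
  refine eq_bot_iff.2 fun x hx => (Submodule.mem_bot R).2 (funext fun b => ?_)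
  have h : x b ∈ C.deg (k - Q.deg b) := hx b trivial
  rw [hC, Submodule.mem_bot] at h
  · exact h
  · intro hm
    refine hk ?_
    rw [Finset.mem_Icc] at hm ⊢
    have := hd b
    omega

/-- Projections onto the degrees. -/
structure Dec (C : GC R F) (lo : ℤ) where
  π : ℤ → F →ₗ[R] F
  mem : ∀ j y, π j y ∈ C.deg j
  same : ∀ j, ∀ y ∈ C.deg j, π j y = y
  other : ∀ i j, i ≠ j → ∀ y ∈ C.deg i, π j y = 0
  total : ∀ y, y = ∑ j ∈ Finset.Icc lo 0, π j y
  bound : ∀ j, j ∉ Finset.Icc lo 0 → C.deg j = ⊥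

variable (C : GC R F) {lo : ℤ} (P : Dec C lo) (X Y : Submodule R F)

theorem Dec.comm (j : ℤ) (y : F) : P.π j (C.D y) = C.D (P.π (j + 1) y) := by
  have hm : ∀ i, C.D (P.π i y) ∈ C.deg (i - 1) := fun i =>
    C.map_deg i (Submodule.mem_map_of_mem (P.mem i y))
  conv_lhs => rw [P.total y]
  rw [map_sum, map_sum, Finset.sum_eq_single (j + 1)]
  · exact P.same _ _ (by simpa using hm (j + 1))
  · intro i _ hi
    exact P.other (i - 1) j (by omega) _ (hm i)
  · intro h
    have := P.mem (j + 1) y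
    rw [P.bound _ h, Submodule.mem_bot] at this
    simp [this]

/-- Cycles in degree `l`, relations below. -/
noncomputable def tau (l : ℤ) : Submodule R F :=
  Y ⊓ (C.cyc X Y l).comap (P.π l) ⊓ ⨅ (j : ℤ) (_ : j < l), X.comap (P.π j)

/-- Boundaries in degree `l`, relations below. -/
noncomputable def tauB (l : ℤ) : Submodule R F :=
  Y ⊓ (C.bd X Y l).comap (P.π l) ⊓ ⨅ (j : ℤ) (_ : j < l), X.comap (P.π j)

variable {C P X Y}

theorem mem_tau {l : ℤ} {y : F} :
    y ∈ tau C P X Y l ↔ y ∈ Y ∧ P.π l y ∈ C.cyc X Y l ∧ ∀ j < l, P.π j y ∈ X := by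
  simp [tau, and_assoc]

theorem mem_tauB {l : ℤ} {y : F} :
    y ∈ tauB C P X Y l ↔ y ∈ Y ∧ P.π l y ∈ C.bd X Y l ∧ ∀ j < l, P.π j y ∈ X := by
  simp [tauB, and_assoc]

variable (hX : C.IsSub X) (hY : C.IsSub Y) (hXY : X ≤ Y)

include hX hY hXY in
theorem bd_le_cyc (l : ℤ) : C.bd X Y l ≤ C.cyc X Y l := by
  refine sup_le ?_ fun y hy => ⟨⟨hXY hy.1, hy.2⟩, hX (Submodule.mem_map_of_mem hy.1)⟩
  rintro _ ⟨y, hy, rfl⟩
  refine ⟨⟨hY (Submodule.mem_map_of_mem hy.1), ?_⟩, ?_⟩
  · simpa using C.map_deg _ (Submodule.mem_map_of_mem (f := C.D) hy.2)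
  · show C.D (C.D y) ∈ X
    rw [show C.D (C.D y) = 0 from LinearMap.congr_fun C.sq y]
    exact Submodule.zero_mem _

/-- `Y` is closed under the projections. -/
def Closed (P : Dec C lo) (S : Submodule R F) : Prop := ∀ j, ∀ y ∈ S, P.π j y ∈ S

variable (cX : Closed P X) (cY : Closed P Y)

include hX hY hXY cX cY in
theorem tauB_isSub (l : ℤ) : C.IsSub (tauB C P X Y l) := by
  rintro _ ⟨y, hy, rfl⟩
  obtain ⟨hy, hl, hj⟩ := mem_tauB.1 hy
  refine mem_tauB.2 ⟨hY (Submodule.mem_map_of_mem hy), ?_, fun j hjl => ?_⟩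
  · rw [P.comm]
    exact Submodule.mem_sup_left (Submodule.mem_map_of_mem ⟨cY _ y hy, P.mem _ y⟩)
  · rw [P.comm]
    rcases eq_or_lt_of_le (show j + 1 ≤ l by omega) with h | h
    · rw [h]; exact (bd_le_cyc hX hY hXY l hl).2
    · exact hX (Submodule.mem_map_of_mem (hj _ h))

include hX hY hXY cX cY in
theorem tau_isSub (l : ℤ) : C.IsSub (tau C P X Y l) := by
  rintro _ ⟨y, hy, rfl⟩
  obtain ⟨hy, hl, hj⟩ := mem_tau.1 hy
  refine mem_tau.2 ⟨hY (Submodule.mem_map_of_mem hy), ?_, fun j hjl => ?_⟩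
  · rw [P.comm]
    exact bd_le_cyc hX hY hXY l
      (Submodule.mem_sup_left (Submodule.mem_map_of_mem ⟨cY _ y hy, P.mem _ y⟩))
  · rw [P.comm]
    rcases eq_or_lt_of_le (show j + 1 ≤ l by omega) with h | h
    · rw [h]; exact hl.2
    · exact hX (Submodule.mem_map_of_mem (hj _ h))

include hX hY hXY in
theorem tauB_le_tau (l : ℤ) : tauB C P X Y l ≤ tau C P X Y l :=
  fun y hy => by
    obtain ⟨h1, h2, h3⟩ := mem_tauB.1 hy
    exact mem_tau.2 ⟨h1, bd_le_cyc hX hY hXY l h2, h3⟩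

theorem tau_succ_le (l : ℤ) : tau C P X Y (l + 1) ≤ tauB C P X Y l := fun y hy => by
  obtain ⟨h1, -, h3⟩ := mem_tau.1 hy
  exact mem_tauB.2 ⟨h1, Submodule.mem_sup_right ⟨h3 l (by omega), P.mem _ y⟩,
    fun j hj => h3 j (by omega)⟩

include hY in
theorem tau_bot : tau C P X Y lo = Y ⊓ Y.comap (P.π lo) := by
  have hb : ∀ j, j < lo → C.deg j = ⊥ := fun j hj => P.bound j fun h => by
    rw [Finset.mem_Icc] at h; omega
  ext y
  refine ⟨fun h => ⟨(mem_tau.1 h).1, (mem_tau.1 h).2.1.1.1⟩, fun ⟨h1, h2⟩ =>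
    mem_tau.2 ⟨h1, ⟨⟨h2, P.mem _ y⟩, ?_⟩, fun j hj => ?_⟩⟩
  · have h := C.map_deg lo (Submodule.mem_map_of_mem (f := C.D) (P.mem lo y))
    rw [hb _ (by omega), Submodule.mem_bot] at h
    show C.D (P.π lo y) ∈ X
    rw [h]; exact Submodule.zero_mem _
  · have h := P.mem j y
    rw [hb j hj, Submodule.mem_bot] at h
    rw [h]; exact Submodule.zero_mem _

include hX hXY cX in
theorem tau_top : tau C P X Y 1 = X := by
  refine le_antisymm (fun y hy => ?_) fun y hy => mem_tau.2 ⟨hXY hy, ?_, fun j _ => cX j y hy⟩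
  · rw [P.total y]
    exact Submodule.sum_mem _ fun j hj => (mem_tau.1 hy).2.2 j (by
      rw [Finset.mem_Icc] at hj; omega)
  · exact ⟨⟨hXY (cX _ y hy), P.mem _ y⟩, hX (Submodule.mem_map_of_mem (cX _ y hy))⟩

/-- On elements of degree `j`. -/
theorem tau_deg {l j : ℤ} {y : F} (hy : y ∈ C.deg j) (h : y ∈ tau C P X Y l) :
    (j < l → y ∈ X) ∧ (j = l → y ∈ C.cyc X Y l) := by
  obtain ⟨-, h2, h3⟩ := mem_tau.1 h
  exact ⟨fun hj => by simpa [P.same j y hy] using h3 j hj,
    fun hj => by subst hj; rwa [P.same j y hy] at h2⟩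

theorem tauB_deg {l j : ℤ} {y : F} (hy : y ∈ C.deg j) (h : y ∈ tauB C P X Y l) :
    (j < l → y ∈ X) ∧ (j = l → y ∈ C.bd X Y l) := by
  obtain ⟨-, h2, h3⟩ := mem_tauB.1 h
  exact ⟨fun hj => by simpa [P.same j y hy] using h3 j hj,
    fun hj => by subst hj; rwa [P.same j y hy] at h2⟩

theorem mem_tau_of_deg {l j : ℤ} {y : F} (hy : y ∈ C.deg j) (h1 : y ∈ Y) (h2 : j < l → y ∈ X)
    (h3 : j = l → y ∈ C.cyc X Y l) : y ∈ tau C P X Y l := by
  refine mem_tau.2 ⟨h1, ?_, fun i hi => ?_⟩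
  · by_cases h : j = l
    · subst h; rw [P.same _ y hy]; exact h3 rfl
    · rw [P.other j l h y hy]; exact Submodule.zero_mem _
  · by_cases h : j = i
    · subst h; rw [P.same _ y hy]; exact h2 hi
    · rw [P.other j i h y hy]; exact Submodule.zero_mem _

theorem mem_tauB_of_deg {l j : ℤ} {y : F} (hy : y ∈ C.deg j) (h1 : y ∈ Y) (h2 : j < l → y ∈ X)
    (h3 : j = l → y ∈ C.bd X Y l) : y ∈ tauB C P X Y l := by
  refine mem_tauB.2 ⟨h1, ?_, fun i hi => ?_⟩
  · by_cases h : j = l
    · subst h; rw [P.same _ y hy]; exact h3 rfl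
    · rw [P.other j l h y hy]; exact Submodule.zero_mem _
  · by_cases h : j = i
    · subst h; rw [P.same _ y hy]; exact h2 hi
    · rw [P.other j i h y hy]; exact Submodule.zero_mem _

variable (Q : MCx R)

/-- The same submodule on every column. -/
abbrev piQ (S : Submodule R F) : Submodule R (Q.β → F) :=
  Submodule.pi Set.univ fun _ : Q.β => S

include hX hY hXY in
/-- The step from the cycles to the boundaries one degree down is acyclic. -/
theorem acyclic (l k : ℤ) :
    Module.length R ((bic Q C).H (piQ Q (tau C P X Y (l + 1))) (piQ Q (tauB C P X Y l)) k) = 0 := by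
  classical
  refine length_H_eq_zero _ ?_
  rintro z ⟨⟨hz, hzk⟩, hDz⟩
  have hb : ∀ b, ∃ u ∈ Y ⊓ C.deg (l + 1), (k - Q.deg b = l → z b - C.D u ∈ X) := by
    intro b
    by_cases h : k - Q.deg b = l
    · obtain ⟨_, ⟨u, hu, rfl⟩, x, hx, e⟩ :=
        Submodule.mem_sup.1 ((tauB_deg (hzk b trivial) (hz b trivial)).2 h)
      exact ⟨u, hu, fun _ => by rw [← e, add_sub_cancel_left]; exact hx.1⟩
    · exact ⟨0, Submodule.zero_mem _, fun h' => absurd h' h⟩
  choose u hu hzu using hb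
  set v : Q.β → F := fun b => if k - Q.deg b = l then ((-1 : R) ^ Q.deg b) • u b else 0
  have hv : v ∈ (piQ Q (tauB C P X Y l)) ⊓ (bic Q C).deg (k + 1) := by
    refine ⟨fun b _ => ?_, fun b _ => ?_⟩ <;> simp only [v, SetLike.mem_coe] <;> split_ifs with h
    · exact Submodule.smul_mem _ _ (mem_tauB_of_deg (hu b).2 (hu b).1 (fun h' => absurd h' (by omega))
        fun h' => absurd h' (by omega))
    · exact Submodule.zero_mem _
    · rw [show k + 1 - (Q.deg b : ℤ) = l + 1 by omega]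
      exact Submodule.smul_mem _ _ (hu b).2
    · exact Submodule.zero_mem _
  have hsqr : ∀ i : ℕ, (-1 : R) ^ i * (-1) ^ i = 1 := fun i => by rw [← mul_pow]; simp
  set w := z - (bic Q C).D v
  have hwk : w ∈ (bic Q C).deg k := Submodule.sub_mem _ hzk (by
    simpa using (bic Q C).map_deg (k + 1) (Submodule.mem_map_of_mem (f := (bic Q C).D) hv.2))
  have hwY : ∀ b, w b ∈ Y := fun b => by
    refine Submodule.sub_mem _ (mem_tauB.1 (hz b trivial)).1 ?_
    rw [bic_apply]
    refine Submodule.add_mem _ (Submodule.sum_mem _ fun b' _ => Submodule.smul_mem _ _ ?_)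
      (Submodule.smul_mem _ _ (hY (Submodule.mem_map_of_mem ?_))) <;>
      exact (mem_tauB.1 (hv.1 _ trivial)).1
  have hlow : ∀ b, k - Q.deg b ≤ l → w b ∈ X := by
    intro b hb
    have hQ : ∀ b', Q.D b b' • v b' = 0 := fun b' => by
      by_cases hd : Q.D b b' = 0
      · simp [hd]
      · simp only [v]
        rw [if_neg (by rw [Q.homog b b' hd]; push_cast; omega), smul_zero]
    simp only [w, Pi.sub_apply, bic_apply, Finset.sum_eq_zero fun b' _ => hQ b', zero_add]
    rcases hb.eq_or_lt with h | h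
    · simp only [v, if_pos h, map_smul, smul_smul, hsqr, one_smul]
      exact hzu b h
    · simp only [v, if_neg h.ne, map_zero, smul_zero, sub_zero]
      exact (tauB_deg (hzk b trivial) (hz b trivial)).1 h
  have hDw : ∀ b, (bic Q C).D w b ∈ tau C P X Y (l + 1) := fun b => by
    have : (bic Q C).D w = (bic Q C).D z := by
      rw [show w = z - (bic Q C).D v from rfl, map_sub,
        show (bic Q C).D ((bic Q C).D v) = 0 from LinearMap.congr_fun (bic Q C).sq v, sub_zero]
    rw [this]; exact hDz b trivial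
  have hwT : w ∈ piQ Q (tau C P X Y (l + 1)) := by
    intro b _
    refine mem_tau_of_deg (hwk b trivial) (hwY b) (fun h => hlow b (by omega)) fun h => ?_
    refine ⟨⟨hwY b, h ▸ hwk b trivial⟩, ?_⟩
    have hd : (bic Q C).D w b ∈ C.deg l := by
      have := (bic Q C).map_deg k (Submodule.mem_map_of_mem (f := (bic Q C).D) hwk) b trivial
      simpa [show k - 1 - (Q.deg b : ℤ) = l by omega] using this
    have h1 := (tau_deg hd (hDw b)).1 (by omega)
    rw [bic_apply] at h1
    have h2 : ∑ b', Q.D b b' • w b' ∈ X := Submodule.sum_mem _ fun b' _ => by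
      by_cases hd : Q.D b b' = 0
      · simp [hd]
      · exact Submodule.smul_mem _ _ (hlow b' (by rw [Q.homog b b' hd]; push_cast; omega))
    have h3 := Submodule.smul_mem _ ((-1 : R) ^ Q.deg b) ((Submodule.add_mem_iff_right _ h2).1 h1)
    rwa [smul_smul, hsqr, one_smul] at h3
  rw [show z = (bic Q C).D v + w from (add_sub_cancel _ z).symm]
  exact Submodule.add_mem_sup (Submodule.mem_map_of_mem hv) ⟨hwT, hwk⟩

include hX hY hXY in
/-- The step from the boundaries to the cycles carries the homology. -/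
theorem homology_step (cX : Closed P X) (cY : Closed P Y) (l k : ℤ) :
    Module.length R ((bic Q C).H (piQ Q (tauB C P X Y l)) (piQ Q (tau C P X Y l)) (k + l)) =
      Module.length R ((Q.gc (C.H X Y l)).H ⊥ ⊤ k) := by
  classical
  set G := Q.gc (C.cyc X Y l)
  set B : Submodule R (Q.β → C.cyc X Y l) :=
    Submodule.pi Set.univ fun _ => (C.bd X Y l).comap (C.cyc X Y l).subtype
  have hGB : G.IsSub B := by
    rintro _ ⟨x, hx, rfl⟩ b -
    simp only [G, MCx.gc, SetLike.mem_coe, MCx.dlin_apply]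
    exact Submodule.sum_mem _ fun b' _ => Submodule.smul_mem _ _ (hx b' trivial)
  have htop : G.IsSub ⊤ := le_top
  have hdeg : ∀ {M : Type v} [AddCommGroup M] [Module R M] (j : ℤ) (x : Q.β → M),
      x ∈ (Q.gc M).deg j ↔ ∀ b, (Q.deg b : ℤ) ≠ j → x b = 0 := fun j x => by
    simp only [MCx.gc, MCx.degSub, Submodule.mem_pi, Set.mem_univ, true_implies]
    refine forall_congr' fun b => ?_
    split_ifs with h <;> simp [h]
  have e1 : Module.length R (G.H B ⊤ k) =
      Module.length R ((bic Q C).H (piQ Q (tauB C P X Y l)) (piQ Q (tau C P X Y l)) (k + l)) := by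
    refine GC.h_congr G (bic Q C)
      (LinearMap.pi fun b => (C.cyc X Y l).subtype ∘ₗ LinearMap.proj b) 1 l (fun j x _ => ?_)
      hGB htop le_top (isSub_pi Q C (tauB_isSub hX hY hXY cX cY l))
      (isSub_pi Q C (tau_isSub hX hY hXY cX cY l))
      (Submodule.pi_mono fun b _ => tauB_le_tau hX hY hXY l) (fun j => ?_) ?_ ?_ (fun j => ?_)
      fun j => ?_
    · rw [Units.val_one, one_smul]
      intro b _
      have hm : C.D (x b : F) ∈ X := (x b).2.2
      have hdm : C.D (x b : F) ∈ C.deg (l - 1) :=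
        C.map_deg l (Submodule.mem_map_of_mem (x b).2.1.2)
      have e : (LinearMap.pi fun b => (C.cyc X Y l).subtype ∘ₗ LinearMap.proj b) (G.D x) b -
          (bic Q C).D ((LinearMap.pi fun b => (C.cyc X Y l).subtype ∘ₗ LinearMap.proj b) x) b =
            -(((-1 : R) ^ Q.deg b) • C.D (x b : F)) := by
        simp [G, MCx.gc, MCx.dlin_apply, bic_apply]
      rw [SetLike.mem_coe, Pi.sub_apply, e]
      exact Submodule.neg_mem _ (Submodule.smul_mem _ _ (mem_tauB_of_deg hdm (hXY hm)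
        (fun _ => hm) fun h => absurd h (by omega)))
    · rintro _ ⟨x, hx, rfl⟩ b -
      by_cases h : (Q.deg b : ℤ) = j
      · show _ ∈ C.deg (j + l - (Q.deg b : ℤ))
        rw [show j + l - (Q.deg b : ℤ) = l by omega]
        exact (x b).2.1.2
      · simp [(hdeg j x).1 hx b h]
    · rintro _ ⟨x, hx, rfl⟩ b -
      exact mem_tauB_of_deg (x b).2.1.2 (x b).2.1.1 (fun h => absurd h (lt_irrefl _))
        fun _ => hx b trivial
    · rintro _ ⟨x, -, rfl⟩ b -
      exact mem_tau_of_deg (x b).2.1.2 (x b).2.1.1 (fun h => absurd h (lt_irrefl _))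
        fun _ => (x b).2
    · rintro y ⟨hy, hyj⟩
      let x : Q.β → C.cyc X Y l := fun b =>
        if h : (Q.deg b : ℤ) = j then ⟨y b, (tau_deg (hyj b trivial) (hy b trivial)).2 (by omega)⟩
        else 0
      refine Submodule.mem_sup.2 ⟨_, Submodule.mem_map_of_mem
        (r := x) ⟨trivial, (hdeg j x).2 fun b h => dif_neg h⟩, y - _, ⟨?_, ?_⟩, add_sub_cancel _ y⟩
      · intro b _
        by_cases h : (Q.deg b : ℤ) = j
        · simp [x, h]
        · simp only [x, SetLike.mem_coe, Pi.sub_apply, LinearMap.pi_apply, LinearMap.comp_apply,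
            LinearMap.proj_apply, dif_neg h, map_zero, sub_zero]
          have hm := hy b trivial
          exact mem_tauB_of_deg (hyj b trivial) (mem_tau.1 hm).1 (tau_deg (hyj b trivial) hm).1
            fun h' => absurd h' (by omega)
      · intro b _
        by_cases h : (Q.deg b : ℤ) = j
        · simp [x, h]
        · simpa [x, h] using hyj b trivial
    · rintro x ⟨-, hxf⟩ b -
      exact (tauB_deg (x b).2.1.2 (hxf b trivial)).2 rfl
  have e2 : Module.length R (G.H B ⊤ k) =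
      Module.length R ((Q.gc (C.H X Y l)).H ⊥ ⊤ (k + 0)) := by
    refine GC.h_congr G (Q.gc (C.H X Y l))
      (LinearMap.pi fun b => ((C.bd X Y l).comap (C.cyc X Y l).subtype).mkQ ∘ₗ LinearMap.proj b)
      1 0 (fun j x _ => ?_) hGB htop le_top (by simp [GC.IsSub]) le_top bot_le (fun j => ?_)
      ?_ le_top (fun j => ?_) fun j => ?_
    · simp [G, MCx.gc, MCx.dlin_apply, funext_iff]
    · rintro _ ⟨x, hx, rfl⟩
      refine (hdeg _ _).2 fun b h => ?_
      simp [(hdeg j x).1 hx b (by omega)]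
    · rintro _ ⟨x, hx, rfl⟩
      simpa [funext_iff, Submodule.Quotient.mk_eq_zero, B] using fun b => hx b trivial
    · rintro y ⟨-, hyj⟩
      choose x hx using fun b => Submodule.mkQ_surjective
        ((C.bd X Y l).comap (C.cyc X Y l).subtype) (y b)
      refine Submodule.mem_sup_left ⟨fun b => if (Q.deg b : ℤ) = j then x b else 0,
        ⟨trivial, (hdeg _ _).2 fun b h => if_neg h⟩, funext fun b => ?_⟩
      by_cases h : (Q.deg b : ℤ) = j
      · simpa [h] using hx b
      · simpa [h] using ((hdeg _ _).1 hyj b (by omega)).symm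
    · rintro x ⟨-, hxf⟩ b -
      simpa [funext_iff, Submodule.Quotient.mk_eq_zero] using congrFun ((Submodule.mem_bot R).1 hxf) b
  rw [← e1, e2, add_zero]

include hX hY hXY in
/-- The Euler characteristic of a matrix complex applied to a complex. -/
theorem chi_bic (cX : Closed P X) (cY : Closed P Y) {n d : ℕ} (hlo : lo = -(n : ℤ))
    (hd : ∀ b, Q.deg b ≤ d) (hfin : ∀ qq : ℕ, qq ≤ n → ∀ j,
      (Q.gc (C.H X Y (-(qq : ℤ)))).FinH ⊥ ⊤ j) :
    (∀ k, (bic Q C).FinH (piQ Q X) (piQ Q Y) k) ∧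
    (bic Q C).chi (Finset.Icc (-(n : ℤ)) (d : ℤ)) (piQ Q X) (piQ Q Y) =
      ∑ qq ∈ Finset.range (n + 1), (-1 : ℤ) ^ qq *
        (Q.gc (C.H X Y (-(qq : ℤ)))).chi (Finset.Icc 0 (d : ℤ)) ⊥ ⊤ := by
  classical
  subst hlo
  have hdeg : ∀ k, k ∉ Finset.Icc (-(n : ℤ)) (d : ℤ) → (bic Q C).deg k = ⊥ := fun k hk =>
    bic_deg_eq_bot Q C hd P.bound hk
  have sub : ∀ l, (bic Q C).IsSub (piQ Q (tau C P X Y l)) ∧
      (bic Q C).IsSub (piQ Q (tauB C P X Y l)) := fun l =>
    ⟨isSub_pi Q C (tau_isSub hX hY hXY cX cY l), isSub_pi Q C (tauB_isSub hX hY hXY cX cY l)⟩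
  have le1 : ∀ l, (piQ Q (tau C P X Y (l + 1))) ≤ piQ Q (tauB C P X Y l) := fun l =>
    Submodule.pi_mono fun b _ => tau_succ_le l
  have le2 : ∀ l, (piQ Q (tauB C P X Y l)) ≤ piQ Q (tau C P X Y l) := fun l =>
    Submodule.pi_mono fun b _ => tauB_le_tau hX hY hXY l
  have h0 : ∀ l k, Module.length R ((bic Q C).H (piQ Q (tau C P X Y (l + 1)))
      (piQ Q (tauB C P X Y l)) k) = 0 := fun l k => acyclic hX hY hXY Q l k
  -- one step
  have step : ∀ qq : ℕ, qq ≤ n →
      (∀ k, (bic Q C).FinH (piQ Q (tau C P X Y (-(qq : ℤ) + 1))) (piQ Q (tau C P X Y (-(qq : ℤ)))) k) ∧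
      (bic Q C).chi (Finset.Icc (-(n : ℤ)) (d : ℤ)) (piQ Q (tau C P X Y (-(qq : ℤ) + 1)))
          (piQ Q (tau C P X Y (-(qq : ℤ)))) =
        (-1 : ℤ) ^ qq * (Q.gc (C.H X Y (-(qq : ℤ)))).chi (Finset.Icc 0 (d : ℤ)) ⊥ ⊤ := by
    intro qq hqq
    set H' := C.H X Y (-(qq : ℤ))
    have hs : ∀ k, Module.length R ((bic Q C).H (piQ Q (tauB C P X Y (-(qq : ℤ))))
        (piQ Q (tau C P X Y (-(qq : ℤ)))) k) = Module.length R ((Q.gc H').H ⊥ ⊤ (k + qq)) := by
      intro k
      rw [← homology_step hX hY hXY Q cX cY (-(qq : ℤ)) (k + qq), add_neg_cancel_right]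
    have hf2 : ∀ k, (bic Q C).FinH (piQ Q (tauB C P X Y (-(qq : ℤ))))
        (piQ Q (tau C P X Y (-(qq : ℤ)))) k := fun k => by
      rw [GC.FinH, hs]; exact hfin qq hqq _
    have hf1 : ∀ k, (bic Q C).FinH (piQ Q (tau C P X Y (-(qq : ℤ) + 1)))
        (piQ Q (tauB C P X Y (-(qq : ℤ)))) k := fun k => by
      rw [GC.FinH, h0]; simp
    obtain ⟨a1, a2⟩ := GC.chi_add (bic Q C) (-(n : ℤ)) (d : ℤ) hdeg (sub _).1 (sub _).2 (sub _).1
      (le1 _) (le2 _) hf1 hf2
    refine ⟨a1, a2.trans ?_⟩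
    have z1 : (bic Q C).chi (Finset.Icc (-(n : ℤ)) (d : ℤ))
        (piQ Q (tau C P X Y (-(qq : ℤ) + 1))) (piQ Q (tauB C P X Y (-(qq : ℤ)))) = 0 :=
      Finset.sum_eq_zero fun k _ => by rw [GC.h, len, h0]; simp
    rw [z1, zero_add, GC.chi, GC.chi, Finset.mul_sum]
    have hzero : ∀ j, j ∉ Finset.Icc (0 : ℤ) (d : ℤ) →
        Module.length R ((Q.gc H').H ⊥ ⊤ j) = 0 := by
      intro j hj
      refine length_H_eq_zero _ fun x hx => ?_
      have : x = 0 := funext fun b => by
        have h := hx.1.2 b trivial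
        simp only [SetLike.mem_coe] at h
        rw [if_neg fun h' => hj (by rw [Finset.mem_Icc]; have := hd b; omega),
          Submodule.mem_bot] at h
        exact h
      rw [this]; exact Submodule.zero_mem _
    refine (Finset.sum_subset (s₁ := (Finset.Icc (0 : ℤ) (d : ℤ)).map
      (addRightEmbedding (-(qq : ℤ)))) ?_ ?_).symm.trans ?_
    · intro k hk
      simp only [Finset.mem_map, Finset.mem_Icc, addRightEmbedding_apply] at hk ⊢
      obtain ⟨j, hj, rfl⟩ := hk
      omega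
    · intro k _ hk
      rw [GC.h, len, hs, hzero _ fun h => hk (Finset.mem_map.2 ⟨k + qq, h, by simp⟩)]
      simp
    · rw [Finset.sum_map]
      refine Finset.sum_congr rfl fun j hj => ?_
      rw [addRightEmbedding_apply, GC.h, GC.h, len, len, hs, neg_add_cancel_right]
      have hsign : (-1 : ℤ) ^ (j + -(qq : ℤ)).natAbs = (-1) ^ qq * (-1) ^ j.natAbs := by
        rw [← pow_add]
        refine neg_one_pow_congr ?_
        simp [Int.natAbs_even, parity_simps, iff_comm]
      rw [hsign, mul_assoc]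
  have main : ∀ m : ℕ, m ≤ n + 1 →
      (∀ k, (bic Q C).FinH (piQ Q X) (piQ Q (tau C P X Y (1 - (m : ℤ)))) k) ∧
      (bic Q C).chi (Finset.Icc (-(n : ℤ)) (d : ℤ)) (piQ Q X) (piQ Q (tau C P X Y (1 - (m : ℤ)))) =
        ∑ qq ∈ Finset.range m, (-1 : ℤ) ^ qq *
          (Q.gc (C.H X Y (-(qq : ℤ)))).chi (Finset.Icc 0 (d : ℤ)) ⊥ ⊤ := by
    intro m
    induction m with
    | zero =>
      intro _
      have hz : ∀ k, Module.length R ((bic Q C).H (piQ Q X) (piQ Q X) k) = 0 := fun k =>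
        length_H_eq_zero _ fun x hx => Submodule.mem_sup_right hx.1
      have e : tau C P X Y (1 - ((0 : ℕ) : ℤ)) = X := by simpa using tau_top hX hXY cX
      rw [e]
      exact ⟨fun k => by rw [GC.FinH, hz]; simp,
        Finset.sum_eq_zero fun k _ => by rw [GC.h, len, hz]; simp⟩
    | succ m ih =>
      intro hm
      obtain ⟨i1, i2⟩ := ih (by omega)
      obtain ⟨s1, s2⟩ := step m (by omega)
      rw [show -(m : ℤ) + 1 = 1 - (m : ℤ) by ring] at s1 s2
      rw [show 1 - ((m + 1 : ℕ) : ℤ) = -(m : ℤ) by push_cast; ring]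
      have hXt : ∀ l, X ≤ tau C P X Y l := fun l y hy => mem_tau.2
        ⟨hXY hy, ⟨⟨hXY (cX _ y hy), P.mem _ y⟩, hX (Submodule.mem_map_of_mem (cX _ y hy))⟩,
          fun j _ => cX j y hy⟩
      have hle : (piQ Q (tau C P X Y (1 - (m : ℤ)))) ≤ piQ Q (tau C P X Y (-(m : ℤ))) :=
        Submodule.pi_mono fun b _ => by
          rw [show (1 : ℤ) - m = -(m : ℤ) + 1 by ring]
          exact (tau_succ_le _).trans (tauB_le_tau hX hY hXY _)
      obtain ⟨a1, a2⟩ := GC.chi_add (bic Q C) (-(n : ℤ)) (d : ℤ) hdeg (isSub_pi Q C hX)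
        (sub _).1 (sub _).1 (Submodule.pi_mono fun b _ => hXt _) hle i1 s1
      exact ⟨a1, by rw [a2, i2, s2, Finset.sum_range_succ]⟩
  have hY' : tau C P X Y (1 - ((n + 1 : ℕ) : ℤ)) = Y := by
    rw [show 1 - ((n + 1 : ℕ) : ℤ) = -(n : ℤ) by push_cast; ring, tau_bot hY]
    exact inf_eq_left.2 fun y hy => cY _ y hy
  have := main (n + 1) le_rfl
  rwa [hY'] at this

end Bic

end Vale.Agent.P202.Char
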