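import Mathlib

/-!
P202, stage 2: every field extension of a perfect field is formally smooth; complete local rings
of equal characteristic `p` have coefficient fields.
-/

namespace Vale.Agent.P202.Char

open MvPolynomial TensorProduct IsLocalRing

universe u v

/-- Every field extension of a perfect field is formally smooth. -/
theorem formallySmooth_of_perfect (K : Type u) (L : Type v) [Field K] [PerfectField K] [Field L]
    [Algebra K L] : Algebra.FormallySmooth K L := by
  classical
  refine ⟨Module.Projective.of_free, ?_⟩
  rw [Algebra.H1Cotangent, Algebra.Extension.subsingleton_h1Cotangent]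
  set P := Algebra.Generators.self K L
  refine (injective_iff_map_eq_zero _).2 fun x hx => ?_
  obtain ⟨⟨f, hf⟩, rfl⟩ := Algebra.Extension.Cotangent.mk_surjective x
  rw [Algebra.Extension.Cotangent.mk_eq_zero_iff]
  rw [Algebra.Extension.cotangentComplex_mk] at hx
  have hD : ∀ i, aeval (id : L → L) (pderiv i f) = 0 := fun i => by
    have h := P.cotangentSpaceBasis_repr_one_tmul f i
    rw [← show P.cotangentSpaceBasis.repr (0 : P.toExtension.CotangentSpace) i = 0 by simp]
    rw [show (0 : P.toExtension.CotangentSpace) = 1 ⊗ₜ .D _ _ f from hx.symm, h]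
    rfl
  have hf0 : aeval (id : L → L) f = 0 := by
    have : algebraMap P.toExtension.Ring L f = 0 := hf
    exact this
  obtain ⟨s, f₁, hf₁⟩ := exists_finset_rename (f : MvPolynomial L K)
  let M : IntermediateField K L := IntermediateField.adjoin K (s : Set L)
  have : Algebra.EssFiniteType K M :=
    IntermediateField.essFiniteType_iff.2 (IntermediateField.fg_adjoin_finset s)
  have : Algebra.FormallySmooth K M := Algebra.FormallySmooth.of_perfectField
  let ι : {x // x ∈ s} → M := fun x => ⟨x.1, IntermediateField.subset_adjoin K _ x.2⟩
  let g : MvPolynomial M K := rename ι f₁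
  have hg : rename (fun y : M => (y : L)) g = f := by
    rw [hf₁]
    simp only [g, rename_rename]
    rfl
  have hval : ∀ q : MvPolynomial M K,
      ((aeval (id : M → M) q : M) : L) = aeval (id : L → L) (rename (fun y : M => (y : L)) q) :=
    fun q => by
      rw [aeval_rename, show ((aeval (id : M → M) q : M) : L) = M.val (aeval (id : M → M) q) from rfl,
        comp_aeval_apply]
      rfl
  have hg0 : aeval (id : M → M) g = 0 := by
    refine Subtype.ext ?_
    rw [hval, hg, hf0]
    rfl
  have hgD : ∀ i, aeval (id : M → M) (pderiv i g) = 0 := fun i => by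
    refine Subtype.ext ?_
    rw [hval, ← pderiv_rename Subtype.val_injective, hg, hD]
    rfl
  set Q := Algebra.Generators.self K M
  have hQ : Function.Injective Q.toExtension.cotangentComplex :=
    (Algebra.Extension.subsingleton_h1Cotangent _).1 Algebra.FormallySmooth.subsingleton_h1Cotangent
  have hmem : g ∈ Q.toExtension.ker := by
    show algebraMap Q.toExtension.Ring M g = 0
    exact hg0
  have hc : Q.toExtension.cotangentComplex (.mk ⟨g, hmem⟩) = 0 := by
    rw [Algebra.Extension.cotangentComplex_mk]
    refine Q.cotangentSpaceBasis.repr.injective (Finsupp.ext fun i => ?_)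
    rw [map_zero, Finsupp.zero_apply]
    exact (Q.cotangentSpaceBasis_repr_one_tmul g i).trans (hgD i)
  have hsq : g ∈ Q.toExtension.ker ^ 2 :=
    (Algebra.Extension.Cotangent.mk_eq_zero_iff _).1 (hQ (hc.trans (map_zero _).symm))
  let r : MvPolynomial M K →+* MvPolynomial L K := (rename (fun y : M => (y : L))).toRingHom
  let I : Ideal (MvPolynomial M K) := Q.toExtension.ker
  let J : Ideal (MvPolynomial L K) := P.toExtension.ker
  have hle : I.map r ≤ J := by
    refine Ideal.map_le_iff_le_comap.2 fun q hq => ?_
    show aeval (id : L → L) (r q) = 0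
    exact (hval q).symm.trans (congrArg Subtype.val (show aeval (id : M → M) q = 0 from hq))
  have hfin : r g ∈ (I ^ 2).map r := Ideal.mem_map_of_mem r hsq
  rw [Ideal.map_pow] at hfin
  have := Ideal.pow_right_mono hle 2 hfin
  show f ∈ J ^ 2
  rwa [show r g = f from hg] at this

/-- A complete local ring of characteristic `p` has a coefficient field. -/
theorem exists_coefficientField {A : Type u} [CommRing A] [IsLocalRing A]
    [IsAdicComplete (maximalIdeal A) A] (p : ℕ) [Fact p.Prime] [CharP A p] :
    ∃ σ : ResidueField A →+* A, (residue A).comp σ = RingHom.id (ResidueField A) := by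
  let : Algebra (ZMod p) A := ZMod.algebra A p
  have := formallySmooth_of_perfect (ZMod p) (ResidueField A)
  let f : ResidueField A →ₐ[ZMod p] A ⧸ maximalIdeal A :=
    AlgHom.id (ZMod p) (A ⧸ maximalIdeal A)
  obtain ⟨g, hg⟩ := Algebra.FormallySmooth.exists_mkₐ_comp_eq_of_isAdicComplete f
  exact ⟨g.toRingHom, RingHom.ext fun x => AlgHom.congr_fun hg x⟩

end Vale.Agent.P202.Char
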