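import Vale.Agent.P202.Char.Acts

/-!
P202, Lech in characteristic `p`: the cut of a slice by a power of `u`, and the slices of the
associated graded ring (definitions).
-/

namespace Vale.Agent.P202.Char.RedData

open IsLocalRing

universe u

variable {R : Type u} [CommRing R] [IsLocalRing R] {n : ℕ} (Z : RedData R n)
  (lam : Fin (n + 1) → R)

/-- `u ^ w` on families indexed by charts. -/
noncomputable def upC (w : ℕ) :
    (Chart n → Tot R n Z.Idx) →ₗ[R] (Chart n → Tot R n Z.Idx) :=
  LinearMap.pi fun ε => push lam (Z.upBy 1 w) ∘ₗ LinearMap.proj ε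

/-- Relations plus the image of `u ^ w`, in degree `N`. -/
noncomputable def cut (a : Fin n → ℤ) (w : ℕ) (N : ℤ) : Submodule R (Chart n → Tot R n Z.Idx) :=
  relCech lam a Z.ideg Z.rel N ⊔ (freeCech R a Z.ideg (N + w)).map (Z.upC lam w)

/-- Relations of the associated graded ring, in degree `N`. -/
noncomputable def grSub (a : Fin n → ℤ) (N : ℤ) :
    Submodule (ResidueField R) (Chart n → Tot (ResidueField R) n Z.ι) :=
  relCech (fun k => residue R (lam k)) a (fun i => (Z.δ i : ℤ))
    (Submodule.span (MvPolynomial (Fin (n + 1)) (ResidueField R)) Z.grRel : Set _) N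

/-- The free slice of the associated graded ring. -/
noncomputable def grFree (a : Fin n → ℤ) (N : ℤ) :
    Submodule (ResidueField R) (Chart n → Tot (ResidueField R) n Z.ι) :=
  freeCech (ResidueField R) a (fun i => (Z.δ i : ℤ)) N

end Vale.Agent.P202.Char.RedData
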