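import Vale.Agent.P202.Char.SheafSeq

/-! P202, Lech in characteristic `p`: lengths of homology of nested subcomplexes. -/

namespace Vale.Agent.P202.Char

universe u v w

section Aux

variable {R : Type u} [CommRing R]

theorem length_eq_range_add {A : Type v} {B : Type v} {B' : Type w} [AddCommGroup A]
    [AddCommGroup B] [AddCommGroup B'] [Module R A] [Module R B] [Module R B']
    (f : A →ₗ[R] B) (g : B →ₗ[R] B') (h : LinearMap.ker g = LinearMap.range f) :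
    Module.length R B =
      Module.length R ↥(LinearMap.range f) + Module.length R ↥(LinearMap.range g) :=
  Module.length_eq_add_of_exact (LinearMap.range f).subtype g.rangeRestrict
    (Submodule.injective_subtype _) g.surjective_rangeRestrict
    (LinearMap.exact_iff.2 (by simp [LinearMap.ker_rangeRestrict, h]))

theorem length_range_le {A : Type v} {B : Type w} [AddCommGroup A] [AddCommGroup B] [Module R A]
    [Module R B] (f : A →ₗ[R] B) : Module.length R ↥(LinearMap.range f) ≤ Module.length R A :=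
  Module.length_le_of_surjective f.rangeRestrict f.surjective_rangeRestrict

theorem toNat_split {a b c : ℕ∞} (h : a = b + c) (ha : a ≠ ⊤) :
    (a.toNat : ℤ) = b.toNat + c.toNat := by
  subst h
  obtain ⟨hb, hc⟩ : b ≠ ⊤ ∧ c ≠ ⊤ := by simpa using ha
  rw [ENat.toNat_add hb hc]; push_cast; rfl

theorem toNat_bound {a b c : ℕ∞} (h : a ≤ b + c) (hb : b ≠ ⊤) (hc : c ≠ ⊤) :
    a ≠ ⊤ ∧ a.toNat ≤ b.toNat + c.toNat := by
  have hbc : b + c ≠ ⊤ := by simp [hb, hc]
  refine ⟨ne_top_of_le_ne_top hbc h, ?_⟩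
  rw [← ENat.toNat_add hb hc]
  exact ENat.toNat_le_toNat h hbc

theorem sign_succ (k : ℤ) : (-1 : ℤ) ^ (k + 1).natAbs = -(-1) ^ k.natAbs := by
  rcases Int.even_or_odd k with h | h
  · rw [(Int.natAbs_even.2 h).neg_one_pow, (Int.natAbs_odd.2 h.add_one).neg_one_pow]
  · rw [(Int.natAbs_odd.2 h).neg_one_pow, (Int.natAbs_even.2 h.add_one).neg_one_pow, neg_neg]

theorem sum_sign_telescope (f : ℤ → ℤ) (lo hi : ℤ) (h0 : f lo = 0) (h1 : f (hi + 1) = 0) :
    ∑ k ∈ Finset.Icc lo hi, (-1 : ℤ) ^ k.natAbs * (f k + f (k + 1)) = 0 := by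
  rcases lt_or_ge hi lo with hlt | hle
  · rw [Finset.Icc_eq_empty (not_le.2 hlt), Finset.sum_empty]
  · have key : ∀ m, lo - 1 ≤ m → ∑ k ∈ Finset.Icc lo m, (-1 : ℤ) ^ k.natAbs * (f k + f (k + 1)) =
        -((-1 : ℤ) ^ (m + 1).natAbs * f (m + 1)) := by
      refine Int.leInduction ?_ ?_
      · rw [Finset.Icc_eq_empty (by omega), Finset.sum_empty, sub_add_cancel, h0]
        simp
      · intro m hm ih
        have hs : Finset.Icc lo (m + 1) = insert (m + 1) (Finset.Icc lo m) := by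
          ext x; simp only [Finset.mem_insert, Finset.mem_Icc]; omega
        rw [hs, Finset.sum_insert (by simp only [Finset.mem_Icc]; omega), ih, sign_succ (m + 1)]
        ring
    rw [key hi (by omega), h1]
    simp

end Aux

namespace GC

variable {R : Type u} [CommRing R] {T : Type v} [AddCommGroup T] [Module R T] (C : GC R T)
  {X Y W : Submodule R T} {n : ℤ}

theorem length_H_self (X : Submodule R T) (n : ℤ) : Module.length R (C.H X X n) = 0 := by
  have : Subsingleton (C.H X X n) := by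
    refine Submodule.Quotient.subsingleton_iff.2 (eq_top_iff.2 fun x _ => ?_)
    exact Submodule.mem_sup_right x.2.1
  exact Module.length_eq_zero

theorem H_length_eq_zero {k : ℤ} (h : C.deg k = ⊥) : Module.length R (C.H X Y k) = 0 := by
  have : Subsingleton (C.H X Y k) := C.H_subsingleton_of_deg h
  exact Module.length_eq_zero

theorem h_le_trans (hY : C.IsSub Y) (hXY : X ≤ Y) (hYW : Y ≤ W)
    (h1 : C.FinH X Y n) (h2 : C.FinH Y W n) :
    C.FinH X W n ∧ C.h X W n ≤ C.h X Y n + C.h Y W n :=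
  toNat_bound (C.length_mid_le hXY hYW n) h1 h2

theorem h_le_chain {w : ℕ} (A : ℕ → Submodule R T) (hA : ∀ s, C.IsSub (A s)) (mono : Monotone A)
    (hf : ∀ s < w, C.FinH (A s) (A (s + 1)) n) :
    C.FinH (A 0) (A w) n ∧ C.h (A 0) (A w) n ≤ ∑ s ∈ Finset.range w, C.h (A s) (A (s + 1)) n := by
  induction w with
  | zero => simp [FinH, h, len, length_H_self]
  | succ w ih =>
    obtain ⟨h1, h2⟩ := ih fun s hs => hf s (by omega)
    obtain ⟨h3, h4⟩ := C.h_le_trans (hA w) (mono (Nat.zero_le w)) (mono (show w ≤ w + 1 by omega)) h1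
      (hf w (by omega))
    refine ⟨h3, h4.trans ?_⟩
    rw [Finset.sum_range_succ]
    omega

/-- Classes of the smaller term vanish in the larger one. -/
theorem hIncl_eq_zero (hXY : X ≤ Y) {k : ℤ}
    (h : ∀ z ∈ C.cyc ⊥ X k, z ∈ (Y ⊓ C.deg (k + 1)).map C.D) (a : C.H ⊥ X k) :
    C.hIncl (X := ⊥) hXY k a = 0 := by
  induction a using Submodule.Quotient.induction_on with | _ x
  exact (C.mk_eq_zero_iff_bd _).2 (Submodule.mem_sup_left (h _ x.2))

/-- injection: cycles of the smaller term are boundaries in the larger one -/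
theorem h_le_of_low (hXY : X ≤ Y)
    (h : ∀ z ∈ C.cyc ⊥ X n, z ∈ (Y ⊓ C.deg (n + 1)).map C.D) (hf : C.FinH X Y n) :
    C.FinH ⊥ Y n ∧ C.h ⊥ Y n ≤ C.h X Y n := by
  have hinj : Function.Injective (C.hProj (X := ⊥) (Y := X) (W := Y) bot_le n) := by
    rw [← LinearMap.ker_eq_bot, Submodule.eq_bot_iff]
    intro a ha
    obtain ⟨b, rfl⟩ := C.exact_at_mid bot_le hXY n ha
    exact C.hIncl_eq_zero hXY h b
  have hle := Module.length_le_of_injective _ hinj
  exact ⟨ne_top_of_le_ne_top hf hle, ENat.toNat_le_toNat hle hf⟩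

/-- surjection: cycles of the smaller term are boundaries in the larger one -/
theorem h_le_of_high (hXY : X ≤ Y)
    (h : ∀ z ∈ C.cyc ⊥ X n, z ∈ (Y ⊓ C.deg (n + 1)).map C.D) (hf : C.FinH X Y (n + 1)) :
    C.FinH ⊥ X n ∧ C.h ⊥ X n ≤ C.h X Y (n + 1) := by
  have key : ∀ m, m = n + 1 - 1 → (∀ z ∈ C.cyc ⊥ X m, z ∈ (Y ⊓ C.deg (m + 1)).map C.D) →
      Module.length R (C.H ⊥ X m) ≤ Module.length R (C.H X Y (n + 1)) := by
    rintro m rfl hm
    exact Module.length_le_of_surjective (C.hConn (X := ⊥) (Y := X) (W := Y) (n + 1)) fun a =>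
      C.exists_conn_eq bot_le hXY n a (C.hIncl_eq_zero hXY hm a)
  have hle := key n (by omega) h
  exact ⟨ne_top_of_le_ne_top hf hle, ENat.toNat_le_toNat hle hf⟩

theorem ker_hProj (hXY : X ≤ Y) (hYW : Y ≤ W) (k : ℤ) :
    LinearMap.ker (C.hProj (W := W) hXY k) = LinearMap.range (C.hIncl (X := X) hYW k) := by
  refine le_antisymm (C.exact_at_mid hXY hYW k) ?_
  rintro _ ⟨a, rfl⟩
  induction a using Submodule.Quotient.induction_on with | _ x
  exact (C.mk_eq_zero_iff_bd _).2 (Submodule.mem_sup_right x.2.1)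

theorem ker_hConn (hXY : X ≤ Y) (hYW : Y ≤ W) (k : ℤ) :
    LinearMap.ker (C.hConn (X := X) (Y := Y) (W := W) k) =
      LinearMap.range (C.hProj (W := W) hXY k) := by
  refine le_antisymm (C.exact_at_top hXY hYW k) ?_
  rintro _ ⟨a, rfl⟩
  induction a using Submodule.Quotient.induction_on with | _ x
  exact (C.mk_eq_zero_iff_bd _).2
    (Submodule.mem_sup_right ⟨x.2.2, C.map_deg k ⟨x.1, x.2.1.2, rfl⟩⟩)

theorem ker_hIncl (hXY : X ≤ Y) (hYW : Y ≤ W) (k : ℤ) :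
    LinearMap.ker (C.hIncl (X := X) hYW (k + 1 - 1)) =
      LinearMap.range (C.hConn (X := X) (Y := Y) (W := W) (k + 1)) := by
  refine le_antisymm (fun a ha => C.exists_conn_eq hXY hYW k a ha) ?_
  rintro _ ⟨a, rfl⟩
  induction a using Submodule.Quotient.induction_on with | _ x
  refine (C.mk_eq_zero_iff_bd _).2 (Submodule.mem_sup_left ⟨x.1, ⟨x.2.1.1, ?_⟩, rfl⟩)
  simpa using x.2.1.2

theorem chi_add (lo hi : ℤ) (hdeg : ∀ k, k ∉ Finset.Icc lo hi → C.deg k = ⊥)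
    (hX : C.IsSub X) (hY : C.IsSub Y) (hW : C.IsSub W) (hXY : X ≤ Y) (hYW : Y ≤ W)
    (h1 : ∀ k, C.FinH X Y k) (h2 : ∀ k, C.FinH Y W k) :
    (∀ k, C.FinH X W k) ∧
    C.chi (Finset.Icc lo hi) X W =
      C.chi (Finset.Icc lo hi) X Y + C.chi (Finset.Icc lo hi) Y W := by
  have hfin : ∀ k, C.FinH X W k := fun k => (C.h_le_trans hY hXY hYW (h1 k) (h2 k)).1
  refine ⟨hfin, ?_⟩
  set c : ℤ → ℤ := fun k =>
    ((Module.length R ↥(LinearMap.range (C.hConn (X := X) (Y := Y) (W := W) k))).toNat : ℤ)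
  set i : ℤ → ℤ := fun k =>
    ((Module.length R ↥(LinearMap.range (C.hIncl (X := X) hYW k))).toNat : ℤ)
  set p : ℤ → ℤ := fun k =>
    ((Module.length R ↥(LinearMap.range (C.hProj (W := W) hXY k))).toNat : ℤ)
  have eW : ∀ k, (C.h X W k : ℤ) = i k + p k := fun k =>
    toNat_split (length_eq_range_add _ _ (C.ker_hProj hXY hYW k)) (hfin k)
  have eT : ∀ k, (C.h Y W k : ℤ) = p k + c k := fun k =>
    toNat_split (length_eq_range_add _ _ (C.ker_hConn hXY hYW k)) (h2 k)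
  have eY : ∀ k, (C.h X Y k : ℤ) = c (k + 1) + i k := fun k => by
    have key : ∀ m, m = k + 1 - 1 → (C.h X Y m : ℤ) = c (k + 1) + i m := by
      rintro m rfl
      exact toNat_split (length_eq_range_add _ _ (C.ker_hIncl hXY hYW k)) (h1 _)
    exact key k (by omega)
  have hc0 : c lo = 0 := by
    have h0 : Module.length R (C.H X Y (lo - 1)) = 0 :=
      C.H_length_eq_zero (hdeg _ (by simp only [Finset.mem_Icc]; omega))
    have h' : Module.length R ↥(LinearMap.range (C.hConn (X := X) (Y := Y) (W := W) lo)) = 0 :=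
      nonpos_iff_eq_zero.1
        ((Module.length_le_of_injective _ (Submodule.injective_subtype _)).trans h0.le)
    simp [c, h']
  have hc1 : c (hi + 1) = 0 := by
    have h0 : Module.length R (C.H Y W (hi + 1)) = 0 :=
      C.H_length_eq_zero (hdeg _ (by simp only [Finset.mem_Icc]; omega))
    have h' : Module.length R
        ↥(LinearMap.range (C.hConn (X := X) (Y := Y) (W := W) (hi + 1))) = 0 :=
      nonpos_iff_eq_zero.1 ((length_range_le _).trans h0.le)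
    simp [c, h']
  have ht := sum_sign_telescope c lo hi hc0 hc1
  rw [eq_comm, ← sub_eq_zero, ← ht]
  simp only [chi, eW, eY, eT, ← Finset.sum_add_distrib, ← Finset.sum_sub_distrib]
  exact Finset.sum_congr rfl fun k _ => by ring

theorem chi_finite (lo hi : ℤ) (hdeg : ∀ k, k ∉ Finset.Icc lo hi → C.deg k = ⊥)
    (hY : C.IsSub Y) (hf : ∀ k, Module.length R ↥(Y ⊓ C.deg k) ≠ ⊤) :
    (∀ k, C.FinH ⊥ Y k) ∧ C.chi (Finset.Icc lo hi) ⊥ Y =
      ∑ k ∈ Finset.Icc lo hi, (-1) ^ k.natAbs * (len R ↥(Y ⊓ C.deg k) : ℤ) := by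
  have e1 : ∀ k, Module.length R ↥(Y ⊓ C.deg k) = Module.length R ↥(C.cyc ⊥ Y k) +
      Module.length R ↥((Y ⊓ C.deg k).map C.D) := fun k => by
    refine Module.length_eq_add_of_exact
      (Submodule.inclusion (show C.cyc ⊥ Y k ≤ Y ⊓ C.deg k from inf_le_left))
      (C.D.submoduleMap (Y ⊓ C.deg k)) (Submodule.inclusion_injective _)
      (LinearMap.submoduleMap_surjective _ _) fun x => ⟨fun hx => ?_, ?_⟩
    · exact ⟨⟨x.1, x.2, (Submodule.mem_bot R).2 (congrArg Subtype.val hx)⟩, rfl⟩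
    · rintro ⟨y, rfl⟩
      exact Subtype.ext ((Submodule.mem_bot R).1 y.2.2)
  have e2 : ∀ k, Module.length R ↥(C.cyc ⊥ Y k) =
      Module.length R ↥((Y ⊓ C.deg (k + 1)).map C.D) + Module.length R (C.H ⊥ Y k) := fun k => by
    have hb : C.bd ⊥ Y k = (Y ⊓ C.deg (k + 1)).map C.D := by simp [bd]
    have hle : (Y ⊓ C.deg (k + 1)).map C.D ≤ C.cyc ⊥ Y k := by
      rintro _ ⟨y, hy, rfl⟩
      exact ⟨⟨hY ⟨y, hy.1, rfl⟩, by simpa using C.map_deg (k + 1) ⟨y, hy.2, rfl⟩⟩,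
        (Submodule.mem_bot R).2 (LinearMap.congr_fun C.sq y)⟩
    rw [← (Submodule.comapSubtypeEquivOfLe hle).length_eq, ← hb]
    exact Module.length_eq_add_of_exact (Submodule.subtype _) (Submodule.mkQ _)
      (Submodule.injective_subtype _) (Submodule.mkQ_surjective _)
      (LinearMap.exact_iff.2 (by simp))
  have hcyc : ∀ k, Module.length R ↥(C.cyc ⊥ Y k) ≠ ⊤ := fun k =>
    ne_top_of_le_ne_top (hf k) ((e1 k).symm ▸ le_self_add)
  have hfin : ∀ k, C.FinH ⊥ Y k := fun k =>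
    ne_top_of_le_ne_top (hcyc k) ((e2 k).symm ▸ le_add_self)
  refine ⟨hfin, ?_⟩
  set d : ℤ → ℤ := fun k => ((Module.length R ↥((Y ⊓ C.deg k).map C.D)).toNat : ℤ)
  have eC : ∀ k, (len R ↥(Y ⊓ C.deg k) : ℤ) = C.h ⊥ Y k + (d k + d (k + 1)) := fun k => by
    have h1 := toNat_split (e1 k) (hf k)
    have h2 := toNat_split (e2 k) (hcyc k)
    simp only [len, GC.h, d] at *
    linarith
  have hz : ∀ k, (Y ⊓ C.deg k).map C.D = ⊥ → d k = 0 := fun k hk => by
    have h0 : Module.length R ↥((Y ⊓ C.deg k).map C.D) = 0 := by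
      rw [hk]; exact Module.length_eq_zero
    simp [d, h0]
  have hd0 : d lo = 0 := hz lo (le_bot_iff.1 (((Submodule.map_mono inf_le_right).trans
    (C.map_deg lo)).trans (hdeg _ (by simp only [Finset.mem_Icc]; omega)).le))
  have hd1 : d (hi + 1) = 0 := hz _ (by
    rw [hdeg _ (by simp only [Finset.mem_Icc]; omega), inf_bot_eq, Submodule.map_bot])
  simp only [chi, eC, mul_add (_ : ℤ) (C.h ⊥ Y _ : ℤ), Finset.sum_add_distrib,
    sum_sign_telescope d lo hi hd0 hd1, add_zero]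

variable {T' : Type w} [AddCommGroup T'] [Module R T'] (C' : GC R T') {X' Y' : Submodule R T'}

/-- A map inducing isomorphisms `Y / X ≅ Y' / X'`, with a shift of degree `s` and commuting with
the differentials modulo `X'` up to the unit `c`. -/
theorem h_congr (f : T →ₗ[R] T') (c : Rˣ) (s : ℤ)
    (hD : ∀ k, ∀ x ∈ Y ⊓ C.deg k, f (C.D x) - (c : R) • C'.D (f x) ∈ X')
    (hX : C.IsSub X) (hY : C.IsSub Y) (hXY : X ≤ Y)
    (hX' : C'.IsSub X') (hY' : C'.IsSub Y') (hXY' : X' ≤ Y')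
    (hdeg : ∀ k, (C.deg k).map f ≤ C'.deg (k + s))
    (hmX : X.map f ≤ X') (hmY : Y.map f ≤ Y')
    (hsurj : ∀ k, Y' ⊓ C'.deg (k + s) ≤ (Y ⊓ C.deg k).map f ⊔ (X' ⊓ C'.deg (k + s)))
    (hinj : ∀ k, (Y ⊓ C.deg k) ⊓ X'.comap f ≤ X) :
    Module.length R (C.H X Y n) = Module.length R (C'.H X' Y' (n + s)) := by
  have hE : ∀ k, ∀ x ∈ Y ⊓ C.deg k, (↑c⁻¹ : R) • f (C.D x) - C'.D (f x) ∈ X' := fun k x hx => by
    have h := X'.smul_mem (↑c⁻¹ : R) (hD k x hx)
    rwa [smul_sub, smul_smul, Units.inv_mul, one_smul] at h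
  have hc : C.cyc X Y n ≤ (C'.cyc X' Y' (n + s)).comap f := fun x hx =>
    ⟨⟨hmY ⟨x, hx.1.1, rfl⟩, hdeg n ⟨x, hx.1.2, rfl⟩⟩, by
      change C'.D (f x) ∈ X'
      have h := sub_mem (X'.smul_mem (↑c⁻¹ : R) (hmX ⟨C.D x, hx.2, rfl⟩)) (hE n x hx.1)
      rwa [sub_sub_cancel] at h⟩
  have hdy : ∀ y ∈ C.deg (n + 1), f y ∈ C'.deg (n + s + 1) ∧ C.D y ∈ C.deg n := fun y hy =>
    ⟨by simpa [add_right_comm] using hdeg (n + 1) ⟨y, hy, rfl⟩,
      by simpa using C.map_deg (n + 1) ⟨y, hy, rfl⟩⟩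
  have hb : C.bd X Y n ≤ (C'.bd X' Y' (n + s)).comap f := sup_le
    (by
      rintro _ ⟨y, hy, rfl⟩
      change f (C.D y) ∈ C'.bd X' Y' (n + s)
      obtain ⟨hy1, hy2⟩ := hdy y hy.2
      have hDd : C'.D (f y) ∈ C'.deg (n + s) := by
        simpa using C'.map_deg (n + s + 1) ⟨f y, hy1, rfl⟩
      rw [← sub_add_cancel (f (C.D y)) ((c : R) • C'.D (f y))]
      exact add_mem (Submodule.mem_sup_right ⟨hD (n + 1) y hy,
          sub_mem (hdeg n ⟨_, hy2, rfl⟩) (Submodule.smul_mem _ _ hDd)⟩)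
        (Submodule.smul_mem _ _ (Submodule.mem_sup_left ⟨f y, ⟨hmY ⟨y, hy.1, rfl⟩, hy1⟩, rfl⟩)))
    fun x hx => Submodule.mem_sup_right ⟨hmX ⟨x, hx.1, rfl⟩, hdeg n ⟨x, hx.2, rfl⟩⟩
  refine (LinearEquiv.ofBijective (C.hMap C' f hc hb) ⟨?_, ?_⟩).length_eq
  · rw [← LinearMap.ker_eq_bot, Submodule.eq_bot_iff]
    intro a ha
    induction a using Submodule.Quotient.induction_on with | _ x
    obtain ⟨x, hx⟩ := x
    have h : f x ∈ C'.bd X' Y' (n + s) := (C'.mk_eq_zero_iff_bd _).1 ha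
    obtain ⟨_, ⟨w', hw', rfl⟩, r, hr, hs⟩ := Submodule.mem_sup.1 h
    rw [add_right_comm] at hw'
    obtain ⟨_, ⟨y, hy, rfl⟩, r', hr', hs'⟩ := Submodule.mem_sup.1 (hsurj _ hw')
    have hd1 : (↑c⁻¹ : R) • C.D y ∈ C.deg n := Submodule.smul_mem _ _ (hdy y hy.2).2
    have hd2 : (↑c⁻¹ : R) • C.D y ∈ Y := Submodule.smul_mem _ _ (hY ⟨y, hy.1, rfl⟩)
    have hz : x - (↑c⁻¹ : R) • C.D y ∈ X :=
      hinj n ⟨⟨Y.sub_mem hx.1.1 hd2, sub_mem hx.1.2 hd1⟩, by
        change f (x - (↑c⁻¹ : R) • C.D y) ∈ X'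
        rw [map_sub, map_smul, ← hs, ← hs', map_add]
        have := sub_mem (add_mem (hX' ⟨r', hr'.1, rfl⟩) hr.1) (hE _ y hy)
        convert this using 1
        abel⟩
    refine (C.mk_eq_zero_iff_bd _).2 ?_
    exact Submodule.mem_sup.2 ⟨_, ⟨(↑c⁻¹ : R) • y, Submodule.smul_mem _ _ hy, map_smul _ _ _⟩,
      x - (↑c⁻¹ : R) • C.D y, ⟨hz, sub_mem hx.1.2 hd1⟩, add_sub_cancel _ _⟩
  · intro a
    induction a using Submodule.Quotient.induction_on with | _ z
    obtain ⟨z, hz⟩ := z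
    obtain ⟨_, ⟨y, hy, rfl⟩, r, hr, hs⟩ := Submodule.mem_sup.1 (hsurj n hz.1)
    have hDy : C.D y ∈ X := hinj (n - 1) ⟨⟨hY ⟨y, hy.1, rfl⟩, C.map_deg n ⟨y, hy.2, rfl⟩⟩, by
      change f (C.D y) ∈ X'
      have h1 : C'.D (f y) ∈ X' := by
        rw [eq_sub_of_add_eq hs, map_sub]
        exact sub_mem hz.2 (hX' ⟨r, hr.1, rfl⟩)
      have h := add_mem (hD n y hy) (X'.smul_mem (c : R) h1)
      rwa [sub_add_cancel] at h⟩
    refine ⟨Submodule.Quotient.mk ⟨y, hy, hDy⟩, ?_⟩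
    change (Submodule.Quotient.mk _ : C'.H X' Y' (n + s)) = Submodule.Quotient.mk _
    rw [Submodule.Quotient.eq]
    change f y - z ∈ C'.bd X' Y' (n + s)
    rw [← hs, sub_add_cancel_left]
    exact neg_mem (Submodule.mem_sup_right hr)

end GC

end Vale.Agent.P202.Char
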