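import Vale.Agent.P202.Char.Killed
import Vale.Agent.P202.Char.Cut
import Vale.Agent.P202.Char.GC

/-!
P202, Lech in characteristic `p`: the homology between two levels is bounded by the cuts of the
columns, and the Euler characteristics add up.
-/

namespace Vale.Agent.P202.Char.Tw

universe u

variable {R : Type u} [CommRing R] [IsLocalRing R] {n : ℕ} (P : Tw R n)

/-- The Cech complex of one column. -/
noncomputable abbrev colGC (P : Tw R n) := cechGC R n (Tot R n P.Z.Idx)

/-- Level `a'` on the columns of `B`, level `a` on the others. -/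
noncomputable def mix0 (a a' : ℕ → ℤ) (B : Finset P.Q.β) : Submodule R P.T0 :=
  Submodule.pi Set.univ fun b => Submodule.pi Set.univ fun ε =>
    P.comp0 (if b ∈ B then a' else a) b ε

/-- The corresponding subcomplex. -/
noncomputable def mix (a a' : ℕ → ℤ) (B : Finset P.Q.β) : Submodule R P.T :=
  P.img (P.mix0 a a' B)

variable {P}
variable {a a' : ℕ → ℤ}

theorem mix_empty : P.mix a a' ∅ = P.lvl a := by simp [mix, lvl, mix0, lvl0]

theorem mix_univ : P.mix a a' Finset.univ = P.lvl a' := by simp [mix, lvl, mix0, lvl0]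

theorem mix0_le (hw : ∀ i, a' i ≤ P.w) (h : ∀ i, a i ≤ a' i) {B B' : Finset P.Q.β}
    (hB : B ⊆ B') : P.mix0 a a' B ≤ P.mix0 a a' B' := by
  intro x hx b _ ε _
  have h1 := hx b trivial ε trivial
  simp only [SetLike.mem_coe] at h1 ⊢
  by_cases hb : b ∈ B
  · rw [if_pos hb] at h1; rw [if_pos (hB hb)]; exact h1
  · rw [if_neg hb] at h1
    by_cases hb' : b ∈ B'
    · rw [if_pos hb']; exact P.comp0_mono hw h b ε h1
    · rw [if_neg hb']; exact h1

theorem mix0_le_free (hw : ∀ i, a' i ≤ P.w) (h : ∀ i, a i ≤ a' i) (B : Finset P.Q.β) :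
    P.mix0 a a' B ≤ P.free0 := by
  intro x hx b _ ε _
  have h1 := hx b trivial ε trivial
  simp only [SetLike.mem_coe] at h1
  refine P.comp0_le_free (fun i => ?_) b ε h1
  split_ifs
  · exact hw i
  · exact (h i).trans (hw i)

theorem mix0_map (hw : ∀ i, a' i ≤ P.w) (h : ∀ i, a i ≤ a' i) (ha : ∀ i, a (i + 1) ≤ a i)
    (ha' : ∀ i, a' (i + 1) ≤ a' i) {B : Finset P.Q.β}
    (hB : ∀ b b', b' ∈ B → P.Q.deg b' = P.Q.deg b + 1 → b ∈ B) :
    (P.mix0 a a' B).map P.D0 ≤ P.mix0 a a' B := by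
  rintro _ ⟨x, hx, rfl⟩ b - ε -
  rw [SetLike.mem_coe, D0_apply, Pi.add_apply, Finset.sum_apply, Pi.smul_apply, cechD_apply]
  refine Submodule.add_mem _ (Submodule.sum_mem _ fun b' _ => ?_)
    (Submodule.smul_mem _ _ (Submodule.sum_mem _ fun j hj => ?_))
  · rw [entry_apply]
    by_cases hd : P.Q.deg b' = P.Q.deg b + 1
    · rw [if_pos hd]
      have hx' := hx b' trivial ε trivial
      simp only [SetLike.mem_coe] at hx'
      show push P.lam (P.fam b b') (x b' ε) ∈ P.comp0 (if b ∈ B then a' else a) b ε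
      by_cases hb' : b' ∈ B
      · rw [if_pos hb'] at hx'
        rw [if_pos (hB b b' hb' hd)]
        exact P.entry_comp0 hw ha' hd hx'
      · rw [if_neg hb'] at hx'
        have h2 := P.entry_comp0 (fun i => (h i).trans (hw i)) ha hd hx'
        by_cases hb : b ∈ B
        · rw [if_pos hb]; exact P.comp0_mono hw h b ε h2
        · rw [if_neg hb]; exact h2
    · rw [if_neg hd]; exact Submodule.zero_mem _
  · have hc : ∀ v : Fin 3, x b (Function.update ε j v) ∈
        P.comp0 (if b ∈ B then a' else a) b ε := by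
      intro v
      refine P.comp0_chart b (fun l => ?_) (hx b trivial (Function.update ε j v) trivial)
      by_cases hl : l = j <;> simp_all
    exact Submodule.smul_mem _ _ (Submodule.sub_mem _ (hc 1) (hc 0))

theorem isSub_mix (hw : ∀ i, a' i ≤ P.w) (h : ∀ i, a i ≤ a' i) (ha : ∀ i, a (i + 1) ≤ a i)
    (ha' : ∀ i, a' (i + 1) ≤ a' i) {B : Finset P.Q.β}
    (hB : ∀ b b', b' ∈ B → P.Q.deg b' = P.Q.deg b + 1 → b ∈ B) : P.gc.IsSub (P.mix a a' B) := by
  rintro _ ⟨y, hy, rfl⟩
  obtain ⟨x, hx, hA, rfl⟩ := P.mem_img.1 hy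
  have h2 : P.D0 x ∈ P.mix0 a a' B := mix0_map hw h ha ha' hB ⟨x, hA, rfl⟩
  rw [gc_cls]
  exact Submodule.mem_map_of_mem (f := Submodule.mkQ _) (show _ ∈ Submodule.comap _ _ from h2)

theorem mix_le (hw : ∀ i, a' i ≤ P.w) (h : ∀ i, a i ≤ a' i) {B B' : Finset P.Q.β}
    (hB : B ⊆ B') : P.mix a a' B ≤ P.mix a a' B' :=
  Submodule.map_mono (Submodule.comap_mono (mix0_le hw h hB))

theorem mix_inf_deg (B : Finset P.Q.β) (k : ℤ) :
    P.mix a a' B ⊓ P.gc.deg k = P.img (P.mix0 a a' B ⊓ P.deg0 k) := by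
  refine P.img_inf_deg ?_ k
  intro x hx k y hy b _ ε _
  have h1 := hx b trivial ε trivial
  simp only [SetLike.mem_coe] at h1 ⊢
  rw [hy]
  by_cases hk : (P.Q.deg b : ℤ) - chartDeg ε = k
  · rw [if_pos hk]; exact h1
  · rw [if_neg hk]; exact Submodule.zero_mem _

variable (P) in
/-- The cochain supported in the column `b`. -/
noncomputable def sgl (b : P.Q.β) (v : Chart n → Tot R n P.Z.Idx) : P.T0 :=
  Pi.single (M := fun _ : P.Q.β => Chart n → Tot R n P.Z.Idx) b v

theorem sgl_same {b : P.Q.β} {v : Chart n → Tot R n P.Z.Idx} : P.sgl b v b = v :=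
  Pi.single_eq_same (M := fun _ : P.Q.β => Chart n → Tot R n P.Z.Idx) b v

theorem sgl_ne {b b' : P.Q.β} (h : b' ≠ b) {v : Chart n → Tot R n P.Z.Idx} : P.sgl b v b' = 0 :=
  Pi.single_eq_of_ne (M := fun _ : P.Q.β => Chart n → Tot R n P.Z.Idx) h v

variable (P) in
open Classical in
/-- The projection to the slice `N`. -/
noncomputable def toF (N : ℤ) :
    (Chart n → Tot R n P.Z.Idx) →ₗ[R] (Chart n → Tot R n P.Z.Idx) :=
  LinearMap.pi fun ε => (Submodule.subtype _) ∘ₗ
    Finsupp.restrictDom R R {x | InBox P.tw ε x.2 ∧ P.Z.ideg x.1 + x.2.2 = N} ∘ₗ LinearMap.proj ε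

theorem toF_mem (N : ℤ) (x : Chart n → Tot R n P.Z.Idx) :
    P.toF N x ∈ freeCech R P.tw P.Z.ideg N := by
  classical
  intro ε _
  rw [SetLike.mem_coe, toF, LinearMap.pi_apply, LinearMap.comp_apply,
    LinearMap.comp_apply, Submodule.subtype_apply]
  exact (Finsupp.restrictDom R R {x : P.Z.Idx × Expo n |
    InBox P.tw ε x.2 ∧ P.Z.ideg x.1 + x.2.2 = N} (x ε)).2

theorem toF_fix {N : ℤ} {x : Chart n → Tot R n P.Z.Idx}
    (hx : x ∈ freeCech R P.tw P.Z.ideg N) : P.toF N x = x := by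
  classical
  funext ε
  rw [toF, LinearMap.pi_apply, LinearMap.comp_apply, LinearMap.comp_apply, Submodule.subtype_apply,
    Finsupp.restrictDom_apply]
  refine (Finsupp.filter_eq_self_iff _ _).2 fun y hy => ?_
  exact (Finsupp.mem_supported R (x ε)).1 (hx ε trivial) (Finsupp.mem_support_iff.2 hy)

theorem toF_deg {N k : ℤ} {x : Chart n → Tot R n P.Z.Idx}
    (hx : x ∈ cechDeg R (Tot R n P.Z.Idx) k) : P.toF N x ∈ cechDeg R (Tot R n P.Z.Idx) k := by
  intro ε _
  have h1 := hx ε trivial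
  simp only [SetLike.mem_coe] at h1 ⊢
  by_cases hk : -(chartDeg ε : ℤ) = k
  · rw [if_pos hk]; trivial
  · rw [if_neg hk, Submodule.mem_bot] at h1 ⊢
    simp [toF, h1]

theorem sgl_upC_free {b : P.Q.β} {N : ℤ} {d : ℕ} (hd : N - d = P.slot b)
    {x : Chart n → Tot R n P.Z.Idx} (hx : x ∈ freeCech R P.tw P.Z.ideg N) :
    P.sgl b (P.Z.upC P.lam d x) ∈ P.free0 := by
  intro b' _ ε _
  by_cases hb : b' = b
  · subst hb
    simp only [sgl_same, SetLike.mem_coe]
    have := (RedData.acts_upBy P.Z 1 d).push_free P.lam (hx ε trivial)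
    rw [← sub_eq_add_neg, hd] at this
    simpa [RedData.upC] using this
  · simp [sgl_ne hb]

variable (P) in
/-- The classes of one column raised by `u ^ d`. -/
noncomputable def colMap (b : P.Q.β) (N : ℤ) (d : ℕ) (hd : N - d = P.slot b) :
    (Chart n → Tot R n P.Z.Idx) →ₗ[R] P.T :=
  (Submodule.mkQ _ : P.free0 →ₗ[R] P.T) ∘ₗ LinearMap.codRestrict P.free0
    (LinearMap.single R (fun _ : P.Q.β => Chart n → Tot R n P.Z.Idx) b ∘ₗ
      P.Z.upC P.lam d ∘ₗ P.toF N)
    (fun x => sgl_upC_free hd (toF_mem N x))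

theorem colMap_def {b : P.Q.β} {N : ℤ} {d : ℕ} (hd : N - d = P.slot b)
    (x : Chart n → Tot R n P.Z.Idx) :
    P.colMap b N d hd x =
      P.cls (P.sgl b (P.Z.upC P.lam d (P.toF N x))) (sgl_upC_free hd (toF_mem N x)) := rfl

theorem colMap_free0 {b : P.Q.β} {N : ℤ} {d : ℕ} (hd : N - d = P.slot b)
    {x : Chart n → Tot R n P.Z.Idx} (hx : x ∈ freeCech R P.tw P.Z.ideg N) :
    P.sgl b (P.Z.upC P.lam d x) ∈ P.free0 := sgl_upC_free hd hx

theorem colMap_apply {b : P.Q.β} {N : ℤ} {d : ℕ} (hd : N - d = P.slot b)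
    {x : Chart n → Tot R n P.Z.Idx} (hx : x ∈ freeCech R P.tw P.Z.ideg N) :
    P.colMap b N d hd x = P.cls (P.sgl b (P.Z.upC P.lam d x)) (colMap_free0 hd hx) := by
  simp only [colMap_def, toF_fix hx]

theorem deg0_single {b : P.Q.β} {v : Chart n → Tot R n P.Z.Idx} {k : ℤ}
    (hv : v ∈ cechDeg R (Tot R n P.Z.Idx) k) :
    (P.sgl b v : P.T0) ∈ P.deg0 (k + P.Q.deg b) := by
  rw [P.mem_deg0_iff]
  intro b' ε hne
  by_cases hb : b' = b
  · subst hb
    have := hv ε trivial
    simp only [SetLike.mem_coe] at this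
    rw [if_neg (by omega), Submodule.mem_bot] at this
    rw [sgl_same]; exact this
  · simp [sgl_ne hb]

/-- One column between two levels. -/
theorem length_column (hu : P.UInj) (hw : ∀ i, a' i ≤ P.w) (h : ∀ i, a i ≤ a' i)
    (ha : ∀ i, a (i + 1) ≤ a i) (ha' : ∀ i, a' (i + 1) ≤ a' i) {B : Finset P.Q.β} {b : P.Q.β}
    (hb : b ∉ B) (hB : ∀ b₁ b₂, b₂ ∈ B → P.Q.deg b₂ = P.Q.deg b₁ + 1 → b₁ ∈ B)
    (hBb : ∀ b₁, P.Q.deg b = P.Q.deg b₁ + 1 → b₁ ∈ B) (k : ℤ) :
    Module.length R (P.colGC.H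
        (P.Z.cut P.lam P.tw (a' (P.Q.deg b) - a (P.Q.deg b)).toNat
          (-((P.Q.deg b : ℤ) * P.J) - a' (P.Q.deg b)))
        (freeCech R P.tw P.Z.ideg (-((P.Q.deg b : ℤ) * P.J) - a' (P.Q.deg b))) k) =
      Module.length R (P.gc.H (P.mix a a' B) (P.mix a a' (insert b B)) (k + P.Q.deg b)) := by
  classical
  set i := P.Q.deg b with hi
  set N := -((i : ℤ) * P.J) - a' i with hN
  set d := (P.w - a' i).toNat with hd0
  set t := (a' i - a i).toNat with ht0
  have hd : N - d = P.slot b := by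
    have := hw i; simp only [slot, hN, hd0, ← hi]; omega
  have hBi : ∀ b₁ b₂, b₂ ∈ insert b B → P.Q.deg b₂ = P.Q.deg b₁ + 1 → b₁ ∈ insert b B := by
    intro b₁ b₂ h2 hdeg
    rcases Finset.mem_insert.1 h2 with rfl | h2
    · exact Finset.mem_insert_of_mem (hBb b₁ hdeg)
    · exact Finset.mem_insert_of_mem (hB b₁ b₂ h2 hdeg)
  have hlow : ∀ ε, ∀ y ∈ freeSlice R P.tw ε P.Z.ideg (N + t),
      push P.lam (P.Z.upBy 1 d) (push P.lam (P.Z.upBy 1 t) y) -
        push P.lam (P.Z.upBy 1 (P.w - a i).toNat) y ∈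
          relSlice P.lam P.tw ε P.Z.ideg P.Z.rel (P.slot b) := by
    intro ε y hy
    have hA := (RedData.acts_upBy P.Z 1 d).comp (RedData.acts_upBy P.Z 1 t)
    rw [one_mul, show -(d : ℤ) + -(t : ℤ) = -(((P.w - a i).toNat : ℕ) : ℤ) by
      have := hw i; have := h i; omega] at hA
    have := hA.push_congr P.lam (RedData.acts_upBy P.Z 1 (P.w - a i).toNat) hy
    rwa [← push_comp, show N + t + -(((P.w - a i).toNat : ℕ) : ℤ) = P.slot b by
      simp only [slot, hN, ← hi]; have := hw i; have := h i; omega] at this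
  have hcutfree : P.Z.cut P.lam P.tw t N ≤ freeCech R P.tw P.Z.ideg N := by
    refine sup_le (relCech_le_free P.lam) ?_
    rintro _ ⟨y, hy, rfl⟩ ε -
    have := (RedData.acts_upBy P.Z 1 t).push_free P.lam (hy ε trivial)
    rw [show N + t + -(t : ℤ) = N by ring] at this
    simpa [RedData.upC] using this
  have hcutsub : P.colGC.IsSub (P.Z.cut P.lam P.tw t N) := by
    rw [GC.IsSub, RedData.cut, Submodule.map_sup]
    refine sup_le_sup (cechD_mem_rel P.lam) ?_
    rintro _ ⟨_, ⟨y, hy, rfl⟩, rfl⟩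
    refine ⟨cechD R y, cechD_mem (Submodule.mem_map_of_mem hy), ?_⟩
    funext ε
    simp [RedData.upC, cechD_apply, map_sum, map_smul, map_sub, cechGC]
  refine GC.h_congr (X := P.Z.cut P.lam P.tw t N) (Y := freeCech R P.tw P.Z.ideg N)
    P.colGC P.gc (P.colMap b N d hd)
    (Units.mk ((-1) ^ i) ((-1) ^ i) (by rw [← mul_pow]; simp) (by rw [← mul_pow]; simp))
    (i : ℤ) ?_ hcutsub cechD_mem hcutfree (isSub_mix hw h ha ha' hB)
    (isSub_mix hw h ha ha' hBi) (mix_le hw h (Finset.subset_insert b B)) ?_ ?_ ?_ ?_ ?_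
  · -- the differentials agree modulo the other columns
    rintro k' x ⟨hx, -⟩
    have hdx : cechD R x ∈ freeCech R P.tw P.Z.ideg N := cechD_mem (Submodule.mem_map_of_mem hx)
    show P.colMap b N d hd (cechD R x) - ((-1 : R) ^ i) • P.gc.D (P.colMap b N d hd x) ∈ _
    rw [colMap_apply hd hdx, colMap_apply hd hx, gc_cls]
    set v := P.Z.upC P.lam d x with hv
    have hvf : (P.sgl b v : P.T0) ∈ P.free0 := colMap_free0 hd hx
    have hD := P.free0_map (Submodule.mem_map_of_mem hvf)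
    refine P.mem_img.2 ⟨P.sgl b (P.Z.upC P.lam d (cechD R x)) -
      ((-1 : R) ^ i) • P.D0 (P.sgl b v), Submodule.sub_mem _ (colMap_free0 hd hdx)
        (Submodule.smul_mem _ _ hD), ?_, rfl⟩
    intro b' _ ε _
    simp only [SetLike.mem_coe, Pi.sub_apply, Pi.smul_apply, D0_apply, Pi.add_apply,
      Finset.sum_apply]
    have hcomm : P.Z.upC P.lam d (cechD R x) ε = cechD R v ε := by
      simp [hv, RedData.upC, cechD_apply, map_sum, map_smul, map_sub]
    by_cases hbb : b' = b
    · subst hbb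
      have hself : ∀ b'', P.entry b' b'' (P.sgl b' v b'') ε = 0 := fun b'' => by
        rw [entry_apply]
        split_ifs with hd'
        · rw [sgl_ne (by intro he; rw [he] at hd'; omega), Pi.zero_apply, map_zero]
        · rfl
      simp only [sgl_same, Finset.sum_eq_zero fun b'' _ => hself b'', zero_add,
        smul_smul, ← mul_pow, hcomm, ← hi]
      simp
    · simp only [sgl_ne hbb, map_zero, Pi.zero_apply, zero_sub, smul_zero, add_zero]
      refine Submodule.neg_mem _ (Submodule.smul_mem _ _ (Submodule.sum_mem _ fun b'' _ => ?_))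
      rw [entry_apply]
      by_cases hb'' : b'' = b
      · subst hb''
        by_cases h2 : P.Q.deg b'' = P.Q.deg b' + 1
        · rw [if_pos h2, if_pos (hBb b' h2), sgl_same]
          refine P.entry_comp0 hw ha' h2 (Submodule.mem_sup_left ⟨x ε, ?_, ?_⟩)
          · rw [← hi, ← hN]; exact hx ε trivial
          · simp [hv, RedData.upC, ← hi, hd0]
        · rw [if_neg h2]; exact Submodule.zero_mem _
      · simp [sgl_ne hb'']
  · -- degrees
    intro k'
    rintro _ ⟨x, hx, rfl⟩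
    rw [colMap_def]
    refine P.mem_img.2 ⟨_, _, deg0_single (fun ε _ => ?_), rfl⟩
    have h1 := toF_deg (P := P) (N := N) hx ε trivial
    simp only [SetLike.mem_coe] at h1 ⊢
    by_cases hk : -(chartDeg ε : ℤ) = k'
    · rw [if_pos hk]; trivial
    · rw [if_neg hk, Submodule.mem_bot] at h1 ⊢
      simp [RedData.upC, h1]
  · -- the cut goes to the lower level
    rintro _ ⟨x, hx, rfl⟩
    rw [colMap_apply hd (hcutfree hx)]
    refine P.mem_img.2 ⟨_, _, ?_, rfl⟩
    intro b' _ ε _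
    simp only [SetLike.mem_coe]
    by_cases hbb : b' = b
    · subst hbb
      rw [if_neg hb, sgl_same]
      obtain ⟨r, hr, _, ⟨y, hy, rfl⟩, rfl⟩ := Submodule.mem_sup.1 hx
      simp only [RedData.upC, LinearMap.pi_apply, LinearMap.comp_apply, LinearMap.proj_apply,
        map_add, Pi.add_apply]
      refine Submodule.add_mem _ (Submodule.mem_sup_right ?_) (Submodule.mem_sup.2
        ⟨push P.lam (P.Z.upBy 1 (P.w - a i).toNat) (y ε), Submodule.mem_map_of_mem ?_,
          _, hlow ε _ (hy ε trivial), ?_⟩)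
      · have := (RedData.acts_upBy P.Z 1 d).push_rel P.lam (hr ε trivial)
        rwa [← sub_eq_add_neg, hd] at this
      · rw [← hi, show -((i : ℤ) * P.J) - a i = N + t by
          simp only [hN]; have := h i; omega]
        exact hy ε trivial
      · abel
    · rw [sgl_ne hbb, Pi.zero_apply]
      exact Submodule.zero_mem _
  · rintro _ ⟨x, hx, rfl⟩
    rw [colMap_apply hd hx]
    refine P.mem_img.2 ⟨_, _, ?_, rfl⟩
    intro b' _ ε _
    simp only [SetLike.mem_coe]
    by_cases hbb : b' = b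
    · subst hbb
      rw [if_pos (Finset.mem_insert_self _ _), sgl_same]
      exact Submodule.mem_sup_left ⟨x ε, by rw [← hi, ← hN]; exact hx ε trivial,
        by simp [RedData.upC, ← hi, hd0]⟩
    · rw [sgl_ne hbb, Pi.zero_apply]
      exact Submodule.zero_mem _
  · -- surjective
    intro k' y hy
    rw [mix_inf_deg] at hy
    obtain ⟨x, hxf, ⟨hx, hxk⟩, rfl⟩ := P.mem_img.1 hy
    have hcomp : ∀ ε, ∃ s ∈ freeSlice R P.tw ε P.Z.ideg N,
        x b ε - push P.lam (P.Z.upBy 1 d) s ∈ relSlice P.lam P.tw ε P.Z.ideg P.Z.rel (P.slot b) ∧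
        (-(chartDeg ε : ℤ) ≠ k' → s = 0) := by
      intro ε
      by_cases hk : -(chartDeg ε : ℤ) = k'
      · have := hx b trivial ε trivial
        rw [SetLike.mem_coe, if_pos (Finset.mem_insert_self _ _)] at this
        obtain ⟨_, ⟨s, hs, rfl⟩, r, hr, hsum⟩ := Submodule.mem_sup.1 this
        refine ⟨s, hs, ?_, fun hne => absurd hk hne⟩
        rw [← hsum, ← hi, ← hd0, add_sub_cancel_left]
        exact hr
      · refine ⟨0, Submodule.zero_mem _, ?_, fun _ => rfl⟩
        rw [P.mem_deg0_iff.1 hxk b ε (by omega)]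
        simp
    choose s hs hsx hs0 using hcomp
    have hsf : s ∈ freeCech R P.tw P.Z.ideg N := fun ε _ => hs ε
    have hsd : s ∈ P.colGC.deg k' := fun ε _ => by
      simp only [SetLike.mem_coe]
      split_ifs with hk
      · trivial
      · exact (Submodule.mem_bot R).2 (hs0 ε hk)
    refine Submodule.mem_sup.2 ⟨_, Submodule.mem_map_of_mem ⟨hsf, hsd⟩, _, ?_,
      add_sub_cancel _ _⟩
    rw [colMap_apply hd hsf, mix_inf_deg]
    refine P.mem_img.2 ⟨x - P.sgl b (P.Z.upC P.lam d s),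
      Submodule.sub_mem _ hxf (colMap_free0 hd hsf), ⟨?_, ?_⟩, rfl⟩
    · intro b' _ ε _
      simp only [SetLike.mem_coe, Pi.sub_apply]
      by_cases hbb : b' = b
      · subst hbb
        rw [if_neg hb, sgl_same]
        exact Submodule.mem_sup_right (by simpa [RedData.upC] using hsx ε)
      · have := hx b' trivial ε trivial
        simpa [sgl_ne hbb, Finset.mem_insert, hbb] using this
    · refine Submodule.sub_mem _ hxk (deg0_single fun ε _ => ?_)
      simp only [SetLike.mem_coe]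
      split_ifs with hk
      · trivial
      · simp [RedData.upC, hs0 ε hk]
  · -- injective
    rintro k' x ⟨⟨hx, hxk⟩, hx'⟩
    rw [SetLike.mem_coe, Submodule.mem_comap, colMap_apply hd hx] at hx'
    obtain ⟨y, hyf, hy, he⟩ := P.mem_img.1 hx'
    rw [cls_eq] at he
    have hcomp : ∀ ε, ∃ s ∈ freeSlice R P.tw ε P.Z.ideg (N + t),
        x ε - push P.lam (P.Z.upBy 1 t) s ∈ relSlice P.lam P.tw ε P.Z.ideg P.Z.rel N := by
      intro ε
      have h1 := hy b trivial ε trivial
      rw [SetLike.mem_coe, if_neg hb] at h1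
      obtain ⟨_, ⟨s, hs, rfl⟩, r, hr, hsum⟩ := Submodule.mem_sup.1 h1
      rw [← hi, show -((i : ℤ) * P.J) - a i = N + t by
        simp only [hN]; have := h i; omega] at hs
      have h2 := he b trivial ε trivial
      simp only [SetLike.mem_coe, Pi.sub_apply, sgl_same, ← hsum, ← hi] at h2
      refine ⟨s, hs, hu ε N d _ (Submodule.sub_mem _ (hx ε trivial) ?_) ?_⟩
      · have := (RedData.acts_upBy P.Z 1 t).push_free P.lam hs
        rwa [show N + t + -(t : ℤ) = N by ring] at this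
      · rw [hd]
        have := Submodule.sub_mem _ hr (Submodule.add_mem _ h2 (hlow ε s hs))
        simp only [RedData.upC, LinearMap.pi_apply, LinearMap.comp_apply, LinearMap.proj_apply]
          at this
        rw [map_sub]
        convert this using 1
        abel
    choose s hs hsx using hcomp
    exact Submodule.mem_sup.2 ⟨x - P.Z.upC P.lam t s,
      fun ε _ => by simpa [RedData.upC] using hsx ε, _,
      Submodule.mem_map_of_mem (fun ε _ => hs ε), sub_add_cancel _ _⟩

end Vale.Agent.P202.Char.Tw
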