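import Vale.Agent.P202.Char.Defs

/-!
P202, Lech in characteristic `p`: passage to an infinite residue field.

`R` is replaced by the localisation of `R[X]` at the prime of the polynomials with all coefficients
in the maximal ideal, and `S` by the corresponding localisation of `S[X]`.
-/

namespace Vale.Agent.P202.Char

open IsLocalRing MvPolynomial
open scoped TensorProduct

universe u

namespace InfRes

attribute [local instance] MvPolynomial.algebraMvPolynomial

/-- Flat local extensions whose maximal ideal is generated by the one below do not change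
multiplicities. -/
theorem isMultiplicity_iff {R S : Type u} [CommRing R] [CommRing S] [IsLocalRing R] [IsLocalRing S]
    [Algebra R S] [IsLocalHom (algebraMap R S)] [Module.Flat R S]
    (h : (maximalIdeal R).map (algebraMap R S) = maximalIdeal S) (d : ℕ) (e : ℝ) :
    IsMultiplicity R d e ↔ IsMultiplicity S d e := by
  have h1 : Module.length S (S ⧸ maximalIdeal S) = 1 := by
    have : IsSimpleModule S (S ⧸ maximalIdeal S) :=
      isSimpleModule_iff_isCoatom.2 (IsLocalRing.maximalIdeal.isMaximal S).out
    exact Module.length_eq_one S _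
  have hlen : ∀ N, Module.length S (S ⧸ maximalIdeal S ^ N) =
      Module.length R (R ⧸ maximalIdeal R ^ N) := fun N => by
    have := length_map (R := R) (S := S) N
    rwa [h, h1, mul_one] at this
  simp only [IsMultiplicity, hlen]

variable (R S : Type u) [CommRing R] [CommRing S] [IsLocalRing R] [IsLocalRing S] [Algebra R S]

/-- The prime of the polynomials with all coefficients in the maximal ideal. -/
noncomputable def gPrime : Ideal (MvPolynomial (Fin 1) R) :=
  RingHom.ker (MvPolynomial.map (residue R))

instance : (gPrime R).IsPrime := RingHom.ker_isPrime _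

theorem gPrime_eq : gPrime R = (maximalIdeal R).map (C : R →+* MvPolynomial (Fin 1) R) := by
  rw [gPrime, MvPolynomial.ker_map, ker_residue]

/-- `R(X)`. -/
abbrev GRing := Localization.AtPrime (gPrime R)

/-- `S[X]` localised over the prime of `R[X]`. -/
abbrev GExt := Localization
  (Algebra.algebraMapSubmonoid (MvPolynomial (Fin 1) S) (gPrime R).primeCompl)

theorem map_maximal :
    (maximalIdeal R).map (algebraMap R (GRing R)) = maximalIdeal (GRing R) := by
  rw [IsScalarTower.algebraMap_eq R (MvPolynomial (Fin 1) R) (GRing R), ← Ideal.map_map,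
    MvPolynomial.algebraMap_eq, ← gPrime_eq, Localization.AtPrime.map_eq_maximalIdeal]

instance : IsLocalHom (algebraMap R (GRing R)) :=
  ⟨fun a ha => by
    by_contra h
    have : algebraMap R (GRing R) a ∈ maximalIdeal (GRing R) :=
      map_maximal R ▸ Ideal.mem_map_of_mem _ ((mem_maximalIdeal a).2 h)
    exact (mem_maximalIdeal _).1 this ha⟩

instance : Module.Flat R (GRing R) :=
  have : Module.Flat (MvPolynomial (Fin 1) R) (GRing R) :=
    IsLocalization.flat _ (gPrime R).primeCompl
  Module.Flat.trans R (MvPolynomial (Fin 1) R) (GRing R)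

theorem injective_gRing : Function.Injective (algebraMap R (GRing R)) := by
  rw [injective_iff_map_eq_zero]
  intro r hr
  rw [IsScalarTower.algebraMap_apply R (MvPolynomial (Fin 1) R) (GRing R),
    IsLocalization.map_eq_zero_iff (gPrime R).primeCompl] at hr
  obtain ⟨⟨s, hs⟩, hsr⟩ := hr
  obtain ⟨c, hc⟩ := MvPolynomial.ne_zero_iff.1 (show MvPolynomial.map (residue R) s ≠ 0 from hs)
  rw [coeff_map, residue_ne_zero_iff_isUnit] at hc
  have := congrArg (coeff c) hsr
  rw [MvPolynomial.algebraMap_eq, mul_comm, coeff_C_mul, coeff_zero] at this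
  exact hc.mul_left_eq_zero.1 this

theorem infinite_residue : Infinite (ResidueField (GRing R)) := by
  set f : ℕ → ResidueField (GRing R) := fun i =>
    residue _ (algebraMap (MvPolynomial (Fin 1) R) (GRing R) (X 0 ^ i))
  refine Infinite.of_injective f fun i j hij => ?_
  have h : algebraMap (MvPolynomial (Fin 1) R) (GRing R) (X 0 ^ i - X 0 ^ j) ∈
      maximalIdeal (GRing R) := by
    rw [← residue_eq_zero_iff, map_sub, map_sub, sub_eq_zero]
    exact hij
  rw [IsLocalization.AtPrime.to_map_mem_maximal_iff (GRing R) (gPrime R)] at h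
  simp only [gPrime, RingHom.mem_ker, map_sub, sub_eq_zero, MvPolynomial.X_pow_eq_monomial,
    map_monomial, map_one] at h
  exact Finsupp.single_injective 0 (monomial_left_injective one_ne_zero h)

omit [IsLocalRing R] [IsLocalRing S] in
theorem finite_poly [Module.Finite R S] :
    Module.Finite (MvPolynomial (Fin 1) R) (MvPolynomial (Fin 1) S) :=
  Module.Finite.equiv
    (Algebra.IsPushout.equiv R (MvPolynomial (Fin 1) R) S (MvPolynomial (Fin 1) S)).toLinearEquiv

omit [IsLocalRing R] [IsLocalRing S] in
theorem free_poly [Module.Free R S] :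
    Module.Free (MvPolynomial (Fin 1) R) (MvPolynomial (Fin 1) S) :=
  Module.Free.of_equiv
    (Algebra.IsPushout.equiv R (MvPolynomial (Fin 1) R) S (MvPolynomial (Fin 1) S)).toLinearEquiv

instance [Module.Finite R S] : Module.Finite (GRing R) (GExt R S) :=
  have := finite_poly R S
  Module.Finite.of_isLocalization (MvPolynomial (Fin 1) R) (MvPolynomial (Fin 1) S)
    (gPrime R).primeCompl

instance [Module.Free R S] : Module.Free (GRing R) (GExt R S) :=
  have := free_poly R S
  Module.Free.of_basis ((Module.Free.chooseBasis (MvPolynomial (Fin 1) R)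
    (MvPolynomial (Fin 1) S)).localizationLocalization (GRing R) (gPrime R).primeCompl (GExt R S))

instance : Module.Flat S (GExt R S) :=
  have : Module.Flat (MvPolynomial (Fin 1) S) (GExt R S) :=
    IsLocalization.flat _ (Algebra.algebraMapSubmonoid (MvPolynomial (Fin 1) S)
      (gPrime R).primeCompl)
  Module.Flat.trans S (MvPolynomial (Fin 1) S) (GExt R S)

instance : IsScalarTower R (MvPolynomial (Fin 1) R) (GExt R S) :=
  IsScalarTower.of_algebraMap_eq fun r => by
    rw [IsScalarTower.algebraMap_apply (MvPolynomial (Fin 1) R) (MvPolynomial (Fin 1) S) (GExt R S),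
      ← IsScalarTower.algebraMap_apply R (MvPolynomial (Fin 1) R) (MvPolynomial (Fin 1) S),
      ← IsScalarTower.algebraMap_apply R (MvPolynomial (Fin 1) S) (GExt R S)]

instance : IsScalarTower R (GRing R) (GExt R S) :=
  IsScalarTower.of_algebraMap_eq fun r => by
    rw [IsScalarTower.algebraMap_apply R (MvPolynomial (Fin 1) R) (GRing R),
      ← IsScalarTower.algebraMap_apply (MvPolynomial (Fin 1) R) (GRing R) (GExt R S),
      ← IsScalarTower.algebraMap_apply R (MvPolynomial (Fin 1) R) (GExt R S)]

variable [IsLocalHom (algebraMap R S)]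

/-- The ideal of `S'` generated by the maximal ideal of `S`. -/
noncomputable def top' : Ideal (GExt R S) := (maximalIdeal S).map (algebraMap S (GExt R S))

omit [IsLocalHom (algebraMap R S)] in
theorem top'_prime : (top' R S).IsPrime := by
  rw [top', IsScalarTower.algebraMap_eq S (MvPolynomial (Fin 1) S) (GExt R S), ← Ideal.map_map]
  have hp : ((maximalIdeal S).map (algebraMap S (MvPolynomial (Fin 1) S))).IsPrime := by
    rw [MvPolynomial.algebraMap_eq, ← gPrime_eq S]
    infer_instance
  refine IsLocalization.isPrime_of_isPrime_disjoint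
    (Algebra.algebraMapSubmonoid (MvPolynomial (Fin 1) S) (gPrime R).primeCompl) _ _ hp ?_
  rw [Set.disjoint_left]
  rintro _ ⟨s, hs, rfl⟩ hmem
  refine hs ?_
  rw [SetLike.mem_coe, MvPolynomial.algebraMap_eq, MvPolynomial.mem_map_C_iff] at hmem
  rw [SetLike.mem_coe, gPrime_eq, MvPolynomial.mem_map_C_iff]
  intro c
  have := hmem c
  rw [show algebraMap (MvPolynomial (Fin 1) R) (MvPolynomial (Fin 1) S) =
    MvPolynomial.map (algebraMap R S) from rfl, coeff_map] at this
  by_contra h
  exact (mem_maximalIdeal _).1 this ((not_not.1 fun hu => h ((mem_maximalIdeal _).2 hu)).map _)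

variable [Module.Finite R S]

omit [IsLocalHom (algebraMap R S)] in
theorem le_top' (Q : Ideal (GExt R S)) [Q.IsMaximal] : top' R S ≤ Q := by
  have hQ : (Q.comap (algebraMap (GRing R) (GExt R S))) = maximalIdeal (GRing R) :=
    IsLocalRing.eq_maximalIdeal (Ideal.isMaximal_comap_of_isIntegral_of_isMaximal Q)
  have hR : (Q.comap (algebraMap S (GExt R S))).comap (algebraMap R S) = maximalIdeal R := by
    refine ((IsLocalRing.maximalIdeal.isMaximal R).eq_of_le ?_ ?_).symm
    · exact ((Ideal.IsMaximal.isPrime inferInstance).comap _ |>.comap _).ne_top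
    · intro r hr
      rw [Ideal.mem_comap, Ideal.mem_comap, ← IsScalarTower.algebraMap_apply,
        IsScalarTower.algebraMap_apply R (GRing R) (GExt R S), ← Ideal.mem_comap, hQ,
        ← map_maximal]
      exact Ideal.mem_map_of_mem _ hr
  have hS : (Q.comap (algebraMap S (GExt R S))).IsMaximal := by
    have : (Q.comap (algebraMap S (GExt R S))).IsPrime := Ideal.IsPrime.comap _
    refine Ideal.isMaximal_of_isIntegral_of_isMaximal_comap (R := R) _ ?_
    rw [hR]
    exact IsLocalRing.maximalIdeal.isMaximal R
  rw [top', Ideal.map_le_iff_le_comap, IsLocalRing.eq_maximalIdeal hS]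

theorem top'_maximal : (top' R S).IsMaximal := by
  obtain ⟨Q, hQ, hle⟩ := Ideal.exists_le_maximal _ (top'_prime R S).ne_top
  have hQc : (Q.comap (algebraMap (GRing R) (GExt R S))).IsMaximal :=
    Ideal.isMaximal_comap_of_isIntegral_of_isMaximal Q
  have := top'_prime R S
  refine Ideal.isMaximal_of_isIntegral_of_isMaximal_comap (R := GRing R) _ ?_
  have : maximalIdeal (GRing R) ≤ (top' R S).comap (algebraMap (GRing R) (GExt R S)) := by
    rw [← map_maximal, Ideal.map_le_iff_le_comap, Ideal.comap_comap,
      ← IsScalarTower.algebraMap_eq, IsScalarTower.algebraMap_eq R S (GExt R S),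
      ← Ideal.comap_comap]
    intro r hr
    refine Ideal.mem_map_of_mem _ ((mem_maximalIdeal _).2 fun hu => ?_)
    exact (mem_maximalIdeal r).1 hr (IsLocalHom.map_nonunit r hu)
  rw [← (IsLocalRing.maximalIdeal.isMaximal (GRing R)).eq_of_le
    ((top'_prime R S).comap _).ne_top this]
  exact IsLocalRing.maximalIdeal.isMaximal _

instance gExt_local : IsLocalRing (GExt R S) :=
  IsLocalRing.of_unique_max_ideal ⟨top' R S, top'_maximal R S,
    fun Q hQ => ((top'_maximal R S).eq_of_le hQ.ne_top (le_top' R S Q)).symm⟩

theorem map_maximal' :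
    (maximalIdeal S).map (algebraMap S (GExt R S)) = maximalIdeal (GExt R S) :=
  IsLocalRing.eq_maximalIdeal (top'_maximal R S)

instance : IsLocalHom (algebraMap S (GExt R S)) :=
  ⟨fun a ha => by
    by_contra h
    have : algebraMap S (GExt R S) a ∈ maximalIdeal (GExt R S) :=
      map_maximal' R S ▸ Ideal.mem_map_of_mem _ ((mem_maximalIdeal a).2 h)
    exact (mem_maximalIdeal _).1 this ha⟩

instance : IsLocalHom (algebraMap (GRing R) (GExt R S)) :=
  ⟨fun a ha => by
    by_contra h
    have h' : a ∈ (maximalIdeal R).map (algebraMap R (GRing R)) :=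
      (map_maximal R).symm ▸ (mem_maximalIdeal a).2 h
    have h2 := Ideal.mem_map_of_mem (algebraMap (GRing R) (GExt R S)) h'
    rw [Ideal.map_map, ← IsScalarTower.algebraMap_eq, IsScalarTower.algebraMap_eq R S (GExt R S),
      ← Ideal.map_map] at h2
    have h3 : (maximalIdeal R).map (algebraMap R S) ≤ maximalIdeal S :=
      IsLocalRing.le_maximalIdeal (IsLocalRing.map_maximalIdeal_lt_top (algebraMap R S)).ne
    exact (mem_maximalIdeal _).1 (map_maximal' R S ▸ Ideal.map_mono h3 h2) ha⟩

end InfRes

attribute [local instance] MvPolynomial.algebraMvPolynomial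

/-- Reduction to infinite residue fields. -/
theorem reduce_infinite (p : ℕ) [Fact p.Prime]
    (main : ∀ (R S : Type u) [CommRing R] [CommRing S] [IsLocalRing R] [IsLocalRing S]
      [IsNoetherianRing R] [IsNoetherianRing S] [Algebra R S] [IsLocalHom (algebraMap R S)]
      [Module.Finite R S] [Module.Free R S] [CharP R p] [Infinite (ResidueField R)]
      (d : ℕ) (e e' : ℝ), IsMultiplicity R d e → IsMultiplicity S d e' → e ≤ e')
    (R S : Type u) [CommRing R] [CommRing S] [IsLocalRing R] [IsLocalRing S]
    [IsNoetherianRing R] [IsNoetherianRing S] [Algebra R S] [IsLocalHom (algebraMap R S)]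
    [Module.Finite R S] [Module.Free R S] [CharP R p]
    (d : ℕ) (e e' : ℝ) (he : IsMultiplicity R d e) (he' : IsMultiplicity S d e') : e ≤ e' := by
  have : CharP (InfRes.GRing R) p := charP_of_injective_algebraMap (InfRes.injective_gRing R) p
  have := InfRes.infinite_residue R
  have : IsNoetherianRing (InfRes.GExt R S) :=
    IsLocalization.isNoetherianRing (Algebra.algebraMapSubmonoid (MvPolynomial (Fin 1) S)
      (InfRes.gPrime R).primeCompl) _ inferInstance
  exact main (InfRes.GRing R) (InfRes.GExt R S) d e e'
    ((InfRes.isMultiplicity_iff (InfRes.map_maximal R) d e).1 he)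
    ((InfRes.isMultiplicity_iff (InfRes.map_maximal' R S) d e').1 he')

end Vale.Agent.P202.Char
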