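import Vale.Agent.P202.Lech
import Vale.Agent.P202.Char.Residue

/-!
P202, Lech in characteristic `p`: passage from flat local extensions with finite closed fibre to
finite free extensions, by completion.
-/

namespace Vale.Agent.P202.Char

open IsLocalRing AdicCompletion

universe u v

namespace Compl

section Map

variable {A : Type u} {B : Type v} [CommRing A] [CommRing B] {I : Ideal A} {J : Ideal B}

theorem pow_le_comap {h : A →+* B} (hle : I.map h ≤ J) (k : ℕ) : I ^ k ≤ (J ^ k).comap h := by
  rw [← Ideal.map_le_iff_le_comap, Ideal.map_pow]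
  exact Ideal.pow_right_mono hle k

theorem factor_evalₐ {m n : ℕ} (hmn : m ≤ n) (x : AdicCompletion I A) :
    Ideal.Quotient.factor (Ideal.pow_le_pow_right hmn) (evalₐ I n x) = evalₐ I m x := by
  induction x using AdicCompletion.induction_on with
  | h a => simp [AdicCompletion.Ideal.mk_eq_mk I hmn a]

theorem compMap_compat (h : A →+* B) (hle : I.map h ≤ J) {m n : ℕ} (hmn : m ≤ n) :
    (Ideal.Quotient.factorPow J hmn).comp
        ((Ideal.quotientMap (J ^ n) h (pow_le_comap hle n)).comp (evalₐ I n).toRingHom) =
      (Ideal.quotientMap (J ^ m) h (pow_le_comap hle m)).comp (evalₐ I m).toRingHom := by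
  ext x
  obtain ⟨a, ha⟩ := Ideal.Quotient.mk_surjective (evalₐ I n x)
  simp [← factor_evalₐ hmn x, ← ha]

/-- The map of completions induced by a ring homomorphism. -/
noncomputable def compMap (h : A →+* B) (hle : I.map h ≤ J) :
    AdicCompletion I A →+* AdicCompletion J B :=
  AdicCompletion.liftRingHom J
    (fun k => (Ideal.quotientMap (J ^ k) h (pow_le_comap hle k)).comp (evalₐ I k).toRingHom)
    (compMap_compat h hle)

theorem evalₐ_compMap (h : A →+* B) (hle : I.map h ≤ J) (k : ℕ) (x : AdicCompletion I A) :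
    evalₐ J k (compMap h hle x) =
      Ideal.quotientMap (J ^ k) h (pow_le_comap hle k) (evalₐ I k x) := by
  rw [compMap, evalₐ_liftRingHom J _ (compMap_compat h hle)]
  rfl

theorem compMap_algebraMap (h : A →+* B) (hle : I.map h ≤ J) (a : A) :
    compMap h hle (algebraMap A (AdicCompletion I A) a) =
      algebraMap B (AdicCompletion J B) (h a) :=
  ext_evalₐ fun k => by simp [evalₐ_compMap]

theorem compMap_comp_algebraMap (h : A →+* B) (hle : I.map h ≤ J) :
    (compMap h hle).comp (algebraMap A (AdicCompletion I A)) =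
      (algebraMap B (AdicCompletion J B)).comp h :=
  RingHom.ext (compMap_algebraMap h hle)

theorem mem_pow_iff (fg : I.FG) (k : ℕ) (x : AdicCompletion I A) :
    x ∈ (I.map (algebraMap A (AdicCompletion I A))) ^ k ↔ evalₐ I k x = 0 := by
  rw [← Ideal.map_pow, ← Submodule.restrictScalars_mem A, ← Ideal.smul_top_eq_map,
    pow_smul_top_eq_ker_eval fg, LinearMap.mem_ker]
  refine ⟨fun h0 => ?_, fun h0 => ?_⟩
  · rw [← factor_eval_eq_evalₐ I x (le_of_eq (Ideal.mul_top _)), h0, _root_.map_zero]
  · rw [← factor_evalₐ_eq_eval I x (le_of_eq (Ideal.mul_top _).symm), h0, _root_.map_zero]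

theorem sub_mem_of_evalₐ_eq (fg : I.FG) {k : ℕ} {x : AdicCompletion I A} {a : A}
    (h : evalₐ I k x = Ideal.Quotient.mk _ a) :
    x - algebraMap A (AdicCompletion I A) a ∈
      (I.map (algebraMap A (AdicCompletion I A))) ^ k := by
  rw [mem_pow_iff fg, map_sub, h, AlgHom.commutes]
  simp

end Map

/-- Completions of Noetherian rings are Noetherian. -/
theorem isNoetherianRing {A : Type u} [CommRing A] [IsNoetherianRing A] (I : Ideal A) :
    IsNoetherianRing (AdicCompletion I A) := by
  have fg : I.FG := I.fg_of_isNoetherianRing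
  obtain ⟨s, g, hg⟩ := Submodule.fg_iff_exists_fin_generating_family.1 fg
  set J := MvPolynomial.idealOfVars (Fin s) A
  set h := (MvPolynomial.aeval g : MvPolynomial (Fin s) A →ₐ[A] A).toRingHom with hh
  have hmap : J.map h = I := by
    simp only [J, MvPolynomial.idealOfVars, Ideal.map_span, ← Set.range_comp]
    refine Eq.trans (congrArg (fun f => Ideal.span (Set.range f)) (funext fun i => ?_)) hg
    simp [h]
  have : IsNoetherianRing (AdicCompletion J (MvPolynomial (Fin s) A)) :=
    isNoetherianRing_of_ringEquiv _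
      (MvPowerSeries.toAdicCompletionAlgEquiv (Fin s) A).toRingEquiv
  set J' := J.map (algebraMap _ (AdicCompletion J (MvPolynomial (Fin s) A)))
  set ψ := compMap h hmap.le
  have hJ : J'.map ψ = I.map (algebraMap A (AdicCompletion I A)) := by
    rw [Ideal.map_map, compMap_comp_algebraMap, ← Ideal.map_map, hmap]
  have := AdicCompletion.isAdicComplete_self J (MvPolynomial.idealOfVars_fg _ _)
  have := AdicCompletion.isAdicComplete_self I fg
  have : IsHausdorff (J'.map ψ) (AdicCompletion I A) := hJ ▸ inferInstance
  refine isNoetherianRing_of_surjective _ _ ψ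
    (surjective_of_mk_map_comp_surjective ψ (I := J') fun y => ?_)
  obtain ⟨y, rfl⟩ := Ideal.Quotient.mk_surjective y
  obtain ⟨a, ha⟩ := Ideal.Quotient.mk_surjective (evalₐ I 1 y)
  refine ⟨algebraMap (MvPolynomial (Fin s) A) _ (MvPolynomial.C a), ?_⟩
  rw [RingHom.comp_apply, compMap_algebraMap, Ideal.Quotient.eq, hJ]
  have h2 := sub_mem_of_evalₐ_eq fg ha.symm
  rw [pow_one] at h2
  simpa [h] using Submodule.neg_mem _ h2

/-- Lifts of a family that is independent in the closed fibre stay independent modulo every
ideal. -/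
theorem mem_of_sum_smul_mem {R : Type u} {M : Type v} [CommRing R] [IsLocalRing R]
    [AddCommGroup M] [Module R M] [Module.Flat R M] {ι : Type} [Fintype ι] (v : ι → M)
    (hv : ∀ c : ι → R, ∑ i, c i • v i ∈ maximalIdeal R • (⊤ : Submodule R M) →
      ∀ i, c i ∈ maximalIdeal R)
    (J : Ideal R) (a : ι → R) (ha : ∑ i, a i • v i ∈ J • (⊤ : Submodule R M)) (i : ι) :
    a i ∈ J := by
  classical
  have htop : (⊤ : Submodule R M) = Submodule.span R (Set.range (id : M → M)) := by simp
  rw [htop, Submodule.mem_ideal_smul_span_iff_exists_sum] at ha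
  obtain ⟨b, hb, hsum⟩ := ha
  have h0 : ∑ z : ι ⊕ b.support, Sum.elim a (fun l : b.support => -b l) z •
      Sum.elim v (fun l : b.support => (l : M)) z = 0 := by
    simp only [Fintype.sum_sum_type, Sum.elim_inl, Sum.elim_inr, neg_smul, Finset.sum_neg_distrib]
    rw [Finset.sum_coe_sort b.support (fun l => b l • l), ← hsum, Finsupp.sum]
    simp
  obtain ⟨l, α, y, hy, hα⟩ := Module.Flat.isTrivialRelation_of_sum_smul_eq_zero h0
  set αi : Matrix ι _ R := Matrix.of fun i j => α (Sum.inl i) j with hαi
  have hJ : ∀ j, Matrix.vecMul a αi j ∈ J := fun j => by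
    have := hα j
    simp only [Fintype.sum_sum_type, Sum.elim_inl, Sum.elim_inr] at this
    have e : Matrix.vecMul a αi j = -∑ l : b.support, -b l * α (Sum.inr l) j := by
      rw [← add_eq_zero_iff_eq_neg]
      exact this
    rw [e]
    exact neg_mem (sum_mem fun l _ => J.mul_mem_right _ (neg_mem (hb l)))
  set k := ResidueField R
  have hinj : LinearMap.ker (Matrix.vecMulLinear (αi.map (residue R))) = ⊥ := by
    rw [LinearMap.ker_eq_bot']
    intro c hc
    choose c' hc' using fun i => residue_surjective (c i)
    funext i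
    rw [Pi.zero_apply, ← hc' i, residue_eq_zero_iff]
    refine hv c' ?_ i
    have hm : ∀ j, Matrix.vecMul c' αi j ∈ maximalIdeal R := fun j => by
      rw [← residue_eq_zero_iff, RingHom.map_vecMul]
      have := congrFun hc j
      simpa [Function.comp_def, hc'] using this
    have e : ∑ i, c' i • v i = ∑ j, Matrix.vecMul c' αi j • y j := by
      have hy' : ∀ i, v i = ∑ j, α (Sum.inl i) j • y j := fun i => hy (Sum.inl i)
      simp only [hy', Finset.smul_sum, smul_smul, Matrix.vecMul, dotProduct, Finset.sum_smul,
        hαi, Matrix.of_apply]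
      exact Finset.sum_comm
    rw [e]
    exact sum_mem fun j _ => Submodule.smul_mem_smul (hm j) trivial
  obtain ⟨g, hg⟩ := LinearMap.exists_leftInverse_of_injective _ hinj
  choose γ hγ using fun j i => residue_surjective (g (Pi.single j 1) i)
  set γ' : Matrix _ ι R := Matrix.of γ
  have hone : (αi * γ').map (residue R) = 1 := by
    rw [Matrix.map_mul]
    refine Matrix.ext fun i i' => ?_
    have h1 : Matrix.vecMulLinear (αi.map (residue R)) (Pi.single i 1) =
        fun j => residue R (αi i j) := by
      funext j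
      simp
    have h2 : g (Matrix.vecMulLinear (αi.map (residue R)) (Pi.single i 1)) = Pi.single i 1 :=
      LinearMap.congr_fun hg _
    rw [h1] at h2
    have h3 := congrFun h2 i'
    rw [← Finset.univ_sum_single (fun j => residue R (αi i j)), _root_.map_sum] at h3
    rw [Matrix.mul_apply, Matrix.one_apply]
    simp only [γ', Matrix.map_apply, Matrix.of_apply, hγ]
    rw [Pi.single_apply, Finset.sum_apply] at h3
    refine Eq.trans (Finset.sum_congr rfl fun j _ => ?_) (h3.trans (by simp [eq_comm]))
    rw [← smul_eq_mul, ← Pi.smul_apply, ← map_smul, ← Pi.single_smul, smul_eq_mul, mul_one]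
  have hdet : IsUnit (αi * γ').det := by
    rw [← residue_ne_zero_iff_isUnit, RingHom.map_det, RingHom.mapMatrix_apply, hone,
      Matrix.det_one]
    exact one_ne_zero
  have hG : ∀ i', Matrix.vecMul a (αi * γ') i' ∈ J := fun i' => by
    rw [← Matrix.vecMul_vecMul]
    change ∑ j, Matrix.vecMul a αi j * γ' j i' ∈ J
    exact sum_mem fun j _ => J.mul_mem_right _ (hJ j)
  have : a = Matrix.vecMul (Matrix.vecMul a (αi * γ')) (αi * γ')⁻¹ := by
    rw [Matrix.vecMul_vecMul, Matrix.mul_nonsing_inv _ hdet, Matrix.vecMul_one]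
  rw [this]
  exact sum_mem fun i' _ => J.mul_mem_right _ (hG i')

section Finite

variable {R : Type u} {S : Type u} [CommRing R] [CommRing S] [IsLocalRing R] [IsLocalRing S]
  [Algebra R S]

/-- A finite closed fibre is artinian. -/
theorem exists_pow_le [IsLocalHom (algebraMap R S)]
    [Module.Finite R (S ⧸ (maximalIdeal R).map (algebraMap R S))] :
    ∃ c, maximalIdeal S ^ c ≤ (maximalIdeal R).map (algebraMap R S) := by
  set J := (maximalIdeal R).map (algebraMap R S)
  let : Field (R ⧸ maximalIdeal R) := Ideal.Quotient.field _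
  have : Module.Finite (R ⧸ maximalIdeal R) (S ⧸ J) := Module.Finite.of_restrictScalars_finite R _ _
  have : IsArtinianRing (S ⧸ J) := IsArtinianRing.of_finite (R ⧸ maximalIdeal R) _
  have : Nontrivial (S ⧸ J) :=
    Ideal.Quotient.nontrivial_iff.2 (map_maximalIdeal_lt_top (algebraMap R S)).ne
  have : IsLocalRing (S ⧸ J) :=
    IsLocalRing.of_surjective' (Ideal.Quotient.mk J) Ideal.Quotient.mk_surjective
  obtain ⟨c, hc⟩ := (isArtinianRing_iff_isNilpotent_maximalIdeal (S ⧸ J)).1 inferInstance
  refine ⟨c, ?_⟩
  rw [← Ideal.mk_ker (I := J), RingHom.ker, ← Ideal.map_le_iff_le_comap, Ideal.map_pow]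
  refine le_trans (Ideal.pow_right_mono (le_maximalIdeal ?_) c) hc.le
  exact (Ideal.IsMaximal.map_of_surjective_of_ker_le Ideal.Quotient.mk_surjective
    (Ideal.mk_ker.trans_le (le_maximalIdeal (map_maximalIdeal_lt_top (algebraMap R S)).ne))).ne_top

/-- A closed fibre killed by a power of the maximal ideal is finite if the residue extension
is. -/
theorem finite_fibre [IsNoetherianRing S] [Module.Finite R (S ⧸ maximalIdeal S)] {c : ℕ}
    (hc : maximalIdeal S ^ c ≤ (maximalIdeal R).map (algebraMap R S)) :
    Module.Finite R (S ⧸ (maximalIdeal R).map (algebraMap R S)) := by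
  classical
  set n := maximalIdeal S
  set J := (maximalIdeal R).map (algebraMap R S)
  obtain ⟨G, hG⟩ := n.fg_of_isNoetherianRing
  obtain ⟨T, hT⟩ := (Module.Finite.fg_top : (⊤ : Submodule R (S ⧸ n)).FG)
  choose t ht using fun q : S ⧸ n => Ideal.Quotient.mk_surjective q
  set g : Submodule R S := Submodule.span R (G : Set S) with hg
  set T' : Submodule R S := Submodule.span R (t '' (T : Set (S ⧸ n))) with hT'
  have hn : n.restrictScalars R ≤ g * ⊤ := by
    intro x hx
    rw [Submodule.restrictScalars_mem, ← hG, Submodule.mem_span_finset] at hx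
    obtain ⟨f, -, rfl⟩ := hx
    refine sum_mem fun a ha => ?_
    rw [smul_eq_mul, mul_comm (f a)]
    exact Submodule.mul_mem_mul (Submodule.subset_span ha) trivial
  have hgn : g * ⊤ ≤ n.restrictScalars R := Submodule.mul_le.2 fun x hx y _ =>
    n.mul_mem_right y ((Submodule.span_le.2 (fun a ha => by
      rw [SetLike.mem_coe, Submodule.restrictScalars_mem, ← hG]
      exact Submodule.subset_span ha) : g ≤ n.restrictScalars R) hx)
  have htop : (⊤ : Submodule R S) ≤ T' ⊔ g * ⊤ := by
    intro x _
    have h1 : Ideal.Quotient.mk n x ∈ T'.map (Ideal.Quotient.mkₐ R n).toLinearMap := by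
      rw [hT', Submodule.map_span, ← Set.image_comp]
      simp [Function.comp_def, ht, hT]
    obtain ⟨y, hy, hxy⟩ := Submodule.mem_map.1 h1
    refine Submodule.mem_sup.2 ⟨y, hy, x - y, hn ?_, add_sub_cancel y x⟩
    exact Ideal.Quotient.eq.1 hxy.symm
  have hstep : ∀ k, ∃ U : Submodule R S, U.FG ∧ (⊤ : Submodule R S) ≤ U ⊔ g ^ k * ⊤ := by
    intro k
    induction k with
    | zero => exact ⟨⊥, Submodule.fg_bot, le_sup_of_le_right (fun x _ => by simp)⟩
    | succ k ih =>
      obtain ⟨U, hU, hk⟩ := ih
      refine ⟨U ⊔ g ^ k * T', hU.sup ((Submodule.FG.pow (Submodule.fg_span G.finite_toSet) k).mul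
        (Submodule.fg_span (T.finite_toSet.image t))), ?_⟩
      refine hk.trans (sup_le (le_sup_of_le_left le_sup_left) ?_)
      refine (mul_le_mul' le_rfl htop).trans ?_
      rw [Submodule.mul_sup, ← mul_assoc, ← pow_succ]
      exact sup_le_sup_right le_sup_right _
  obtain ⟨U, hU, hk⟩ := hstep (c + 1)
  have hpow : ∀ k, g ^ (k + 1) * ⊤ ≤ (n ^ k).restrictScalars R := by
    intro k
    induction k with
    | zero => simp
    | succ k ih =>
      rw [pow_succ' g, mul_assoc]
      refine Submodule.mul_le.2 fun x hx y hy => ?_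
      rw [Submodule.restrictScalars_mem, pow_succ' n]
      exact Ideal.mul_mem_mul (by simpa using hgn (Submodule.mul_mem_mul hx
        (Submodule.mem_top (x := (1 : S))))) (ih hy)
  refine ⟨?_⟩
  have : U.map (Ideal.Quotient.mkₐ R J).toLinearMap = ⊤ := by
    refine eq_top_iff.2 fun q _ => ?_
    obtain ⟨x, rfl⟩ := Ideal.Quotient.mk_surjective q
    obtain ⟨u, hu, w, hw, rfl⟩ := Submodule.mem_sup.1 (hk (Submodule.mem_top (x := x)))
    refine Submodule.mem_map.2 ⟨u, hu, ?_⟩
    have : Ideal.Quotient.mk J w = 0 := Ideal.Quotient.eq_zero_iff_mem.2 (hc (hpow c hw))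
    simp [this]
  exact this ▸ hU.map _

end Finite

end Compl

open Vale.Agent.P202.Char.Compl

/-- Lech's inequality for finite free extensions gives it for flat extensions with finite closed
fibre. -/
theorem completion (p : ℕ)
    (main : ∀ (R S : Type u) [CommRing R] [CommRing S] [IsLocalRing R] [IsLocalRing S]
      [IsNoetherianRing R] [IsNoetherianRing S] [Algebra R S] [IsLocalHom (algebraMap R S)]
      [Module.Finite R S] [Module.Free R S] [CharP R p]
      (d : ℕ) (e e' : ℝ), IsMultiplicity R d e → IsMultiplicity S d e' → e ≤ e')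
    (R S : Type u) [CommRing R] [CommRing S] [IsLocalRing R] [IsLocalRing S]
    [IsNoetherianRing R] [IsNoetherianRing S] [Algebra R S] [IsLocalHom (algebraMap R S)]
    [Module.Flat R S] [Module.Finite R (S ⧸ (maximalIdeal R).map (algebraMap R S))] [CharP R p]
    (d : ℕ) (e e' : ℝ) (he : IsMultiplicity R d e) (he' : IsMultiplicity S d e') : e ≤ e' := by
  classical
  set m := maximalIdeal R
  set n := maximalIdeal S
  set J := m.map (algebraMap R S) with hJ
  have hle : J ≤ n := le_maximalIdeal (map_maximalIdeal_lt_top (algebraMap R S)).ne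
  obtain ⟨c, hc⟩ := exists_pow_le (R := R) (S := S)
  let R' := AdicCompletion m R
  let S' := AdicCompletion n S
  have : IsNoetherianRing R' := Compl.isNoetherianRing m
  have : IsNoetherianRing S' := Compl.isNoetherianRing n
  have fgm : m.FG := m.fg_of_isNoetherianRing
  have fgn : n.FG := n.fg_of_isNoetherianRing
  have heR : IsMultiplicity R' d e :=
    (InfRes.isMultiplicity_iff (R := R) (S := R') maximalIdeal_eq_map.symm d e).1 he
  have heS : IsMultiplicity S' d e' :=
    (InfRes.isMultiplicity_iff (R := S) (S := S') maximalIdeal_eq_map.symm d e').1 he'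
  have hinjR : Function.Injective (algebraMap R R') := of_injective m R
  have : CharP R' p := charP_of_injective_algebraMap hinjR p
  set φ := compMap (algebraMap R S) (I := m) (J := n) hle
  let : Algebra R' S' := φ.toAlgebra
  have hφ : ∀ x : R', algebraMap R' S' x = φ x := fun _ => rfl
  have hmap : (maximalIdeal R').map (algebraMap R' S') = J.map (algebraMap S S') := by
    rw [maximalIdeal_eq_map, RingHom.algebraMap_toAlgebra, Ideal.map_map,
      compMap_comp_algebraMap, ← Ideal.map_map]
  have : IsLocalHom (algebraMap R' S') := by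
    refine ((local_hom_TFAE _).out 0 2).mpr ?_
    rw [hmap, maximalIdeal_eq_map]
    exact Ideal.map_mono hle
  -- lifts of a basis of the closed fibre
  let : Field (R ⧸ m) := Ideal.Quotient.field _
  have : Module.Finite (R ⧸ m) (S ⧸ J) := Module.Finite.of_restrictScalars_finite R _ _
  set r := Module.finrank (R ⧸ m) (S ⧸ J)
  let b := Module.finBasis (R ⧸ m) (S ⧸ J)
  choose v hv using fun i => Ideal.Quotient.mk_surjective (b i)
  have hcomb : ∀ a : Fin r → R, Ideal.Quotient.mk J (∑ i, a i • v i) =
      ∑ i, Ideal.Quotient.mk m (a i) • b i := fun a => by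
    rw [map_sum]
    refine Finset.sum_congr rfl fun i _ => ?_
    rw [← hv i]
    rfl
  have hind : ∀ a : Fin r → R, ∑ i, a i • v i ∈ m • (⊤ : Submodule R S) → ∀ i, a i ∈ m := by
    intro a ha i
    rw [Ideal.smul_top_eq_map, Submodule.restrictScalars_mem, ← Ideal.Quotient.eq_zero_iff_mem,
      hcomb] at ha
    exact Ideal.Quotient.eq_zero_iff_mem.1
      (Fintype.linearIndependent_iff.1 b.linearIndependent _ ha i)
  let of' := algebraMap S S'
  let Φ : (Fin r → R') →ₗ[R'] S' := Fintype.linearCombination R' (fun i => of' (v i))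
  have hΦ : ∀ x, Φ x = ∑ i, φ (x i) * of' (v i) := fun x => by
    simp [Φ, Fintype.linearCombination_apply, Algebra.smul_def, hφ]
  have hsurj : Function.Surjective Φ := by
    have := AdicCompletion.isAdicComplete_self m fgm
    have : IsPrecomplete (maximalIdeal R') (Fin r → R') := by
      refine ⟨fun f hf => ?_⟩
      have hco : ∀ i {j k}, j ≤ k → f j i ≡ f k i
          [SMOD (maximalIdeal R' ^ j • ⊤ : Submodule R' R')] := fun i j k hjk => by
        have := (hf hjk).map (LinearMap.proj (φ := fun _ : Fin r => R') i)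
        refine this.mono ?_
        rw [Submodule.map_smul'']
        exact Submodule.smul_mono le_rfl le_top
      choose L hL using fun i => IsPrecomplete.prec' (I := maximalIdeal R') (fun j => f j i)
        (fun {j k} h => hco i h)
      refine ⟨fun i => L i, fun j => ?_⟩
      rw [SModEq.sub_mem, ← Finset.univ_sum_single (f j - fun i => L i)]
      refine sum_mem fun i _ => ?_
      have h1 := Submodule.mem_map_of_mem (f := LinearMap.single R' (fun _ : Fin r => R') i)
        (SModEq.sub_mem.1 (hL i j))
      rw [Submodule.map_smul''] at h1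
      have h2 : LinearMap.single R' (fun _ : Fin r => R') i (f j i - L i) ∈
          (maximalIdeal R' ^ j • ⊤ : Submodule R' (Fin r → R')) :=
        Submodule.smul_mono le_rfl le_top h1
      simpa using h2
    have : IsHausdorff (maximalIdeal R') S' := by
      refine ⟨fun x hx => ext_evalₐ fun k => ?_⟩
      rw [_root_.map_zero, ← mem_pow_iff fgn]
      have := hx k
      rw [SModEq.zero, Ideal.smul_top_eq_map, Submodule.restrictScalars_mem, Ideal.map_pow,
        hmap] at this
      exact Ideal.pow_right_mono (Ideal.map_mono hle) k this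
    refine surjective_of_mkQ_comp_surjective (I := maximalIdeal R') fun y => ?_
    obtain ⟨y, rfl⟩ := Submodule.mkQ_surjective _ y
    obtain ⟨s, hs⟩ := Ideal.Quotient.mk_surjective (evalₐ n c y)
    have h1 := sub_mem_of_evalₐ_eq fgn hs.symm
    choose a ha using fun i => Ideal.Quotient.mk_surjective (b.repr (Ideal.Quotient.mk J s) i)
    have h2 : s - ∑ i, a i • v i ∈ J := by
      rw [← Ideal.Quotient.eq_zero_iff_mem, map_sub, hcomb]
      simp [ha]
    refine ⟨fun i => algebraMap R R' (a i), ?_⟩
    rw [LinearMap.comp_apply, Submodule.mkQ_apply, Submodule.mkQ_apply, eq_comm,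
      Submodule.Quotient.eq, Ideal.smul_top_eq_map, Submodule.restrictScalars_mem, hmap, hΦ]
    have e : ∑ i, φ (algebraMap R R' (a i)) * of' (v i) = of' (∑ i, a i • v i) := by
      rw [map_sum]
      refine Finset.sum_congr rfl fun i _ => ?_
      rw [compMap_algebraMap, ← map_mul, Algebra.smul_def]
    have h3 : y - of' s ∈ J.map of' := by
      rw [← Ideal.map_pow] at h1
      exact Ideal.map_mono hc h1
    have h4 := add_mem h3 (Ideal.mem_map_of_mem of' h2)
    rw [e]
    simpa [of', map_sub] using h4
  have hinj : Function.Injective Φ := by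
    rw [injective_iff_map_eq_zero]
    intro x hx
    funext i
    refine ext_evalₐ fun k => ?_
    choose a ha using fun i => Ideal.Quotient.mk_surjective (evalₐ m ((c + 1) * k) (x i))
    have h0 : ∑ i, a i • v i ∈ n ^ ((c + 1) * k) := by
      rw [← Ideal.Quotient.eq_zero_iff_mem]
      have := congrArg (evalₐ n ((c + 1) * k)) hx
      rw [hΦ, _root_.map_zero, map_sum] at this
      rw [map_sum, ← this]
      refine Finset.sum_congr rfl fun i _ => ?_
      simp [φ, of', evalₐ_compMap, ← ha, Algebra.smul_def]
      exact congrArg _ (evalₐ_of n _ (v i)).symm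
    have h1 : n ^ ((c + 1) * k) ≤ (m ^ k).map (algebraMap R S) := by
      rw [pow_mul, Ideal.map_pow]
      exact Ideal.pow_right_mono ((Ideal.pow_le_pow_right c.le_succ).trans hc) k
    have h2 : a i ∈ m ^ k := by
      refine mem_of_sum_smul_mem v hind _ a ?_ i
      rw [Ideal.smul_top_eq_map]
      exact h1 h0
    rw [← factor_evalₐ (Nat.le_mul_of_pos_left k c.succ_pos) (x i), ← ha i,
      Ideal.Quotient.factor_mk, Ideal.Quotient.eq_zero_iff_mem.2 h2]
    simp
  have : Module.Finite R' S' := Module.Finite.of_surjective Φ hsurj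
  have : Module.Free R' S' :=
    Module.Free.of_equiv (LinearEquiv.ofBijective Φ ⟨hinj, hsurj⟩)
  exact main R' S' d e e' heR heS

/-- The same with a finite residue extension and `n ^ c ≤ m S`. -/
theorem completion_of_pow_le (p : ℕ)
    (main : ∀ (R S : Type u) [CommRing R] [CommRing S] [IsLocalRing R] [IsLocalRing S]
      [IsNoetherianRing R] [IsNoetherianRing S] [Algebra R S] [IsLocalHom (algebraMap R S)]
      [Module.Finite R S] [Module.Free R S] [CharP R p]
      (d : ℕ) (e e' : ℝ), IsMultiplicity R d e → IsMultiplicity S d e' → e ≤ e')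
    (R S : Type u) [CommRing R] [CommRing S] [IsLocalRing R] [IsLocalRing S]
    [IsNoetherianRing R] [IsNoetherianRing S] [Algebra R S] [IsLocalHom (algebraMap R S)]
    [Module.Flat R S] [Module.Finite R (S ⧸ maximalIdeal S)] [CharP R p] {c : ℕ}
    (hc : maximalIdeal S ^ c ≤ (maximalIdeal R).map (algebraMap R S))
    (d : ℕ) (e e' : ℝ) (he : IsMultiplicity R d e) (he' : IsMultiplicity S d e') : e ≤ e' :=
  have := finite_fibre hc
  completion p main R S d e e' he he'

end Vale.Agent.P202.Char
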