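import Vale.Agent.P202.Char.Slice
import Vale.Agent.P202.Char.Artin

/-!
P202, Lech in characteristic `p`: coordinates in which one `Y_k` is a monomial. After `Y_k` is
inverted the polynomials of twist `a` are free on `n!` elements over the polynomials in the `Y`.
-/

namespace Vale.Agent.P202.Char

universe u v w

open MvPolynomial Finset

variable {Z : Type u} [CommRing Z] {n : ℕ}

/-- An algebra map sending variables to monomials with independent exponents is injective. -/
theorem monomialHom_injective {σ : Type v} [Fintype σ] {M : Type w} [AddCommMonoid M] (v : σ → M)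
    (hv : Function.Injective fun γ : σ →₀ ℕ => ∑ i, γ i • v i) :
    Function.Injective (aeval (fun i => AddMonoidAlgebra.single (v i) (1 : Z)) :
      MvPolynomial σ Z →ₐ[Z] AddMonoidAlgebra Z M) := by
  have key : ∀ p : MvPolynomial σ Z,
      aeval (fun i => AddMonoidAlgebra.single (v i) (1 : Z)) p =
        AddMonoidAlgebra.mapDomain (fun γ : σ →₀ ℕ => ∑ i, γ i • v i) p := by
    intro p
    induction p using MvPolynomial.induction_on' with
    | monomial γ r =>
      rw [aeval_monomial, Finsupp.prod_fintype _ _ fun i => pow_zero _]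
      simp only [AddMonoidAlgebra.single_pow, one_pow, AddMonoidAlgebra.prod_single, prod_const_one]
      rw [AddMonoidAlgebra.coe_algebraMap, Function.comp_apply, AddMonoidAlgebra.single_mul_single,
        zero_add, mul_one, monomial, AddMonoidAlgebra.lsingle_apply,
        AddMonoidAlgebra.mapDomain_single]
      rfl
    | add p q hp hq => rw [map_add, hp, hq, AddMonoidAlgebra.mapDomain_add]
  intro p q h
  rw [key, key] at h
  exact AddMonoidAlgebra.mapDomain_injective hv h

/-- A Laurent monomial. -/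
noncomputable def mon (v : Fin n → ℤ) (m : ℤ) : Lau Z n :=
  AddMonoidAlgebra.single ((v, m) : Expo n) 1

theorem mon_mul (v w : Fin n → ℤ) (m c : ℤ) :
    (mon v m : Lau Z n) * mon w c = mon (v + w) (m + c) := by
  rw [mon, mon, mon, AddMonoidAlgebra.single_mul_single, mul_one]
  rfl

theorem mon_pow (v : Fin n → ℤ) (m : ℤ) (k : ℕ) :
    (mon v m : Lau Z n) ^ k = mon (fun j => (k : ℤ) * v j) (k * m) := by
  rw [mon, mon, AddMonoidAlgebra.single_pow, one_pow]
  congr 1

theorem mon_zero : (mon 0 0 : Lau Z n) = 1 := rfl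

theorem prod_mon_axis (c : Fin n → ℤ) :
    ∏ j, (mon (Pi.single j (c j)) 0 : Lau Z n) = mon c 0 := by
  simp only [mon, AddMonoidAlgebra.prod_single, prod_const_one]
  congr 1
  refine Prod.ext ?_ ?_
  · simp [Prod.fst_sum, Finset.univ_sum_single]
  · simp [Prod.snd_sum]

theorem mon_axis_pow (j : Fin n) (c : ℤ) (k : ℕ) :
    (mon (Pi.single j c) 0 : Lau Z n) ^ k = mon (Pi.single j ((k : ℤ) * c)) 0 := by
  rw [mon_pow, mul_zero]
  congr 1
  funext l
  rcases eq_or_ne l j with rfl | h <;> simp [*]

/-- Polynomials as Laurent polynomials. -/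
noncomputable def polyLau : MvPolynomial (Option (Fin n)) Z →ₐ[Z] Lau Z n :=
  aeval fun i => AddMonoidAlgebra.single
    (Option.elim i ((0, 1) : Expo n) fun j => (Pi.single j 1, 0)) 1

/-- Polynomials as Laurent polynomials, the factor variables inverted. -/
noncomputable def invLau : MvPolynomial (Option (Fin n)) Z →ₐ[Z] Lau Z n :=
  aeval fun i => AddMonoidAlgebra.single
    (Option.elim i ((0, 1) : Expo n) fun j => (Pi.single j (-1), 0)) 1

/-- Polynomials in new coordinates. -/
noncomputable def tyLau : MvPolynomial (Option (Fin n)) Z →ₐ[Z] Lau Z n :=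
  aeval fun i => AddMonoidAlgebra.single
    (Option.elim i ((fun _ => -1, 1) : Expo n) fun j => (Pi.single j 1, 0)) 1

@[simp] theorem polyLau_none : polyLau (Z := Z) (X none) = (mon 0 1 : Lau Z n) := by
  simp [polyLau, mon]

@[simp] theorem polyLau_some (j : Fin n) :
    polyLau (Z := Z) (X (some j)) = mon (Pi.single j 1) 0 := by simp [polyLau, mon]

@[simp] theorem invLau_none : invLau (Z := Z) (X none) = (mon 0 1 : Lau Z n) := by
  simp [invLau, mon]

@[simp] theorem invLau_some (j : Fin n) :
    invLau (Z := Z) (X (some j)) = mon (Pi.single j (-1)) 0 := by simp [invLau, mon]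

@[simp] theorem polyLau_C (r : Z) : polyLau (n := n) (C r) = algebraMap Z (Lau Z n) r :=
  polyLau.commutes r

@[simp] theorem invLau_C (r : Z) : invLau (n := n) (C r) = algebraMap Z (Lau Z n) r :=
  invLau.commutes r

theorem expo_sum_option (f : Option (Fin n) → ℕ) (a : Expo n) (c : ℤ) :
    (∑ i, f i • Option.elim i a fun j => ((Pi.single j c, 0) : Expo n)) =
      ((fun j => (f none : ℤ) * a.1 j + (f (some j) : ℤ) * c), (f none : ℤ) * a.2) := by
  rw [Fintype.sum_option]
  refine Prod.ext (funext fun j => ?_) ?_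
  · simp [Prod.fst_sum, Finset.sum_apply, Pi.single_apply]
  · simp [Prod.snd_sum]

theorem elim_injective (a : Expo n) (c : ℤ) (hc : c ≠ 0) (ha : a.2 = 1) :
    Function.Injective fun γ : Option (Fin n) →₀ ℕ =>
      ∑ i, γ i • Option.elim i a fun j => ((Pi.single j c, 0) : Expo n) := by
  intro γ η h
  simp only [expo_sum_option, Prod.mk.injEq, ha, mul_one, Nat.cast_inj] at h
  obtain ⟨h1, h2⟩ := h
  ext i
  cases i with
  | none => exact h2
  | some j =>
    have := congrFun h1 j
    rw [h2] at this
    simpa [hc] using this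

theorem polyLau_injective : Function.Injective (polyLau (Z := Z) (n := n)) :=
  monomialHom_injective (Z := Z) _ (elim_injective (n := n) (0, 1) 1 one_ne_zero rfl)

theorem invLau_injective : Function.Injective (invLau (Z := Z) (n := n)) :=
  monomialHom_injective (Z := Z) _ (elim_injective (n := n) (0, 1) (-1) (by norm_num) rfl)

theorem tyLau_injective : Function.Injective (tyLau (Z := Z) (n := n)) :=
  monomialHom_injective (Z := Z) _ (elim_injective (n := n) (fun _ => -1, 1) 1 one_ne_zero rfl)

/-- Translation of the factor variables. -/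
noncomputable def shiftHom (c : Z) :
    MvPolynomial (Option (Fin n)) Z →ₐ[Z] MvPolynomial (Option (Fin n)) Z :=
  aeval fun i => Option.elim i (X none) fun j => X (some j) - C c

theorem shiftHom_injective (c : Z) : Function.Injective (shiftHom (n := n) c) := by
  have h : (shiftHom (n := n) (-c)).comp (shiftHom c) = AlgHom.id Z _ :=
    MvPolynomial.algHom_ext fun i => by cases i <;> simp [shiftHom]
  intro p q hpq
  have h1 := congrArg (shiftHom (n := n) (-c)) hpq
  rwa [← AlgHom.comp_apply, ← AlgHom.comp_apply, h] at h1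

/-- New coordinates with `c` moved to `0`. -/
noncomputable def newCoord (c : Z) : MvPolynomial (Option (Fin n)) Z →ₐ[Z] Lau Z n :=
  invLau.comp (shiftHom c)

theorem newCoord_injective (c : Z) : Function.Injective (newCoord (n := n) c) := by
  intro p q h
  exact shiftHom_injective c (invLau_injective h)

/-- Polynomials in `Y_k` and the reciprocal variables. -/
noncomputable def tyHom : Polynomial (MvPolynomial (Fin n) Z) →ₐ[Z] Lau Z n :=
  tyLau.comp (optionEquivLeft Z (Fin n)).symm.toAlgHom

theorem tyHom_injective : Function.Injective (tyHom (Z := Z) (n := n)) :=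
  fun _ _ h => (optionEquivLeft Z (Fin n)).symm.injective (tyLau_injective h)

@[simp] theorem tyHom_X : tyHom (Z := Z) Polynomial.X = mon (fun _ : Fin n => -1) 1 := by
  simp [tyHom, tyLau, mon]

@[simp] theorem tyHom_CX (j : Fin n) :
    tyHom (Z := Z) (Polynomial.C (X j)) = mon (Pi.single j 1) 0 := by
  simp [tyHom, tyLau, mon]

@[simp] theorem tyHom_CC (r : Z) :
    tyHom (n := n) (Polynomial.C (C r)) = algebraMap Z (Lau Z n) r := by
  simp [tyHom, tyLau]

theorem tyHom_C_monomial (b : Fin n →₀ ℕ) :
    tyHom (Z := Z) (Polynomial.C (monomial b 1)) = mon (fun j => (b j : ℤ)) 0 := by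
  rw [monomial_eq, map_one, one_mul, Finsupp.prod_fintype _ _ fun i => pow_zero _, map_prod,
    map_prod, ← prod_mon_axis]
  exact prod_congr rfl fun j _ => by rw [map_pow, map_pow, tyHom_CX, mon_axis_pow, mul_one]

variable (lam : Fin (n + 1) → Z)

/-- The images of the `Y`, as polynomials. -/
noncomputable def yPoly :
    MvPolynomial (Fin (n + 1)) Z →ₐ[Z] MvPolynomial (Option (Fin n)) Z :=
  aeval fun l => X none * ∏ j, (X (some j) + C (lam l))

theorem polyLau_yPoly (f : MvPolynomial (Fin (n + 1)) Z) : polyLau (yPoly lam f) = rho lam f := by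
  suffices polyLau.comp (yPoly lam) = rho lam from AlgHom.congr_fun this f
  refine MvPolynomial.algHom_ext fun l => ?_
  simp only [yPoly, rho, AlgHom.comp_apply, aeval_X, map_mul, map_prod, map_add, yImg, polyLau_none, polyLau_some, polyLau_C, AddMonoidAlgebra.coe_algebraMap, Function.comp_apply]
  rw [mul_comm]
  rfl

/-- The `Y` in new coordinates. -/
noncomputable def etaHom (k : Fin (n + 1)) :
    MvPolynomial (Fin (n + 1)) Z →ₐ[Z] Polynomial (MvPolynomial (Fin n) Z) :=
  aeval fun l => Polynomial.X * Polynomial.C (∏ j, (1 + C (lam l - lam k) * X j))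

theorem newCoord_yPoly (k : Fin (n + 1)) (f : MvPolynomial (Fin (n + 1)) Z) :
    newCoord (lam k) (yPoly lam f) = tyHom (etaHom lam k f) := by
  suffices (newCoord (lam k)).comp (yPoly lam) = tyHom.comp (etaHom lam k) from
    AlgHom.congr_fun this f
  refine MvPolynomial.algHom_ext fun l => ?_
  simp only [AlgHom.comp_apply, yPoly, etaHom, aeval_X, map_mul, map_prod, map_add, newCoord,
    shiftHom, invLau_none, invLau_some, Option.elim, map_sub, aeval_C, invLau_C, MvPolynomial.algebraMap_eq, tyHom_X, tyHom_CC, tyHom_CX, map_one,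
    Polynomial.C_sub]
  have hfac : ∀ j : Fin n, (mon (Pi.single j (-1)) 0 : Lau Z n) -
      algebraMap Z (Lau Z n) (lam k) + algebraMap Z (Lau Z n) (lam l) =
      mon (Pi.single j (-1)) 0 *
        (1 + (algebraMap Z (Lau Z n) (lam l) - algebraMap Z (Lau Z n) (lam k)) *
          mon (Pi.single j 1) 0) := fun j => by
    have h1 : (mon (Pi.single j (-1)) 0 : Lau Z n) * mon (Pi.single j 1) 0 = 1 := by
      rw [mon_mul, ← Pi.single_add, neg_add_cancel, Pi.single_zero, add_zero, mon_zero]
    linear_combination (algebraMap Z (Lau Z n) (lam k) - algebraMap Z (Lau Z n) (lam l)) * h1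
  rw [prod_congr rfl fun j _ => hfac j, prod_mul_distrib, prod_mon_axis, ← mul_assoc, mon_mul,
    zero_add, add_zero]

/-- A linear change of the variables. -/
noncomputable def linHom (A : Matrix (Fin (n + 1)) (Fin (n + 1)) Z) :
    MvPolynomial (Fin (n + 1)) Z →ₐ[Z] MvPolynomial (Fin (n + 1)) Z :=
  aeval fun l => ∑ i, C (A l i) * X i

theorem linHom_comp (A B : Matrix (Fin (n + 1)) (Fin (n + 1)) Z)
    (f : MvPolynomial (Fin (n + 1)) Z) : linHom A (linHom B f) = linHom (B * A) f := by
  suffices (linHom A).comp (linHom B) = linHom (B * A) from AlgHom.congr_fun this f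
  refine MvPolynomial.algHom_ext fun l => ?_
  simp only [AlgHom.comp_apply, linHom, aeval_X, map_sum, map_mul, aeval_C,
    MvPolynomial.algebraMap_eq, Matrix.mul_apply, Finset.mul_sum, Finset.sum_mul, ← mul_assoc]
  exact Finset.sum_comm

theorem linHom_one (f : MvPolynomial (Fin (n + 1)) Z) : linHom 1 f = f := by
  suffices linHom (1 : Matrix (Fin (n + 1)) (Fin (n + 1)) Z) = AlgHom.id Z _ from
    AlgHom.congr_fun this f
  refine MvPolynomial.algHom_ext fun l => ?_
  simp only [linHom, aeval_X, AlgHom.id_apply, Matrix.one_apply]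
  simp [apply_ite (C : Z → MvPolynomial (Fin (n + 1)) Z), ite_mul]

theorem linHom_homog (A : Matrix (Fin (n + 1)) (Fin (n + 1)) Z)
    {f : MvPolynomial (Fin (n + 1)) Z} {h : ℕ} (hf : f.IsHomogeneous h) :
    (linHom A f).IsHomogeneous h := by
  have := hf.aeval (fun l => ∑ i, C (A l i) * X i) (n := 1) fun l =>
    IsHomogeneous.sum _ _ _ fun i _ => by
      simpa using (isHomogeneous_C _ (A l i)).mul (isHomogeneous_X Z i)
  simpa [linHom] using this

/-- The elementary forms as monomials. -/
noncomputable def kappa :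
    MvPolynomial (Fin (n + 1)) Z →ₐ[Z] Polynomial (MvPolynomial (Fin n) Z) :=
  aeval (Fin.cases Polynomial.X fun i => Polynomial.X * Polynomial.C (X i))

theorem kappa_injective : Function.Injective (kappa (Z := Z) (n := n)) := by
  let v : Fin (n + 1) → (Option (Fin n) →₀ ℕ) :=
    Fin.cases (Finsupp.single none 1) fun i => Finsupp.single none 1 + Finsupp.single (some i) 1
  have hv : Function.Injective fun γ : Fin (n + 1) →₀ ℕ => ∑ i, γ i • v i := by
    intro γ η h
    have hs : ∀ i : Fin n, γ i.succ = η i.succ := fun i => by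
      have := DFunLike.congr_fun h (some i)
      simpa [v, Fin.sum_univ_succ, Finsupp.single_apply] using this
    have h0 := DFunLike.congr_fun h none
    simp [v, Fin.sum_univ_succ, Finsupp.single_apply, hs] at h0
    exact Finsupp.ext fun i => Fin.cases h0 hs i
  have h := monomialHom_injective (Z := Z) v hv
  have heq : (aeval (fun i => AddMonoidAlgebra.single (v i) (1 : Z)) :
      MvPolynomial (Fin (n + 1)) Z →ₐ[Z] MvPolynomial (Option (Fin n)) Z) =
      (optionEquivLeft Z (Fin n)).symm.toAlgHom.comp kappa := by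
    refine MvPolynomial.algHom_ext fun i => ?_
    rw [aeval_X, AlgHom.comp_apply, kappa, aeval_X]
    refine Fin.cases ?_ (fun j => ?_) i
    · simp [v, X, monomial]
    · simp only [Fin.cases_succ, v]
      change _ = (optionEquivLeft Z (Fin n)).symm (Polynomial.X * Polynomial.C (X j))
      rw [map_mul, optionEquivLeft_symm_C_X, optionEquivLeft_symm_X]
      simp [X, monomial, AddMonoidAlgebra.single_mul_single, add_comm]
  intro p q hpq
  exact h ((AlgHom.congr_fun heq p).trans ((congrArg _ hpq).trans (AlgHom.congr_fun heq q).symm))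

theorem prod_one_add_mul_eq (μ : Z) :
    ∏ j : Fin n, (1 + C μ * X j : MvPolynomial (Fin n) Z) =
      ∑ i : Fin (n + 1), C μ ^ (i : ℕ) * esymm (Fin n) Z i := by
  rw [Fin.sum_univ_eq_sum_range fun i => C μ ^ i * esymm (Fin n) Z i, prod_one_add]
  rw [Finset.sum_powerset, card_univ, Fintype.card_fin]
  refine sum_congr rfl fun i _ => ?_
  rw [esymm, mul_sum]
  refine sum_congr rfl fun t ht => ?_
  rw [prod_mul_distrib, prod_const, (mem_powersetCard.1 ht).2]

/-- The Vandermonde matrix centred at `k`. -/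
def vmat (k : Fin (n + 1)) : Matrix (Fin (n + 1)) (Fin (n + 1)) Z :=
  Matrix.vandermonde fun l => lam l - lam k

theorem etaHom_eq (k : Fin (n + 1)) (f : MvPolynomial (Fin (n + 1)) Z) :
    etaHom lam k f =
      Polynomial.mapAlgHom (esHom n Z) (kappa (linHom (vmat lam k) f)) := by
  suffices etaHom lam k = ((Polynomial.mapAlgHom (esHom n Z)).comp kappa).comp
      (linHom (vmat lam k)) from AlgHom.congr_fun this f
  refine MvPolynomial.algHom_ext fun l => ?_
  simp only [etaHom, AlgHom.comp_apply, linHom, aeval_X, map_sum, map_mul, aeval_C,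
    prod_one_add_mul_eq, vmat, Matrix.vandermonde_apply, mul_sum]
  refine sum_congr rfl fun i _ => ?_
  refine Fin.cases ?_ (fun j => ?_) i
  · simp [kappa]
  · simp [kappa, esHom, MvPolynomial.algebraMap_eq]
    ring

theorem vmat_isUnit (hlam : Sep lam) (k : Fin (n + 1)) : IsUnit (vmat lam k).det := by
  rw [vmat, Matrix.det_vandermonde]
  refine IsUnit.prod_iff.2 fun i _ => IsUnit.prod_iff.2 fun j hj => ?_
  simpa using hlam j i (mem_Ioi.1 hj).ne'

theorem kappa_homogenise (P : MvPolynomial (Fin n) Z) (h : ℕ) (hh : P.totalDegree ≤ h) :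
    ∃ c, c.IsHomogeneous h ∧ kappa c = Polynomial.X ^ h * Polynomial.C P := by
  refine ⟨∑ γ ∈ P.support, C (coeff γ P) * ((X 0 : MvPolynomial (Fin (n + 1)) Z) ^
    (h - ∑ i, γ i) * ∏ i, (X i.succ) ^ γ i), ?_, ?_⟩
  · refine IsHomogeneous.sum _ _ _ fun γ hγ => ?_
    have hle : ∑ i, γ i ≤ h := by
      refine le_trans (le_of_eq ?_) ((le_totalDegree hγ).trans hh)
      exact (Finsupp.sum_fintype γ (fun _ e => e) fun _ => rfl).symm
    have h1 := (isHomogeneous_X_pow (R := Z) (0 : Fin (n + 1)) (h - ∑ i, γ i)).mul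
      (IsHomogeneous.prod univ (fun i => (X i.succ : MvPolynomial (Fin (n + 1)) Z) ^ γ i)
        (fun i => γ i) fun i _ => isHomogeneous_X_pow (R := Z) i.succ (γ i))
    rw [Nat.sub_add_cancel hle] at h1
    simpa using (isHomogeneous_C _ (coeff γ P)).mul h1
  · conv_rhs => rw [P.as_sum, map_sum, mul_sum]
    rw [map_sum]
    refine sum_congr rfl fun γ hγ => ?_
    have hle : ∑ i, γ i ≤ h := by
      refine le_trans (le_of_eq ?_) ((le_totalDegree hγ).trans hh)
      exact (Finsupp.sum_fintype γ (fun _ e => e) fun _ => rfl).symm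
    rw [monomial_eq, Finsupp.prod_fintype _ _ fun i => pow_zero _]
    simp only [kappa, map_mul, map_prod, map_pow, aeval_X, aeval_C, Fin.cases_zero, Fin.cases_succ,
      mul_pow, prod_mul_distrib, prod_pow_eq_pow_sum]
    rw [Polynomial.algebraMap_apply, MvPolynomial.algebraMap_eq]
    simp only [← mul_assoc]
    rw [mul_assoc (Polynomial.C (C (coeff γ P))), ← pow_add, Nat.sub_add_cancel hle]
    ring

variable (a : Fin n → ℤ)

/-- The basis elements, as polynomials. -/
noncomputable def betaPoly (k : Fin (n + 1)) (b : Fin n →₀ ℕ) : MvPolynomial (Option (Fin n)) Z :=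
  X none ^ n * ∏ j, (X (some j) + C (lam k)) ^ (((n : ℤ) + a j).toNat - b j)

/-- The basis elements. -/
noncomputable def beta (k : Fin (n + 1)) (b : Fin n →₀ ℕ) : Lau Z n :=
  polyLau (betaPoly lam a k b)

theorem newCoord_betaPoly (ha : ∀ j, 0 ≤ a j) (k : Fin (n + 1)) (b : Fin n →₀ ℕ)
    (hb : ∀ j, b j ≤ n) : newCoord (lam k) (betaPoly lam a k b) =
      mon (fun j => -(n : ℤ) - a j) n * tyHom (Polynomial.C (monomial b 1)) := by
  simp only [newCoord, AlgHom.comp_apply, betaPoly, shiftHom, map_mul, map_prod, map_pow, map_add,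
    aeval_X, aeval_C, Option.elim, MvPolynomial.algebraMap_eq, sub_add_cancel, invLau_none, invLau_some, invLau_C, map_sub]
  rw [tyHom_C_monomial, prod_congr rfl fun j _ => mon_axis_pow j (-1) _, prod_mon_axis, mon_pow,
    mon_mul, mon_mul]
  congr 1
  · funext j
    have := hb j
    have := ha j
    simp only [Pi.add_apply, Pi.zero_apply, mul_zero, mul_neg, mul_one]
    omega
  · ring

theorem beta_lauMem (ha : ∀ j, 0 ≤ a j) (k : Fin (n + 1)) (b : Fin n →₀ ℕ) (ε : Chart n) :
    LauMem a ε n (beta lam a k b) := by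
  classical
  set M : Fin n → ℕ := fun j => ((n : ℤ) + a j).toNat - b j
  have hlin : ∀ j, LauMem (Pi.single j 1) ε 0
      ((mon (Pi.single j 1) 0 : Lau Z n) + algebraMap Z (Lau Z n) (lam k)) := fun j => by
    refine (lauMem_single 1 (fun l => ?_) rfl).add ?_
    · rcases eq_or_ne l j with rfl | h <;> simp [*]
    · rw [AddMonoidAlgebra.coe_algebraMap]
      refine lauMem_single _ (fun l => ?_) rfl
      rcases eq_or_ne l j with rfl | h <;> simp [*]
  have hpow : ∀ j (e : ℕ), LauMem (Pi.single j (e : ℤ)) ε 0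
      (((mon (Pi.single j 1) 0 : Lau Z n) + algebraMap Z (Lau Z n) (lam k)) ^ e) := by
    intro j e
    induction e with
    | zero => simpa [Pi.single_zero, Pi.zero_def] using lauMem_one (Z := Z) ε
    | succ e ih =>
      have := ih.mul (hlin j)
      rw [add_zero, ← Pi.single_add, ← pow_succ] at this
      simpa using this
  have hprod : ∀ s : Finset (Fin n), LauMem (∑ j ∈ s, Pi.single j (M j : ℤ)) ε 0
      (∏ j ∈ s, ((mon (Pi.single j 1) 0 : Lau Z n) +
        algebraMap Z (Lau Z n) (lam k)) ^ M j) := by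
    intro s
    induction s using Finset.induction_on with
    | empty => simpa [Pi.zero_def] using lauMem_one (Z := Z) ε
    | insert j s hj ih =>
      have := (hpow j (M j)).mul ih
      rw [add_zero] at this
      simpa [Finset.prod_insert hj, Finset.sum_insert hj] using this
  have htot := hprod univ
  rw [Finset.univ_sum_single] at htot
  have hn : LauMem (fun j => a j - (M j : ℤ)) ε (n : ℤ) (mon 0 (n : ℤ) : Lau Z n) := by
    refine lauMem_single 1 (fun j => ⟨fun _ => le_rfl, fun _ => ?_⟩) rfl
    have := ha j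
    simp only [M, Pi.zero_apply]
    omega
  have hall := hn.mul htot
  rw [add_zero, show ((fun j => a j - (M j : ℤ)) + fun j => (M j : ℤ)) = a by ext; simp] at hall
  simpa [beta, betaPoly, mon_pow, Pi.zero_def, M] using hall

theorem inPoly_of_lauMem {μ : Lau Z n} {m : ℤ} (h : ∀ ε, LauMem a ε m μ) :
    ∀ e ∈ μ.coeff.support, InPoly a e ∧ e.2 = m := by
  intro e he
  exact ⟨fun j => ⟨((h (fun _ => 1) e he).1 j).1 rfl, ((h (fun _ => 0) e he).1 j).2 rfl⟩,
    (h (fun _ => 1) e he).2⟩

/-- After a power of `Y_k`, every monomial of twist `a` is a combination of the `beta`. -/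
theorem span_monomial (hlam : Sep lam) (ha : ∀ j, 0 ≤ a j) (k : Fin (n + 1))
    (bf : Fin n.factorial → (Fin n →₀ ℕ)) (hb : ∀ r j, bf r j ≤ n)
    (hA : Function.Surjective (artinMap (Z := Z) bf)) (e : Expo n) (he : InPoly a e) :
    ∃ N₀ : ℕ, ∀ N, N₀ ≤ N → ∃ (h : ℕ) (c : Fin n.factorial → MvPolynomial (Fin (n + 1)) Z),
      (h : ℤ) + n = N + e.2 ∧ (∀ r, (c r).IsHomogeneous h) ∧
      yImg lam k ^ N * AddMonoidAlgebra.single e 1 = ∑ r, rho lam (c r) * beta lam a k (bf r) := by
  obtain ⟨α, m⟩ := e
  set αn : Fin n → ℕ := fun j => (α j).toNat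
  set dn : Fin n → ℕ := fun j => (m + a j - α j).toNat
  obtain ⟨cP, hcP⟩ := hA (∏ j, (X j ^ dn j * (1 - C (lam k) * X j) ^ αn j))
  set h₀ : ℕ := max (univ.sup fun r => (cP r).totalDegree) (m - n).toNat with hh₀
  refine ⟨((h₀ : ℤ) + n - m).toNat, fun N hN => ?_⟩
  obtain ⟨h, hh⟩ : ∃ h : ℕ, (h : ℤ) + n = N + m := ⟨((N : ℤ) + m - n).toNat, by omega⟩
  have hdeg : ∀ r, (cP r).totalDegree ≤ h := fun r => by
    have h1 : (cP r).totalDegree ≤ h₀ :=
      le_trans (le_sup (f := fun r => (cP r).totalDegree) (mem_univ r)) (le_max_left _ _)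
    omega
  choose cU hcU1 hcU2 using fun r => kappa_homogenise (cP r) h (hdeg r)
  refine ⟨h, fun r => linHom (vmat lam k)⁻¹ (cU r), hh, fun r => linHom_homog _ (hcU1 r), ?_⟩
  have heta : ∀ r, etaHom lam k (linHom (vmat lam k)⁻¹ (cU r)) =
      Polynomial.X ^ h * Polynomial.C (esHom n Z (cP r)) := fun r => by
    rw [etaHom_eq, linHom_comp, Matrix.nonsing_inv_mul _ (vmat_isUnit lam hlam k), linHom_one,
      hcU2]
    simp
  set q : MvPolynomial (Option (Fin n)) Z :=
    X none ^ (h + n) * (∏ j, (X (some j) + C (lam k))) ^ N * ∏ j, X (some j) ^ αn j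
  have hq1 : polyLau q = yImg lam k ^ N * AddMonoidAlgebra.single (α, m) 1 := by
    have hα : (fun j => (αn j : ℤ)) = α := funext fun j => Int.toNat_of_nonneg (he j).1
    have hy : yImg lam k = polyLau (yPoly lam (X k)) := by rw [polyLau_yPoly]; simp [rho]
    rw [hy]
    simp only [q, yPoly, aeval_X, map_mul, map_pow, map_prod, mul_pow]
    have h1 : ∏ j, polyLau (Z := Z) (X (some j)) ^ αn j = mon α 0 := by
      simp only [polyLau_some, mon_axis_pow, mul_one]
      rw [prod_mon_axis, hα]
    have h2 : (mon α 0 : Lau Z n) * polyLau (X none) ^ (h + n) =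
        polyLau (X none) ^ N * AddMonoidAlgebra.single ((α, m) : Expo n) 1 := by
      simp only [polyLau_none, mon_pow]
      rw [mon_mul, ← mon, mon_mul]
      congr 1
      · ext j; simp
      · push_cast; linarith
    rw [h1]
    linear_combination (∏ j, polyLau (Z := Z) (X (some j) + C (lam k))) ^ N * h2
  have hq2 : ∑ r, rho lam (linHom (vmat lam k)⁻¹ (cU r)) * beta lam a k (bf r) =
      polyLau (∑ r, yPoly lam (linHom (vmat lam k)⁻¹ (cU r)) * betaPoly lam a k (bf r)) := by
    simp [map_sum, beta, polyLau_yPoly]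
  rw [hq2, ← hq1]
  congr 1
  apply newCoord_injective (lam k)
  simp only [map_sum, map_mul, newCoord_yPoly, heta, newCoord_betaPoly lam a ha k _ (hb _)]
  have hsum : ∑ r, tyHom (Polynomial.X ^ h * Polynomial.C (esHom n Z (cP r))) *
      (mon (fun j => -(n : ℤ) - a j) n * tyHom (Polynomial.C (monomial (bf r) 1))) =
      mon (fun j => -(n : ℤ) - a j) n *
        tyHom (Polynomial.X ^ h * Polynomial.C (artinMap bf cP)) := by
    simp only [artinMap, map_sum, mul_sum, map_mul]
    exact sum_congr rfl fun r _ => by ring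
  simp only [map_mul] at hsum
  rw [hsum, hcP]
  · simp only [q, newCoord, shiftHom, invLau_none, invLau_some, invLau_C, AlgHom.comp_apply, map_mul, map_pow, map_prod,
      map_add, map_sub, map_one, aeval_X, aeval_C, Option.elim, MvPolynomial.algebraMap_eq,
      sub_add_cancel, tyHom_X, tyHom_CX, tyHom_CC, Polynomial.C_sub, Polynomial.C_1]
    rw [prod_mon_axis]
    have hfac : ∀ j : Fin n, (mon (Pi.single j 1) 0 : Lau Z n) ^ dn j *
        (1 - algebraMap Z (Lau Z n) (lam k) * mon (Pi.single j 1) 0) ^ αn j =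
        mon (Pi.single j ((dn j : ℤ) + (αn j : ℤ))) 0 *
          (mon (Pi.single j (-1)) 0 - algebraMap Z (Lau Z n) (lam k)) ^ αn j := fun j => by
      have h1 : (mon (Pi.single j 1) 0 : Lau Z n) * mon (Pi.single j (-1)) 0 = 1 := by
        rw [mon_mul, ← Pi.single_add, add_neg_cancel, Pi.single_zero, add_zero, mon_zero]
      have h2 : (1 : Lau Z n) - algebraMap Z (Lau Z n) (lam k) * mon (Pi.single j 1) 0 =
          mon (Pi.single j 1) 0 *
            (mon (Pi.single j (-1)) 0 - algebraMap Z (Lau Z n) (lam k)) := by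
        linear_combination -h1
      rw [h2, mul_pow, ← mul_assoc, ← pow_add, mon_axis_pow]
      congr 2
      push_cast
      simp
    rw [prod_congr rfl fun j _ => hfac j, prod_mul_distrib, prod_mon_axis]
    simp only [← mul_assoc, mon_pow, mon_mul]
    congr 2
    · funext j
      have h1 : 0 ≤ α j := (he j).1
      have h2 : α j ≤ m + a j := (he j).2
      simp only [Pi.add_apply, Pi.zero_apply, mul_zero, αn, dn]
      simp only [mul_neg, mul_one]
      omega
    · push_cast
      ring

/-- Independence of the `beta`. -/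
theorem beta_indep (hlam : Sep lam) (ha : ∀ j, 0 ≤ a j) (k : Fin (n + 1))
    (bf : Fin n.factorial → (Fin n →₀ ℕ)) (hb : ∀ r j, bf r j ≤ n)
    (hA : Function.Injective (artinMap (Z := Z) bf))
    (c : Fin n.factorial → MvPolynomial (Fin (n + 1)) Z)
    (h0 : ∑ r, rho lam (c r) * beta lam a k (bf r) = 0) : c = 0 := by
  have h1 : polyLau (∑ r, yPoly lam (c r) * betaPoly lam a k (bf r)) = 0 := by
    simpa [map_sum, beta, polyLau_yPoly] using h0
  rw [map_eq_zero_iff _ polyLau_injective] at h1
  have h2 := congrArg (newCoord (lam k)) h1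
  simp only [map_sum, map_mul, newCoord_yPoly, newCoord_betaPoly lam a ha k _ (hb _),
    map_zero] at h2
  have h3 : tyHom (∑ r, etaHom lam k (c r) * Polynomial.C (monomial (bf r) 1)) = 0 := by
    have hu : (mon (fun j => (n : ℤ) + a j) (-(n : ℤ)) : Lau Z n) *
        mon (fun j => -(n : ℤ) - a j) n = 1 := by
      rw [mon_mul, ← mon_zero]
      congr 1
      · funext j; simp
      · ring
    have h4 := congrArg ((mon (fun j => (n : ℤ) + a j) (-(n : ℤ)) : Lau Z n) * ·) h2
    simp only [mul_zero, mul_sum] at h4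
    rw [map_sum, ← h4]
    refine sum_congr rfl fun r _ => ?_
    rw [map_mul]
    linear_combination -(tyHom (etaHom lam k (c r)) * tyHom (Polynomial.C (monomial (bf r) 1))) * hu
  rw [map_eq_zero_iff _ tyHom_injective] at h3
  refine funext fun r => ?_
  have hk : kappa (linHom (vmat lam k) (c r)) = 0 := by
    refine Polynomial.ext fun h => ?_
    have h5 : artinMap bf
        (fun r => (kappa (linHom (vmat lam k) (c r))).coeff h) = artinMap (Z := Z) bf 0 := by
      have h6 := congrArg (fun p => Polynomial.coeff p h) h3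
      simp only [Polynomial.finsetSum_coeff, Polynomial.coeff_mul_C, etaHom_eq,
        Polynomial.coeff_zero] at h6
      simp only [artinMap, Pi.zero_apply, map_zero, zero_mul, sum_const_zero]
      rw [← h6]
      exact sum_congr rfl fun r _ => by simp [Polynomial.coeff_map]
    simpa using congrFun (hA h5) r
  rw [map_eq_zero_iff _ kappa_injective] at hk
  have := congrArg (linHom (vmat lam k)⁻¹) hk
  rwa [linHom_comp, Matrix.mul_nonsing_inv _ (vmat_isUnit lam hlam k), linHom_one, map_zero] at this

theorem yImg_pow_span {N₀ N : ℕ} (hN : N₀ ≤ N) (μ : Lau Z n) (k : Fin (n + 1))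
    (c : Fin n.factorial → MvPolynomial (Fin (n + 1)) Z) (β : Fin n.factorial → Lau Z n)
    (h : yImg lam k ^ N₀ * μ = ∑ r, rho lam (c r) * β r) :
    yImg lam k ^ N * μ = ∑ r, rho lam (X k ^ (N - N₀) * c r) * β r := by
  conv_lhs => rw [← Nat.sub_add_cancel hN, pow_add, mul_assoc, h, mul_sum]
  simp [rho, mul_assoc]

/-- free basis after inverting one `Y_k` -/
theorem exists_basis (hlam : Sep lam) (a : Fin n → ℤ) (ha : ∀ j, 0 ≤ a j) (k : Fin (n + 1)) :
    ∃ (m₀ : Fin n.factorial → ℤ) (β : Fin n.factorial → Lau Z n),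
      (∀ r, ∀ e ∈ (β r).coeff.support, InPoly a e ∧ e.2 = m₀ r) ∧
      (∀ x : Lau Z n, (∀ e ∈ x.coeff.support, InPoly a e) →
        ∃ (N : ℕ) (c : Fin n.factorial → MvPolynomial (Fin (n + 1)) Z),
          yImg lam k ^ N * x = ∑ r, rho lam (c r) * β r) ∧
      ∀ c : Fin n.factorial → MvPolynomial (Fin (n + 1)) Z,
        ∑ r, rho lam (c r) * β r = 0 → c = 0 := by
  classical
  obtain ⟨bf, hb, hA⟩ := artin_basis n Z
  refine ⟨fun _ => n, fun r => beta lam a k (bf r),
    fun r => inPoly_of_lauMem a fun ε => beta_lauMem lam a ha k _ ε, fun x hx => ?_,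
    fun c hc => beta_indep lam a hlam ha k bf hb hA.1 c hc⟩
  choose! N₀ hN₀ using fun (e : Expo n) (he : e ∈ x.coeff.support) =>
    span_monomial lam a hlam ha k bf hb hA.2 e (hx e he)
  set N := x.coeff.support.sup N₀
  choose! h c _ _ hc using fun (e : Expo n) (he : e ∈ x.coeff.support) =>
    hN₀ e he N (le_sup he)
  refine ⟨N, fun r => ∑ e ∈ x.coeff.support, C (x.coeff e) * c e r, ?_⟩
  conv_lhs => rw [← AddMonoidAlgebra.sum_coeff_single x, Finsupp.sum, mul_sum]
  simp only [map_sum, map_mul, sum_mul]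
  rw [sum_comm]
  refine sum_congr rfl fun e he => ?_
  rw [show AddMonoidAlgebra.single e (x.coeff e) =
    x.coeff e • (AddMonoidAlgebra.single e 1 : Lau Z n) by simp, mul_smul_comm, hc e he, smul_sum]
  refine sum_congr rfl fun r _ => ?_
  rw [rho, aeval_C, Algebra.smul_def, mul_assoc]

end Vale.Agent.P202.Char
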