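import Mathlib
import Vale.Agent.P202.Lech

/-!
P202, Lech's inequality in characteristic `p`: shared definitions.

* `GC`: a differential on one module together with a grading; subcomplexes are submodules,
  `GC.H X Y n` is the homology of `Y / X` in degree `n`.
* `MCx`: a complex of finite free modules given by one matrix.
* `koszul`: the Koszul complex of elements of `S` on an `S`-module.
* `Box`: Laurent monomials of the products of charts of `(P^1)^n`, the map `Y_k ↦ ∏ (σ_j + λ_k)`,
  free slices, relation slices and the Cech differential.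
-/

namespace Vale.Agent.P202.Char

universe u v w

/-- The length, as a natural number. -/
noncomputable def len (R : Type u) [Ring R] (M : Type v) [AddCommGroup M] [Module R M] : ℕ :=
  (Module.length R M).toNat

/-- A differential of degree `-1` on a module with a grading. -/
structure GC (R : Type u) [CommRing R] (T : Type v) [AddCommGroup T] [Module R T] where
  D : T →ₗ[R] T
  deg : ℤ → Submodule R T
  sq : D ∘ₗ D = 0
  map_deg : ∀ n, (deg n).map D ≤ deg (n - 1)

namespace GC

variable {R : Type u} [CommRing R] {T : Type v} [AddCommGroup T] [Module R T] (C : GC R T)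

/-- Subcomplexes. -/
def IsSub (X : Submodule R T) : Prop := X.map C.D ≤ X

/-- Cycles of degree `n` of `Y / X`. -/
def cyc (X Y : Submodule R T) (n : ℤ) : Submodule R T := (Y ⊓ C.deg n) ⊓ X.comap C.D

/-- Boundaries of degree `n` of `Y / X`. -/
def bd (X Y : Submodule R T) (n : ℤ) : Submodule R T :=
  (Y ⊓ C.deg (n + 1)).map C.D ⊔ (X ⊓ C.deg n)

/-- Homology of `Y / X` in degree `n`. -/
abbrev H (X Y : Submodule R T) (n : ℤ) :=
  (C.cyc X Y n) ⧸ (C.bd X Y n).comap (C.cyc X Y n).subtype

/-- The homology in degree `n` has finite length. -/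
def FinH (X Y : Submodule R T) (n : ℤ) : Prop := Module.length R (C.H X Y n) ≠ ⊤

/-- The length of the homology in degree `n`. -/
noncomputable def h (X Y : Submodule R T) (n : ℤ) : ℕ := len R (C.H X Y n)

/-- Euler characteristic over a range of degrees. -/
noncomputable def chi (s : Finset ℤ) (X Y : Submodule R T) : ℤ :=
  ∑ n ∈ s, (-1) ^ n.natAbs * (C.h X Y n : ℤ)

end GC

/-- A complex of finite free modules: one matrix, entry `(a, b)` maps the basis element `b` to
`a`, of one degree less. -/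
structure MCx (R : Type u) [CommRing R] where
  β : Type
  [fin : Fintype β]
  [dec : DecidableEq β]
  deg : β → ℕ
  D : Matrix β β R
  sq : D * D = 0
  homog : ∀ a b, D a b ≠ 0 → deg b = deg a + 1

attribute [instance] MCx.fin MCx.dec

namespace MCx

variable {R : Type u} [CommRing R]

/-- The differential on tuples of elements of a module. -/
noncomputable def dlin (P : MCx R) (N : Type v) [AddCommGroup N] [Module R N] :
    (P.β → N) →ₗ[R] (P.β → N) :=
  LinearMap.pi fun a => ∑ b, P.D a b • LinearMap.proj b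

/-- Tuples supported in degree `n`. -/
def degSub (P : MCx R) (N : Type v) [AddCommGroup N] [Module R N] (n : ℤ) :
    Submodule R (P.β → N) :=
  Submodule.pi Set.univ fun b => if (P.deg b : ℤ) = n then ⊤ else ⊥

/-- The number of basis elements of degree `i`. -/
def rank (P : MCx R) (i : ℕ) : ℕ := (Finset.univ.filter fun b => P.deg b = i).card

/-- All entries lie in `I`. -/
def EntriesIn (P : MCx R) (I : Ideal R) : Prop := ∀ a b, P.D a b ∈ I

/-- Homotopy equivalence of matrix complexes. -/
structure Htpy (P Q : MCx R) where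
  f : Matrix Q.β P.β R
  g : Matrix P.β Q.β R
  h : Matrix P.β P.β R
  k : Matrix Q.β Q.β R
  f_deg : ∀ a b, f a b ≠ 0 → Q.deg a = P.deg b
  g_deg : ∀ a b, g a b ≠ 0 → P.deg a = Q.deg b
  h_deg : ∀ a b, h a b ≠ 0 → P.deg a = P.deg b + 1
  k_deg : ∀ a b, k a b ≠ 0 → Q.deg a = Q.deg b + 1
  f_comm : Q.D * f = f * P.D
  g_comm : P.D * g = g * Q.D
  gf : g * f = 1 + (P.D * h + h * P.D)
  fg : f * g = 1 + (Q.D * k + k * Q.D)

/-- `r` acts null-homotopically. -/
def IsNullHtpic (P : MCx R) (r : R) : Prop :=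
  ∃ h : Matrix P.β P.β R, (∀ a b, h a b ≠ 0 → P.deg a = P.deg b + 1) ∧
    P.D * h + h * P.D = r • (1 : Matrix P.β P.β R)

/-- Change of rings. -/
noncomputable def map {R' : Type v} [CommRing R'] (φ : R →+* R') (P : MCx R) : MCx R' where
  β := P.β
  deg := P.deg
  D := P.D.map φ
  sq := by rw [← Matrix.map_mul, P.sq]; simp
  homog a b h := P.homog a b fun h0 => h (by simp [h0])

end MCx

/-- The Koszul sign of `j` in `s`. -/
def ksign {d : ℕ} (s : Finset (Fin d)) (j : Fin d) : ℤ := (-1) ^ (s.filter (· < j)).card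

/-- The Koszul differential of `x` on an `S`-module. -/
noncomputable def koszulD {S : Type u} [CommRing S] {d : ℕ} (x : Fin d → S) (N : Type v)
    [AddCommGroup N] [Module S N] :
    (Finset (Fin d) → N) →ₗ[S] (Finset (Fin d) → N) :=
  LinearMap.pi fun s =>
    ∑ j ∈ sᶜ, (ksign s j • x j) • (LinearMap.proj (insert j s) : (Finset (Fin d) → N) →ₗ[S] N)

/-- Families supported in the sets of `n` elements. -/
def koszulDeg (R : Type u) [CommRing R] (d : ℕ) (N : Type v) [AddCommGroup N] [Module R N]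
    (n : ℤ) : Submodule R (Finset (Fin d) → N) :=
  Submodule.pi Set.univ fun s => if (s.card : ℤ) = n then ⊤ else ⊥

/-! ### Charts of `(P^1)^n` -/

/-- Exponents: `(α, m)` stands for the monomial `∏ s_j ^ α j * t_j ^ (m + a j - α j)`. -/
abbrev Expo (n : ℕ) := (Fin n → ℤ) × ℤ

/-- Laurent polynomials. -/
abbrev Lau (Z : Type u) [CommRing Z] (n : ℕ) := AddMonoidAlgebra Z (Expo n)

/-- Charts: in factor `j`, `0`: `s` inverted, `1`: `t` inverted, `2`: both. -/
abbrev Chart (n : ℕ) := Fin n → Fin 3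

/-- The number of doubly inverted factors. -/
def chartDeg {n : ℕ} (ε : Chart n) : ℕ := (Finset.univ.filter fun j => ε j = 2).card

/-- Exponents of the chart `ε` with twist `a`. -/
def InBox {n : ℕ} (a : Fin n → ℤ) (ε : Chart n) (e : Expo n) : Prop :=
  ∀ j, (ε j = 1 → 0 ≤ e.1 j) ∧ (ε j = 0 → e.1 j ≤ e.2 + a j)

/-- Exponents of polynomials. -/
def InPoly {n : ℕ} (a : Fin n → ℤ) (e : Expo n) : Prop :=
  ∀ j, 0 ≤ e.1 j ∧ e.1 j ≤ e.2 + a j

variable {Z : Type u} [CommRing Z] {n : ℕ}

/-- The image of the variable `Y_k`. -/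
noncomputable def yImg (lam : Fin (n + 1) → Z) (k : Fin (n + 1)) : Lau Z n :=
  (∏ j, (AddMonoidAlgebra.single ((Pi.single j 1, 0) : Expo n) 1
      + AddMonoidAlgebra.single (0 : Expo n) (lam k))) *
    AddMonoidAlgebra.single ((0, 1) : Expo n) 1

/-- The structure map from the polynomial ring. -/
noncomputable def rho (lam : Fin (n + 1) → Z) :
    MvPolynomial (Fin (n + 1)) Z →ₐ[Z] Lau Z n :=
  MvPolynomial.aeval (yImg lam)

/-- The differences of `lam` are units. -/
def Sep (lam : Fin (n + 1) → Z) : Prop := ∀ k l, k ≠ l → IsUnit (lam k - lam l)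

variable {ι : Type w}

/-- Free module with basis `ι × monomials`. -/
abbrev Tot (Z : Type u) [CommRing Z] (n : ℕ) (ι : Type w) := (ι × Expo n) →₀ Z

/-- Copy of a Laurent polynomial in the component `i`. -/
noncomputable def inComp (i : ι) : Lau Z n →ₗ[Z] Tot Z n ι :=
  Finsupp.lmapDomain Z Z (fun e => (i, e)) ∘ₗ
    (AddMonoidAlgebra.coeffLinearEquiv Z).toLinearMap

/-- The tuple of polynomials `p` times the Laurent polynomial `μ`. -/
noncomputable def emb (lam : Fin (n + 1) → Z) (p : ι →₀ MvPolynomial (Fin (n + 1)) Z)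
    (μ : Lau Z n) : Tot Z n ι :=
  p.sum fun i f => inComp i (rho lam f * μ)

/-- `p` is homogeneous of degree `D` for the shifts `δ`. -/
def IsHomog (δ : ι → ℤ) (p : ι →₀ MvPolynomial (Fin (n + 1)) Z) (D : ℤ) : Prop :=
  ∀ i, ∀ c ∈ (p i).support, δ i + (c.sum fun _ v => (v : ℤ)) = D

/-- The free slice of degree `N` on the chart `ε`. -/
noncomputable def freeSlice (Z : Type u) [CommRing Z] (a : Fin n → ℤ) (ε : Chart n)
    (δ : ι → ℤ) (N : ℤ) : Submodule Z (Tot Z n ι) :=
  Finsupp.supported Z Z {x | InBox a ε x.2 ∧ δ x.1 + x.2.2 = N}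

/-- The relations in degree `N` coming from `K` on the chart `ε`. -/
noncomputable def relSlice (lam : Fin (n + 1) → Z) (a : Fin n → ℤ) (ε : Chart n) (δ : ι → ℤ)
    (K : Set (ι →₀ MvPolynomial (Fin (n + 1)) Z)) (N : ℤ) : Submodule Z (Tot Z n ι) :=
  Submodule.span Z {x | ∃ p ∈ K, ∃ D : ℤ, ∃ e : Expo n, IsHomog δ p D ∧ InBox a ε e ∧
    D + e.2 = N ∧ x = emb lam p (AddMonoidAlgebra.single e 1)}

/-- The Cech differential on families indexed by charts. -/
noncomputable def cechD (Z : Type u) [CommRing Z] {M : Type v} [AddCommGroup M] [Module Z M] :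
    (Chart n → M) →ₗ[Z] (Chart n → M) :=
  LinearMap.pi fun ε => ∑ j ∈ Finset.univ.filter fun j => ε j = 2,
    ((-1 : Z) ^ (Finset.univ.filter fun l => l < j ∧ ε l = 2).card) •
      ((LinearMap.proj (Function.update ε j 1) : (Chart n → M) →ₗ[Z] M) -
        LinearMap.proj (Function.update ε j 0))

/-- Families supported in the charts of Cech degree `q = -k`. -/
def cechDeg (Z : Type u) [CommRing Z] (M : Type v) [AddCommGroup M] [Module Z M] (k : ℤ) :
    Submodule Z (Chart n → M) :=
  Submodule.pi Set.univ fun ε => if -(chartDeg ε : ℤ) = k then ⊤ else ⊥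

/-- Free Cech cochains of degree `N`. -/
noncomputable def freeCech (Z : Type u) [CommRing Z] (a : Fin n → ℤ) (δ : ι → ℤ) (N : ℤ) :
    Submodule Z (Chart n → Tot Z n ι) :=
  Submodule.pi Set.univ fun ε => freeSlice Z a ε δ N

/-- Cech cochains of relations of degree `N`. -/
noncomputable def relCech (lam : Fin (n + 1) → Z) (a : Fin n → ℤ) (δ : ι → ℤ)
    (K : Set (ι →₀ MvPolynomial (Fin (n + 1)) Z)) (N : ℤ) :
    Submodule Z (Chart n → Tot Z n ι) :=
  Submodule.pi Set.univ fun ε => relSlice lam a ε δ K N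

/-- `dim H^q` of `O(m + a)` on `(P^1)^n`. -/
noncomputable def hP (a : Fin n → ℤ) (m : ℤ) (q : ℕ) : ℕ :=
  if (Finset.univ.filter fun j => m + a j + 1 < 0).card = q then
    ∏ j, (m + a j + 1).natAbs else 0

/-! ### The Rees algebra -/

/-- A minimal reduction of the maximal ideal by `n + 1` elements, with generators of the powers:
`m ^ j = ∑ i, (z) ^ (j - δ i) * gen i`. -/
structure RedData (R : Type u) [CommRing R] [IsLocalRing R] (n : ℕ) where
  z : Fin (n + 1) → R
  z_mem : ∀ k, z k ∈ IsLocalRing.maximalIdeal R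
  ι : Type
  [fin : Fintype ι]
  δ : ι → ℕ
  gen : ι → R
  gen_mem : ∀ i, gen i ∈ IsLocalRing.maximalIdeal R ^ δ i
  pow_eq : ∀ j, IsLocalRing.maximalIdeal R ^ j =
    ⨆ i, Ideal.span (Set.range z) ^ (j - δ i) * Ideal.span {gen i}

attribute [instance] RedData.fin

namespace RedData

variable {R : Type u} [CommRing R] [IsLocalRing R] (Z : RedData R n)

/-- Index `(i, s)` of `u ^ s * gen i t ^ δ i` in the extended Rees algebra. -/
abbrev Idx := Z.ι × ℕ

/-- Degree of `(i, s)`. -/
def ideg (x : Z.Idx) : ℤ := (Z.δ x.1 : ℤ) - (x.2 : ℤ)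

/-- Evaluation at `Y_k = z_k`, forgetting `t`. -/
noncomputable def ev : (Z.Idx →₀ MvPolynomial (Fin (n + 1)) R) →ₗ[R] R :=
  Finsupp.lsum R fun x => (LinearMap.mulLeft R (Z.gen x.1)) ∘ₗ (MvPolynomial.aeval Z.z).toLinearMap

/-- The relations of the extended Rees algebra: homogeneous tuples evaluating to `0`. -/
def rel : Set (Z.Idx →₀ MvPolynomial (Fin (n + 1)) R) :=
  {p | (∃ D, IsHomog Z.ideg p D) ∧ Z.ev p = 0}

/-- The relations of the associated graded ring over the residue field. -/
def grRel : Set (Z.ι →₀ MvPolynomial (Fin (n + 1)) (IsLocalRing.ResidueField R)) :=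
  {p | ∃ (D : ℕ) (q : Z.ι →₀ MvPolynomial (Fin (n + 1)) R),
    p = q.mapRange (MvPolynomial.map (IsLocalRing.residue R)) (map_zero _) ∧
    IsHomog (fun i => (Z.δ i : ℤ)) q (D : ℤ) ∧
    (q.sum fun i f => MvPolynomial.aeval Z.z f * Z.gen i) ∈
      IsLocalRing.maximalIdeal R ^ (D + 1)}

end RedData

end Vale.Agent.P202.Char
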