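import Vale.Agent.P202.Char.Completion

/-!
P202, Lech in characteristic `p`, stage 2: evaluation of power series over `R` at elements of the
maximal ideal of a complete local ring.
-/

namespace Vale.Agent.P202.Char

open IsLocalRing AdicCompletion

universe u v

namespace EvalPS

variable {R : Type u} {S : Type v} [CommRing R] [CommRing S] {N : Ideal S} [IsAdicComplete N S]
  {σ : Type} [Finite σ]

/-- Evaluation of power series at a family in `N`, along a ring map. -/
noncomputable def eval (φ : R →+* S) (y : σ → S) (hy : ∀ i, y i ∈ N) :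
    MvPowerSeries σ R →+* S :=
  ((AdicCompletion.ofAlgEquiv N).symm.toRingEquiv.toRingHom.comp
    (Compl.compMap (MvPolynomial.eval₂Hom φ y) (J := N) (I := MvPolynomial.idealOfVars σ R) (by
      rw [MvPolynomial.idealOfVars, Ideal.map_span, Ideal.span_le]
      rintro _ ⟨_, ⟨i, rfl⟩, rfl⟩
      simpa using hy i))).comp
    (MvPowerSeries.toAdicCompletionAlgEquiv σ R).toRingEquiv.toRingHom

variable (φ : R →+* S) (y : σ → S) (hy : ∀ i, y i ∈ N)

/-- Evaluation is congruent to evaluation of truncations. -/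
theorem eval_sub_mem (f : MvPowerSeries σ R) (k : ℕ) :
    eval φ y hy f - MvPolynomial.eval₂Hom φ y (MvPowerSeries.truncTotal k f) ∈ N ^ k := by
  rw [← Ideal.Quotient.eq]
  set x := MvPowerSeries.toAdicCompletionAlgEquiv σ R f with hx
  have hle : (MvPolynomial.idealOfVars σ R).map (MvPolynomial.eval₂Hom φ y) ≤ N := by
    rw [MvPolynomial.idealOfVars, Ideal.map_span, Ideal.span_le]
    rintro _ ⟨_, ⟨i, rfl⟩, rfl⟩
    simpa using hy i
  set z := Compl.compMap (MvPolynomial.eval₂Hom φ y) hle x with hz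
  have h1 : eval φ y hy f = (AdicCompletion.ofAlgEquiv N).symm z := rfl
  have h2 : Ideal.Quotient.mk (N ^ k) ((AdicCompletion.ofAlgEquiv N).symm z) =
      evalₐ N k z := by
    conv_rhs => rw [← (AdicCompletion.ofAlgEquiv N).apply_symm_apply z]
    simp
  have h3 : evalₐ (MvPolynomial.idealOfVars σ R) k x =
      Ideal.Quotient.mk _ (MvPowerSeries.truncTotal k f) := by
    rw [hx, MvPowerSeries.toAdicCompletionAlgEquiv_apply, MvPowerSeries.toAdicCompletion,
      AdicCompletion.evalₐ_liftAlgHom]
    · rfl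
    · exact fun h => AlgHom.ext fun _ => by
        simpa [Ideal.Quotient.mk_eq_mk_iff_sub_mem] using
          MvPowerSeries.truncTotal_sub_truncTotal_mem_pow_idealOfVars h (le_refl _) _
  rw [h1, h2, hz, Compl.evalₐ_compMap, h3, Ideal.quotientMap_mk]

theorem eval_coe (p : MvPolynomial σ R) :
    eval φ y hy (p : MvPowerSeries σ R) = MvPolynomial.eval₂Hom φ y p := by
  refine sub_eq_zero.1 (IsHausdorff.haus' (I := N) _ fun k => ?_)
  rw [SModEq.zero, smul_eq_mul, Ideal.mul_top]
  have h1 := eval_sub_mem φ y hy (p : MvPowerSeries σ R) k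
  have h2 : MvPolynomial.eval₂Hom φ y (MvPowerSeries.truncTotal k (p : MvPowerSeries σ R)) -
      MvPolynomial.eval₂Hom φ y p ∈ N ^ k := by
    rw [← map_sub]
    have hle : (MvPolynomial.idealOfVars σ R).map (MvPolynomial.eval₂Hom φ y) ≤ N := by
      rw [MvPolynomial.idealOfVars, Ideal.map_span, Ideal.span_le]
      rintro _ ⟨_, ⟨i, rfl⟩, rfl⟩
      simpa using hy i
    refine Compl.pow_le_comap hle k ?_
    refine (MvPolynomial.mem_pow_idealOfVars_iff' ..).mpr fun x hx => ?_
    simp [MvPowerSeries.coeff_truncTotal _ hx]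
  have := add_mem h1 h2
  rwa [sub_add_sub_cancel] at this

theorem eval_C (r : R) : eval φ y hy (MvPowerSeries.C r) = φ r := by
  have h := eval_coe φ y hy (MvPolynomial.C r)
  rw [MvPolynomial.coe_C] at h
  rw [h, MvPolynomial.eval₂Hom_C]

theorem eval_X (i : σ) : eval φ y hy (MvPowerSeries.X i) = y i := by
  have h := eval_coe φ y hy (MvPolynomial.X i)
  rw [MvPolynomial.coe_X] at h
  rw [h, MvPolynomial.eval₂Hom_X']

end EvalPS

end Vale.Agent.P202.Char
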