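import Vale.Agent.P202.Char.Hilbert
import Vale.Agent.P202.Char.Acts

/-!
P202, Lech in characteristic `p`: reductions by `n + 1` elements, the multiplicity as the rank of
the associated graded ring, and relations of the Rees algebra modulo `u`.
-/

namespace Vale.Agent.P202.Char

open IsLocalRing Filter Topology MvPolynomial

universe u v w

namespace Red

variable {R : Type u} [CommRing R] [IsLocalRing R] {n : ℕ} (Z : RedData R n)

theorem rank_nullity {k : Type u} [Field k] {V : Type v} {V' : Type w} [AddCommMonoid V]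
    [AddCommMonoid V'] [Module k V] [Module k V'] [Module.Finite k V] (f : V →ₗ[k] V') :
    Module.finrank k (LinearMap.range f) + Module.finrank k (LinearMap.ker f) =
      Module.finrank k V := by
  let : AddCommGroup V := Module.addCommMonoidToAddCommGroup k
  let : AddCommGroup V' := Module.addCommMonoidToAddCommGroup k
  exact f.finrank_range_add_finrank_ker

theorem finite_sub {k : Type u} [Field k] {V : Type v} [AddCommMonoid V] [Module k V]
    [Module.Finite k V] (p : Submodule k V) : Module.Finite k p := by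
  let : AddCommGroup V := Module.addCommMonoidToAddCommGroup k
  exact FiniteDimensional.finiteDimensional_submodule p

/-- `S` indexes a free part and the form `g` kills the rest. -/
def IsBasisData (S : Finset Z.ι) (g : MvPolynomial (Fin (n + 1)) (ResidueField R)) (γ : ℕ) :
    Prop :=
  g ≠ 0 ∧ g.IsHomogeneous γ ∧
    (∀ p ∈ Finsupp.supported (MvPolynomial (Fin (n + 1)) (ResidueField R))
      (MvPolynomial (Fin (n + 1)) (ResidueField R)) (S : Set Z.ι), p ∈ W Z → p = 0) ∧
    ∀ i, i ∉ S → Finsupp.single i g ∈ W Z ⊔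
      Finsupp.supported (MvPolynomial (Fin (n + 1)) (ResidueField R))
        (MvPolynomial (Fin (n + 1)) (ResidueField R)) (S : Set Z.ι)

theorem comp_supported {S : Set Z.ι}
    {p : Z.ι →₀ MvPolynomial (Fin (n + 1)) (ResidueField R)}
    (hp : p ∈ Finsupp.supported (MvPolynomial (Fin (n + 1)) (ResidueField R))
      (MvPolynomial (Fin (n + 1)) (ResidueField R)) S) (j : ℕ) :
    comp (ResidueField R) (Fin (n + 1)) Z.δ j p ∈
      Finsupp.supported (MvPolynomial (Fin (n + 1)) (ResidueField R))
        (MvPolynomial (Fin (n + 1)) (ResidueField R)) S := by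
  rw [Finsupp.mem_supported'] at hp ⊢
  intro i hi
  refine MvPolynomial.ext _ _ fun c => ?_
  rw [coeff_comp, hp i hi]
  simp

theorem exists_basisData : ∃ S g γ, IsBasisData Z S g γ := by
  classical
  set Pk := MvPolynomial (Fin (n + 1)) (ResidueField R)
  set good : Finset Z.ι → Prop := fun S =>
    ∀ p ∈ Finsupp.supported Pk Pk (S : Set Z.ι), p ∈ W Z → p = 0
  have h0 : good ∅ := fun p hp _ => by
    refine Finsupp.ext fun i => ?_
    rw [Finsupp.mem_supported'] at hp
    simp [hp i (by simp)]
  obtain ⟨S, hS, hmax⟩ := Finset.exists_max_image (Finset.univ.filter good) Finset.card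
    ⟨∅, by simpa using h0⟩
  have hS' : good S := (Finset.mem_filter.1 hS).2
  have hone : ∀ i, i ∉ S → ∃ (g : Pk) (γ : ℕ), g ≠ 0 ∧ g.IsHomogeneous γ ∧
      Finsupp.single i g ∈ W Z ⊔ Finsupp.supported Pk Pk (S : Set Z.ι) := by
    intro i hi
    have hbad : ¬ good (insert i S) := fun h => by
      have := hmax (insert i S) (by simpa using h)
      rw [Finset.card_insert_of_notMem hi] at this
      omega
    simp only [good, not_forall] at hbad
    obtain ⟨p, hp, hpW, hp0⟩ := hbad
    have hpi : p i ≠ 0 := by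
      intro h
      refine hp0 (hS' p ?_ hpW)
      rw [Finsupp.mem_supported'] at hp ⊢
      intro l hl
      by_cases hli : l = i
      · rw [hli, h]
      · exact hp l (by simpa [hli] using hl)
    have hmem : Finsupp.single i (p i) ∈ W Z ⊔ Finsupp.supported Pk Pk (S : Set Z.ι) := by
      rw [show Finsupp.single i (p i) = p + -(p.erase i) by
        rw [← sub_eq_add_neg, eq_sub_iff_add_eq, Finsupp.single_add_erase]]
      refine Submodule.add_mem_sup hpW (neg_mem ?_)
      rw [Finsupp.mem_supported'] at hp ⊢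
      intro l hl
      by_cases hli : l = i
      · rw [hli, Finsupp.erase_same]
      · rw [Finsupp.erase_ne hli]
        exact hp l (by simpa [hli] using hl)
    obtain ⟨c, hc⟩ := ne_zero_iff.1 hpi
    refine ⟨homogeneousComponent c.degree (p i), c.degree, fun h => hc ?_,
      homogeneousComponent_isHomogeneous _ _, ?_⟩
    · have := congrArg (coeff c) h
      rwa [coeff_homogeneousComponent, if_pos rfl, coeff_zero] at this
    · obtain ⟨a, ha, b, hb, hab⟩ := Submodule.mem_sup.1 hmem
      have hk : comp (ResidueField R) (Fin (n + 1)) Z.δ (Z.δ i + c.degree)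
          (Finsupp.single i (p i)) = Finsupp.single i (homogeneousComponent c.degree (p i)) := by
        simp [comp]
      rw [← hk, ← hab, map_add]
      exact Submodule.add_mem_sup (comp_mem_span _ (grRel_homog Z) ha _) (comp_supported Z hb _)
  choose! g γ hg using hone
  refine ⟨S, ∏ i ∈ Sᶜ, g i, ∑ i ∈ Sᶜ, γ i,
    Finset.prod_ne_zero_iff.2 fun i hi => (hg i (Finset.mem_compl.1 hi)).1,
    IsHomogeneous.prod _ _ _ fun i hi => (hg i (Finset.mem_compl.1 hi)).2.1, hS', fun i hi => ?_⟩
  rw [← Finset.prod_erase_mul _ _ (Finset.mem_compl.2 hi), ← smul_eq_mul, ← Finsupp.smul_single]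
  exact Submodule.smul_mem _ _ (hg i hi).2.2

/-- Families on `S` as homogeneous tuples. -/
noncomputable def onS [DecidableEq Z.ι] (S : Finset Z.ι) (j : ℕ) :
    (∀ s : S, slot (ResidueField R) (Fin (n + 1)) (Z.δ s) j) →ₗ[ResidueField R]
      hom (ResidueField R) (Fin (n + 1)) Z.δ j :=
  (homEquiv j).toLinearMap ∘ₗ LinearMap.pi fun i =>
    if h : i ∈ S then LinearMap.proj (⟨i, h⟩ : S) else 0

theorem onS_apply [DecidableEq Z.ι] (S : Finset Z.ι) (j : ℕ)
    (c : ∀ s : S, slot (ResidueField R) (Fin (n + 1)) (Z.δ s) j) (i : Z.ι) :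
    ((onS Z S j c : Z.ι →₀ MvPolynomial (Fin (n + 1)) (ResidueField R))) i =
      if h : i ∈ S then (c ⟨i, h⟩ : MvPolynomial (Fin (n + 1)) (ResidueField R)) else 0 := by
  by_cases hi : i ∈ S <;> simp [onS, homEquiv, hi]

/-- `C(j - a + n, n)`. -/
def cnt (n a j : ℕ) : ℕ := if a ≤ j then (j - a + n).choose n else 0

theorem finrank_pi_slot {ι' : Type} [Fintype ι'] (a : ι' → ℕ) (j : ℕ) :
    Module.finrank (ResidueField R) (∀ i, slot (ResidueField R) (Fin (n + 1)) (a i) j) =
      ∑ i, cnt n (a i) j := by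
  have := fun i => slot_finite (R := R) (n := n) (a i) j
  rw [Module.finrank_pi_fintype]
  exact Finset.sum_congr rfl fun i _ => (cnt_finrank n _ j).2

theorem hf_bounds [DecidableEq Z.ι] {S : Finset Z.ι}
    {g : MvPolynomial (Fin (n + 1)) (ResidueField R)} {γ : ℕ} (h : IsBasisData Z S g γ) (j : ℕ) :
    ∑ i ∈ S, cnt n (Z.δ i) j ≤ hf Z j ∧
      hf Z j + ∑ i ∈ Sᶜ, cnt n (Z.δ i + γ) j ≤ ∑ i, cnt n (Z.δ i) j := by
  obtain ⟨hg0, hgh, hind, hgen⟩ := h
  have := fun i => slot_finite (R := R) (n := n) (Z.δ i) j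
  have := hom_finite (Z := Z) j
  have hsum : ∑ s : S, cnt n (Z.δ s) j = ∑ i ∈ S, cnt n (Z.δ i) j :=
    Finset.sum_coe_sort S fun i => cnt n (Z.δ i) j
  constructor
  · rw [← hsum, ← finrank_pi_slot (R := R) (fun s : S => Z.δ s) j, hf]
    refine LinearMap.finrank_le_finrank_of_injective
      (f := (qmap Z j).rangeRestrict ∘ₗ onS Z S j) ?_
    rw [injective_iff_map_eq_zero]
    intro c hc
    have hW := (qmap_eq_zero Z j _).1 (congrArg Subtype.val hc)
    have h0 := hind _ (by
      rw [Finsupp.mem_supported']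
      intro i hi
      rw [onS_apply, dif_neg (by simpa using hi)]) hW
    funext s
    have := DFunLike.congr_fun h0 (s : Z.ι)
    rw [onS_apply, dif_pos s.2, Finsupp.zero_apply] at this
    exact Subtype.ext this
  · set a : Z.ι → ℕ := fun i => if i ∈ S then Z.δ i else Z.δ i + γ with ha
    have := fun i => slot_finite (R := R) (n := n) (a i) j
    let mult : ∀ i, slot (ResidueField R) (Fin (n + 1)) (a i) j →ₗ[ResidueField R]
        slot (ResidueField R) (Fin (n + 1)) (Z.δ i) j := fun i =>
      ((LinearMap.mulLeft (ResidueField R) (if i ∈ S then 1 else g)) ∘ₗ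
        (slot (ResidueField R) (Fin (n + 1)) (a i) j).subtype).codRestrict _ fun f => by
      refine mem_slot.2 fun c hc => ?_
      have hf' := mem_slot.1 f.2
      simp only [LinearMap.comp_apply, Submodule.subtype_apply, LinearMap.mulLeft_apply] at hc
      simp only [ha] at hf' ⊢
      by_cases hi : i ∈ S
      · rw [if_pos hi, one_mul] at hc
        simpa [hi] using hf' c hc
      · rw [if_neg hi] at hc
        obtain ⟨c₁, h1, c₂, h2, rfl⟩ :=
          Finset.mem_add.1 (support_mul _ _ (mem_support_iff.2 hc))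
        have e1 : c₁.degree = γ := by
          by_contra h
          exact (mem_support_iff.1 h1) (hgh.coeff_eq_zero h)
        have e2 := hf' c₂ (mem_support_iff.1 h2)
        rw [if_neg hi] at e2
        rw [map_add]
        omega
    let Ψ : (∀ i, slot (ResidueField R) (Fin (n + 1)) (a i) j) →ₗ[ResidueField R]
        hom (ResidueField R) (Fin (n + 1)) Z.δ j :=
      (homEquiv j).toLinearMap ∘ₗ LinearMap.pi fun i => mult i ∘ₗ LinearMap.proj i
    have hΨ : ∀ c i, ((Ψ c : Z.ι →₀ MvPolynomial (Fin (n + 1)) (ResidueField R))) i =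
        (if i ∈ S then 1 else g) * (c i : MvPolynomial (Fin (n + 1)) (ResidueField R)) := by
      intro c i
      simp [Ψ, mult, homEquiv]
    have hΨinj : Function.Injective Ψ := by
      rw [injective_iff_map_eq_zero]
      intro c hc
      funext i
      have := hΨ c i
      rw [hc, ZeroMemClass.coe_zero, Finsupp.zero_apply, eq_comm, mul_eq_zero] at this
      refine Subtype.ext (this.resolve_left ?_)
      split_ifs
      · exact one_ne_zero
      · exact hg0
    have himg : LinearMap.range (qmap Z j ∘ₗ Ψ) ≤ LinearMap.range (qmap Z j ∘ₗ onS Z S j) := by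
      rintro _ ⟨c, rfl⟩
      have hy : (Ψ c : Z.ι →₀ MvPolynomial (Fin (n + 1)) (ResidueField R)) ∈ W Z ⊔
          Finsupp.supported (MvPolynomial (Fin (n + 1)) (ResidueField R))
            (MvPolynomial (Fin (n + 1)) (ResidueField R)) (S : Set Z.ι) := by
        rw [← Finsupp.sum_single (Ψ c : Z.ι →₀ MvPolynomial (Fin (n + 1)) (ResidueField R))]
        refine Submodule.sum_mem _ fun i _ => ?_
        rw [hΨ]
        by_cases hi : i ∈ S
        · exact Submodule.mem_sup_right
            (Finsupp.single_mem_supported _ _ (Finset.mem_coe.2 hi))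
        · rw [if_neg hi, mul_comm, ← smul_eq_mul, ← Finsupp.smul_single]
          exact Submodule.smul_mem _ _ (hgen i hi)
      obtain ⟨x, hx, y, hy, hxy⟩ := Submodule.mem_sup.1 hy
      have hy' := comp_supported Z hy j
      have hmem : comp (ResidueField R) (Fin (n + 1)) Z.δ j y ∈
          hom (ResidueField R) (Fin (n + 1)) Z.δ j := comp_mem _ _ _
      refine ⟨fun s => ⟨comp (ResidueField R) (Fin (n + 1)) Z.δ j y s,
        mem_slot.2 fun d hd => hmem _ d hd⟩, ?_⟩
      rw [LinearMap.comp_apply, LinearMap.comp_apply, ← sub_eq_zero, ← map_sub, qmap_eq_zero]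
      have key : ((onS Z S j fun s => ⟨comp (ResidueField R) (Fin (n + 1)) Z.δ j y s,
          mem_slot.2 fun d hd => hmem _ d hd⟩ : hom (ResidueField R) (Fin (n + 1)) Z.δ j) :
            Z.ι →₀ MvPolynomial (Fin (n + 1)) (ResidueField R)) =
          comp (ResidueField R) (Fin (n + 1)) Z.δ j y := by
        refine Finsupp.ext fun i => ?_
        rw [onS_apply]
        split_ifs with hi
        · rfl
        · exact ((Finsupp.mem_supported' _ _).1 hy' i (by simpa using hi)).symm
      rw [Submodule.coe_sub, key]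
      have e := congrArg (comp (ResidueField R) (Fin (n + 1)) Z.δ j) hxy
      rw [map_add, comp_of_mem _ (Ψ c).2, if_pos rfl] at e
      rw [← e, sub_add_cancel_right]
      exact neg_mem (comp_mem_span _ (grRel_homog Z) hx j)
    have h1 := rank_nullity (qmap Z j)
    have h2 := rank_nullity (qmap Z j ∘ₗ Ψ)
    have h3 : Module.finrank (ResidueField R) (LinearMap.range (qmap Z j ∘ₗ Ψ)) ≤
        ∑ i ∈ S, cnt n (Z.δ i) j := by
      refine (Submodule.finrank_mono himg).trans ?_
      rw [← hsum, ← finrank_pi_slot (R := R) (fun s : S => Z.δ s) j]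
      exact LinearMap.finrank_range_le _
    have := finite_sub (LinearMap.ker (qmap Z j))
    have h4 : Module.finrank (ResidueField R) (LinearMap.ker (qmap Z j ∘ₗ Ψ)) ≤
        Module.finrank (ResidueField R) (LinearMap.ker (qmap Z j)) :=
      LinearMap.finrank_le_finrank_of_injective
        (f := Ψ.restrict (p := LinearMap.ker (qmap Z j ∘ₗ Ψ)) (q := LinearMap.ker (qmap Z j))
          fun x hx => hx)
        fun x y hxy => Subtype.ext (hΨinj (congrArg Subtype.val hxy))
    rw [finrank_pi_slot a j] at h2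
    rw [hom_finrank] at h1
    have h5 : ∑ i, cnt n (a i) j =
        ∑ i ∈ S, cnt n (Z.δ i) j + ∑ i ∈ Sᶜ, cnt n (Z.δ i + γ) j := by
      rw [← Finset.sum_add_sum_compl S]
      congr 1 <;> refine Finset.sum_congr rfl fun i hi => ?_
      · simp [ha, hi]
      · simp [ha, Finset.mem_compl.1 hi]
    rw [hf]
    simp only [cnt] at h2 h3 h5 ⊢
    omega

theorem tendsto_sum_cum {ι' : Type} (s : Finset ι') (a : ι' → ℕ) :
    Tendsto (fun N : ℕ => ((n + 1).factorial : ℝ) * ((∑ i ∈ s, cum n (a i) N : ℕ) : ℝ) /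
      (N : ℝ) ^ (n + 1)) atTop (𝓝 (s.card : ℝ)) := by
  have h := tendsto_finsetSum s fun i _ => cum_tendsto n (a i)
  simp only [Finset.sum_const, nsmul_eq_mul, mul_one] at h
  refine h.congr fun N => ?_
  rw [Nat.cast_sum, Finset.mul_sum, Finset.sum_div]

theorem multiplicity_eq_card {S : Finset Z.ι}
    {g : MvPolynomial (Fin (n + 1)) (ResidueField R)} {γ : ℕ} (h : IsBasisData Z S g γ) :
    IsMultiplicity R (n + 1) (S.card : ℝ) := by
  classical
  have hu : Tendsto (fun N : ℕ =>
      ((n + 1).factorial : ℝ) * ((∑ i, cum n (Z.δ i) N : ℕ) : ℝ) / (N : ℝ) ^ (n + 1) -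
      ((n + 1).factorial : ℝ) * ((∑ i ∈ Sᶜ, cum n (Z.δ i + γ) N : ℕ) : ℝ) / (N : ℝ) ^ (n + 1))
      atTop (𝓝 (S.card : ℝ)) := by
    convert (tendsto_sum_cum (n := n) Finset.univ Z.δ).sub
      (tendsto_sum_cum (n := n) Sᶜ fun i => Z.δ i + γ) using 2
    rw [Finset.card_univ, ← Finset.card_add_card_compl S]
    push_cast
    ring
  refine tendsto_of_tendsto_of_tendsto_of_le_of_le (tendsto_sum_cum (n := n) S Z.δ) hu
    (fun N => ?_) (fun N => ?_)
  all_goals
    have hN : (0 : ℝ) ≤ (N : ℝ) ^ (n + 1) := by positivity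
    beta_reduce
    rw [length_quotient Z, ENat.toNat_natCast]
  · refine div_le_div_of_nonneg_right (mul_le_mul_of_nonneg_left (Nat.cast_le.2 ?_)
      (Nat.cast_nonneg _)) hN
    simp only [cum, Finset.sum_comm (s := S)]
    exact Finset.sum_le_sum fun j _ => (hf_bounds Z h j).1
  · rw [← sub_div, ← mul_sub]
    refine div_le_div_of_nonneg_right (mul_le_mul_of_nonneg_left ?_ (Nat.cast_nonneg _)) hN
    rw [le_sub_iff_add_le, ← Nat.cast_add, Nat.cast_le]
    simp only [cum, Finset.sum_comm (t := Finset.range N), ← Finset.sum_add_distrib]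
    exact Finset.sum_le_sum fun j _ => (hf_bounds Z h j).2

theorem card_pos_of_indep (hind : Indep Z.z) {S : Finset Z.ι}
    {g : MvPolynomial (Fin (n + 1)) (ResidueField R)} {γ : ℕ} (h : IsBasisData Z S g γ) :
    0 < S.card := by
  classical
  by_contra hS
  obtain rfl : S = ∅ := Finset.card_eq_zero.1 (by omega)
  obtain ⟨i, hi0, hu⟩ : ∃ i, Z.δ i = 0 ∧ IsUnit (Z.gen i) := by
    by_contra hne
    have h1 : maximalIdeal R ^ 0 ≤ maximalIdeal R := by
      rw [Z.pow_eq 0]
      refine iSup_le fun i => le_trans Ideal.mul_le_right ?_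
      rw [Ideal.span_singleton_le_iff_mem]
      by_cases hi : Z.δ i = 0
      · by_contra hm
        exact hne ⟨i, hi, of_not_not fun hnu => hm ((mem_maximalIdeal _).2 hnu)⟩
      · exact Ideal.pow_le_self hi (Z.gen_mem i)
    rw [pow_zero, Ideal.one_eq_top, top_le_iff] at h1
    exact (IsLocalRing.maximalIdeal.isMaximal R).ne_top h1
  obtain ⟨hg0, hgh, -, hgen⟩ := h
  have hW : Finsupp.single i g ∈ W Z := by
    simpa using hgen i (by simp)
  obtain ⟨G, rfl⟩ := map_surjective (residue R) residue_surjective g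
  have hG : (homogeneousComponent γ G).IsHomogeneous γ := homogeneousComponent_isHomogeneous _ _
  have hres : MvPolynomial.map (residue R) (homogeneousComponent γ G) =
      MvPolynomial.map (residue R) G := by
    ext c
    rw [coeff_map, coeff_homogeneousComponent, coeff_map]
    split_ifs with hc
    · rfl
    · rw [map_zero, ← coeff_map, hgh.coeff_eq_zero hc]
  have hmem : Finsupp.single i (homogeneousComponent γ G) ∈ hom R (Fin (n + 1)) Z.δ γ :=
    single_mem_hom _ (mem_slot.2 fun c hc => by
      rw [hi0, zero_add]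
      by_contra h
      exact hc (hG.coeff_eq_zero h))
  have hk := key Z hmem (by
    rw [red_eq, Finsupp.mapRange_single, hres]
    exact hW)
  rw [ev0, evt_single, Ideal.unit_mul_mem_iff_mem _ hu] at hk
  exact hg0 (hres ▸ hind γ _ hG hk)

/-- `n + 1` elements with a reduction give data. -/
theorem exists_data [IsNoetherianRing R] {m : ℕ} {z : Fin (m + 1) → R} (hz : IsRed z) :
    ∃ Z : RedData R m, Z.z = z := by
  obtain ⟨hzm, c, hc⟩ := hz
  have hfg : ∀ j : Fin (c + 1), ∃ (N : ℕ) (f : Fin N → R),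
      Ideal.span (Set.range f) = maximalIdeal R ^ (j : ℕ) := fun j =>
    Submodule.fg_iff_exists_fin_generating_family.1 (IsNoetherian.noetherian _)
  choose N f hf using hfg
  have hgen : ∀ x : Σ j : Fin (c + 1), Fin (N j), f x.1 x.2 ∈ maximalIdeal R ^ (x.1 : ℕ) :=
    fun x => (hf x.1).le (Ideal.subset_span ⟨x.2, rfl⟩)
  refine ⟨{ z := z, z_mem := hzm, ι := Σ j : Fin (c + 1), Fin (N j), δ := fun x => (x.1 : ℕ),
            gen := fun x => f x.1 x.2, gen_mem := hgen, pow_eq := fun j => ?_ }, rfl⟩
  have hI : Ideal.span (Set.range z) ≤ maximalIdeal R :=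
    Ideal.span_le.2 (by rintro _ ⟨k, rfl⟩; exact hzm k)
  refine le_antisymm ?_ (iSup_le fun x => ?_)
  · by_cases hj : j ≤ c
    · rw [← hf ⟨j, by omega⟩, Ideal.span_le]
      rintro _ ⟨l, rfl⟩
      refine Submodule.mem_iSup_of_mem ⟨⟨j, by omega⟩, l⟩ ?_
      simp only [tsub_self, pow_zero, one_mul]
      exact Ideal.mem_span_singleton_self _
    · have h := IsRed.pow_le hc (j - c)
      rw [show c + (j - c) = j by omega] at h
      refine h.trans ?_
      have hlt : c < c + 1 := by omega
      have hs : Ideal.span (Set.range (f ⟨c, hlt⟩)) = ⨆ l, Ideal.span {f ⟨c, hlt⟩ l} :=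
        Submodule.span_range_eq_iSup
      rw [← hf ⟨c, hlt⟩, hs, Submodule.mul_iSup]
      refine iSup_le fun l => ?_
      exact le_iSup_of_le ⟨⟨c, by omega⟩, l⟩ le_rfl
  · refine (Ideal.mul_mono (Ideal.pow_right_mono hI _)
      ((Ideal.span_singleton_le_iff_mem _).2 (hgen x))).trans ?_
    rw [← pow_add]
    exact Ideal.pow_le_pow_right (by omega)

theorem compare_degree {f : ℕ → ℝ} {d d' : ℕ} {e e' : ℝ} (hd : d < d')
    (h : Tendsto (fun N : ℕ => (d.factorial : ℝ) * f N / (N : ℝ) ^ d) atTop (𝓝 e))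
    (h' : Tendsto (fun N : ℕ => (d'.factorial : ℝ) * f N / (N : ℝ) ^ d') atTop (𝓝 e')) :
    e' = 0 := by
  obtain ⟨k, rfl⟩ := Nat.exists_eq_add_of_lt hd
  have h0 : Tendsto (fun N : ℕ => ((d + k + 1).factorial : ℝ) / d.factorial / (N : ℝ) ^ (k + 1))
      atTop (𝓝 0) :=
    tendsto_const_nhds.div_atTop ((tendsto_pow_atTop (by omega)).comp tendsto_natCast_atTop_atTop)
  refine tendsto_nhds_unique h' ?_
  have := h.mul h0
  rw [mul_zero] at this
  refine this.congr' ?_
  filter_upwards [eventually_ge_atTop 1] with N hN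
  have : (0 : ℝ) < N := by exact_mod_cast hN
  rw [show d + k + 1 = d + (k + 1) by ring, pow_add]
  field_simp
  ring

end Red

section Pins

variable {R : Type u} [CommRing R] [IsLocalRing R] [IsNoetherianRing R]

theorem exists_redData [Infinite (ResidueField R)] {n : ℕ} {e : ℝ}
    (he : IsMultiplicity R (n + 1) e) (h0 : e ≠ 0) : Nonempty (RedData R n) := by
  obtain ⟨s, z, hz, hind⟩ := Red.exists_indep (R := R)
  cases s with
  | zero =>
    refine absurd ?_ h0
    obtain ⟨-, c, hc⟩ := hz
    have hbot : maximalIdeal R ^ (c + 1) = ⊥ := by simpa using hc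
    have hcst : ∀ N, c + 1 ≤ N → Module.length R (R ⧸ maximalIdeal R ^ N) =
        Module.length R (R ⧸ maximalIdeal R ^ (c + 1)) := fun N hN => by
      have : maximalIdeal R ^ N = maximalIdeal R ^ (c + 1) :=
        le_antisymm (Ideal.pow_le_pow_right hN) (hbot ▸ bot_le)
      rw [this]
    refine tendsto_nhds_unique he ?_
    have : Tendsto (fun N : ℕ => ((n + 1).factorial : ℝ) *
        ((Module.length R (R ⧸ maximalIdeal R ^ (c + 1))).toNat : ℝ) / (N : ℝ) ^ (n + 1))
        atTop (𝓝 0) :=
      tendsto_const_nhds.div_atTop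
        ((tendsto_pow_atTop (by omega)).comp tendsto_natCast_atTop_atTop)
    refine this.congr' ?_
    filter_upwards [eventually_ge_atTop (c + 1)] with N hN
    rw [hcst N hN]
  | succ m =>
    obtain ⟨Z, rfl⟩ := Red.exists_data hz
    obtain ⟨S, g, γ, hB⟩ := Red.exists_basisData Z
    have hm := Red.multiplicity_eq_card Z hB
    have hpos := Red.card_pos_of_indep Z hind hB
    rcases lt_trichotomy m n with h | h | h
    · exact absurd (Red.compare_degree (f := fun N =>
        ((Module.length R (R ⧸ maximalIdeal R ^ N)).toNat : ℝ)) (by omega) hm he) h0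
    · subst h; exact ⟨Z⟩
    · have := Red.compare_degree (f := fun N =>
        ((Module.length R (R ⧸ maximalIdeal R ^ N)).toNat : ℝ)) (by omega) he hm
      exact absurd (Nat.cast_eq_zero.1 this) (by omega)

omit [IsLocalRing R] [IsNoetherianRing R] in
theorem span_pow_le_pow {I M : Ideal R} {c : ℕ} (h : M ^ (c + 1) ≤ I * M ^ c) (k : ℕ) :
    M ^ (c + k) ≤ I ^ k := by
  induction k with
  | zero => simp
  | succ k ih =>
    calc M ^ (c + (k + 1)) = M ^ (c + 1) * M ^ k := by rw [← pow_add]; congr 1; omega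
      _ ≤ I * M ^ c * M ^ k := Ideal.mul_mono_left h
      _ ≤ I ^ (k + 1) := by
        rw [mul_assoc, ← pow_add, pow_succ']
        exact Ideal.mul_mono_right ih

theorem exists_reduction [Infinite (ResidueField R)] {n : ℕ} {e : ℝ}
    (he : IsMultiplicity R (n + 1) e) (h0 : e ≠ 0) :
    ∃ x : Fin (n + 1) → R, (∀ k, x k ∈ maximalIdeal R) ∧
      (∃ c, maximalIdeal R ^ c ≤ Ideal.span (Set.range x)) ∧
      Tendsto (fun k : ℕ => ((n + 1).factorial : ℝ) *
        ((Module.length R (R ⧸ Ideal.span (Set.range x) ^ k)).toNat : ℝ) / (k : ℝ) ^ (n + 1))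
        atTop (𝓝 e) := by
  classical
  obtain ⟨Z⟩ := exists_redData he h0
  set I := Ideal.span (Set.range Z.z)
  obtain ⟨c, hc⟩ : ∃ c, maximalIdeal R ^ (c + 1) ≤ I * maximalIdeal R ^ c := by
    refine ⟨Finset.univ.sup Z.δ, ?_⟩
    rw [Z.pow_eq]
    refine iSup_le fun i => ?_
    have hi : Z.δ i ≤ Finset.univ.sup Z.δ := Finset.le_sup (Finset.mem_univ i)
    obtain ⟨t, ht⟩ := Nat.exists_eq_add_of_le hi
    rw [ht, show Z.δ i + t + 1 - Z.δ i = t + 1 by omega, pow_succ', mul_assoc]
    refine Ideal.mul_mono_right ?_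
    rw [Nat.add_comm (Z.δ i) t, pow_add]
    exact Ideal.mul_mono (Ideal.pow_right_mono (Red.span_z_le Z) t)
      ((Ideal.span_singleton_le_iff_mem _).2 (Z.gen_mem i))
  refine ⟨Z.z, Z.z_mem, ⟨c + 1, hc.trans Ideal.mul_le_left⟩, ?_⟩
  set L : ℕ → ℝ := fun N => ((Module.length R (R ⧸ maximalIdeal R ^ N)).toNat : ℝ)
  have hup : Tendsto (fun k : ℕ => ((n + 1).factorial : ℝ) * L (k + c) / (k : ℝ) ^ (n + 1))
      atTop (𝓝 e) := by
    have h1 : Tendsto (fun k : ℕ => ((n + 1).factorial : ℝ) * L (k + c) /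
        ((k + c : ℕ) : ℝ) ^ (n + 1)) atTop (𝓝 e) := he.comp (tendsto_add_atTop_nat c)
    have h2 : Tendsto (fun k : ℕ => (((k : ℝ) + c) / k) ^ (n + 1)) atTop (𝓝 1) := by
      have := (tendsto_natCast_div_add_atTop (c : ℝ)).inv₀ one_ne_zero
      simpa using this.pow (n + 1)
    have := h1.mul h2
    rw [mul_one] at this
    refine this.congr' ?_
    filter_upwards [eventually_ge_atTop 1] with k hk
    have : (0 : ℝ) < k := by exact_mod_cast hk
    rw [Nat.cast_add, div_pow]
    field_simp
  refine tendsto_of_tendsto_of_tendsto_of_le_of_le he hup (fun k => ?_) (fun k => ?_)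
  all_goals
    refine div_le_div_of_nonneg_right (mul_le_mul_of_nonneg_left (Nat.cast_le.2 ?_)
      (Nat.cast_nonneg _)) (by positivity)
  · refine ENat.toNat_le_toNat (length_quotient_mono (Ideal.pow_right_mono (Red.span_z_le Z) k))
      (length_quotient_ne_top _ (c + k) (span_pow_le_pow hc k))
  · refine ENat.toNat_le_toNat (length_quotient_mono ?_) (length_quotient_ne_top _ _ le_rfl)
    rw [add_comm k c]
    exact span_pow_le_pow hc k

variable {n : ℕ} (Z : RedData R n)

omit [IsNoetherianRing R] in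
/-- Rank of the associated graded ring. -/
theorem grRel_rank {e : ℝ} (he : IsMultiplicity R (n + 1) e) :
    ∃ (r : ℕ) (D : Fin r → ℕ) (v : Fin r → (Z.ι →₀ MvPolynomial (Fin (n + 1)) (ResidueField R)))
      (g : MvPolynomial (Fin (n + 1)) (ResidueField R)) (γ : ℕ),
      g ≠ 0 ∧ g.IsHomogeneous γ ∧ e = (r : ℝ) ∧
      (∀ l, IsHomog (fun i => (Z.δ i : ℤ)) (v l) (D l : ℤ)) ∧
      (∀ c : Fin r → MvPolynomial (Fin (n + 1)) (ResidueField R),
        (∑ l, c l • v l) ∈ Submodule.span (MvPolynomial (Fin (n + 1)) (ResidueField R)) Z.grRel →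
          c = 0) ∧
      ∀ i, Finsupp.single i g ∈ Submodule.span (MvPolynomial (Fin (n + 1)) (ResidueField R))
        (Z.grRel ∪ Set.range v) := by
  classical
  obtain ⟨S, g, γ, hB⟩ := Red.exists_basisData Z
  have he' := tendsto_nhds_unique he (Red.multiplicity_eq_card Z hB)
  obtain ⟨hg0, hgh, hind, hgen⟩ := hB
  set E := S.equivFin
  set v : Fin S.card → (Z.ι →₀ MvPolynomial (Fin (n + 1)) (ResidueField R)) :=
    fun l => Finsupp.single (E.symm l : Z.ι) 1
  refine ⟨S.card, fun l => Z.δ (E.symm l : Z.ι), v, g, γ, hg0, hgh, he', fun l => ?_,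
    fun c hc => ?_, fun i => ?_⟩
  · rw [Red.isHomog_iff]
    refine Red.single_mem_hom _ (Red.mem_slot.2 fun d hd => ?_)
    rw [coeff_one] at hd
    by_cases h : (0 : Fin (n + 1) →₀ ℕ) = d
    · simp [← h]
    · simp [h] at hd
  · have h0 := hind _ (by
      refine Submodule.sum_mem _ fun l _ => Submodule.smul_mem _ _
        (Finsupp.single_mem_supported _ _ (E.symm l).2)) hc
    funext l
    have := DFunLike.congr_fun h0 (E.symm l : Z.ι)
    rw [Finsupp.finsetSum_apply, Finset.sum_eq_single l] at this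
    · simpa [v] using this
    · intro l' _ hl'
      simp [v, Finsupp.single_eq_of_ne (fun h : (E.symm l : Z.ι) = E.symm l' =>
        hl' (E.symm.injective (Subtype.ext h)).symm)]
    · simp
  · rw [Submodule.span_union]
    by_cases hi : i ∈ S
    · refine Submodule.mem_sup_right ?_
      rw [show Finsupp.single i g = g • v (E ⟨i, hi⟩) by simp [v]]
      exact Submodule.smul_mem _ _ (Submodule.subset_span ⟨_, rfl⟩)
    · refine (sup_le_sup_left ?_ (Red.W Z)) (hgen i hi)
      rw [Finsupp.supported_eq_span_single]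
      refine Submodule.span_mono ?_
      rintro _ ⟨s, hs, rfl⟩
      exact ⟨E ⟨s, hs⟩, by simp [v]⟩

omit [IsNoetherianRing R] in
/-- The relations modulo `u` are the relations of the associated graded ring. -/
theorem rel_mod_u {D : ℕ} (q : Z.ι →₀ MvPolynomial (Fin (n + 1)) R)
    (hq : IsHomog (fun i => (Z.δ i : ℤ)) q (D : ℤ)) :
    (q.mapRange (MvPolynomial.map (residue R)) (map_zero _) ∈ Z.grRel) ↔
      ∃ p : Z.Idx →₀ MvPolynomial (Fin (n + 1)) R, p ∈ Z.rel ∧ IsHomog Z.ideg p (D : ℤ) ∧
        ∀ i, p (i, 0) = q i := by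
  classical
  set q0 : Z.Idx →₀ MvPolynomial (Fin (n + 1)) R := q.mapDomain fun i => (i, 0) with hq0
  have hinj : Function.Injective (fun i : Z.ι => ((i, 0) : Z.Idx)) := fun a b h => congrArg Prod.fst h
  have hat : ∀ i, q0 (i, 0) = q i := fun i => Finsupp.mapDomain_apply hinj q i
  have hoff : ∀ i s, q0 (i, s + 1) = 0 := fun i s =>
    Finsupp.mapDomain_of_notMem_range _ _ (by simp)
  have hev0 : Z.ev q0 = Red.ev0 Z q := by
    simp only [hq0, RedData.ev, Red.ev0, Red.evt, Finsupp.lsum_apply]
    exact Finsupp.sum_mapDomain_index (fun _ => map_zero _) fun _ _ _ => map_add _ _ _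
  have hq' := (Red.isHomog_iff _ _ _).1 hq
  constructor
  · intro h
    have hm := Red.key Z hq' (Submodule.subset_span h)
    obtain ⟨r, hr, hre⟩ := Z.exists_rep ((D : ℤ) + 1) (r := Red.ev0 Z q)
      (by simpa using hm)
    set sh : Z.Idx → Z.Idx := fun x => (x.1, x.2 + 1)
    have hsh : Function.Injective sh := fun a b h => by
      simp only [sh, Prod.mk.injEq, add_left_inj] at h
      exact Prod.ext h.1 h.2
    have hat' : ∀ i, (r.mapDomain sh) (i, 0) = 0 := fun i =>
      Finsupp.mapDomain_of_notMem_range _ _ (by simp [sh])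
    have hp : IsHomog Z.ideg (q0 - r.mapDomain sh) (D : ℤ) := by
      rintro ⟨i, s⟩ c hc
      cases s with
      | zero =>
        rw [Finsupp.sub_apply, hat, hat', sub_zero] at hc
        simpa [RedData.ideg] using hq i c hc
      | succ s =>
        rw [Finsupp.sub_apply, hoff, zero_sub, support_neg,
          show ((i, s + 1) : Z.Idx) = sh (i, s) from rfl, Finsupp.mapDomain_apply hsh] at hc
        have := hr (i, s) c hc
        simp only [RedData.ideg] at this ⊢
        push_cast
        linarith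
    refine ⟨q0 - r.mapDomain sh, ⟨⟨D, hp⟩, ?_⟩, hp, fun i => by
      rw [Finsupp.sub_apply, hat, hat', sub_zero]⟩
    have : Z.ev (r.mapDomain sh) = Z.ev r := by
      simp only [RedData.ev, Finsupp.lsum_apply]
      exact Finsupp.sum_mapDomain_index (fun _ => map_zero _) fun _ _ _ => map_add _ _ _
    rw [map_sub, hev0, this, hre, sub_self]
  · rintro ⟨p, hp, hpD, hpq⟩
    refine (Red.mem_grRel Z).2 ⟨D, q, hq', Red.red_eq Z q, ?_⟩
    have hrest : Z.ev (p - q0) ∈ maximalIdeal R ^ (D + 1) := by
      simp only [RedData.ev, Finsupp.lsum_apply, Finsupp.sum]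
      refine Ideal.sum_mem _ fun x hx => ?_
      obtain ⟨i, s⟩ := x
      cases s with
      | zero => rw [Finsupp.mem_support_iff, Finsupp.sub_apply, hat, hpq, sub_self] at hx
                exact absurd rfl hx
      | succ s =>
        rw [LinearMap.comp_apply, AlgHom.toLinearMap_apply, LinearMap.mulLeft_apply,
          Finsupp.sub_apply, hoff, sub_zero, MvPolynomial.aeval_def, MvPolynomial.eval₂_eq',
          Finset.mul_sum]
        refine Ideal.sum_mem _ fun c hc => ?_
        have hd := hpD (i, s + 1) c hc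
        rw [Red.degree_cast] at hd
        simp only [RedData.ideg] at hd
        push_cast at hd
        rw [mul_left_comm]
        refine Ideal.mul_mem_left _ _ (Ideal.pow_le_pow_right (m := D + 1)
          (n := Z.δ i + c.degree) (by omega) ?_)
        rw [pow_add]
        refine Ideal.mul_mem_mul (Z.gen_mem i) ?_
        rw [Finsupp.degree_eq_sum, ← Finset.prod_pow_eq_pow_sum]
        exact Ideal.prod_mem_prod fun l _ => Ideal.pow_mem_pow (Z.z_mem l) _
    rw [map_sub, hp.2, zero_sub, neg_mem_iff, hev0] at hrest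
    exact hrest

end Pins

end Vale.Agent.P202.Char
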