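import Vale.Agent.P202.Loewy
import Vale.Agent.P202.Char.Reduction
import Vale.Agent.P202.Char.Residue

/-!
P202: the multiplicity exists in the Krull dimension and is positive.
-/

namespace Vale.Agent.P202.Char

open IsLocalRing Filter Topology

universe u

namespace Exist

variable {R : Type u} [CommRing R]

theorem length_pow_singleton (I : Ideal R) (x : R) (n : ℕ) :
    Module.length R (R ⧸ (I ⊔ Ideal.span {x ^ n})) ≤
      (n : ℕ∞) * Module.length R (R ⧸ (I ⊔ Ideal.span {x})) := by
  induction n with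
  | zero =>
    have : Subsingleton (R ⧸ (I ⊔ Ideal.span {x ^ 0})) :=
      Ideal.Quotient.subsingleton_iff.2 (by simp)
    simp
  | succ n ih =>
    set K := I ⊔ Ideal.span {x ^ n}
    set K' := I ⊔ Ideal.span {x ^ (n + 1)}
    have hK : K ≤ Submodule.comap (LinearMap.mulLeft R x) K' := by
      refine sup_le (fun a ha => Ideal.mem_sup_left (I.mul_mem_left x ha)) ?_
      rw [Ideal.span_le, Set.singleton_subset_iff]
      refine Ideal.mem_sup_right ?_
      rw [LinearMap.mulLeft_apply, ← pow_succ']
      exact Ideal.mem_span_singleton_self _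
    set f : (R ⧸ K) →ₗ[R] (R ⧸ K') := Submodule.mapQ K K' (LinearMap.mulLeft R x) hK
    rw [Module.length_eq_add_of_exact (LinearMap.range f).subtype (LinearMap.range f).mkQ
      (LinearMap.range f).injective_subtype (Submodule.mkQ_surjective _)
      (LinearMap.exact_subtype_mkQ _), Nat.cast_succ, add_mul, one_mul]
    refine add_le_add ((Module.length_le_of_surjective f.rangeRestrict
      f.surjective_rangeRestrict).trans ih) ?_
    refine Module.length_le_of_surjective
      (Submodule.liftQ (I ⊔ Ideal.span {x}) ((LinearMap.range f).mkQ ∘ₗ K'.mkQ) ?_)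
      (fun y => ?_)
    · intro a ha
      obtain ⟨b, hb, c, hc, rfl⟩ := Submodule.mem_sup.1 ha
      obtain ⟨r, rfl⟩ := Ideal.mem_span_singleton.1 hc
      rw [LinearMap.mem_ker, LinearMap.comp_apply, map_add]
      have hb0 : K'.mkQ b = 0 := (Submodule.Quotient.mk_eq_zero _).2 (Ideal.mem_sup_left hb)
      rw [hb0, zero_add, Submodule.mkQ_apply, Submodule.Quotient.mk_eq_zero]
      exact ⟨Submodule.Quotient.mk r, rfl⟩
    · obtain ⟨z, rfl⟩ := Submodule.mkQ_surjective _ y
      obtain ⟨w, rfl⟩ := Submodule.mkQ_surjective _ z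
      exact ⟨Submodule.Quotient.mk w, rfl⟩

theorem length_pow_span [DecidableEq R] (t : Finset R) (N : ℕ) :
    ∀ I : Ideal R, Module.length R (R ⧸ (I ⊔ Ideal.span ((fun x => x ^ N) '' (t : Set R)))) ≤
      ((N ^ t.card : ℕ) : ℕ∞) * Module.length R (R ⧸ (I ⊔ Ideal.span (t : Set R))) := by
  induction t using Finset.induction_on with
  | empty => intro I; rw [Finset.coe_empty, Set.image_empty, Finset.card_empty, pow_zero, Nat.cast_one, one_mul]
  | insert a t ha ih =>
    intro I
    rw [Finset.coe_insert, Set.image_insert_eq, Ideal.span_insert, ← sup_assoc,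
      Ideal.span_insert, Finset.card_insert_of_notMem ha]
    refine (ih _).trans ?_
    rw [pow_succ, Nat.cast_mul, mul_assoc]
    refine mul_le_mul' le_rfl ?_
    rw [sup_assoc, sup_comm (Ideal.span {a ^ N}), ← sup_assoc]
    refine (length_pow_singleton _ a N).trans (le_of_eq ?_)
    rw [sup_assoc, sup_comm (Ideal.span (t : Set R))]

variable [IsLocalRing R] [IsNoetherianRing R]

theorem exists_pow_le_of_minimalPrimes {I : Ideal R} (h : maximalIdeal R ∈ I.minimalPrimes) :
    ∃ c, maximalIdeal R ^ c ≤ I := by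
  have hrad : maximalIdeal R ≤ I.radical := by
    rw [Ideal.radical_eq_sInf]
    refine le_sInf fun P hP => ?_
    have hPp : P.IsPrime := hP.2
    exact h.2 ⟨hPp, hP.1⟩ (le_maximalIdeal hPp.ne_top)
  obtain ⟨c, hc⟩ := Ideal.exists_radical_pow_le_of_fg I (IsNoetherian.noetherian _)
  exact ⟨c, (Ideal.pow_right_mono hrad c).trans hc⟩

theorem exists_bound {d : ℕ} (hd : ringKrullDim R = d) :
    ∃ L : ℕ, ∀ N : ℕ, (Module.length R (R ⧸ maximalIdeal R ^ N)).toNat ≤ L * N ^ d := by
  classical
  obtain ⟨s, hs, hcard⟩ :=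
    Ideal.exists_finset_card_eq_height_of_isNoetherianRing (maximalIdeal R)
  obtain rfl : s.card = d := by
    rw [← IsLocalRing.maximalIdeal_height_eq_ringKrullDim, ← hcard] at hd
    exact_mod_cast hd
  obtain ⟨c, hc⟩ := exists_pow_le_of_minimalPrimes hs
  have hfin := length_quotient_ne_top _ c hc
  refine ⟨(Module.length R (R ⧸ Ideal.span (s : Set R))).toNat, fun N => ?_⟩
  have h1 := length_pow_span s N ⊥
  rw [bot_sup_eq, bot_sup_eq] at h1
  have h2 : Ideal.span ((fun x => x ^ N) '' (s : Set R)) ≤ maximalIdeal R ^ N := by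
    rw [Ideal.span_le]
    rintro _ ⟨x, hx, rfl⟩
    exact Ideal.pow_mem_pow (hs.le (Ideal.subset_span hx)) N
  have h3 := ENat.toNat_le_toNat ((length_quotient_mono h2).trans h1)
    (WithTop.mul_ne_top (ENat.natCast_ne_top _) hfin)
  rwa [ENat.toNat_mul, ENat.toNat_natCast, mul_comm] at h3

theorem eq_zero_of_dim_lt {d D : ℕ} (hd : ringKrullDim R = d) (hD : d < D) {e : ℝ}
    (he : IsMultiplicity R D e) : e = 0 := by
  obtain ⟨L, hL⟩ := exists_bound hd
  obtain ⟨k, rfl⟩ := Nat.exists_eq_add_of_lt hD
  refine tendsto_nhds_unique he ?_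
  have h0 : Tendsto (fun N : ℕ => ((d + k + 1).factorial : ℝ) * L / (N : ℝ) ^ (k + 1))
      atTop (𝓝 0) :=
    tendsto_const_nhds.div_atTop ((tendsto_pow_atTop (by omega)).comp tendsto_natCast_atTop_atTop)
  refine squeeze_zero' (Eventually.of_forall fun N => by positivity) ?_ h0
  filter_upwards [eventually_ge_atTop 1] with N hN
  have hN0 : (0 : ℝ) < N := by exact_mod_cast hN
  have h1 : ((Module.length R (R ⧸ maximalIdeal R ^ N)).toNat : ℝ) ≤ L * (N : ℝ) ^ d := by
    exact_mod_cast hL N
  rw [show d + k + 1 = d + (k + 1) by ring, pow_add, div_le_div_iff₀ (by positivity) (by positivity)]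
  calc _ ≤ ((d + (k + 1)).factorial : ℝ) * (L * (N : ℝ) ^ d) * (N : ℝ) ^ (k + 1) := by gcongr
    _ = _ := by ring

theorem exists_of_infinite [Infinite (ResidueField R)] :
    ∃ (d : ℕ) (e : ℝ), ringKrullDim R = d ∧ 0 < e ∧ IsMultiplicity R d e := by
  obtain ⟨s, z, hz, hind⟩ := Red.exists_indep (R := R)
  have hz' := hz
  obtain ⟨hzm, c, hc⟩ := hz'
  have hmin : maximalIdeal R ∈ (Ideal.span (Set.range z)).minimalPrimes := by
    refine ⟨⟨inferInstance, Ideal.span_le.2 (by rintro _ ⟨i, rfl⟩; exact hzm i)⟩, ?_⟩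
    rintro P ⟨hP, hPz⟩ -
    exact hP.le_of_pow_le ((hc.trans Ideal.mul_le_left).trans hPz)
  have hht : (maximalIdeal R).height ≤ (s : ℕ∞) := by
    rw [Ideal.height_le_iff_exists_minimalPrimes]
    refine ⟨_, hmin, (Submodule.spanRank_span_le_card _).trans ?_⟩
    simpa using Cardinal.mk_range_le_lift (f := z)
  have hne : (maximalIdeal R).height ≠ ⊤ := ne_top_of_le_ne_top (ENat.natCast_ne_top _) hht
  obtain ⟨d, hd⟩ := ENat.ne_top_iff_exists.1 hne
  have hdim : ringKrullDim R = d := by
    rw [← IsLocalRing.maximalIdeal_height_eq_ringKrullDim, ← hd]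
    rfl
  cases s with
  | zero =>
    obtain rfl : d = 0 := by
      rw [← hd] at hht
      exact Nat.le_zero.1 (by exact_mod_cast hht)
    have hbot : maximalIdeal R ^ (c + 1) = ⊥ := by simpa using hc
    have hpos : 0 < (Module.length R R).toNat := by
      have h1 : Module.length R R ≠ ⊤ := by
        have := length_quotient_ne_top (⊥ : Ideal R) (c + 1) hbot.le
        rwa [(Submodule.quotEquivOfEqBot (⊥ : Ideal R) rfl).length_eq] at this
      have h2 : Module.length R R ≠ 0 := by
        rw [Ne, Module.length_eq_zero_iff, not_subsingleton_iff_nontrivial]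
        infer_instance
      rw [pos_iff_ne_zero, Ne, ENat.toNat_eq_zero]
      tauto
    refine ⟨0, ((Module.length R R).toNat : ℝ), hdim, by exact_mod_cast hpos, ?_⟩
    refine tendsto_const_nhds.congr' ?_
    filter_upwards [eventually_ge_atTop (c + 1)] with N hN
    have hb : maximalIdeal R ^ N = ⊥ := le_bot_iff.1 (hbot ▸ Ideal.pow_le_pow_right hN)
    rw [(Submodule.quotEquivOfEqBot _ hb).length_eq]
    simp
  | succ m =>
    obtain ⟨Z, rfl⟩ := Red.exists_data hz
    obtain ⟨T, g, γ, hB⟩ := Red.exists_basisData Z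
    have hm := Red.multiplicity_eq_card Z hB
    have hpos : (0 : ℝ) < T.card := by exact_mod_cast Red.card_pos_of_indep Z hind hB
    obtain rfl : d = m + 1 := by
      refine le_antisymm (by rw [← hd] at hht; exact_mod_cast hht) ?_
      by_contra hlt
      exact hpos.ne' (eq_zero_of_dim_lt hdim (by omega) hm)
    exact ⟨m + 1, _, hdim, hpos, hm⟩

end Exist

/-- The multiplicity of a Noetherian local ring exists in its Krull dimension and is positive. -/
theorem exists_multiplicity (R : Type u) [CommRing R] [IsLocalRing R] [IsNoetherianRing R] :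
    ∃ (d : ℕ) (e : ℝ), ringKrullDim R = d ∧ 0 < e ∧ IsMultiplicity R d e := by
  have := InfRes.infinite_residue R
  have : IsNoetherianRing (InfRes.GRing R) :=
    IsLocalization.isNoetherianRing (InfRes.gPrime R).primeCompl _ inferInstance
  obtain ⟨d, e, hd, hpos, he⟩ := Exist.exists_of_infinite (R := InfRes.GRing R)
  refine ⟨d, e, ?_, hpos, (InfRes.isMultiplicity_iff (InfRes.map_maximal R) d e).2 he⟩
  rw [← hd]
  refine (dim_eq ?_).symm
  rw [InfRes.map_maximal]
  exact Ideal.pow_le_self two_ne_zero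

/-- The multiplicity in the Krull dimension is positive. -/
theorem multiplicity_pos {R : Type u} [CommRing R] [IsLocalRing R] [IsNoetherianRing R] {d : ℕ}
    (hd : ringKrullDim R = d) {e : ℝ} (he : IsMultiplicity R d e) : 0 < e := by
  obtain ⟨d', e', hd', hpos, he'⟩ := exists_multiplicity R
  obtain rfl : d = d' := by
    have := hd.symm.trans hd'
    exact_mod_cast this
  rwa [tendsto_nhds_unique he he']

/-- The multiplicity in a degree equal to the Krull dimension exists. -/
theorem exists_multiplicity_of_dim (R : Type u) [CommRing R] [IsLocalRing R] [IsNoetherianRing R]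
    {d : ℕ} (hd : ringKrullDim R = d) : ∃ e : ℝ, 0 < e ∧ IsMultiplicity R d e := by
  obtain ⟨d', e', hd', hpos, he'⟩ := exists_multiplicity R
  obtain rfl : d = d' := by
    have := hd.symm.trans hd'
    exact_mod_cast this
  exact ⟨e', hpos, he'⟩

end Vale.Agent.P202.Char
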