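import Mathlib

/-!
P202, stage 2: the local criterion of flatness for local maps of Noetherian local rings, without
finiteness: if `m ⊗ B → B` is injective, then `B` is flat.
-/

namespace Vale.Agent.P202.Char

open IsLocalRing TensorProduct

universe u v w

namespace FlatCrit

variable {A : Type u} [CommRing A]

/-- The kernel of tensoring a map, through a fibre product. -/
theorem exists_preimage {X Y Z : Type*} [AddCommGroup X] [Module A X] [AddCommGroup Y] [Module A Y]
    [AddCommGroup Z] [Module A Z] {B : Type v} [AddCommGroup B] [Module A B] (f : X →ₗ[A] Y)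
    (g : Z →ₗ[A] Y) (hsurj : ∀ y, ∃ x z, f x + g z = y) (t : X ⊗[A] B)
    (ht : f.rTensor B t = 0) :
    ∃ s : LinearMap.ker (f.coprod g) ⊗[A] B,
      ((LinearMap.fst A X Z) ∘ₗ Submodule.subtype _).rTensor B s = t ∧
      ((LinearMap.snd A X Z) ∘ₗ Submodule.subtype _).rTensor B s = 0 := by
  have hex := rTensor_exact (Q := B) (LinearMap.exact_subtype_ker_map (f.coprod g))
    (fun y => by obtain ⟨x, z, h⟩ := hsurj y; exact ⟨(x, z), h⟩)
  obtain ⟨s, hs⟩ := (hex ((LinearMap.inl A X Z).rTensor B t)).1 (by
    rw [← LinearMap.comp_apply, ← LinearMap.rTensor_comp, LinearMap.coprod_inl, ht])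
  refine ⟨s, ?_, ?_⟩
  · rw [LinearMap.rTensor_comp, LinearMap.comp_apply, hs, ← LinearMap.comp_apply,
      ← LinearMap.rTensor_comp, LinearMap.fst_comp_inl, LinearMap.rTensor_id, LinearMap.id_apply]
  · rw [LinearMap.rTensor_comp, LinearMap.comp_apply, hs, ← LinearMap.comp_apply,
      ← LinearMap.rTensor_comp, LinearMap.snd_comp_inl, LinearMap.rTensor_zero, LinearMap.zero_apply]

/-- Scalars act on `B`. -/
noncomputable def act (I : Ideal A) (B : Type v) [AddCommGroup B] [Module A B] :
    I ⊗[A] B →ₗ[A] B :=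
  (TensorProduct.lid A B).toLinearMap ∘ₗ (Submodule.subtype I).rTensor B

theorem act_tmul (I : Ideal A) {B : Type v} [AddCommGroup B] [Module A B] (a : I) (b : B) :
    act I B (a ⊗ₜ b) = (a : A) • b := by
  simp [act]

theorem act_inclusion {I J : Ideal A} (h : I ≤ J) {B : Type v} [AddCommGroup B] [Module A B]
    (t : I ⊗[A] B) : act J B ((Submodule.inclusion h).rTensor B t) = act I B t := by
  rw [act, act, LinearMap.comp_apply, LinearMap.comp_apply, ← LinearMap.comp_apply
    ((Submodule.subtype J).rTensor B), ← LinearMap.rTensor_comp]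
  rfl

variable [IsLocalRing A] [IsNoetherianRing A]
variable {B : Type v} [AddCommGroup B] [Module A B]

/-- Injectivity for ideals containing a power of the maximal ideal. -/
theorem act_injective_of_pow_le (h : Function.Injective (act (maximalIdeal A) B)) (N : ℕ)
    (J : Ideal A) (hJ : maximalIdeal A ^ N ≤ J) : Function.Injective (act J B) := by
  induction J using WellFoundedGT.induction with
  | ind J ih =>
    classical
    rw [← LinearMap.ker_eq_bot, Submodule.eq_bot_iff]
    intro t ht
    rw [LinearMap.mem_ker] at ht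
    by_cases htop : J = ⊤
    · subst htop
      have he : Function.Bijective ((Submodule.subtype (⊤ : Ideal A)).rTensor B) :=
        (LinearEquiv.rTensor B (Submodule.topEquiv : (⊤ : Ideal A) ≃ₗ[A] A)).bijective
      exact he.1 ((TensorProduct.lid A B).injective (ht.trans (by simp)))
    have hex : ∃ k, maximalIdeal A ^ k ≤ J := ⟨N, hJ⟩
    obtain ⟨k, hk⟩ : ∃ k, Nat.find hex = k + 1 := by
      refine ⟨Nat.find hex - 1, ?_⟩
      have : Nat.find hex ≠ 0 := fun h0 => htop (by
        have := Nat.find_spec hex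
        rwa [h0, pow_zero, Ideal.one_eq_top, top_le_iff] at this)
      omega
    obtain ⟨x, hx, hxJ⟩ := SetLike.not_le_iff_exists.1
      (Nat.find_min hex (m := k) (by omega))
    have hmx : ∀ a ∈ maximalIdeal A, a * x ∈ J := fun a ha => by
      have := Nat.find_spec hex
      rw [hk, pow_succ'] at this
      exact this (Ideal.mul_mem_mul ha hx)
    set J' := J ⊔ Ideal.span {x} with hJ'
    have hlt : J < J' := lt_of_le_of_ne le_sup_left fun he =>
      hxJ (he ▸ Ideal.mem_sup_right (Ideal.mem_span_singleton_self x))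
    have hinj' := ih J' hlt (hJ.trans le_sup_left)
    set i := Submodule.inclusion (le_sup_left : J ≤ J')
    have h0 : i.rTensor B t = 0 :=
      hinj' (((act_inclusion _ t).trans ht).trans (map_zero _).symm)
    set g : A →ₗ[A] J' :=
      LinearMap.toSpanSingleton A J' ⟨x, Ideal.mem_sup_right (Ideal.mem_span_singleton_self x)⟩
    set P := LinearMap.ker (i.coprod g) with hP
    obtain ⟨s, hs1, hs2⟩ := exists_preimage i g (fun y => by
      obtain ⟨j, hj, z, hz, hjz⟩ := Submodule.mem_sup.1 y.2
      obtain ⟨c, rfl⟩ := Ideal.mem_span_singleton'.1 hz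
      exact ⟨⟨j, hj⟩, c, Subtype.ext hjz⟩) t h0
    have hmem : ∀ p : P, (p : J × A).2 ∈ maximalIdeal A := by
      rintro ⟨⟨j, c⟩, hp⟩
      by_contra hc
      have hu : IsUnit c := by simpa [mem_maximalIdeal] using hc
      have h1 : (j : A) + c * x = 0 := congrArg Subtype.val (LinearMap.mem_ker.1 hp)
      refine hxJ ?_
      rw [← one_mul x]
      obtain ⟨u, rfl⟩ := hu
      rw [show (1 : A) * x = (↑u⁻¹ : A) * (-(j : A)) by
        rw [eq_neg_of_add_eq_zero_left h1, neg_neg, ← mul_assoc, Units.inv_mul]]
      exact J.mul_mem_left _ (neg_mem j.2)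
    set q : P →ₗ[A] maximalIdeal A :=
      ((LinearMap.snd A J A) ∘ₗ Submodule.subtype P).codRestrict _ hmem
    have hq : q.rTensor B s = 0 := by
      refine h ?_
      rw [map_zero, act, LinearMap.comp_apply, ← LinearMap.comp_apply
        ((Submodule.subtype (maximalIdeal A)).rTensor B), ← LinearMap.rTensor_comp]
      have : (Submodule.subtype (maximalIdeal A)) ∘ₗ q =
          (LinearMap.snd A J A) ∘ₗ Submodule.subtype P := rfl
      rw [this, hs2, map_zero]
    -- the first entry is determined by the second one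
    set r : maximalIdeal A →ₗ[A] J :=
      ((LinearMap.mulRight A x) ∘ₗ Submodule.subtype _).codRestrict J fun a => hmx a a.2
    have hfst : (LinearMap.fst A J A) ∘ₗ Submodule.subtype P = -(r ∘ₗ q) := by
      refine LinearMap.ext fun p => Subtype.ext ?_
      have h1 : ((p : J × A).1 : A) + (p : J × A).2 * x = 0 :=
        congrArg Subtype.val (LinearMap.mem_ker.1 p.2)
      exact eq_neg_of_add_eq_zero_left h1
    rw [← hs1, hfst, LinearMap.rTensor_neg, LinearMap.neg_apply, LinearMap.rTensor_comp,
      LinearMap.comp_apply, hq, map_zero, neg_zero]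

end FlatCrit

open FlatCrit

/-- The local criterion of flatness. -/
theorem flat_of_act_injective {A : Type u} {B : Type v} [CommRing A] [CommRing B]
    [IsNoetherianRing A] [IsNoetherianRing B] [IsLocalRing A] [IsLocalRing B] [Algebra A B]
    [IsLocalHom (algebraMap A B)] (h : Function.Injective (act (maximalIdeal A) B)) :
    Module.Flat A B := by
  rw [Module.Flat.iff_rTensor_injective']
  intro I
  classical
  rw [← LinearMap.ker_eq_bot, eq_bot_iff]
  intro x hx
  set J := (maximalIdeal A).map (algebraMap A B)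
  obtain ⟨k, hk⟩ := Ideal.exists_pow_inf_eq_pow_smul (maximalIdeal A) I
  have hact : act I B x = 0 := by
    rw [act, LinearMap.comp_apply, LinearMap.mem_ker.1 hx, map_zero]
  suffices H : ∀ M : ℕ, (TensorProduct.comm A I B) x ∈ J ^ M • (⊤ : Submodule B (B ⊗[A] I)) by
    have h0 : (TensorProduct.comm A I B) x ∈ (⨅ M, J ^ M • (⊤ : Submodule B (B ⊗[A] I))) :=
      Submodule.mem_iInf _ |>.2 H
    rw [Ideal.iInf_pow_smul_eq_bot_of_isLocalRing J
      (IsLocalRing.map_maximalIdeal_lt_top (algebraMap A B)).ne] at h0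
    simpa using h0
  intro M
  set m' := maximalIdeal A ^ (M + k)
  set i := Submodule.inclusion (le_sup_left : I ≤ I ⊔ m')
  have h0 : i.rTensor B x = 0 :=
    act_injective_of_pow_le h (M + k) _ le_sup_right
      (((act_inclusion _ x).trans hact).trans (map_zero _).symm)
  obtain ⟨s, hs1, -⟩ := exists_preimage i (Submodule.inclusion (le_sup_right : m' ≤ I ⊔ m'))
    (fun y => by
      obtain ⟨a, ha, b, hb, hab⟩ := Submodule.mem_sup.1 y.2
      exact ⟨⟨a, ha⟩, ⟨b, hb⟩, Subtype.ext hab⟩) x h0
  rw [← hs1]
  clear hs1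
  induction s using TensorProduct.induction_on with
  | zero => simp
  | add s t hs ht => rw [map_add, map_add]; exact add_mem hs ht
  | tmul p b =>
    have h1 : (((p : I × m').1 : I) : A) + (((p : I × m').2 : m') : A) = 0 :=
      congrArg Subtype.val (LinearMap.mem_ker.1 p.2)
    have hmemI : (((p : I × m').1 : I) : A) ∈ m' • (⊤ : Submodule A A) ⊓ I := by
      refine ⟨?_, (p : I × m').1.2⟩
      rw [smul_eq_mul, Ideal.mul_top, eq_neg_of_add_eq_zero_left h1]
      exact neg_mem (p : I × m').2.2
    rw [hk (M + k) (Nat.le_add_left k M), Nat.add_sub_cancel] at hmemI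
    have hmem : (p : I × m').1 ∈ maximalIdeal A ^ M • (⊤ : Submodule A I) := by
      have h2 := Submodule.smul_mono (le_refl (maximalIdeal A ^ M))
        (inf_le_right : maximalIdeal A ^ k • (⊤ : Submodule A A) ⊓ I ≤ I) hmemI
      have e : Submodule.map (Submodule.subtype I) (maximalIdeal A ^ M • (⊤ : Submodule A I)) =
          maximalIdeal A ^ M • I := by rw [Submodule.map_smul'', Submodule.map_subtype_top]
      rw [← e] at h2
      obtain ⟨w, hw, hwa⟩ := h2
      rwa [← Subtype.ext hwa]
    simp only [LinearMap.rTensor_tmul, LinearMap.comp_apply, Submodule.subtype_apply,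
      LinearMap.fst_apply, TensorProduct.comm_tmul]
    refine Submodule.smul_induction_on (p := fun w : I => b ⊗ₜ[A] w ∈
      J ^ M • (⊤ : Submodule B (B ⊗[A] I))) hmem (fun r hr w _ => ?_)
      (fun p q hp hq => by rw [TensorProduct.tmul_add]; exact add_mem hp hq)
    rw [← TensorProduct.smul_tmul, show (r • b) ⊗ₜ[A] w = (r • b) • ((1 : B) ⊗ₜ[A] w) by
      rw [TensorProduct.smul_tmul', smul_eq_mul, mul_one]]
    refine Submodule.smul_mem_smul ?_ trivial
    rw [Algebra.smul_def, ← Ideal.map_pow]
    exact Ideal.mul_mem_right _ _ (Ideal.mem_map_of_mem _ hr)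

/-- Flatness over an intermediate ring with the same closed point. -/
theorem flat_tower {R : Type w} {A : Type u} {B : Type v} [CommRing R] [CommRing A] [CommRing B]
    [IsLocalRing R] [IsNoetherianRing A] [IsNoetherianRing B] [IsLocalRing A] [IsLocalRing B]
    [Algebra R A] [Algebra R B] [Algebra A B] [IsScalarTower R A B]
    [IsLocalHom (algebraMap A B)] [Module.Flat R B]
    (hA : (maximalIdeal R).map (algebraMap R A) = maximalIdeal A) : Module.Flat A B := by
  refine flat_of_act_injective ?_
  set m := maximalIdeal R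
  let θ : m →ₗ[R] maximalIdeal A :=
    ((Algebra.linearMap R A) ∘ₗ Submodule.subtype m).codRestrict
      ((maximalIdeal A).restrictScalars R) fun a => hA ▸ Ideal.mem_map_of_mem _ a.2
  let Θ : m ⊗[R] B →ₗ[R] maximalIdeal A ⊗[A] B :=
    TensorProduct.lift (((TensorProduct.mk A (maximalIdeal A) B).restrictScalars₁₂ R R) ∘ₗ θ)
  have hΘ : ∀ (a : m) (b : B), Θ (a ⊗ₜ b) = θ a ⊗ₜ[A] b := fun a b => rfl
  have hsurj : Function.Surjective Θ := by
    intro t
    induction t using TensorProduct.induction_on with
    | zero => exact ⟨0, map_zero _⟩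
    | add s t hs ht =>
      obtain ⟨s', rfl⟩ := hs
      obtain ⟨t', rfl⟩ := ht
      exact ⟨s' + t', map_add _ _ _⟩
    | tmul a b =>
      obtain ⟨a, ha⟩ := a
      have ha' : a ∈ (Ideal.map (algebraMap R A) m) := hA.symm ▸ ha
      refine Submodule.span_induction (p := fun y _ => ∀ (hy : y ∈ maximalIdeal A) (b : B),
        ∃ t, Θ t = (⟨y, hy⟩ : maximalIdeal A) ⊗ₜ[A] b) ?_ ?_ ?_ ?_ ha' ha b
      · rintro _ ⟨r, hr, rfl⟩ hy b
        exact ⟨⟨r, hr⟩ ⊗ₜ b, hΘ _ b⟩
      · exact fun hy b => ⟨0, by rw [map_zero]; exact (TensorProduct.zero_tmul _ b).symm⟩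
      · intro y z hy' hz' hy hz _ b
        obtain ⟨s, hs⟩ := hy (hA ▸ hy') b
        obtain ⟨t, ht⟩ := hz (hA ▸ hz') b
        exact ⟨s + t, by rw [map_add, hs, ht, ← TensorProduct.add_tmul]; rfl⟩
      · intro c y hy' hy _ b
        obtain ⟨s, hs⟩ := hy (hA ▸ hy') (c • b)
        refine ⟨s, hs.trans ?_⟩
        rw [TensorProduct.tmul_smul, TensorProduct.smul_tmul']
        rfl
  have hcomp : ∀ t, act (maximalIdeal A) B (Θ t) =
      (TensorProduct.lid R B) ((Submodule.subtype m).rTensor B t) := fun t => by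
    induction t using TensorProduct.induction_on with
    | zero => simp
    | add s t hs ht => simp only [map_add, hs, ht]
    | tmul a b =>
      rw [hΘ, act_tmul, LinearMap.rTensor_tmul, TensorProduct.lid_tmul]
      exact algebraMap_smul A (a : R) b
  have hinj : Function.Injective ((Submodule.subtype m).rTensor B) :=
    Module.Flat.iff_rTensor_injective'.1 inferInstance m
  rw [← LinearMap.ker_eq_bot, Submodule.eq_bot_iff]
  intro y hy
  obtain ⟨t, rfl⟩ := hsurj y
  rw [LinearMap.mem_ker, hcomp, LinearEquiv.map_eq_zero_iff] at hy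
  rw [hinj (hy.trans (map_zero _).symm), map_zero]

end Vale.Agent.P202.Char
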