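import Vale.Agent.P202.Char.Completion
import Vale.Agent.P202.Char.CoeffField
import Vale.Agent.P202.Char.FlatCrit

/-!
P202, stage 2: gonflement. A complete local ring of characteristic `p` is enlarged, flatly and
without changing its maximal ideal, to have the residue field of a given local extension.
-/

namespace Vale.Agent.P202.Char

open IsLocalRing TensorProduct AdicCompletion

universe u

namespace Gonflement

variable (R : Type u) [CommRing R] [IsLocalRing R] (k : Type u) [Field k] [Algebra k R]
  (K : Type u) [Field K] [Algebra k K]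

/-- The extended maximal ideal in `R ⊗ K`. -/
noncomputable def baseIdeal : Ideal (R ⊗[k] K) :=
  (maximalIdeal R).map (algebraMap R (R ⊗[k] K))

/-- `R ⊗̂ K`. -/
abbrev GonRing := AdicCompletion (baseIdeal R k K) (R ⊗[k] K)

/-- A basis of `R ⊗ K` over `R`. -/
noncomputable def baseBasis :
    Module.Basis (Module.Basis.ofVectorSpaceIndex k K) R (R ⊗[k] K) :=
  Algebra.TensorProduct.basis R (Module.Basis.ofVectorSpace k K)

theorem repr_mem_of_mem_map (J : Ideal R) {x : R ⊗[k] K}
    (hx : x ∈ J.map (algebraMap R (R ⊗[k] K))) (b : Module.Basis.ofVectorSpaceIndex k K) :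
    (baseBasis R k K).repr x b ∈ J := by
  rw [← Submodule.restrictScalars_mem R, ← Ideal.smul_top_eq_map] at hx
  refine Submodule.smul_induction_on hx (fun r hr y _ => ?_) (fun y z hy hz => ?_)
  · simpa using J.mul_mem_right _ hr
  · simpa using J.add_mem hy hz

theorem mem_map_of_repr_mem (J : Ideal R) {x : R ⊗[k] K}
    (hx : ∀ b, (baseBasis R k K).repr x b ∈ J) : x ∈ J.map (algebraMap R (R ⊗[k] K)) := by
  rw [← (baseBasis R k K).linearCombination_repr x, Finsupp.linearCombination_apply]
  refine Ideal.sum_mem _ fun b _ => ?_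
  simp only [Algebra.smul_def]
  exact Ideal.mul_mem_right _ _ (Ideal.mem_map_of_mem _ (hx b))

variable [IsNoetherianRing R]

theorem baseIdeal_fg : (baseIdeal R k K).FG :=
  (maximalIdeal R).fg_of_isNoetherianRing.map _

/-- Injectivity of `m ⊗ A → A`. -/
theorem act_injective [IsLocalRing (GonRing R k K)] [IsNoetherianRing (GonRing R k K)]
    [IsLocalHom (algebraMap R (GonRing R k K))] :
    Function.Injective (FlatCrit.act (maximalIdeal R) (GonRing R k K)) := by
  classical
  set m := maximalIdeal R
  set A := GonRing R k K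
  set J := m.map (algebraMap R A) with hJdef
  have hJ : J = (baseIdeal R k K).map (algebraMap (R ⊗[k] K) A) := by
    show J = ((maximalIdeal R).map (algebraMap R (R ⊗[k] K))).map _
    rw [Ideal.map_map, ← IsScalarTower.algebraMap_eq]
  set β := baseBasis R k K
  set v : Module.Basis.ofVectorSpaceIndex k K → A := fun b => algebraMap (R ⊗[k] K) A (β b)
  have happrox : ∀ (N : ℕ) (t : m ⊗[R] A),
      ∃ w : Module.Basis.ofVectorSpaceIndex k K →₀ m,
        (TensorProduct.comm R m A) t - (w.sum fun b z => v b ⊗ₜ[R] z) ∈
          J ^ N • (⊤ : Submodule A (A ⊗[R] m)) ∧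
        FlatCrit.act m A t - (w.sum fun b z => (z : R) • v b) ∈ J ^ (N + 1) := by
    intro N t
    induction t using TensorProduct.induction_on with
    | zero => exact ⟨0, by simp, by simp⟩
    | add s t hs ht =>
      obtain ⟨w, h1, h2⟩ := hs
      obtain ⟨w', h1', h2'⟩ := ht
      refine ⟨w + w', ?_, ?_⟩
      · rw [map_add, Finsupp.sum_add_index' (fun b => TensorProduct.tmul_zero _ _)
          (fun b y z => TensorProduct.tmul_add _ _ _)]
        convert add_mem h1 h1' using 1
        abel
      · rw [map_add, Finsupp.sum_add_index' (fun b => by simp)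
          (fun b y z => by simp [add_smul])]
        convert add_mem h2 h2' using 1
        abel
    | tmul z a =>
      obtain ⟨α, hα⟩ := Ideal.Quotient.mk_surjective (evalₐ (baseIdeal R k K) (N + 1) a)
      have hmem := Compl.sub_mem_of_evalₐ_eq (baseIdeal_fg R k K) hα.symm
      rw [← hJ] at hmem
      refine ⟨(β.repr α).mapRange (fun c => c • z) (zero_smul R z), ?_, ?_⟩
      · rw [Finsupp.sum_mapRange_index (fun b => TensorProduct.tmul_zero _ _),
          TensorProduct.comm_tmul]
        have e : ((β.repr α).sum fun b c => v b ⊗ₜ[R] (c • z)) =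
            algebraMap (R ⊗[k] K) A α ⊗ₜ[R] z := by
          conv_rhs => rw [← β.linearCombination_repr α, Finsupp.linearCombination_apply]
          rw [map_finsuppSum, Finsupp.sum, Finsupp.sum, TensorProduct.sum_tmul]
          refine Finset.sum_congr rfl fun b _ => ?_
          rw [TensorProduct.tmul_smul, TensorProduct.smul_tmul']
          congr 1
        rw [e, ← TensorProduct.sub_tmul, show (a - algebraMap (R ⊗[k] K) A α) ⊗ₜ[R] z =
          (a - algebraMap (R ⊗[k] K) A α) • ((1 : A) ⊗ₜ[R] z) by
            rw [TensorProduct.smul_tmul', smul_eq_mul, mul_one]]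
        exact Submodule.smul_mem_smul (Ideal.pow_le_pow_right N.le_succ hmem) trivial
      · rw [Finsupp.sum_mapRange_index (fun b => by simp), FlatCrit.act_tmul]
        have e : ((β.repr α).sum fun b c => ((c • z : m) : R) • v b) =
            (z : R) • algebraMap (R ⊗[k] K) A α := by
          conv_rhs => rw [← β.linearCombination_repr α, Finsupp.linearCombination_apply]
          rw [map_finsuppSum, Finsupp.smul_sum]
          refine Finsupp.sum_congr fun b _ => ?_
          simp only [v, Submodule.coe_smul, smul_eq_mul, Algebra.smul_def, map_mul,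
            ← IsScalarTower.algebraMap_apply]
          ring
        rw [e, ← smul_sub, Algebra.smul_def]
        exact Ideal.mul_mem_left _ _ hmem
  rw [← LinearMap.ker_eq_bot, Submodule.eq_bot_iff]
  intro x hx
  rw [LinearMap.mem_ker] at hx
  suffices H : ∀ N : ℕ, (TensorProduct.comm R m A) x ∈ J ^ N • (⊤ : Submodule A (A ⊗[R] m)) by
    have h0 : (TensorProduct.comm R m A) x ∈ (⨅ N, J ^ N • (⊤ : Submodule A (A ⊗[R] m))) :=
      Submodule.mem_iInf _ |>.2 H
    rw [Ideal.iInf_pow_smul_eq_bot_of_isLocalRing J
      (IsLocalRing.map_maximalIdeal_lt_top (algebraMap R A)).ne] at h0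
    simpa using h0
  intro N
  obtain ⟨w, h1, h2⟩ := happrox N x
  rw [hx, zero_sub, neg_mem_iff] at h2
  set α := w.sum fun b z => (z : R) • β b with hα
  have hsum : algebraMap (R ⊗[k] K) A α = w.sum fun b z => (z : R) • v b := by
    rw [hα, map_finsuppSum]
    refine Finsupp.sum_congr fun b _ => ?_
    simp only [v, Algebra.smul_def, map_mul, ← IsScalarTower.algebraMap_apply]
  rw [← hsum, hJ, Compl.mem_pow_iff (baseIdeal_fg R k K), AlgHom.commutes,
    Ideal.Quotient.algebraMap_eq, Ideal.Quotient.eq_zero_iff_mem, baseIdeal, ← Ideal.map_pow] at h2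
  have hw : ∀ b, ((w b : m) : R) ∈ m ^ (N + 1) := by
    intro b
    have h3 := repr_mem_of_mem_map R k K _ h2 b
    have e : α = Finsupp.linearCombination R β (w.mapRange (fun z : m => (z : R)) rfl) := by
      rw [Finsupp.linearCombination_apply, Finsupp.sum_mapRange_index (fun b => by simp)]
    rwa [e, β.repr_linearCombination, Finsupp.mapRange_apply] at h3
  refine (Submodule.sub_mem_iff_left _ ?_).1 h1
  refine Submodule.sum_mem _ fun b _ => ?_
  have hmem : w b ∈ m ^ N • (⊤ : Submodule R m) := by
    have h4 : ((w b : m) : R) ∈ m ^ N • m := by rw [smul_eq_mul, ← pow_succ]; exact hw b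
    have e : Submodule.map (Submodule.subtype m) (m ^ N • (⊤ : Submodule R m)) = m ^ N • m := by
      rw [Submodule.map_smul'', Submodule.map_subtype_top]
    rw [← e] at h4
    obtain ⟨y, hy, hyw⟩ := h4
    rwa [← Subtype.ext hyw]
  refine Submodule.smul_induction_on (p := fun y : m => v b ⊗ₜ[R] y ∈
    J ^ N • (⊤ : Submodule A (A ⊗[R] m))) hmem (fun r hr y _ => ?_)
    (fun p q hp hq => by rw [TensorProduct.tmul_add]; exact add_mem hp hq)
  rw [← TensorProduct.smul_tmul, show (r • v b) ⊗ₜ[R] y = (r • v b) • ((1 : A) ⊗ₜ[R] y) by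
    rw [TensorProduct.smul_tmul', smul_eq_mul, mul_one]]
  refine Submodule.smul_mem_smul ?_ trivial
  rw [Algebra.smul_def, hJdef, ← Ideal.map_pow]
  exact Ideal.mul_mem_right _ _ (Ideal.mem_map_of_mem _ hr)

/-- `R ⊗̂ K` is Noetherian, given that its closed fibre is generated by `K`. -/
theorem isNoetherian (hsurj : ∀ x : GonRing R k K, ∃ c : K,
      x - algebraMap (R ⊗[k] K) _ ((1 : R) ⊗ₜ[k] c) ∈
        (baseIdeal R k K).map (algebraMap (R ⊗[k] K) (GonRing R k K))) :
    IsNoetherianRing (GonRing R k K) := by
  set I := baseIdeal R k K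
  have fg : I.FG := baseIdeal_fg R k K
  obtain ⟨s, g, hg⟩ := Submodule.fg_iff_exists_fin_generating_family.1 fg
  set J := MvPolynomial.idealOfVars (Fin s) K
  set h : MvPolynomial (Fin s) K →+* R ⊗[k] K :=
    MvPolynomial.eval₂Hom (Algebra.TensorProduct.includeRight.toRingHom) g
  have hmap : J.map h = I := by
    simp only [J, MvPolynomial.idealOfVars, Ideal.map_span, ← Set.range_comp]
    refine Eq.trans (congrArg (fun f => Ideal.span (Set.range f)) (funext fun i => ?_)) hg
    simp [h]
  have : IsNoetherianRing (AdicCompletion J (MvPolynomial (Fin s) K)) := Compl.isNoetherianRing J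
  set J' := J.map (algebraMap _ (AdicCompletion J (MvPolynomial (Fin s) K)))
  set ψ := Compl.compMap h hmap.le
  have hJ : J'.map ψ = I.map (algebraMap (R ⊗[k] K) (GonRing R k K)) := by
    rw [Ideal.map_map, Compl.compMap_comp_algebraMap, ← Ideal.map_map, hmap]
  have := AdicCompletion.isAdicComplete_self J (MvPolynomial.idealOfVars_fg _ _)
  have := AdicCompletion.isAdicComplete_self I fg
  have : IsHausdorff (J'.map ψ) (GonRing R k K) := hJ ▸ inferInstance
  refine isNoetherianRing_of_surjective _ _ ψ
    (surjective_of_mk_map_comp_surjective ψ (I := J') fun y => ?_)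
  obtain ⟨y, rfl⟩ := Ideal.Quotient.mk_surjective y
  obtain ⟨c, hc⟩ := hsurj y
  refine ⟨algebraMap (MvPolynomial (Fin s) K) _ (MvPolynomial.C c), ?_⟩
  rw [RingHom.comp_apply, Compl.compMap_algebraMap, Ideal.Quotient.eq, hJ]
  simpa [h] using Submodule.neg_mem _ hc

end Gonflement

open Gonflement

/-- Gonflement along a section of the residue map, for a formally smooth residue extension. -/
theorem exists_gonflement_of_section (R S : Type u) [CommRing R] [CommRing S]
    [IsLocalRing R] [IsLocalRing S] [IsNoetherianRing R] [Algebra R S]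
    [IsLocalHom (algebraMap R S)] [IsAdicComplete (maximalIdeal R) R]
    [IsAdicComplete (maximalIdeal S) S]
    [Algebra.FormallySmooth (ResidueField R) (ResidueField S)]
    (σ : ResidueField R →+* R) (hσ : ∀ x, residue R (σ x) = x) :
    ∃ (R₁ : Type u) (_ : CommRing R₁) (_ : IsLocalRing R₁) (_ : IsNoetherianRing R₁)
      (_ : Algebra R R₁) (_ : Module.Flat R R₁) (_ : IsLocalHom (algebraMap R R₁))
      (_ : Algebra R₁ S) (_ : IsScalarTower R R₁ S) (_ : IsLocalHom (algebraMap R₁ S)),
      (maximalIdeal R).map (algebraMap R R₁) = maximalIdeal R₁ ∧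
        Function.Surjective ((residue S).comp (algebraMap R₁ S)) := by
  classical
  set k := ResidueField R
  set K := ResidueField S
  set m := maximalIdeal R
  set n := maximalIdeal S
  let : Algebra k R := σ.toAlgebra
  let : Algebra k S := ((algebraMap R S).comp σ).toAlgebra
  have : IsScalarTower k R S := IsScalarTower.of_algebraMap_eq fun _ => rfl
  have hres : ∀ c : k, residue S (algebraMap k S c) = algebraMap k K c := fun c => by
    show residue S (algebraMap R S (σ c)) = _
    rw [← IsLocalRing.ResidueField.algebraMap_residue]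
    congr 1
    exact hσ c
  let f : K →ₐ[k] S ⧸ n :=
    { (RingHom.id K : K →+* S ⧸ n) with commutes' := fun c => (hres c).symm }
  obtain ⟨s', hs'⟩ := Algebra.FormallySmooth.exists_mkₐ_comp_eq_of_isAdicComplete f
  let h : R ⊗[k] K →ₐ[k] S :=
    Algebra.TensorProduct.lift (IsScalarTower.toAlgHom k R S) s' fun x y => Commute.all _ _
  have hhR : ∀ r : R, h (algebraMap R (R ⊗[k] K) r) = algebraMap R S r := fun r => by
    simp [h, Algebra.TensorProduct.algebraMap_apply]
  have hhK : ∀ c : K, residue S (h ((1 : R) ⊗ₜ[k] c)) = c := fun c => by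
    simp only [h, Algebra.TensorProduct.lift_tmul, map_one, one_mul]
    exact AlgHom.congr_fun hs' c
  set I := baseIdeal R k K
  set A := GonRing R k K
  have fg : I.FG := baseIdeal_fg R k K
  have hle : I.map h.toRingHom ≤ n := by
    show Ideal.map h.toRingHom ((maximalIdeal R).map (algebraMap R (R ⊗[k] K))) ≤ n
    rw [Ideal.map_map]
    refine Ideal.map_le_iff_le_comap.2 fun r hr => ?_
    show h (algebraMap R _ r) ∈ n
    rw [hhR]
    exact (mem_maximalIdeal _).2 ((map_mem_nonunits_iff (algebraMap R S) r).2 hr)
  let g : A →+* S :=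
    (AdicCompletion.ofAlgEquiv n).symm.toRingEquiv.toRingHom.comp
      (Compl.compMap (I := I) h.toRingHom hle)
  have hg : ∀ a, g (algebraMap (R ⊗[k] K) A a) = h a := fun a => by
    show (AdicCompletion.ofAlgEquiv n).symm (Compl.compMap h.toRingHom hle (algebraMap _ _ a)) = _
    rw [Compl.compMap_algebraMap]
    exact (AdicCompletion.ofAlgEquiv n).symm.commutes _
  set θ : A →+* K := (residue S).comp g
  have hθ : Function.Surjective θ := fun c =>
    ⟨algebraMap (R ⊗[k] K) A ((1 : R) ⊗ₜ c), by rw [RingHom.comp_apply, hg, hhK]⟩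
  set M := I.map (algebraMap (R ⊗[k] K) A) with hM
  have hkerM : ∀ x : A, θ x = 0 → x ∈ M := by
    intro x hx
    obtain ⟨α, hα⟩ := Ideal.Quotient.mk_surjective (evalₐ I 1 x)
    have h1 := Compl.sub_mem_of_evalₐ_eq fg hα.symm
    rw [pow_one] at h1
    have hMn : ∀ y ∈ M, θ y = 0 := fun y hy => by
      refine (residue_eq_zero_iff (g y)).2 ?_
      have : M.map g ≤ n := by
        rw [hM, Ideal.map_map]
        refine le_trans (le_of_eq (congrArg (fun φ => I.map φ) (RingHom.ext hg))) hle
      exact this (Ideal.mem_map_of_mem g hy)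
    have hα0 : residue S (h α) = 0 := by
      have := hMn _ h1
      rw [map_sub, hx, zero_sub, neg_eq_zero, RingHom.comp_apply, hg] at this
      exact this
    have hαI : α ∈ I := by
      refine mem_map_of_repr_mem R k K _ fun b => ?_
      set β := baseBasis R k K
      set γ := (β.repr α).mapRange (residue R) (map_zero _)
      have hcomb : Finsupp.linearCombination k (Module.Basis.ofVectorSpace k K) γ = 0 := by
        rw [← hα0]
        conv_rhs => rw [← β.linearCombination_repr α, Finsupp.linearCombination_apply,
          map_finsuppSum, map_finsuppSum]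
        rw [Finsupp.linearCombination_apply, Finsupp.sum_mapRange_index (fun b => by simp)]
        refine Finsupp.sum_congr fun b _ => ?_
        rw [Algebra.smul_def, Algebra.smul_def, map_mul, map_mul, hhR,
          show β b = (1 : R) ⊗ₜ[k] (Module.Basis.ofVectorSpace k K b) by simp [β, baseBasis], hhK,
          ← IsLocalRing.ResidueField.algebraMap_residue]
      have hb := DFunLike.congr_fun
        (linearIndependent_iff.1 (Module.Basis.ofVectorSpace k K).linearIndependent γ hcomb) b
      simp only [γ, Finsupp.mapRange_apply, Finsupp.coe_zero, Pi.zero_apply] at hb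
      exact (residue_eq_zero_iff _).1 hb
    have := add_mem h1 (Ideal.mem_map_of_mem (algebraMap (R ⊗[k] K) A) hαI)
    rwa [sub_add_cancel] at this
  have hMmax : M.IsMaximal := by
    have : RingHom.ker θ = M := le_antisymm (fun x hx => hkerM x hx) (by
      rw [hM, Ideal.map_le_iff_le_comap]
      intro a ha
      show θ (algebraMap _ A a) = 0
      rw [RingHom.comp_apply, hg]
      exact (residue_eq_zero_iff _).2 (hle (Ideal.mem_map_of_mem _ ha)))
    exact this ▸ RingHom.ker_isMaximal_of_surjective θ hθ
  have := AdicCompletion.isAdicComplete_self I fg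
  have : IsLocalRing A := IsLocalRing.of_unique_max_ideal ⟨M, hMmax, fun P hP =>
    (hMmax.eq_of_le hP.ne_top ((IsAdicComplete.le_jacobson_bot M).trans
      (sInf_le ⟨bot_le, hP⟩))).symm⟩
  have hmax : maximalIdeal A = M := ((eq_maximalIdeal hMmax)).symm
  let : Algebra A S := g.toAlgebra
  have : IsScalarTower R A S := IsScalarTower.of_algebraMap_eq fun r => by
    show algebraMap R S r = g (algebraMap R A r)
    rw [IsScalarTower.algebraMap_apply R (R ⊗[k] K) A, hg, hhR]
  have hmap : m.map (algebraMap R A) = maximalIdeal A := by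
    rw [hmax, hM]
    show _ = ((maximalIdeal R).map (algebraMap R (R ⊗[k] K))).map _
    rw [Ideal.map_map, ← IsScalarTower.algebraMap_eq]
  have : IsLocalHom (algebraMap R A) := ⟨fun r hr => by
    by_contra hn
    exact (mem_maximalIdeal _).1 (hmap ▸ Ideal.mem_map_of_mem (algebraMap R A)
      ((mem_maximalIdeal r).2 hn)) hr⟩
  have : IsLocalHom (algebraMap A S) := ⟨fun x hx => by
    by_contra hn
    have hx' : x ∈ M := hmax ▸ (mem_maximalIdeal x).2 hn
    have : θ x = 0 := by
      have : M.map g ≤ n := by
        rw [hM, Ideal.map_map]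
        exact le_trans (le_of_eq (congrArg (fun φ => I.map φ) (RingHom.ext hg))) hle
      exact (residue_eq_zero_iff _).2 (this (Ideal.mem_map_of_mem g hx'))
    exact ((residue_ne_zero_iff_isUnit _).2 hx) this⟩
  have : IsNoetherianRing A := isNoetherian R k K fun x => ⟨θ x, hkerM _ (by
    rw [map_sub, sub_eq_zero]
    exact (hhK (θ x)).symm.trans (congrArg (residue S) (hg _).symm))⟩
  have : Module.Flat R A := flat_of_act_injective (act_injective R k K)
  exact ⟨A, inferInstance, inferInstance, inferInstance, inferInstance, inferInstance,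
    inferInstance, inferInstance, inferInstance, inferInstance, hmap, hθ⟩

/-- Gonflement for a formally smooth residue extension in characteristic `p`. -/
theorem exists_gonflement (p : ℕ) [Fact p.Prime] (R S : Type u) [CommRing R] [CommRing S]
    [IsLocalRing R] [IsLocalRing S] [IsNoetherianRing R] [Algebra R S]
    [IsLocalHom (algebraMap R S)] [CharP R p] [IsAdicComplete (maximalIdeal R) R]
    [IsAdicComplete (maximalIdeal S) S]
    [Algebra.FormallySmooth (ResidueField R) (ResidueField S)] :
    ∃ (R₁ : Type u) (_ : CommRing R₁) (_ : IsLocalRing R₁) (_ : IsNoetherianRing R₁)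
      (_ : CharP R₁ p) (_ : Algebra R R₁) (_ : Module.Flat R R₁) (_ : IsLocalHom (algebraMap R R₁))
      (_ : Algebra R₁ S) (_ : IsScalarTower R R₁ S) (_ : IsLocalHom (algebraMap R₁ S)),
      (maximalIdeal R).map (algebraMap R R₁) = maximalIdeal R₁ ∧
        Function.Surjective ((residue S).comp (algebraMap R₁ S)) := by
  obtain ⟨σ, hσ⟩ := exists_coefficientField (A := R) p
  obtain ⟨A, _, _, _, _, _, _, _, _, _, hmap, hθ⟩ :=
    exists_gonflement_of_section R S σ (RingHom.congr_fun hσ)
  have : CharP A p := by
    have : CharP (ResidueField R) p := RingHom.charP σ σ.injective p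
    exact charP_of_injective_ringHom ((algebraMap R A).comp σ).injective p
  exact ⟨A, inferInstance, inferInstance, inferInstance, inferInstance, inferInstance,
    inferInstance, inferInstance, inferInstance, inferInstance, inferInstance, hmap, hθ⟩

/-- Gonflement over a perfect residue field. -/
theorem exists_gonflement_of_perfect (p : ℕ) [Fact p.Prime] (R S : Type u) [CommRing R] [CommRing S]
    [IsLocalRing R] [IsLocalRing S] [IsNoetherianRing R] [Algebra R S]
    [IsLocalHom (algebraMap R S)] [CharP R p] [IsAdicComplete (maximalIdeal R) R]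
    [IsAdicComplete (maximalIdeal S) S] [PerfectField (ResidueField R)] :
    ∃ (R₁ : Type u) (_ : CommRing R₁) (_ : IsLocalRing R₁) (_ : IsNoetherianRing R₁)
      (_ : CharP R₁ p) (_ : Algebra R R₁) (_ : Module.Flat R R₁) (_ : IsLocalHom (algebraMap R R₁))
      (_ : Algebra R₁ S) (_ : IsScalarTower R R₁ S) (_ : IsLocalHom (algebraMap R₁ S)),
      (maximalIdeal R).map (algebraMap R R₁) = maximalIdeal R₁ ∧
        Function.Surjective ((residue S).comp (algebraMap R₁ S)) :=
  have := formallySmooth_of_perfect (ResidueField R) (ResidueField S)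
  exists_gonflement p R S

end Vale.Agent.P202.Char
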