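import Vale.Agent.P202.Char.Completion
import Vale.Agent.P202.Char.Gonflement
import Vale.Agent.P202.Lech

/-!
P202, stage 2: from finitely generated residue extensions to formally smooth ones (in particular
all extensions of a perfect residue field, and all separable extensions).
-/

namespace Vale.Agent.P202.Char

open IsLocalRing AdicCompletion

universe u

namespace Smooth

/-- Completion does not enlarge the residue field. -/
theorem residue_surjective (A : Type u) [CommRing A] [IsLocalRing A] [IsNoetherianRing A] :
    Function.Surjective
      (algebraMap (ResidueField A) (ResidueField (AdicCompletion (maximalIdeal A) A))) := by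
  intro y
  obtain ⟨y, rfl⟩ := IsLocalRing.residue_surjective y
  obtain ⟨a, ha⟩ := Ideal.Quotient.mk_surjective (evalₐ (maximalIdeal A) 1 y)
  have h := Compl.sub_mem_of_evalₐ_eq (maximalIdeal A).fg_of_isNoetherianRing ha.symm
  rw [pow_one, ← maximalIdeal_eq_map] at h
  refine ⟨residue A a, ?_⟩
  rw [IsLocalRing.ResidueField.algebraMap_residue]
  refine (sub_eq_zero.1 ?_).symm
  rw [← map_sub, residue_eq_zero_iff]
  exact h

/-- The dimension of the completion. -/
theorem dim_completion (A : Type u) [CommRing A] [IsLocalRing A] [IsNoetherianRing A] :
    ringKrullDim (AdicCompletion (maximalIdeal A) A) = ringKrullDim A := by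
  have : IsNoetherianRing (AdicCompletion (maximalIdeal A) A) :=
    Compl.isNoetherianRing (maximalIdeal A)
  refine dim_eq ?_
  rw [← maximalIdeal_eq_map]
  exact Ideal.pow_le_self two_ne_zero

end Smooth

/-- Lech's inequality for flat local maps with formally smooth residue extension, from the case of
finitely generated residue extensions. -/
theorem stage2_smooth (p : ℕ) [Fact p.Prime]
    (stage2 : ∀ (R S : Type u) [CommRing R] [CommRing S] [IsLocalRing R] [IsLocalRing S]
      [IsNoetherianRing R] [IsNoetherianRing S] [Algebra R S] [IsLocalHom (algebraMap R S)]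
      [Module.Flat R S] [CharP R p] [Algebra.EssFiniteType (ResidueField R) (ResidueField S)]
      (d D : ℕ), ringKrullDim R = d → ringKrullDim S = D → ∀ (e e' : ℝ),
        IsMultiplicity R d e → IsMultiplicity S D e' → e ≤ e')
    (R S : Type u) [CommRing R] [CommRing S] [IsLocalRing R] [IsLocalRing S]
    [IsNoetherianRing R] [IsNoetherianRing S] [Algebra R S] [IsLocalHom (algebraMap R S)]
    [Module.Flat R S] [CharP R p] [Algebra.FormallySmooth (ResidueField R) (ResidueField S)]
    (d D : ℕ) (hd : ringKrullDim R = d) (hD : ringKrullDim S = D)
    (e e' : ℝ) (he : IsMultiplicity R d e) (he' : IsMultiplicity S D e') : e ≤ e' := by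
  set m := maximalIdeal R
  set n := maximalIdeal S
  let R' := AdicCompletion m R
  let S' := AdicCompletion n S
  have : IsNoetherianRing R' := Compl.isNoetherianRing m
  have : IsNoetherianRing S' := Compl.isNoetherianRing n
  have : IsAdicComplete (maximalIdeal R') R' :=
    maximalIdeal_eq_map (R := R) ▸ isAdicComplete_self m m.fg_of_isNoetherianRing
  have : IsAdicComplete (maximalIdeal S') S' :=
    maximalIdeal_eq_map (R := S) ▸ isAdicComplete_self n n.fg_of_isNoetherianRing
  have hle : m.map (algebraMap R S) ≤ n :=
    le_maximalIdeal (map_maximalIdeal_lt_top (algebraMap R S)).ne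
  have : CharP R' p := charP_of_injective_algebraMap (of_injective m R) p
  let φ := Compl.compMap (algebraMap R S) (I := m) (J := n) hle
  let _ : Algebra R' S' := φ.toAlgebra
  have hφ : (algebraMap R' S').comp (algebraMap R R') =
      (algebraMap S S').comp (algebraMap R S) :=
    Compl.compMap_comp_algebraMap _ _
  have : IsScalarTower R R' S' := IsScalarTower.of_algebraMap_eq fun r => by
    rw [IsScalarTower.algebraMap_apply R S S']
    exact (RingHom.congr_fun hφ r).symm
  have : IsLocalHom (algebraMap R' S') := by
    refine ((local_hom_TFAE _).out 0 2).mpr ?_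
    rw [maximalIdeal_eq_map, maximalIdeal_eq_map, Ideal.map_map, hφ, ← Ideal.map_map]
    exact Ideal.map_mono hle
  have : Module.Flat R S' := Module.Flat.trans R S S'
  have : Module.Flat R' S' := flat_tower (R := R) maximalIdeal_eq_map.symm
  -- residue fields
  have : IsLocalHom (algebraMap R S') := by
    rw [IsScalarTower.algebraMap_eq R S S']
    infer_instance
  have : Algebra.FormallySmooth (ResidueField R) (ResidueField S') :=
    Algebra.FormallySmooth.of_equiv (AlgEquiv.ofBijective
      (IsScalarTower.toAlgHom (ResidueField R) (ResidueField S) (ResidueField S'))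
      ⟨(algebraMap (ResidueField S) (ResidueField S')).injective, Smooth.residue_surjective S⟩)
  have : Algebra.FormallyUnramified (ResidueField R) (ResidueField R') :=
    Algebra.FormallyUnramified.of_surjective (Algebra.ofId (ResidueField R) (ResidueField R'))
      (Smooth.residue_surjective R)
  have : Algebra.FormallySmooth (ResidueField R') (ResidueField S') :=
    Algebra.FormallySmooth.of_restrictScalars (ResidueField R) _ _
  -- gonflement
  obtain ⟨R₁, _, _, _, _, _, _, _, _, _, _, hmax, hres⟩ := exists_gonflement p R' S'
  have : Module.Flat R₁ S' := flat_tower (R := R') hmax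
  have hsurj : Function.Surjective (algebraMap (ResidueField R₁) (ResidueField S')) := fun y => by
    obtain ⟨x, hx⟩ := hres y
    exact ⟨residue R₁ x, (IsLocalRing.ResidueField.algebraMap_residue x).trans hx⟩
  have : Module.Finite (ResidueField R₁) (ResidueField S') :=
    Module.Finite.of_surjective (Algebra.linearMap (ResidueField R₁) (ResidueField S')) hsurj
  have hdim₁ : ringKrullDim R₁ = d := by
    rw [← hd, ← Smooth.dim_completion R]
    refine dim_eq ?_
    rw [hmax]
    exact Ideal.pow_le_self two_ne_zero
  exact stage2 R₁ S' d D hdim₁ ((Smooth.dim_completion S).trans hD) e e'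
    ((InfRes.isMultiplicity_iff hmax d e).1
      ((InfRes.isMultiplicity_iff (R := R) (S := R') maximalIdeal_eq_map.symm d e).1 he))
    ((InfRes.isMultiplicity_iff (R := S) (S := S') maximalIdeal_eq_map.symm D e').1 he')

end Vale.Agent.P202.Char
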