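import Vale.Agent.P202.Char.Stage2Main
import Vale.Agent.P202.Char.Stage2Smooth

/-!
P202: assembly of Lech's inequality in characteristic `p` from the finite free case.
-/

namespace Vale.Agent.P202.Char

open IsLocalRing

universe u

/-- Existence, positivity and Lech's inequality for the Hilbert-Samuel multiplicities. -/
theorem lech_charP_of_main (p : ℕ) [Fact p.Prime]
    (main : ∀ (R S : Type u) [CommRing R] [CommRing S] [IsLocalRing R] [IsLocalRing S]
      [IsNoetherianRing R] [IsNoetherianRing S] [Algebra R S] [IsLocalHom (algebraMap R S)]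
      [Module.Finite R S] [Module.Free R S] [CharP R p]
      (d : ℕ) (e e' : ℝ), IsMultiplicity R d e → IsMultiplicity S d e' → e ≤ e')
    (R S : Type u) [CommRing R] [CommRing S] [IsLocalRing R] [IsLocalRing S]
    [IsNoetherianRing R] [IsNoetherianRing S] [Algebra R S] [IsLocalHom (algebraMap R S)]
    [Module.Flat R S] [CharP R p]
    (h : Algebra.EssFiniteType (ResidueField R) (ResidueField S) ∨
      Algebra.FormallySmooth (ResidueField R) (ResidueField S) ∨ PerfectField (ResidueField R)) :
    ∃ (d D : ℕ) (e e' : ℝ), ringKrullDim R = d ∧ ringKrullDim S = D ∧ 0 < e ∧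
      IsMultiplicity R d e ∧ IsMultiplicity S D e' ∧ e ≤ e' := by
  obtain ⟨d, e, hd, he0, he⟩ := exists_multiplicity R
  obtain ⟨D, e', hD, -, he'⟩ := exists_multiplicity S
  refine ⟨d, D, e, e', hd, hD, he0, he, he', ?_⟩
  rcases h with h | h | h
  · exact stage2 p main R S d D hd hD e e' he he'
  · exact stage2_smooth p (stage2 p main) R S d D hd hD e e' he he'
  · have := formallySmooth_of_perfect (ResidueField R) (ResidueField S)
    exact stage2_smooth p (stage2 p main) R S d D hd hD e e' he he'

end Vale.Agent.P202.Char
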