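import Vale.Agent.P202.Char.Coord

/-!
P202, Lech in characteristic `p`: the twisted modules are flat over the polynomials in the `Y`,
the `Y` generate the unit ideal on every chart, and they generate all monomials of high degree.
-/

namespace Vale.Agent.P202.Char

universe u v w

open MvPolynomial Finset

variable {Z : Type u} [CommRing Z] {n : ℕ} {ι : Type w} {L : Type w} (lam : Fin (n + 1) → Z)

theorem LauMem.neg {a : Fin n → ℤ} {ε : Chart n} {m : ℤ} {μ : Lau Z n} (h : LauMem a ε m μ) :
    LauMem a ε m (-μ) := by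
  intro e he
  rw [AddMonoidAlgebra.coeff_neg, Finsupp.support_neg] at he
  exact h e he

theorem LauMem.zero_mul {a : Fin n → ℤ} {ε : Chart n} {m c : ℤ} {μ ν : Lau Z n}
    (hμ : LauMem (fun _ => 0) ε m μ) (hν : LauMem a ε c ν) : LauMem a ε (m + c) (μ * ν) := by
  have := hμ.mul hν
  rwa [show ((fun _ => 0) + a : Fin n → ℤ) = a by ext; simp] at this

theorem LauMem.pow {ε : Chart n} {m : ℤ} {μ : Lau Z n} (h : LauMem (fun _ => 0) ε m μ) :
    ∀ k : ℕ, LauMem (fun _ => 0) ε (k * m) (μ ^ k)
  | 0 => by simpa using lauMem_one (Z := Z) ε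
  | k + 1 => by
    have := (h.pow k).zero_mul h
    rw [pow_succ, show ((k + 1 : ℕ) : ℤ) * m = k * m + m by push_cast; ring]
    exact this

/-- Functions of degree `0` on a chart. -/
def chartRing (Z : Type u) [CommRing Z] (ε : Chart n) : Subring (Lau Z n) where
  carrier := {μ | LauMem (fun _ => 0) ε 0 μ}
  mul_mem' h h' := by simpa using h.zero_mul h'
  one_mem' := lauMem_one ε
  add_mem' h h' := h.add h'
  zero_mem' e he := by simp at he
  neg_mem' h := h.neg

/-- the chart ring is where some `Y` is invertible -/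
theorem exists_unit (hlam : Sep lam) (ε : Chart n) (N : ℕ) :
    ∃ g : Fin (n + 1) → Lau Z n,
      (∀ k, ∀ e ∈ (g k).coeff.support, InBox (fun _ => 0) ε e ∧ e.2 = -(N : ℤ)) ∧
      ∑ k, yImg lam k ^ N * g k = 1 := by
  classical
  set v : Fin n → ℤ := fun j => if ε j = 0 then 1 else 0
  have hui : LauMem (fun _ => 0) ε (-1) (mon (-v) (-1) : Lau Z n) := by
    refine lauMem_single 1 (fun j => ⟨fun h => ?_, fun h => ?_⟩) rfl <;> simp [v, h]
  have hA : ∀ j, LauMem (fun _ => 0) ε 0 (mon (Pi.single j 1 - Pi.single j (v j)) 0 : Lau Z n) := by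
    intro j
    refine lauMem_single 1 (fun l => ?_) rfl
    rcases eq_or_ne l j with rfl | h
    · by_cases h0 : ε l = 0 <;> simp [v, h0]
    · simp [h]
  have hB : ∀ j, LauMem (fun _ => 0) ε 0 (mon (-Pi.single j (v j)) 0 : Lau Z n) := by
    intro j
    refine lauMem_single 1 (fun l => ?_) rfl
    rcases eq_or_ne l j with rfl | h
    · by_cases h0 : ε l = 0 <;> simp [v, h0]
    · simp [h]
  have hC : ∀ r : Z, LauMem (fun _ => 0) ε 0 (algebraMap Z (Lau Z n) r) := fun r => by
    rw [AddMonoidAlgebra.coe_algebraMap]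
    exact lauMem_single _ (inBox_zero_one ε) rfl
  let A : Fin n → chartRing Z ε := fun j => ⟨_, hA j⟩
  let B : Fin n → chartRing Z ε := fun j => ⟨_, hB j⟩
  let Λ : Fin (n + 1) → chartRing Z ε := fun k => ⟨_, hC (lam k)⟩
  set y : Fin (n + 1) → chartRing Z ε := fun k => ∏ j, (A j + Λ k * B j)
  have hval : ∀ k, ((y k : chartRing Z ε) : Lau Z n) = yImg lam k * mon (-v) (-1) := by
    intro k
    have hj : ∀ j, ((A j + Λ k * B j : chartRing Z ε) : Lau Z n) =
        ((mon (Pi.single j 1) 0 : Lau Z n) + algebraMap Z (Lau Z n) (lam k)) *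
          mon (-Pi.single j (v j)) 0 := by
      intro j
      simp only [A, B, Λ, Subring.coe_add, Subring.coe_mul, add_mul, mon_mul, add_zero,
        sub_eq_add_neg]
    have hneg : ∀ j : Fin n, (mon (-Pi.single j (v j)) 0 : Lau Z n) =
        mon (Pi.single j ((-v) j)) 0 := fun j => by simp [Pi.single_neg]
    simp only [y, SubmonoidClass.coe_finsetProd, hj, prod_mul_distrib, hneg, prod_mon_axis,
      yImg, AddMonoidAlgebra.coe_algebraMap, Function.comp_apply, Algebra.algebraMap_self_apply]
    rw [mul_assoc]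
    congr 1
    rw [← mon, mon_mul]
    simp
  have htop : Ideal.span (Set.range y) = ⊤ := by
    by_contra hne
    obtain ⟨P, hP, hle⟩ := Ideal.exists_le_maximal _ hne
    have hpr := hP.isPrime
    have hj : ∀ k, ∃ j, A j + Λ k * B j ∈ P := fun k => by
      obtain ⟨j, -, hj⟩ := hpr.prod_mem_iff.1 (hle (Ideal.subset_span ⟨k, rfl⟩) : y k ∈ P)
      exact ⟨j, hj⟩
    choose f hf using hj
    obtain ⟨k, l, hkl, hfkl⟩ := Fintype.exists_ne_map_eq_of_card_lt f (by simp)
    obtain ⟨u, hu⟩ := hlam k l hkl
    have h1 : (Λ k - Λ l) * B (f k) ∈ P := by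
      have := P.sub_mem (hf k) (hf l)
      rw [← hfkl] at this
      simpa [sub_mul] using this
    have hunit : (⟨_, hC (↑u⁻¹ : Z)⟩ : chartRing Z ε) * (Λ k - Λ l) = 1 := by
      apply Subtype.ext
      change algebraMap Z (Lau Z n) (↑u⁻¹) *
        (algebraMap Z (Lau Z n) (lam k) - algebraMap Z (Lau Z n) (lam l)) = 1
      rw [← map_sub, ← hu, ← map_mul, Units.inv_mul, map_one]
    have hBm : B (f k) ∈ P := by
      have := P.mul_mem_left (⟨_, hC (↑u⁻¹ : Z)⟩ : chartRing Z ε) h1
      rwa [← mul_assoc, hunit, one_mul] at this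
    have hAm : A (f k) ∈ P := by
      have := P.sub_mem (hf k) (P.mul_mem_left (Λ k) hBm)
      simpa using this
    refine hP.ne_top ((Ideal.eq_top_iff_one _).2 ?_)
    by_cases h0 : ε (f k) = 0
    · convert hAm
      apply Subtype.ext
      simp [A, v, h0, mon_zero]
    · convert hBm
      apply Subtype.ext
      simp [B, v, h0, mon_zero]
  have hpow := Ideal.span_pow_eq_top _ htop N
  rw [← Set.range_comp] at hpow
  obtain ⟨c, hc⟩ := Ideal.mem_span_range_iff_exists_fun.1 ((Ideal.eq_top_iff_one _).1 hpow)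
  refine ⟨fun k => mon (-v) (-1) ^ N * (c k : Lau Z n), fun k => ?_, ?_⟩
  · have := (hui.pow N).zero_mul (c k).2
    intro e he
    simpa using this e he
  · have := congrArg (Subtype.val : chartRing Z ε → Lau Z n) hc
    simp only [AddSubmonoidClass.coe_finsetSum, Subring.coe_mul, Function.comp_apply,
      SubmonoidClass.coe_pow, hval, mul_pow, Subring.coe_one] at this
    rw [← this]
    exact sum_congr rfl fun k _ => by ring

/-- all monomials of high degree lie in the ideal of the `Y` -/
theorem poly_generated (hlam : Sep lam) (a : Fin n → ℤ) (ha : ∀ j, 0 ≤ a j) :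
    ∃ m₁ : ℤ, ∀ e : Expo n, InPoly a e → m₁ ≤ e.2 → ∃ g : Fin (n + 1) → Lau Z n,
      (∀ k, ∀ f ∈ (g k).coeff.support, InPoly a f ∧ f.2 = e.2 - 1) ∧
      AddMonoidAlgebra.single e 1 = ∑ k, yImg lam k * g k := by
  classical
  choose g hg hs using fun ε => exists_unit lam hlam ε 1
  set A : ℕ := univ.sup fun ε : Chart n => univ.sup fun k : Fin (n + 1) =>
    (g ε k).coeff.support.sup fun f : Expo n => univ.sup fun j : Fin n => (f.1 j).natAbs
  refine ⟨2 * A + 1, fun e he hm => ?_⟩
  set ε : Chart n := fun j => if (A : ℤ) ≤ e.1 j then 0 else 1 with hε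
  refine ⟨fun k => AddMonoidAlgebra.single e 1 * g ε k, fun k f hf => ?_, ?_⟩
  · obtain ⟨e₁, h1, e₂, h2, rfl⟩ :=
      Finset.mem_add.1 ((AddMonoidAlgebra.support_coeff_mul_subset _ _) hf)
    rw [AddMonoidAlgebra.coeff_single] at h1
    obtain rfl := Finset.mem_singleton.1 (Finsupp.support_single_subset h1)
    obtain ⟨hb, hd⟩ := hg ε k e₂ h2
    refine ⟨fun j => ?_, by simp only [Prod.snd_add, hd]; push_cast; ring⟩
    have hA : (e₂.1 j).natAbs ≤ A :=
      le_trans (le_sup (f := fun j : Fin n => (e₂.1 j).natAbs) (mem_univ j))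
        (le_trans (le_sup (f := fun f : Expo n => univ.sup fun j : Fin n => (f.1 j).natAbs) h2)
          (le_trans (le_sup (f := fun k => (g ε k).coeff.support.sup
              fun f : Expo n => univ.sup fun j : Fin n => (f.1 j).natAbs) (mem_univ k))
            (le_sup (f := fun ε : Chart n => univ.sup fun k => (g ε k).coeff.support.sup
              fun f : Expo n => univ.sup fun j : Fin n => (f.1 j).natAbs) (mem_univ ε))))
    have hj := he j
    have haj := ha j
    obtain ⟨hb1, hb0⟩ := hb j
    simp only [Prod.fst_add, Prod.snd_add, Pi.add_apply, hd]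
    by_cases hA' : (A : ℤ) ≤ e₁.1 j
    · have := hb0 (by simp [hε, hA'])
      push_cast at *
      omega
    · have := hb1 (by simp [hε, hA'])
      push_cast at *
      omega
  · have := hs ε
    simp only [pow_one] at this
    conv_lhs => rw [← mul_one (AddMonoidAlgebra.single e 1 : Lau Z n), ← this, mul_sum]
    exact sum_congr rfl fun k _ => by ring

/-- The component `i`. -/
noncomputable def outComp (i : ι) : Tot Z n ι →ₗ[Z] Lau Z n :=
  open Classical in
  Finsupp.lsum Z fun x : ι × Expo n => LinearMap.toSpanSingleton Z _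
    (if x.1 = i then AddMonoidAlgebra.single x.2 1 else 0)

theorem outComp_inComp [DecidableEq ι] (i j : ι) (μ : Lau Z n) :
    outComp i (inComp j μ) = if j = i then μ else 0 := by
  induction μ using lau_induction with
  | h0 => simp
  | hadd a b ha hb =>
    rw [map_add, map_add, ha, hb]
    split_ifs <;> simp
  | hs e r =>
    rw [map_smul, map_smul, inComp_single, outComp, Finsupp.lsum_single,
      LinearMap.toSpanSingleton_apply, one_smul]
    split_ifs <;> simp

theorem outComp_emb (i : ι) (q : ι →₀ MvPolynomial (Fin (n + 1)) Z) (μ : Lau Z n) :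
    outComp i (emb lam q μ) = rho lam (q i) * μ := by
  classical
  rw [emb, map_finsuppSum, Finsupp.sum]
  simp only [outComp_inComp, sum_ite_eq']
  split_ifs with h
  · rfl
  · simp [Finsupp.notMem_support_iff.1 h]

/-- The part of degree `N`. -/
noncomputable def slicePart (δ : ι → ℤ) (N : ℤ) : Tot Z n ι →ₗ[Z] Tot Z n ι :=
  (Finsupp.supported Z Z {x : ι × Expo n | δ x.1 + x.2.2 = N}).subtype ∘ₗ
    Finsupp.restrictDom Z Z {x : ι × Expo n | δ x.1 + x.2.2 = N}

theorem slicePart_apply (δ : ι → ℤ) (N : ℤ) (x : Tot Z n ι) :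
    slicePart δ N x = x.filter fun y => δ y.1 + y.2.2 = N := by
  classical
  simp [slicePart, Finsupp.restrictDom_apply]

theorem slicePart_eq_self {a : Fin n → ℤ} {ε : Chart n} {δ : ι → ℤ} {N : ℤ} {x : Tot Z n ι}
    (hx : x ∈ freeSlice Z a ε δ N) : slicePart δ N x = x := by
  classical
  rw [slicePart_apply, Finsupp.filter_eq_self_iff]
  exact fun y hy => (hx (Finsupp.mem_support_iff.2 hy)).2

theorem slicePart_push (δ : ι → ℤ) (D : L → ℤ) (p : L → (ι →₀ MvPolynomial (Fin (n + 1)) Z))
    (hp : ∀ l, IsHomog δ (p l) (D l)) (N : ℤ) (x : Tot Z n L) :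
    slicePart δ N (push lam p x) = push lam p (slicePart D N x) := by
  classical
  induction x using Finsupp.induction_linear with
  | zero => simp
  | add a b ha hb => simp [map_add, ha, hb]
  | single y r =>
    obtain ⟨l, e⟩ := y
    have hbox : InBox (fun _ => 0) (fun _ => 2 : Chart n) e := fun j => by simp
    have hm : emb lam (p l) (AddMonoidAlgebra.single e 1) ∈
        freeSlice Z (fun _ => 0) (fun _ => 2) δ (D l + e.2) :=
      emb_mem lam (hp l) (lauMem_single 1 hbox rfl) rfl
    rw [push_single, map_smul]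
    by_cases hN : D l + e.2 = N
    · rw [← hN, slicePart_eq_self hm, slicePart_apply, Finsupp.filter_single_of_pos _ (by simp),
        push_single]
    · rw [slicePart_apply D N, Finsupp.filter_single_of_neg _ (by simpa using hN), map_zero]
      rw [slicePart_apply, show (emb lam (p l) (AddMonoidAlgebra.single e 1)).filter
        (fun y => δ y.1 + y.2.2 = N) = 0 from ?_, smul_zero]
      rw [Finsupp.filter_eq_zero_iff]
      intro y hy
      by_contra hne
      exact hN ((hm (Finsupp.mem_support_iff.2 hne)).2.symm.trans hy)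

theorem rho_box (ε : Chart n) (f : MvPolynomial (Fin (n + 1)) Z) :
    ∀ e ∈ (rho lam f).coeff.support, InBox (fun _ => 0) ε e := by
  classical
  induction f using MvPolynomial.induction_on' with
  | monomial c r =>
    intro e he
    refine (lauMem_rho lam ε (monomial c r) (c.sum fun _ v => (v : ℤ)) (fun c' hc => ?_) e he).1
    obtain rfl := Finset.mem_singleton.1 (support_monomial_subset hc)
    rfl
  | add p q hp hq =>
    intro e he
    rw [map_add, AddMonoidAlgebra.coeff_add] at he
    rcases Finset.mem_union.1 (Finsupp.support_add he) with h | h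
    · exact hp e h
    · exact hq e h

theorem emb_box {a : Fin n → ℤ} {ε : Chart n} (c : ι →₀ MvPolynomial (Fin (n + 1)) Z)
    {e : Expo n} (he : InBox a ε e) :
    ∀ y ∈ (emb lam c (AddMonoidAlgebra.single e 1)).support, InBox a ε y.2 := by
  classical
  intro y hy
  obtain ⟨i, -, hi⟩ := Finset.mem_biUnion.1 (Finsupp.support_sum hy)
  obtain ⟨f, hf, rfl⟩ := Finset.mem_image.1 (Finsupp.mapDomain_support hi)
  obtain ⟨e₁, h1, e₂, h2, rfl⟩ :=
    Finset.mem_add.1 ((AddMonoidAlgebra.support_coeff_mul_subset _ _) hf)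
  rw [AddMonoidAlgebra.coeff_single] at h2
  obtain rfl := Finset.mem_singleton.1 (Finsupp.support_single_subset h2)
  have := (rho_box lam ε (c i) e₁ h1).add he
  rwa [show ((fun _ => 0) + a : Fin n → ℤ) = a by ext; simp] at this

theorem push_range (a : Fin n → ℤ) (δ : ι → ℤ) (D : L → ℤ)
    (p : L → (ι →₀ MvPolynomial (Fin (n + 1)) Z)) (hp : ∀ l, IsHomog δ (p l) (D l))
    (ε : Chart n) (N : ℤ) :
    (freeSlice Z a ε D N).map (push lam p) =
      relSlice lam a ε δ (Submodule.span (MvPolynomial (Fin (n + 1)) Z) (Set.range p)) N := by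
  classical
  refine le_antisymm ?_ ?_
  · rintro _ ⟨x, hx, rfl⟩
    have := push_mem_rel lam (K := (Submodule.span (MvPolynomial (Fin (n + 1)) Z) (Set.range p) :
      Set _)) (fun l => SetLike.mem_coe.2 (Submodule.subset_span (Set.mem_range_self l))) (J := 0) (fun l => by simpa using hp l) hx
    simpa using this
  · rw [relSlice, Submodule.span_le]
    rintro x ⟨q, hq, D', e, hD', he, hN, rfl⟩
    obtain ⟨c, hc⟩ := Finsupp.mem_span_range_iff_exists_finsupp.1 hq
    refine ⟨slicePart D N (emb lam c (AddMonoidAlgebra.single e 1)), ?_, ?_⟩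
    · rw [SetLike.mem_coe, slicePart_apply, freeSlice, Finsupp.mem_supported]
      intro y hy
      rw [Finset.mem_coe, Finsupp.support_filter, Finset.mem_filter] at hy
      exact ⟨emb_box lam c he y hy.1, hy.2⟩
    · rw [← slicePart_push lam δ D p hp, push_emb, hc,
        slicePart_eq_self (emb_mem lam hD' (lauMem_single 1 he rfl) hN)]

/-- flatness, in equational form -/
theorem push_ker (hlam : Sep lam) (a : Fin n → ℤ) (ha : ∀ j, 0 ≤ a j) (δ : ι → ℤ) (D : L → ℤ)
    (p : L → (ι →₀ MvPolynomial (Fin (n + 1)) Z)) (hp : ∀ l, IsHomog δ (p l) (D l))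
    (ε : Chart n) (N : ℤ) (x : Tot Z n L) (hx : x ∈ freeSlice Z a ε D N)
    (h0 : push lam p x = 0) :
    x ∈ relSlice lam a ε D {c | c.sum (fun l f => f • p l) = 0} N := by
  classical
  obtain ⟨bf, hb, hA⟩ := artin_basis n Z
  -- a shift with polynomial exponents whose inverse lies on the chart
  set A : ℕ := x.support.sup fun y => y.2.2.natAbs + univ.sup fun j => (y.2.1 j).natAbs
  set s : Fin n → ℤ := fun j => if ε j = 0 then 2 * (A : ℤ) else if ε j = 1 then 0 else A
  have hsn : LauMem (fun _ => 0) ε (-(2 * (A : ℤ))) (mon (-s) (-(2 * (A : ℤ))) : Lau Z n) := by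
    refine lauMem_single 1 (fun j => ⟨fun h => ?_, fun h => ?_⟩) rfl <;> simp [s, h]
  have hpoly : ∀ y ∈ x.support, InPoly a (y.2 + (s, 2 * (A : ℤ))) := by
    intro y hy j
    have hyA : y.2.2.natAbs + (y.2.1 j).natAbs ≤ A :=
      le_trans (Nat.add_le_add_left (le_sup (f := fun j => (y.2.1 j).natAbs) (mem_univ j)) _)
        (le_sup (f := fun y : L × Expo n =>
          y.2.2.natAbs + univ.sup fun j => (y.2.1 j).natAbs) hy)
    obtain ⟨h1, h0'⟩ := (hx hy).1 j
    have := ha j
    simp only [Prod.fst_add, Prod.snd_add, Pi.add_apply, s]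
    rcases (show ε j = 0 ∨ ε j = 1 ∨ ε j = 2 by omega) with h | h | h
    · have := h0' h
      simp only [h, if_true]
      omega
    · have := h1 h
      simp [h]
      omega
    · simp [h]
      omega
  choose! N₀ hN₀ using fun (k : Fin (n + 1)) (y : L × Expo n) (hy : y ∈ x.support) =>
    span_monomial lam a hlam ha k bf hb hA.2 _ (hpoly y hy)
  set M : ℕ := univ.sup fun k => x.support.sup (N₀ k)
  obtain ⟨g, hg, hsum⟩ := exists_unit lam hlam ε M
  choose! h c hdeg hhom hc using fun (k : Fin (n + 1)) (y : L × Expo n) (hy : y ∈ x.support) =>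
    hN₀ k y hy M (le_trans (le_sup hy) (le_sup (f := fun k => x.support.sup (N₀ k)) (mem_univ k)))
  set T : Fin (n + 1) → Fin n.factorial → (L →₀ MvPolynomial (Fin (n + 1)) Z) := fun k r =>
    ∑ y ∈ x.support, Finsupp.single y.1 (C (x y) * c k y r)
  have hT : ∀ k r, IsHomog D (T k r) (M + N + 2 * A - n) := by
    intro k r l q hq
    simp only [T, Finsupp.finsetSum_apply] at hq
    obtain ⟨y, hy, hqy⟩ := Finset.mem_biUnion.1 (MvPolynomial.support_sum hq)
    rw [Finsupp.single_apply] at hqy
    split_ifs at hqy with hl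
    · subst hl
      have h1 := ((isHomogeneous_C _ (x y)).mul (hhom k y hy r)) (mem_support_iff.1 hqy)
      have h2 := hdeg k y hy
      have h3 := (hx hy).2
      rw [Finsupp.sum_fintype _ _ fun _ => rfl]
      rw [zero_add, Finsupp.weight_apply] at h1
      rw [Finsupp.sum_fintype q _ fun i => by simp] at h1
      simp only [Pi.one_apply, smul_eq_mul, mul_one] at h1
      simp only [Prod.snd_add] at h2
      rw [← Nat.cast_sum, h1]
      linarith
    · simp at hqy
  have hx' : x = ∑ y ∈ x.support, x y • inComp y.1 (AddMonoidAlgebra.single y.2 1 : Lau Z n) := by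
    conv_lhs => rw [← x.sum_single]
    exact Finset.sum_congr rfl fun y _ => by simp [inComp_single]
  have key : ∀ k, lmul (yImg lam k ^ M * mon s (2 * (A : ℤ))) x =
      ∑ r, emb lam (T k r) (beta lam a k (bf r)) := by
    intro k
    conv_lhs => rw [hx']
    rw [map_sum]
    have hT' : ∀ r, emb lam (T k r) (beta lam a k (bf r)) =
        ∑ y ∈ x.support, emb lam (Finsupp.single y.1 (C (x y) * c k y r))
          (beta lam a k (bf r)) := fun r =>
      map_sum (AddMonoidHom.mk' (fun q => emb lam q (beta lam a k (bf r)))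
        fun q q' => emb_add_left lam q q' _) _ _
    simp only [hT', emb_single]
    rw [Finset.sum_comm]
    refine Finset.sum_congr rfl fun y hy => ?_
    rw [map_smul, lmul_inComp, mul_assoc, mon, AddMonoidAlgebra.single_mul_single, one_mul,
      add_comm, hc k y hy, map_sum, Finset.smul_sum]
    refine Finset.sum_congr rfl fun r _ => ?_
    rw [← map_smul, map_mul (rho lam), rho, aeval_C, Algebra.smul_def, mul_assoc]
  have hsyz : ∀ k r, (T k r).sum (fun l f => f • p l) = 0 := by
    intro k
    have h1 : ∑ r, emb lam ((T k r).sum fun l f => f • p l) (beta lam a k (bf r)) = 0 := by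
      rw [← lmul (yImg lam k ^ M * mon s (2 * (A : ℤ))) |>.map_zero, ← h0, ← push_lmul, key,
        map_sum]
      simp [push_emb]
    intro r
    refine Finsupp.ext fun i => ?_
    have h2 := congrArg (outComp (Z := Z) (n := n) i) h1
    simp only [map_sum, outComp_emb, map_zero] at h2
    exact congrFun (beta_indep lam a hlam ha k bf hb hA.1 _ h2) r
  have hexp : x = ∑ k, ∑ r, emb lam (T k r)
      (g k * mon (-s) (-(2 * (A : ℤ))) * beta lam a k (bf r)) := by
    have h1 : ∀ k, ∑ r, emb lam (T k r)
        (g k * mon (-s) (-(2 * (A : ℤ))) * beta lam a k (bf r)) =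
        lmul (yImg lam k ^ M * g k) x := by
      intro k
      simp only [← lmul_emb]
      rw [← map_sum, ← key]
      conv_lhs => rw [hx']
      conv_rhs => rw [hx']
      simp only [map_sum, map_smul, lmul_inComp]
      refine Finset.sum_congr rfl fun y _ => ?_
      congr 2
      have h2 : (mon (-s) (-(2 * (A : ℤ))) : Lau Z n) * mon s (2 * (A : ℤ)) = 1 := by
        rw [mon_mul, neg_add_cancel, neg_add_cancel, mon_zero]
      linear_combination (yImg lam k ^ M * g k * AddMonoidAlgebra.single y.2 1) * h2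
    simp only [h1]
    conv_rhs => rw [hx']
    simp only [map_sum, map_smul, lmul_inComp]
    rw [Finset.sum_comm]
    conv_lhs => rw [hx']
    refine Finset.sum_congr rfl fun y _ => ?_
    rw [← Finset.smul_sum, ← map_sum, ← Finset.sum_mul, hsum, one_mul]
  rw [hexp]
  refine Submodule.sum_mem _ fun k _ => Submodule.sum_mem _ fun r _ => ?_
  refine emb_mem_rel lam (show T k r ∈ {c : L →₀ MvPolynomial (Fin (n + 1)) Z |
    c.sum (fun l f => f • p l) = 0} from hsyz k r) (hT k r) ((LauMem.zero_mul (hg k) hsn).zero_mul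
    (beta_lauMem lam a ha k (bf r) ε)) ?_
  ring

end Vale.Agent.P202.Char
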