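import Vale.Agent.P202.Char.Homotopy

/-!
P202, Lech in characteristic `p`: every cycle of a level is a boundary `(n + 1) * M` levels higher,
by induction over the Cech degree.
-/

namespace Vale.Agent.P202.Char.Tw

universe u

variable {R : Type u} [CommRing R] [IsLocalRing R] {n : ℕ} {P : Tw R n}

/-- Cycles supported in Cech degrees `≥ q` are boundaries, `j` steps before the end. -/
theorem killed_aux {M : ℕ} (hu : P.UInj) (hg : P.YUnit M)
    (hnull : ∀ k, P.Q.IsNullHtpic (P.Z.z k ^ M)) (k : ℤ) :
    ∀ (j q : ℕ), q + j = n + 1 → ∀ c : ℕ → ℤ, (∀ i, c i + (j : ℤ) * M ≤ P.w) →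
      (∀ i, c (i + 1) ≤ c i) → (∀ i, c i - P.J ≤ c (i + 1)) →
      ∀ x ∈ P.lvl0 c ⊓ P.deg0 k, (∀ b ε, chartDeg ε < q → x b ε = 0) → P.D0 x ∈ P.rel0 →
        ∃ y ∈ P.lvl0 (fun i => c i + (j : ℤ) * M) ⊓ P.deg0 (k + 1), x - P.D0 y ∈ P.rel0 := by
  classical
  intro j
  induction j with
  | zero =>
    intro q hq c _ _ _ x _ hlow _
    refine ⟨0, Submodule.zero_mem _, ?_⟩
    have hx0 : x = 0 := funext fun b => funext fun ε => hlow b ε (by
      have h1 : chartDeg ε ≤ n := by
        simpa [chartDeg] using
          Finset.card_filter_le (Finset.univ : Finset (Fin n)) fun j => ε j = 2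
      omega)
    simp [hx0]
  | succ j ih =>
    intro q hq c hw hanti hJ x hx hlow hcyc
    have hjM : (0 : ℤ) ≤ (j : ℤ) * M := by positivity
    have hw1 : ∀ i, c i + (M : ℤ) ≤ P.w := fun i => by
      have := hw i; push_cast at this; rw [add_mul, one_mul] at this; omega
    have hlayer : ∀ ε : Chart n, ∃ y : P.Q.β → Tot R n P.Z.Idx,
        (∀ b, y b ∈ P.comp0 (fun i => c i + M) b ε) ∧
        (∀ b, (chartDeg ε ≠ q ∨ (P.Q.deg b : ℤ) - q ≠ k + 1) → y b = 0) ∧
        (chartDeg ε = q → ∀ b, x b ε -
          (∑ b', if P.Q.deg b' = P.Q.deg b + 1 then push P.lam (P.fam b b') (y b') else 0)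
            ∈ relSlice P.lam P.tw ε P.Z.ideg P.Z.rel (P.slot b)) := by
      intro ε
      by_cases hε : chartDeg ε = q
      · have hc : ∀ b, (∑ b', if P.Q.deg b' = P.Q.deg b + 1 then
            push P.lam (P.fam b b') (x b' ε) else 0) ∈
            relSlice P.lam P.tw ε P.Z.ideg P.Z.rel (P.slot b) := by
          intro b
          have h := hcyc b trivial ε trivial
          rw [SetLike.mem_coe, D0_apply, Pi.add_apply, Finset.sum_apply, Pi.smul_apply] at h
          have hz : cechD R (x b) ε = 0 := by
            rw [cechD_apply]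
            refine Finset.sum_eq_zero fun l hl => ?_
            have hl2 := (Finset.mem_filter.1 hl).2
            have hv : ∀ v : Fin 3, v ≠ 2 → chartDeg (Function.update ε l v) < q := by
              intro v hv
              rw [← hε]
              refine Finset.card_lt_card (Finset.ssubset_iff_subset_ne.2 ⟨?_, ?_⟩)
              · intro i hi
                simp only [Finset.mem_filter, Finset.mem_univ, true_and] at hi ⊢
                by_cases hil : i = l <;> simp_all
              · intro heq
                have : l ∈ Finset.univ.filter fun i => Function.update ε l v i = 2 := by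
                  rw [heq]; simp [hl2]
                simp [hv] at this
            rw [hlow b _ (hv 1 (by decide)), hlow b _ (hv 0 (by decide)), sub_zero, smul_zero]
          rw [hz, smul_zero, add_zero] at h
          simpa [entry_apply] using h
        obtain ⟨y, hy, hy0, hyx⟩ := P.layer hu hg hnull hw1 hanti hJ ε (fun b => x b ε)
          (fun b => hx.1 b trivial ε trivial) hc
        refine ⟨y, hy, fun b hb => ?_, fun _ => hyx⟩
        rcases hb with hb | hb
        · exact absurd hε hb
        · refine hy0 b fun b' hb' => P.mem_deg0_iff.1 hx.2 b' ε ?_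
          rw [hb'] at hb; push_cast at hb; omega
      · exact ⟨0, fun b => Submodule.zero_mem _, fun b _ => rfl, fun h => absurd h hε⟩
    choose y hy hy0 hyx using hlayer
    set Y : P.T0 := fun b ε => y ε b
    have hYl : Y ∈ P.lvl0 (fun i => c i + (M : ℤ)) := fun b _ ε _ => hy ε b
    have hYd : Y ∈ P.deg0 (k + 1) := P.mem_deg0_iff.2 fun b ε hne => hy0 ε b (by
      by_cases h : chartDeg ε = q
      · right; rw [h] at hne; exact hne
      · exact Or.inl h)
    set x1 := x - P.D0 Y
    set x2 : P.T0 := fun b ε => if chartDeg ε ≤ q then 0 else x1 b ε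
    have hx1l : x1 ∈ P.lvl0 (fun i => c i + (M : ℤ)) := Submodule.sub_mem _
      (P.lvl0_mono hw1 (fun i => by omega) hx.1)
      (P.lvl0_map hw1 (fun i => by have := hanti i; omega) (Submodule.mem_map_of_mem hYl))
    have hYd' := P.D0_deg (k + 1) (Submodule.mem_map_of_mem hYd)
    rw [add_sub_cancel_right] at hYd'
    have hx1d : x1 ∈ P.deg0 k := Submodule.sub_mem _ hx.2 hYd'
    have hdiff : x1 - x2 ∈ P.rel0 := by
      intro b _ ε _
      simp only [SetLike.mem_coe, Pi.sub_apply, x2]
      split_ifs with h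
      · rw [sub_zero]
        simp only [x1, Pi.sub_apply, D0_apply, Pi.add_apply, Finset.sum_apply, Pi.smul_apply]
        have hz : cechD R (Y b) ε = 0 := by
          rw [cechD_apply]
          refine Finset.sum_eq_zero fun l hl => ?_
          have hl2 := (Finset.mem_filter.1 hl).2
          have hv : ∀ v : Fin 3, v ≠ 2 → chartDeg (Function.update ε l v) ≠ q := by
            intro v hv
            have hlt : chartDeg (Function.update ε l v) < chartDeg ε := by
              refine Finset.card_lt_card (Finset.ssubset_iff_subset_ne.2 ⟨?_, ?_⟩)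
              · intro i hi
                simp only [Finset.mem_filter, Finset.mem_univ, true_and] at hi ⊢
                by_cases hil : i = l <;> simp_all
              · intro heq
                have : l ∈ Finset.univ.filter fun i => Function.update ε l v i = 2 := by
                  rw [heq]; simp [hl2]
                simp [hv] at this
            omega
          simp only [Y]
          rw [hy0 _ b (Or.inl (hv 1 (by decide))), hy0 _ b (Or.inl (hv 0 (by decide))), sub_zero,
            smul_zero]
        rw [hz, smul_zero, add_zero]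
        rcases lt_or_eq_of_le h with hlt | heq
        · rw [hlow b ε hlt, zero_sub]
          refine Submodule.neg_mem _ (Submodule.sum_mem _ fun b' _ => ?_)
          rw [entry_apply]
          simp [Y, hy0 ε b' (Or.inl hlt.ne)]
        · simpa [entry_apply, Y] using hyx ε heq b
      · rw [sub_self]; exact Submodule.zero_mem _
    have hx2 : x2 ∈ P.lvl0 (fun i => c i + (M : ℤ)) ⊓ P.deg0 k := by
      refine ⟨fun b _ ε _ => ?_, P.mem_deg0_iff.2 fun b ε hne => ?_⟩
      · simp only [SetLike.mem_coe, x2]
        split_ifs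
        · exact Submodule.zero_mem _
        · exact hx1l b trivial ε trivial
      · simp only [x2]
        split_ifs
        · rfl
        · exact P.mem_deg0_iff.1 hx1d b ε hne
    have hsq : P.D0 (P.D0 Y) ∈ P.rel0 :=
      P.D0_sq (P.lvl0_le_free hw1 hYl)
    have hcyc2 : P.D0 x2 ∈ P.rel0 := by
      have h1 : P.D0 x1 ∈ P.rel0 := by rw [map_sub]; exact Submodule.sub_mem _ hcyc hsq
      have h2 := P.rel0_map (Submodule.mem_map_of_mem hdiff)
      rw [map_sub] at h2
      simpa using Submodule.sub_mem _ h1 h2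
    have hw' : ∀ i, c i + (M : ℤ) + (j : ℤ) * M ≤ P.w := fun i => by
      have := hw i; push_cast at this; rw [add_mul, one_mul] at this; omega
    obtain ⟨y', hy', hxy'⟩ := ih (q + 1) (by omega) (fun i => c i + (M : ℤ)) hw'
      (fun i => by have := hanti i; omega) (fun i => by have := hJ i; omega) x2 hx2
      (fun b ε h => by simp only [x2]; rw [if_pos (by omega)]) hcyc2
    have hfun : (fun i => c i + (M : ℤ) + (j : ℤ) * M) =
        fun i => c i + ((j + 1 : ℕ) : ℤ) * M := by funext i; push_cast; ring
    refine ⟨Y + y', ⟨Submodule.add_mem _ ?_ ?_, Submodule.add_mem _ hYd hy'.2⟩, ?_⟩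
    · exact P.lvl0_mono hw (fun i => by push_cast; rw [add_mul, one_mul]; omega) hYl
    · rw [← hfun]; exact hy'.1
    · have := Submodule.add_mem _ hdiff hxy'
      rw [map_add]
      convert this using 1
      simp only [x1]
      abel

theorem cls_eq_zero {x : P.T0} (hx : x ∈ P.free0) : P.cls x hx = 0 ↔ x ∈ P.rel0 := by
  rw [cls, Submodule.Quotient.mk_eq_zero]
  rfl

theorem cls_eq {x y : P.T0} (hx : x ∈ P.free0) (hy : y ∈ P.free0) :
    P.cls x hx = P.cls y hy ↔ x - y ∈ P.rel0 := by
  rw [cls, cls, Submodule.Quotient.eq]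
  rfl

/-- Raising the level by `(n + 1) * M` kills the homology. -/
theorem killed {M : ℕ} (hu : P.UInj) (hg : P.YUnit M)
    (hnull : ∀ k, P.Q.IsNullHtpic (P.Z.z k ^ M)) {c : ℕ → ℤ}
    (hw : ∀ i, c i + ((n + 1 : ℕ) : ℤ) * M ≤ P.w)
    (hanti : ∀ i, c (i + 1) ≤ c i) (hJ : ∀ i, c i - P.J ≤ c (i + 1)) {k : ℤ} {z : P.T}
    (hz : z ∈ P.gc.cyc ⊥ (P.lvl c) k) :
    z ∈ (P.lvl (fun i => c i + ((n + 1 : ℕ) : ℤ) * M) ⊓ P.gc.deg (k + 1)).map P.gc.D := by
  obtain ⟨hz1, hz2⟩ := hz
  rw [lvl_inf_deg] at hz1
  obtain ⟨x, hxf, hx, rfl⟩ := P.mem_img.1 hz1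
  rw [SetLike.mem_coe, Submodule.mem_comap, Submodule.mem_bot, gc_cls, cls_eq_zero] at hz2
  have hcyc : P.D0 x ∈ P.rel0 := hz2
  obtain ⟨y, hy, hxy⟩ := killed_aux hu hg hnull k (n + 1) 0 (by omega) c hw hanti hJ x hx
    (fun b ε h => absurd h (Nat.not_lt_zero _)) hcyc
  have hyf := P.lvl0_le_free hw hy.1
  refine ⟨P.cls y hyf, ?_, ?_⟩
  · rw [lvl_inf_deg]; exact P.mem_img.2 ⟨y, hyf, hy, rfl⟩
  · rw [gc_cls, cls_eq]
    have := Submodule.neg_mem _ hxy
    rw [neg_sub] at this
    exact this

end Vale.Agent.P202.Char.Tw
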