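import Vale.Agent.P202.Char.KoszulChi
import Vale.Agent.P202.Char.Small

/-!
P202, Lech in characteristic `p`: Euler characteristics only depend on the rank after inverting
`z 0`.
-/

namespace Vale.Agent.P202.Char

open IsLocalRing Filter Topology

universe u

variable {R : Type u} [CommRing R] [IsLocalRing R] [IsNoetherianRing R] {d : ℕ}

omit [IsLocalRing R] [IsNoetherianRing R] in
/-- Finiteness for the quotient of a pair. -/
theorem GC.finH_top {T : Type u} [AddCommGroup T] [Module R T] (C : GC R T)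
    {X Y W : Submodule R T} (hXY : X ≤ Y) (hYW : Y ≤ W) {k : ℤ}
    (h1 : C.FinH X W k) (h2 : C.FinH X Y (k - 1)) : C.FinH Y W k := by
  rw [GC.FinH, length_eq_range_add _ _ (C.ker_hConn hXY hYW k)]
  refine WithTop.add_ne_top.2 ⟨ne_top_of_le_ne_top h1 (length_range_le _), ?_⟩
  exact ne_top_of_le_ne_top h2
    (Module.length_le_of_injective _ (Submodule.injective_subtype _))

omit [IsLocalRing R] [IsNoetherianRing R] in
/-- Finiteness passes to the image of a map of coefficient modules. -/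
theorem finH_range (P : MCx R) {F M : Type u} [AddCommGroup F] [AddCommGroup M] [Module R F]
    [Module R M] (φ : F →ₗ[R] M) (hK : ∀ j, (P.gc (LinearMap.ker φ)).FinH ⊥ ⊤ j)
    (hF : ∀ j, (P.gc F).FinH ⊥ ⊤ j) (j : ℤ) :
    (P.gc (LinearMap.range φ)).FinH ⊥ ⊤ j := by
  classical
  set C := P.gc F
  set I := (LinearMap.ker φ).subtype.compLeft P.β
  set G := φ.rangeRestrict.compLeft P.β
  set X := LinearMap.range I with hXdef
  have hdeg : ∀ (N : Type u) [AddCommGroup N] [Module R N] (k : ℤ) (v : P.β → N),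
      v ∈ (P.gc N).deg k ↔ ∀ b, (P.deg b : ℤ) ≠ k → v b = 0 := fun N _ _ k v =>
    mem_pi_deg (fun b => (P.deg b : ℤ)) k v
  have hID : ∀ v, I ((P.gc (LinearMap.ker φ)).D v) = C.D (I v) := fun v => funext fun b => by
    change (LinearMap.ker φ).subtype (P.dlin _ v b) = P.dlin F _ b
    simp [MCx.dlin_apply, I]
  have hGD : ∀ v, G (C.D v) = (P.gc (LinearMap.range φ)).D (G v) := fun v => funext fun b => by
    change φ.rangeRestrict (P.dlin F v b) = P.dlin _ _ b
    simp [MCx.dlin_apply, G]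
  have hX : C.IsSub X := by
    rintro _ ⟨_, ⟨v, rfl⟩, rfl⟩
    exact ⟨_, hID v⟩
  have hGX : ∀ v, G v = 0 ↔ v ∈ X := by
    intro v
    constructor
    · intro h
      exact ⟨fun b => ⟨v b, by simpa [G, Subtype.ext_iff] using congrFun h b⟩, rfl⟩
    · rintro ⟨w, rfl⟩
      funext b
      exact Subtype.ext (w b).2
  have e1 : ∀ k, Module.length R ((P.gc (LinearMap.ker φ)).H ⊥ ⊤ k) =
      Module.length R (C.H ⊥ X (k + 0)) := fun k => by
    refine GC.h_congr _ _ I 1 0 (fun i v _ => ?_) (by simp [GC.IsSub]) (by simp [GC.IsSub])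
      bot_le (by simp [GC.IsSub]) hX bot_le (fun i => ?_) (by simp)
      (by rw [Submodule.map_top]) (fun i => ?_) (fun i => ?_)
    · simp [hID]
    · rintro _ ⟨v, hv, rfl⟩
      rw [add_zero, hdeg]
      intro b hb
      simp [I, (hdeg _ i v).1 hv b hb]
    · rintro _ ⟨⟨v, rfl⟩, hv⟩
      rw [add_zero] at hv
      refine Submodule.mem_sup_left ⟨v, ⟨trivial, (hdeg _ i v).2 fun b hb => ?_⟩, rfl⟩
      exact Subtype.ext ((hdeg _ i _).1 hv b hb)
    · rintro v ⟨-, hv⟩
      rw [Submodule.mem_bot]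
      funext b
      exact Subtype.ext (congrFun ((Submodule.mem_bot R).1 hv) b)
  have e3 : ∀ k, Module.length R (C.H X ⊤ k) =
      Module.length R ((P.gc (LinearMap.range φ)).H ⊥ ⊤ (k + 0)) := fun k => by
    refine GC.h_congr _ _ G 1 0 (fun i v _ => ?_) hX (by simp [GC.IsSub])
      le_top (by simp [GC.IsSub]) (by simp [GC.IsSub]) bot_le (fun i => ?_) ?_
      le_top (fun i => ?_) (fun i => ?_)
    · simp [hGD]
    · rintro _ ⟨v, hv, rfl⟩
      rw [add_zero, hdeg]
      intro b hb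
      simp [G, (hdeg _ i v).1 hv b hb]
    · rintro _ ⟨v, hv, rfl⟩
      exact (Submodule.mem_bot R).2 ((hGX v).2 hv)
    · rintro w ⟨-, hw⟩
      rw [SetLike.mem_coe, hdeg] at hw
      choose u hu using fun b => φ.surjective_rangeRestrict (w b)
      refine Submodule.mem_sup_left
        ⟨fun b => if (P.deg b : ℤ) = i then u b else 0,
          ⟨trivial, (hdeg _ i _).2 fun b hb => if_neg hb⟩, funext fun b => ?_⟩
      by_cases hb : (P.deg b : ℤ) = i <;> simp [G, hb, hu, hw]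
    · rintro v ⟨-, hv⟩
      exact (hGX v).1 ((Submodule.mem_bot R).1 hv)
  have h3 := e3 j
  rw [add_zero] at h3
  rw [GC.FinH, ← h3]
  refine C.finH_top bot_le le_top (hF j) ?_
  have h1 := e1 (j - 1)
  rw [add_zero] at h1
  rw [GC.FinH, ← h1]
  exact hK _

/-- The Euler characteristic of a free module. -/
theorem chi_free (P : MCx R) (hd : ∀ b, P.deg b ≤ d) (hR : ∀ j, (P.gc R).FinH ⊥ ⊤ j)
    (h0 : ∀ (M : Type u) [AddCommGroup M] [Module R M] [Subsingleton M],
      (∀ j, (P.gc M).FinH ⊥ ⊤ j) ∧ (P.gc M).chi (Finset.Icc 0 (d : ℤ)) ⊥ ⊤ = 0) :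
    ∀ N : ℕ, (∀ j, (P.gc (Fin N → R)).FinH ⊥ ⊤ j) ∧
      (P.gc (Fin N → R)).chi (Finset.Icc 0 (d : ℤ)) ⊥ ⊤ =
        (N : ℤ) * (P.gc R).chi (Finset.Icc 0 (d : ℤ)) ⊥ ⊤ := by
  intro N
  induction N with
  | zero =>
    obtain ⟨h1, h2⟩ := h0 (Fin 0 → R)
    exact ⟨h1, by rw [h2]; simp⟩
  | succ N ih =>
    let f : R →ₗ[R] (Fin (N + 1) → R) := LinearMap.single R (fun _ : Fin (N + 1) => R) 0
    let g : (Fin (N + 1) → R) →ₗ[R] (Fin N → R) := LinearMap.funLeft R R Fin.succ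
    have hf : Function.Injective f := Pi.single_injective (M := fun _ : Fin (N + 1) => R) 0
    have hg : Function.Surjective g := fun v => ⟨Fin.cons 0 v, funext fun i => by simp [g]⟩
    have he : Function.Exact f g := by
      intro v
      constructor
      · intro hv
        refine ⟨v 0, funext fun i => ?_⟩
        refine Fin.cases ?_ (fun j => ?_) i
        · simp [f]
        · have := congrFun hv j
          simp [g] at this
          simp [f, Fin.succ_ne_zero, this]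
      · rintro ⟨r, rfl⟩
        funext j
        simp [f, g, Fin.succ_ne_zero]
    obtain ⟨h1, h2⟩ := chi_additive P hd R (Fin (N + 1) → R) (Fin N → R) f g hf hg he hR ih.1
    exact ⟨h1, by rw [h2, ih.2]; push_cast; ring⟩

/-- A map with kernel and cokernel killed by a power of `z 0` keeps the Euler characteristic. -/
theorem chi_of_rank {n : ℕ} (Z : RedData R n) (P : MCx R) (hd : ∀ b, P.deg b ≤ n + 1) (hR : ∀ j, (P.gc R).FinH ⊥ ⊤ j)
    (hsmall : ∀ (M : Type u) [AddCommGroup M] [Module R M] [Module.Finite R M] (L : ℕ),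
      (∀ m : M, Z.z 0 ^ L • m = 0) → (∀ j, (P.gc M).FinH ⊥ ⊤ j) ∧
        (P.gc M).chi (Finset.Icc 0 ((n + 1 : ℕ) : ℤ)) ⊥ ⊤ = 0)
    {M : Type u} [AddCommGroup M] [Module R M] [Module.Finite R M] {N : ℕ}
    (φ : (Fin N → R) →ₗ[R] M) (L : ℕ) (hker : ∀ v, φ v = 0 → Z.z 0 ^ L • v = 0)
    (hcok : ∀ y, Z.z 0 ^ L • y ∈ LinearMap.range φ) :
    (∀ j, (P.gc M).FinH ⊥ ⊤ j) ∧
      (P.gc M).chi (Finset.Icc 0 ((n + 1 : ℕ) : ℤ)) ⊥ ⊤ =
        (N : ℤ) * (P.gc R).chi (Finset.Icc 0 ((n + 1 : ℕ) : ℤ)) ⊥ ⊤ := by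
  have hk : ∀ (M : Type u) [AddCommGroup M] [Module R M] [Module.Finite R M],
      (∀ x : M, Z.z 0 ^ L • x = 0) → (∀ j, (P.gc M).FinH ⊥ ⊤ j) ∧
        (P.gc M).chi (Finset.Icc 0 ((n + 1 : ℕ) : ℤ)) ⊥ ⊤ = 0 :=
    fun M _ _ _ h => hsmall M L h
  obtain ⟨hK1, hK2⟩ := hk (LinearMap.ker φ) fun x => Subtype.ext (hker x.1 x.2)
  obtain ⟨hC1, hC2⟩ := hk (M ⧸ LinearMap.range φ) fun x => by
    obtain ⟨y, rfl⟩ := Submodule.Quotient.mk_surjective _ x
    exact (Submodule.Quotient.mk_eq_zero _).2 (hcok y)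
  obtain ⟨hF1, hF2⟩ := chi_free P hd hR (fun M _ _ _ =>
    hk M fun x => Subsingleton.elim _ _) N
  -- kernel, free module, image
  have hI : (∀ j, (P.gc (LinearMap.range φ)).FinH ⊥ ⊤ j) := by
    intro j
    have := hF1
    exact finH_range P φ hK1 hF1 j
  obtain ⟨-, h1⟩ := chi_additive P hd (LinearMap.ker φ) (Fin N → R) (LinearMap.range φ)
    (LinearMap.ker φ).subtype φ.rangeRestrict Subtype.val_injective φ.surjective_rangeRestrict
    (fun v => by simp [LinearMap.mem_ker, Subtype.ext_iff]) hK1 hI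
  obtain ⟨h2, h3⟩ := chi_additive P hd (LinearMap.range φ) M (M ⧸ LinearMap.range φ)
    (LinearMap.range φ).subtype (Submodule.mkQ _) Subtype.val_injective
    (Submodule.mkQ_surjective _)
    (fun v => by simp) hI hC1
  refine ⟨h2, ?_⟩
  rw [h3, hC2, ← hF2, h1, hK2]
  ring

end Vale.Agent.P202.Char
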