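import Vale.Agent.P202.Char.Cut
import Vale.Agent.P202.Char.Flat

/-!
P202, Lech in characteristic `p`: multiplication by powers of `u` on the slices, injective modulo
the relations, and the subcomplexes `cut`.
-/

namespace Vale.Agent.P202.Char

universe u v w

open IsLocalRing

section Cech

variable {R : Type u} [CommRing R] {n : ℕ} {M : Type v} [AddCommGroup M] [Module R M]

/-- The Cech differential commutes with maps applied chart by chart. -/
theorem cechD_map {M' : Type w} [AddCommGroup M'] [Module R M'] (f : M →ₗ[R] M')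
    (x : Chart n → M) (ε : Chart n) : f (cechD R x ε) = cechD R (fun η => f (x η)) ε := by
  simp [cechD_apply, map_sum]

/-- The Cech differential over a quotient of the base. -/
theorem cechD_tower {K : Type w} [CommRing K] [Algebra R K] [Module K M] [IsScalarTower R K M]
    (x : Chart n → M) : cechD R x = cechD K x := by
  funext ε
  simp only [cechD_apply]
  refine Finset.sum_congr rfl fun j _ => ?_
  rw [← algebraMap_smul K, map_pow, map_neg, map_one]

theorem mem_cechDeg {k : ℤ} {x : Chart n → M} :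
    x ∈ cechDeg R M k ↔ ∀ ε, -(chartDeg ε : ℤ) ≠ k → x ε = 0 := by
  simp only [cechDeg, Submodule.mem_pi, Set.mem_univ, true_implies]
  refine forall_congr' fun ε => ?_
  split_ifs with h <;> simp [h]

theorem cechDeg_eq_bot {k : ℤ} (hk : k ∉ Finset.Icc (-(n : ℤ)) 0) :
    cechDeg (n := n) R M k = ⊥ := by
  refine eq_bot_iff.2 fun x hx => (Submodule.mem_bot R).2 (funext fun ε => ?_)
  refine mem_cechDeg.1 hx ε fun h => hk ?_
  have : chartDeg ε ≤ n := (Finset.card_le_univ _).trans_eq (Fintype.card_fin n)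
  simp only [Finset.mem_Icc]
  omega

end Cech

namespace RedData

variable {R : Type u} [CommRing R] [IsLocalRing R] {n : ℕ} (Z : RedData R n)
  (lam : Fin (n + 1) → R)

variable {Z lam} {a : Fin n → ℤ}

theorem upC_apply (w : ℕ) (x : Chart n → Tot R n Z.Idx) (ε : Chart n) :
    Z.upC lam w x ε = push lam (Z.upBy 1 w) (x ε) := rfl

theorem upC_free {w : ℕ} {N : ℤ} {x : Chart n → Tot R n Z.Idx}
    (hx : x ∈ freeCech R a Z.ideg N) : Z.upC lam w x ∈ freeCech R a Z.ideg (N - w) :=
  fun ε _ => (Z.acts_upBy 1 w).push_free lam (hx ε trivial)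

theorem upC_rel {w : ℕ} {N : ℤ} {x : Chart n → Tot R n Z.Idx}
    (hx : x ∈ relCech lam a Z.ideg Z.rel N) :
    Z.upC lam w x ∈ relCech lam a Z.ideg Z.rel (N - w) :=
  fun ε _ => (Z.acts_upBy 1 w).push_rel lam (hx ε trivial)

theorem upC_cechD (w : ℕ) (x : Chart n → Tot R n Z.Idx) :
    Z.upC lam w (cechD R x) = cechD R (Z.upC lam w x) :=
  funext fun ε => cechD_map (push lam (Z.upBy 1 w)) x ε

theorem compFam_upBy (v w : ℕ) :
    compFam (Z.upBy (1 : R) w) (Z.upBy 1 v) = Z.upBy 1 (v + w) := by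
  funext x
  rw [compFam, upBy, Finsupp.sum_single_index (by simp)]
  simp [upBy, add_assoc]

theorem upC_upC (v w : ℕ) (x : Chart n → Tot R n Z.Idx) :
    Z.upC lam w (Z.upC lam v x) = Z.upC lam (v + w) x :=
  funext fun ε => by rw [upC_apply, upC_apply, upC_apply, push_comp, compFam_upBy]

theorem upC_zero (x : Chart n → Tot R n Z.Idx) : Z.upC lam 0 x = x := by
  funext ε
  rw [upC_apply]
  induction x ε using tot_induction with
  | h0 => simp
  | hadd b c hb hc => rw [map_add, hb, hc]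
  | hs i e r => simp [push_inComp, upBy, emb_single, rho]

/-- One step of injectivity on a chart. -/
theorem push_sat_one (hlam : Sep lam) (ha : ∀ j, 0 ≤ a j) {ε : Chart n} {N : ℤ}
    {y : Tot R n Z.Idx} (hy : y ∈ freeSlice R a ε Z.ideg (N + 1))
    (h : push lam (Z.upBy 1 1) y ∈ relSlice lam a ε Z.ideg Z.rel N) :
    y ∈ relSlice lam a ε Z.ideg Z.rel (N + 1) := by
  classical
  obtain ⟨m, r, g, hg⟩ := Submodule.mem_span_set'.1 h
  choose p hp D e hD he hN hx using fun l => (g l).2
  let P : Z.Idx ⊕ Fin m → (Z.Idx →₀ MvPolynomial (Fin (n + 1)) R) := Sum.elim (Z.upBy 1 1) p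
  let D' : Z.Idx ⊕ Fin m → ℤ := Sum.elim (fun x => Z.ideg x - 1) D
  let Q : Z.Idx ⊕ Fin m → (Z.Idx →₀ MvPolynomial (Fin (n + 1)) R) :=
    Sum.elim (Z.upBy 1 0) fun _ => 0
  let X : Tot R n (Z.Idx ⊕ Fin m) :=
    y.mapDomain (fun x => (Sum.inl x.1, x.2)) -
      ∑ l, Finsupp.single (Sum.inr l, e l) (r l)
  have hPX : ∀ (F : Z.Idx ⊕ Fin m → (Z.Idx →₀ MvPolynomial (Fin (n + 1)) R))
      (z : Tot R n Z.Idx), push lam F (z.mapDomain fun x => (Sum.inl x.1, x.2)) =
        push lam (fun x => F (Sum.inl x)) z := by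
    intro F z
    induction z using Finsupp.induction_linear with
    | zero => simp
    | add b c hb hc => rw [Finsupp.mapDomain_add, map_add, map_add, hb, hc]
    | single x s => obtain ⟨i, f⟩ := x; rw [Finsupp.mapDomain_single, push_single, push_single]
  have hP : ∀ l, IsHomog Z.ideg (P l) (D' l) := by
    rintro (x | l)
    · simpa [P, D', sub_eq_add_neg] using (Z.acts_upBy (1 : R) 1 x).1
    · exact hD l
  have hX : X ∈ freeSlice R a ε D' N := by
    refine Submodule.sub_mem _ ?_ (Submodule.sum_mem _ fun l _ =>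
      Finsupp.single_mem_supported R _ ⟨he l, hN l⟩)
    rw [freeSlice, Finsupp.mem_supported] at hy ⊢
    intro z hz
    obtain ⟨x, hx', rfl⟩ := Finset.mem_image.1 (Finsupp.mapDomain_support hz)
    obtain ⟨hb, hd⟩ := hy hx'
    refine ⟨hb, ?_⟩
    simp only [D', Sum.elim_inl]
    omega
  have h0 : push lam P X = 0 := by
    simp only [X, map_sub, map_sum, push_single, hPX, P, Sum.elim_inl, Sum.elim_inr]
    rw [← hg, sub_eq_zero]
    exact Finset.sum_congr rfl fun l _ => by rw [hx l]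
  have hsyz := push_ker lam hlam a ha Z.ideg D' P hP ε N X hX h0
  have hQX : push lam Q X = y := by
    simp only [X, map_sub, map_sum, push_single, hPX, Q, Sum.elim_inl, Sum.elim_inr,
      emb_zero_left, smul_zero, Finset.sum_const_zero, sub_zero]
    simpa [upC_apply] using congrFun (upC_zero (Z := Z) (lam := lam) fun _ => y) ε
  rw [← hQX]
  refine Char.push_rel lam (fun q hq E hE => ?_) hsyz
  have hQ : ∀ l, IsHomog Z.ideg (Q l) (D' l + 1) := by
    rintro (x | l)
    · simpa [Q, D'] using (Z.acts_upBy (1 : R) 0 x).1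
    · exact isHomog_zero
  have hev : ∀ l, Z.ev (Q l) = Z.ev (P l) := by
    rintro (x | l)
    · simp [Q, P, (Z.acts_upBy (1 : R) 0 x).2, (Z.acts_upBy (1 : R) 1 x).2]
    · simp [Q, P, (hp l).2]
  refine ⟨⟨⟨E + 1, hE.comp hQ⟩, ?_⟩, hE.comp hQ⟩
  have : Z.ev (q.sum fun l f => f • P l) = 0 := by rw [hq, map_zero]
  simpa [map_finsuppSum, ev_smul, hev] using this

/-- `u ^ M` is injective modulo the relations on each chart. -/
theorem push_sat (hlam : Sep lam) (ha : ∀ j, 0 ≤ a j) (ε : Chart n) (N : ℤ) (M : ℕ)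
    (x : Tot R n Z.Idx) (hx : x ∈ freeSlice R a ε Z.ideg N)
    (h : push lam (Z.upBy 1 M) x ∈ relSlice lam a ε Z.ideg Z.rel (N - M)) :
    x ∈ relSlice lam a ε Z.ideg Z.rel N := by
  induction M generalizing x N with
  | zero =>
    have e := congrFun (upC_zero (Z := Z) (lam := lam) fun _ => x) ε
    rw [upC_apply] at e
    simpa [e] using h
  | succ M ih =>
    refine ih N x hx ?_
    have hN : N - ((M + 1 : ℕ) : ℤ) + 1 = N - M := by push_cast; ring
    have h' := push_sat_one hlam ha (N := N - ((M + 1 : ℕ) : ℤ))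
      (y := push lam (Z.upBy 1 M) x) (by rw [hN]; exact (Z.acts_upBy 1 M).push_free lam hx)
      (by rw [push_comp, compFam_upBy]; exact h)
    rwa [hN] at h'

/-- `u` is injective modulo the relations. -/
theorem upC_sat (hlam : Sep lam) (ha : ∀ j, 0 ≤ a j) {w : ℕ} {N : ℤ}
    {x : Chart n → Tot R n Z.Idx} (hx : x ∈ freeCech R a Z.ideg (N + w))
    (h : Z.upC lam w x ∈ relCech lam a Z.ideg Z.rel N) :
    x ∈ relCech lam a Z.ideg Z.rel (N + w) := by
  intro ε _
  refine push_sat hlam ha ε (N + w) w (x ε) (hx ε trivial) ?_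
  rw [add_sub_cancel_right]
  exact h ε trivial

variable (Z lam a)

theorem cut_zero (N : ℤ) : Z.cut lam a 0 N = freeCech R a Z.ideg N := by
  have : Z.upC lam 0 = LinearMap.id := LinearMap.ext upC_zero
  simp [cut, this, relCech_le_free]

theorem cut_le_free (w : ℕ) (N : ℤ) : Z.cut lam a w N ≤ freeCech R a Z.ideg N := by
  refine sup_le (relCech_le_free lam) ?_
  rintro _ ⟨x, hx, rfl⟩
  simpa using upC_free (lam := lam) (w := w) hx

theorem cut_isSub (w : ℕ) (N : ℤ) :
    (cechGC R n (Tot R n Z.Idx)).IsSub (Z.cut lam a w N) := by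
  show (Z.cut lam a w N).map (cechD R) ≤ _
  rw [cut, Submodule.map_sup]
  refine sup_le_sup (cechD_mem_rel lam) ?_
  rintro _ ⟨_, ⟨x, hx, rfl⟩, rfl⟩
  exact ⟨cechD R x, cechD_mem ⟨x, hx, rfl⟩, upC_cechD w x⟩

theorem cut_anti {j w : ℕ} (h : j ≤ w) (N : ℤ) : Z.cut lam a w N ≤ Z.cut lam a j N := by
  refine sup_le le_sup_left ?_
  rintro _ ⟨x, hx, rfl⟩
  refine Submodule.mem_sup_right ⟨Z.upC lam (w - j) x, ?_, ?_⟩
  · have := upC_free (lam := lam) (w := w - j) hx
    rwa [show N + (w : ℤ) - ((w - j : ℕ) : ℤ) = N + j by omega] at this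
  · rw [upC_upC, Nat.sub_add_cancel h]

theorem free_isSub (N : ℤ) :
    (cechGC R n (Tot R n Z.Idx)).IsSub (freeCech R a Z.ideg N) := cechD_mem

end RedData

end Vale.Agent.P202.Char
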