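import Vale.Agent.P202.Char.Acts

/-!
P202, Lech in characteristic `p`: the total complex. For a matrix complex with entries in
`m ^ J`, the basis element of degree `i` carries the Cech complex of the slice `-i * J - w` of the
extended Rees algebra tensored with the twisted product bundle; the entries act in degree `J`.
-/

namespace Vale.Agent.P202.Char

universe u

/-- A subquotient, formed for an abstract module. -/
abbrev SubQ {R : Type*} [CommRing R] {M : Type*} [AddCommGroup M] [Module R M]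
    (A B : Submodule R M) := A ⧸ B.comap A.subtype

/-- Data of a total complex. -/
structure Tw (R : Type u) [CommRing R] [IsLocalRing R] (n : ℕ) where
  Z : RedData R n
  lam : Fin (n + 1) → R
  tw : Fin n → ℤ
  Q : MCx R
  J : ℕ
  w : ℤ
  fam : Q.β → Q.β → Z.Idx → (Z.Idx →₀ MvPolynomial (Fin (n + 1)) R)
  hfam : ∀ b b', Z.Acts (J : ℤ) (Q.D b b') (fam b b')

namespace Tw

variable {R : Type u} [CommRing R] [IsLocalRing R] {n : ℕ} (P : Tw R n)

/-- All cochains. -/
abbrev T0 := P.Q.β → Chart n → Tot R n P.Z.Idx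

/-- The slice carried by `b`. -/
def slot (b : P.Q.β) : ℤ := -((P.Q.deg b : ℤ) * P.J) - P.w

/-- Cochains in the right slices. -/
noncomputable def free0 : Submodule R P.T0 :=
  Submodule.pi Set.univ fun b => freeCech R P.tw P.Z.ideg (P.slot b)

/-- Relations. -/
noncomputable def rel0 : Submodule R P.T0 :=
  Submodule.pi Set.univ fun b => relCech P.lam P.tw P.Z.ideg P.Z.rel (P.slot b)

/-- Total degree `k`. -/
noncomputable def deg0 (k : ℤ) : Submodule R P.T0 :=
  Submodule.pi Set.univ fun b => cechDeg R (Tot R n P.Z.Idx) (k - P.Q.deg b)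

/-- The entry `(b, b')`, chart by chart. -/
noncomputable def entry (b b' : P.Q.β) :
    (Chart n → Tot R n P.Z.Idx) →ₗ[R] (Chart n → Tot R n P.Z.Idx) :=
  if P.Q.deg b' = P.Q.deg b + 1 then
    LinearMap.pi fun ε => push P.lam (P.fam b b') ∘ₗ LinearMap.proj ε
  else 0

/-- The total differential. -/
noncomputable def D0 : P.T0 →ₗ[R] P.T0 :=
  LinearMap.pi fun b => (∑ b', P.entry b b' ∘ₗ LinearMap.proj b') +
    ((-1 : R) ^ P.Q.deg b) • (cechD R ∘ₗ LinearMap.proj b)

theorem D0_apply (x : P.T0) (b : P.Q.β) :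
    P.D0 x b = (∑ b', P.entry b b' (x b')) + ((-1 : R) ^ P.Q.deg b) • cechD R (x b) := by
  simp [D0, LinearMap.pi_apply]

theorem entry_apply (b b' : P.Q.β) (v : Chart n → Tot R n P.Z.Idx) (ε : Chart n) :
    P.entry b b' v ε =
      if P.Q.deg b' = P.Q.deg b + 1 then push P.lam (P.fam b b') (v ε) else 0 := by
  unfold entry
  split_ifs <;> simp

theorem mem_deg0_iff {x : P.T0} {k : ℤ} :
    x ∈ P.deg0 k ↔ ∀ b ε, (P.Q.deg b : ℤ) - chartDeg ε ≠ k → x b ε = 0 := by
  constructor
  · intro h b ε hne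
    have := h b trivial ε trivial
    simp only [SetLike.mem_coe] at this
    rwa [if_neg (by omega), Submodule.mem_bot] at this
  · intro h b _ ε _
    simp only [SetLike.mem_coe]
    split_ifs with hk
    · trivial
    · exact (Submodule.mem_bot R).2 (h b ε (by omega))

theorem slot_step {b b' : P.Q.β} (h : P.Q.deg b' = P.Q.deg b + 1) :
    P.slot b = P.slot b' + (P.J : ℤ) := by
  simp only [slot, h]; push_cast; ring

theorem entry_free {b b' : P.Q.β} {v : Chart n → Tot R n P.Z.Idx}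
    (hv : v ∈ freeCech R P.tw P.Z.ideg (P.slot b')) :
    P.entry b b' v ∈ freeCech R P.tw P.Z.ideg (P.slot b) := by
  intro ε _
  rw [SetLike.mem_coe, entry_apply]
  split_ifs with h
  · rw [P.slot_step h]; exact (P.hfam b b').push_free P.lam (hv ε trivial)
  · exact Submodule.zero_mem _

theorem entry_rel {b b' : P.Q.β} {v : Chart n → Tot R n P.Z.Idx}
    (hv : v ∈ relCech P.lam P.tw P.Z.ideg P.Z.rel (P.slot b')) :
    P.entry b b' v ∈ relCech P.lam P.tw P.Z.ideg P.Z.rel (P.slot b) := by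
  intro ε _
  rw [SetLike.mem_coe, entry_apply]
  split_ifs with h
  · rw [P.slot_step h]; exact (P.hfam b b').push_rel P.lam (hv ε trivial)
  · exact Submodule.zero_mem _

theorem free0_map : P.free0.map P.D0 ≤ P.free0 := by
  rintro _ ⟨x, hx, rfl⟩ b -
  rw [SetLike.mem_coe, D0_apply]
  exact Submodule.add_mem _ (Submodule.sum_mem _ fun b' _ => P.entry_free (hx b' trivial))
    (Submodule.smul_mem _ _ (cechD_mem (Submodule.mem_map_of_mem (hx b trivial))))

theorem rel0_map : P.rel0.map P.D0 ≤ P.rel0 := by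
  rintro _ ⟨x, hx, rfl⟩ b -
  rw [SetLike.mem_coe, D0_apply]
  exact Submodule.add_mem _ (Submodule.sum_mem _ fun b' _ => P.entry_rel (hx b' trivial))
    (Submodule.smul_mem _ _ (cechD_mem_rel P.lam (Submodule.mem_map_of_mem (hx b trivial))))

theorem cechD_entry (b b' : P.Q.β) (v : Chart n → Tot R n P.Z.Idx) :
    cechD R (P.entry b b' v) = P.entry b b' (cechD R v) := by
  funext ε
  simp only [cechD_apply, entry_apply]
  split_ifs with h
  · simp [map_sum, map_smul, map_sub]
  · simp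

/-- Two entries compose to zero modulo relations. -/
theorem entry_sq {x : P.T0} (hx : x ∈ P.free0) (b : P.Q.β) :
    ∑ b', P.entry b b' (∑ b'', P.entry b' b'' (x b'')) ∈
      relCech P.lam P.tw P.Z.ideg P.Z.rel (P.slot b) := by
  classical
  simp only [map_sum]
  rw [Finset.sum_comm]
  refine Submodule.sum_mem _ fun b'' _ ε _ => ?_
  simp only [SetLike.mem_coe, Finset.sum_apply, entry_apply]
  by_cases hd : P.Q.deg b'' = P.Q.deg b + 1 + 1
  · set mid := Finset.univ.filter fun b' => P.Q.deg b' = P.Q.deg b + 1 with hmid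
    rw [← Finset.sum_filter_add_sum_filter_not Finset.univ (fun b' => P.Q.deg b' = P.Q.deg b + 1)]
    refine Submodule.add_mem _ ?_ (Submodule.sum_mem _ fun b' hb' => by
      simp [(Finset.mem_filter.1 hb').2])
    have hterm : ∀ b' ∈ mid,
        (if P.Q.deg b' = P.Q.deg b + 1 then
          push P.lam (P.fam b b')
            (if P.Q.deg b'' = P.Q.deg b' + 1 then push P.lam (P.fam b' b'') (x b'' ε) else 0)
        else 0) = push P.lam (compFam (P.fam b b') (P.fam b' b'')) (x b'' ε) := by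
      intro b' hb'
      have h1 := (Finset.mem_filter.1 hb').2
      rw [if_pos h1, if_pos (by omega), push_comp]
    rw [Finset.sum_congr rfl hterm]
    have hsum : ∀ s : Finset P.Q.β, ∃ f : P.Z.Idx → (P.Z.Idx →₀ MvPolynomial (Fin (n + 1)) R),
        P.Z.Acts ((P.J : ℤ) + P.J) (∑ b' ∈ s, P.Q.D b b' * P.Q.D b' b'') f ∧
        ∑ b' ∈ s, push P.lam (compFam (P.fam b b') (P.fam b' b'')) (x b'' ε) =
          push P.lam f (x b'' ε) := by
      intro s
      induction s using Finset.induction_on with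
      | empty => exact ⟨0, by simpa using RedData.acts_zero _, by simp [RedData.push_zero']⟩
      | insert b' s hb' ih =>
        obtain ⟨f, hf, hfx⟩ := ih
        refine ⟨compFam (P.fam b b') (P.fam b' b'') + f, ?_, ?_⟩
        · rw [Finset.sum_insert hb']
          exact ((P.hfam b b').comp (P.hfam b' b'')).add hf
        · rw [Finset.sum_insert hb', hfx]
          generalize compFam (P.fam b b') (P.fam b' b'') = g
          have := push_sub P.lam (g + f) f (x b'' ε)
          rw [add_sub_cancel_right] at this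
          rw [this]; abel
    obtain ⟨f, hf, hfx⟩ := hsum mid
    rw [hfx]
    have hz : ∑ b' ∈ mid, P.Q.D b b' * P.Q.D b' b'' = 0 := by
      rw [hmid, Finset.sum_filter_of_ne fun b' _ hne => ?_]
      · have := congrFun (congrFun P.Q.sq b) b''
        simpa [Matrix.mul_apply] using this
      · exact P.Q.homog b b' fun h0 => hne (by rw [h0, zero_mul])
    rw [hz] at hf
    have hslot : P.slot b = P.slot b'' + ((P.J : ℤ) + P.J) := by
      simp only [slot, hd]; push_cast; ring
    rw [hslot]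
    have := hf.push_congr P.lam (RedData.acts_zero _) (hx b'' trivial ε trivial)
    rwa [RedData.push_zero', sub_zero] at this
  · refine Submodule.sum_mem _ fun b' _ => ?_
    by_cases h1 : P.Q.deg b' = P.Q.deg b + 1
    · simp [h1, show ¬ P.Q.deg b'' = P.Q.deg b + 1 + 1 from hd]
    · simp [h1]

theorem D0_sq {x : P.T0} (hx : x ∈ P.free0) : P.D0 (P.D0 x) ∈ P.rel0 := by
  intro b _
  rw [SetLike.mem_coe, D0_apply]
  simp only [D0_apply, map_add, map_smul, map_sum, Finset.sum_add_distrib, smul_add,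
    Finset.smul_sum]
  have h1 := P.entry_sq hx b
  simp only [map_sum] at h1
  have h2 : cechD R (cechD R (x b)) = 0 := LinearMap.congr_fun cechD_sq (x b)
  have h3 : ∀ b', ((-1 : R) ^ P.Q.deg b') • P.entry b b' (cechD R (x b')) +
      ((-1 : R) ^ P.Q.deg b) • cechD R (P.entry b b' (x b')) = 0 := by
    intro b'
    rw [cechD_entry]
    by_cases hd : P.Q.deg b' = P.Q.deg b + 1
    · rw [hd, pow_succ, ← add_smul]
      convert zero_smul R _ using 2
      ring
    · simp [entry, hd]
  rw [h2, smul_zero, smul_zero, add_zero, add_assoc, ← Finset.sum_add_distrib,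
    Finset.sum_eq_zero fun b' _ => h3 b', add_zero]
  exact h1

theorem D0_deg (k : ℤ) : (P.deg0 k).map P.D0 ≤ P.deg0 (k - 1) := by
  rintro _ ⟨x, hx, rfl⟩
  rw [mem_deg0_iff]
  intro b ε hne
  rw [D0_apply]
  have hx' := mem_deg0_iff (P := P) |>.1 hx
  have hc : cechD R (x b) ε = 0 := by
    rw [cechD_apply]
    refine Finset.sum_eq_zero fun j hj => ?_
    have hj2 := (Finset.mem_filter.1 hj).2
    have : ∀ v : Fin 3, v ≠ 2 → chartDeg (Function.update ε j v) + 1 = chartDeg ε := by
      intro v hv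
      simp only [chartDeg]
      rw [show (Finset.univ.filter fun l => Function.update ε j v l = 2) =
        (Finset.univ.filter fun l => ε l = 2).erase j by
          ext l
          by_cases hl : l = j
          · subst hl; simp [hv]
          · simp [hl]]
      exact Finset.card_erase_add_one (by simp [hj2])
    have e1 := this 1 (by decide)
    have e0 := this 0 (by decide)
    rw [hx' b _ (by omega), hx' b _ (by omega), sub_zero, smul_zero]
  simp only [Pi.add_apply, Finset.sum_apply, Pi.smul_apply, hc, smul_zero, add_zero]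
  refine Finset.sum_eq_zero fun b' _ => ?_
  rw [entry_apply]
  split_ifs with h
  · rw [hx' b' ε (by omega), map_zero]
  · rfl

/-- The total module: cochains modulo relations. -/
abbrev T : Type u := SubQ P.free0 P.rel0

theorem T_D_aux : P.rel0.comap P.free0.subtype ≤
    (P.rel0.comap P.free0.subtype).comap
      (P.D0.restrict fun _ hx => P.free0_map (Submodule.mem_map_of_mem hx)) :=
  fun _ hx => P.rel0_map (Submodule.mem_map_of_mem hx)

/-- The class of a cochain. -/
noncomputable def cls (x : P.T0) (hx : x ∈ P.free0) : P.T := Submodule.Quotient.mk ⟨x, hx⟩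

/-- The classes of the cochains of `A` in the right slices. -/
noncomputable def img (A : Submodule R P.T0) : Submodule R P.T :=
  (A.comap P.free0.subtype).map (Submodule.mkQ _)

theorem mem_img {A : Submodule R P.T0} {y : P.T} :
    y ∈ P.img A ↔ ∃ x, ∃ hx : x ∈ P.free0, x ∈ A ∧ P.cls x hx = y := by
  constructor
  · rintro ⟨⟨x, hx⟩, hA, rfl⟩; exact ⟨x, hx, hA, rfl⟩
  · rintro ⟨x, hx, hA, rfl⟩; exact ⟨⟨x, hx⟩, hA, rfl⟩

/-- The total complex. -/
noncomputable def gc : GC R P.T where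
  D := Submodule.mapQ _ _ (P.D0.restrict fun _ hx => P.free0_map (Submodule.mem_map_of_mem hx))
    P.T_D_aux
  deg k := P.img (P.deg0 k)
  sq := by
    refine Submodule.linearMap_qext _ (LinearMap.ext fun x => ?_)
    simp only [LinearMap.comp_apply, Submodule.mkQ_apply, Submodule.mapQ_apply,
      LinearMap.zero_apply]
    rw [Submodule.Quotient.mk_eq_zero]
    exact P.D0_sq x.2
  map_deg k := by
    rintro _ ⟨_, ⟨x, hx, rfl⟩, rfl⟩
    exact ⟨_, P.D0_deg k (Submodule.mem_map_of_mem (f := P.D0)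
      (show (x : P.T0) ∈ P.deg0 k from hx)), rfl⟩

theorem gc_cls {x : P.T0} (hx : x ∈ P.free0) :
    P.gc.D (P.cls x hx) = P.cls (P.D0 x) (P.free0_map (Submodule.mem_map_of_mem hx)) := rfl

/-- The image of the slice of level `c` in the component `(b, ε)`. -/
noncomputable def comp0 (c : ℕ → ℤ) (b : P.Q.β) (ε : Chart n) :
    Submodule R (Tot R n P.Z.Idx) :=
  (freeSlice R P.tw ε P.Z.ideg (-((P.Q.deg b : ℤ) * P.J) - c (P.Q.deg b))).map
      (push P.lam (P.Z.upBy 1 (P.w - c (P.Q.deg b)).toNat)) ⊔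
    relSlice P.lam P.tw ε P.Z.ideg P.Z.rel (P.slot b)

/-- Cochains of level `c`, with the relations. -/
noncomputable def lvl0 (c : ℕ → ℤ) : Submodule R P.T0 :=
  Submodule.pi Set.univ fun b => Submodule.pi Set.univ fun ε => P.comp0 c b ε

/-- The subcomplex of level `c`. -/
noncomputable def lvl (c : ℕ → ℤ) : Submodule R P.T := P.img (P.lvl0 c)

theorem push_up_mem {c : ℤ} (hc : c ≤ P.w) {b : P.Q.β} {ε : Chart n} {x : Tot R n P.Z.Idx}
    (hx : x ∈ freeSlice R P.tw ε P.Z.ideg (-((P.Q.deg b : ℤ) * P.J) - c)) :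
    push P.lam (P.Z.upBy 1 (P.w - c).toNat) x ∈ freeSlice R P.tw ε P.Z.ideg (P.slot b) := by
  have := (RedData.acts_upBy P.Z 1 (P.w - c).toNat).push_free P.lam hx
  rwa [show -((P.Q.deg b : ℤ) * P.J) - c + -(((P.w - c).toNat : ℕ) : ℤ) = P.slot b by
    simp only [slot]; omega] at this

theorem comp0_le_free {c : ℕ → ℤ} (hc : ∀ i, c i ≤ P.w) (b : P.Q.β) (ε : Chart n) :
    P.comp0 c b ε ≤ freeSlice R P.tw ε P.Z.ideg (P.slot b) := by
  refine sup_le ?_ (relSlice_le_free P.lam _ _ _ _ _)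
  rintro _ ⟨x, hx, rfl⟩
  exact P.push_up_mem (hc _) hx

theorem lvl0_le_free {c : ℕ → ℤ} (hc : ∀ i, c i ≤ P.w) : P.lvl0 c ≤ P.free0 :=
  fun _ hx b _ ε _ => P.comp0_le_free hc b ε (hx b trivial ε trivial)

theorem comp0_mono {a a' : ℕ → ℤ} (ha : ∀ i, a' i ≤ P.w) (h : ∀ i, a i ≤ a' i) (b : P.Q.β)
    (ε : Chart n) : P.comp0 a b ε ≤ P.comp0 a' b ε := by
  refine sup_le ?_ le_sup_right
  rintro _ ⟨x, hx, rfl⟩
  set i := P.Q.deg b
  set d := (a' i - a i).toNat
  have hd : (d : ℤ) = a' i - a i := by have := h i; omega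
  have hy := (RedData.acts_upBy P.Z 1 d).push_free P.lam hx
  rw [show -((i : ℤ) * P.J) - a i + -(d : ℤ) = -((i : ℤ) * P.J) - a' i by omega] at hy
  have hcmp := (RedData.acts_upBy P.Z 1 (P.w - a' i).toNat).comp (RedData.acts_upBy P.Z 1 d)
  rw [one_mul, show -(((P.w - a' i).toNat : ℕ) : ℤ) + -(d : ℤ) =
    -(((P.w - a i).toNat : ℕ) : ℤ) by have := ha i; have := h i; omega] at hcmp
  have hdiff := (RedData.acts_upBy P.Z 1 (P.w - a i).toNat).push_congr P.lam hcmp hx
  rw [← push_comp, show -((i : ℤ) * P.J) - a i + -(((P.w - a i).toNat : ℕ) : ℤ) = P.slot b by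
    have := ha i; have := h i; simp only [slot, show P.Q.deg b = i from rfl]; omega] at hdiff
  exact Submodule.mem_sup.2 ⟨_, Submodule.mem_map_of_mem hy, _, hdiff, by abel⟩

theorem lvl0_mono {a a' : ℕ → ℤ} (ha : ∀ i, a' i ≤ P.w) (h : ∀ i, a i ≤ a' i) :
    P.lvl0 a ≤ P.lvl0 a' :=
  fun _ hx b _ ε _ => P.comp0_mono ha h b ε (hx b trivial ε trivial)

/-- An entry maps the level of its source into the level of its target. -/
theorem entry_comp0 {c : ℕ → ℤ} (hc : ∀ i, c i ≤ P.w) (hanti : ∀ i, c (i + 1) ≤ c i)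
    {b b' : P.Q.β} {ε : Chart n} (h : P.Q.deg b' = P.Q.deg b + 1) {x : Tot R n P.Z.Idx}
    (hx : x ∈ P.comp0 c b' ε) : push P.lam (P.fam b b') x ∈ P.comp0 c b ε := by
  obtain ⟨_, ⟨y, hy, rfl⟩, r, hr, rfl⟩ := Submodule.mem_sup.1 hx
  rw [map_add]
  refine Submodule.add_mem _ ?_ (Submodule.mem_sup_right ?_)
  · set i := P.Q.deg b
    rw [h] at hy ⊢
    refine P.comp0_mono (a := fun l => if l = i then c (i + 1) else c l) hc
      (fun l => by split_ifs with hl <;> [exact hl ▸ hanti i; exact le_rfl]) b ε ?_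
    have h1 := (P.hfam b b').push_free P.lam hy
    rw [show -(((i + 1 : ℕ) : ℤ) * P.J) - c (i + 1) + (P.J : ℤ) =
      -((i : ℤ) * P.J) - c (i + 1) by push_cast; ring] at h1
    have hA := (P.hfam b b').comp (RedData.acts_upBy P.Z 1 (P.w - c (i + 1)).toNat)
    have hB := (RedData.acts_upBy P.Z 1 (P.w - c (i + 1)).toNat).comp (P.hfam b b')
    rw [mul_one] at hA
    rw [one_mul, add_comm] at hB
    have hdiff := hA.push_congr P.lam hB hy
    rw [← push_comp, ← push_comp,
      show -(((i + 1 : ℕ) : ℤ) * P.J) - c (i + 1) +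
        ((P.J : ℤ) + -(((P.w - c (i + 1)).toNat : ℕ) : ℤ)) = P.slot b by
        simp only [slot]; have := hc (i + 1); push_cast; rw [show P.Q.deg b = i from rfl]; grind]
      at hdiff
    refine Submodule.mem_sup.2 ⟨_, Submodule.mem_map_of_mem (r := push P.lam (P.fam b b') y) ?_,
      _, hdiff, ?_⟩
    · simpa [show P.Q.deg b = i from rfl] using h1
    · simp only [show P.Q.deg b = i from rfl, if_pos]
      abel
  · rw [P.slot_step h]
    exact (P.hfam b b').push_rel P.lam hr

theorem comp0_chart {c : ℕ → ℤ} (b : P.Q.β) {ε η : Chart n}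
    (h : ∀ j, η j = 2 ∨ η j = ε j) : P.comp0 c b ε ≤ P.comp0 c b η :=
  sup_le_sup (Submodule.map_mono (freeSlice_mono h _ _)) (relSlice_mono P.lam h _ _ _)

theorem lvl0_map {c : ℕ → ℤ} (hc : ∀ i, c i ≤ P.w) (hanti : ∀ i, c (i + 1) ≤ c i) :
    (P.lvl0 c).map P.D0 ≤ P.lvl0 c := by
  rintro _ ⟨x, hx, rfl⟩ b - ε -
  rw [SetLike.mem_coe, D0_apply, Pi.add_apply, Finset.sum_apply, Pi.smul_apply, cechD_apply]
  refine Submodule.add_mem _ (Submodule.sum_mem _ fun b' _ => ?_)
    (Submodule.smul_mem _ _ (Submodule.sum_mem _ fun j hj => ?_))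
  · rw [entry_apply]
    split_ifs with h
    · exact P.entry_comp0 hc hanti h (hx b' trivial ε trivial)
    · exact Submodule.zero_mem _
  · refine Submodule.smul_mem _ _ (Submodule.sub_mem _ ?_ ?_) <;>
      refine P.comp0_chart b (fun l => ?_) (hx b trivial _ trivial) <;>
      by_cases hl : l = j <;> simp_all

theorem isSub_lvl {c : ℕ → ℤ} (hc : ∀ i, c i ≤ P.w) (hanti : ∀ i, c (i + 1) ≤ c i) :
    P.gc.IsSub (P.lvl c) := by
  rintro _ ⟨y, hy, rfl⟩
  obtain ⟨x, hx, hA, rfl⟩ := P.mem_img.1 hy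
  rw [gc_cls]
  exact P.mem_img.2 ⟨_, _, P.lvl0_map hc hanti (Submodule.mem_map_of_mem hA), rfl⟩

theorem lvl_mono {a a' : ℕ → ℤ} (ha : ∀ i, a' i ≤ P.w) (h : ∀ i, a i ≤ a' i) :
    P.lvl a ≤ P.lvl a' :=
  Submodule.map_mono (Submodule.comap_mono (P.lvl0_mono ha h))

theorem img_inf_deg {A : Submodule R P.T0}
    (hA : ∀ x ∈ A, ∀ k, ∀ y : P.T0,
      (∀ b ε, y b ε = if (P.Q.deg b : ℤ) - chartDeg ε = k then x b ε else 0) → y ∈ A) (k : ℤ) :
    P.img A ⊓ P.gc.deg k = P.img (A ⊓ P.deg0 k) := by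
  classical
  refine le_antisymm ?_ (le_inf (Submodule.map_mono (Submodule.comap_mono inf_le_left))
    (Submodule.map_mono (Submodule.comap_mono inf_le_right)))
  rintro y ⟨h1, h2⟩
  obtain ⟨x, hx, hxA, rfl⟩ := P.mem_img.1 h1
  obtain ⟨v, hv, hvk, he⟩ := P.mem_img.1 h2
  set x' : P.T0 := fun b ε => if (P.Q.deg b : ℤ) - chartDeg ε = k then x b ε else 0
  have hx' : x' ∈ P.free0 := fun b _ ε _ => by
    simp only [SetLike.mem_coe, x']
    split_ifs
    · exact hx b trivial ε trivial
    · exact Submodule.zero_mem _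
  refine P.mem_img.2 ⟨x', hx', ⟨hA x hxA k x' fun b ε => rfl,
    P.mem_deg0_iff.2 fun b ε hne => if_neg hne⟩, ?_⟩
  rw [cls, cls, Submodule.Quotient.eq]
  have he' := (Submodule.Quotient.eq _).1 he
  intro b _ ε _
  have hrel := he' b trivial ε trivial
  simp only [Submodule.coe_subtype, AddSubgroupClass.coe_sub, Pi.sub_apply,
    SetLike.mem_coe, x'] at hrel ⊢
  split_ifs with hk
  · rw [sub_self]; exact Submodule.zero_mem _
  · rw [P.mem_deg0_iff.1 hvk b ε hk] at hrel
    exact hrel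

theorem lvl_filter (c : ℕ → ℤ) : ∀ x ∈ P.lvl0 c, ∀ k, ∀ y : P.T0,
    (∀ b ε, y b ε = if (P.Q.deg b : ℤ) - chartDeg ε = k then x b ε else 0) → y ∈ P.lvl0 c := by
  intro x hx k y hy b _ ε _
  rw [SetLike.mem_coe, hy]
  split_ifs
  · exact hx b trivial ε trivial
  · exact Submodule.zero_mem _

theorem lvl_inf_deg (c : ℕ → ℤ) (k : ℤ) :
    P.lvl c ⊓ P.gc.deg k = P.img (P.lvl0 c ⊓ P.deg0 k) :=
  P.img_inf_deg (P.lvl_filter c) k

theorem deg_eq_bot {d : ℕ} (hd : ∀ b, P.Q.deg b ≤ d) {k : ℤ}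
    (hk : k ∉ Finset.Icc (-(n : ℤ)) (d : ℤ)) : P.gc.deg k = ⊥ := by
  rw [eq_bot_iff]
  intro y hy
  obtain ⟨x, hx, hk', rfl⟩ := P.mem_img.1 hy
  have : x = 0 := funext fun b => funext fun ε => P.mem_deg0_iff.1 hk' b ε fun h => hk (by
    have h1 : chartDeg ε ≤ n := by
      simpa [chartDeg] using Finset.card_filter_le (Finset.univ : Finset (Fin n)) fun j => ε j = 2
    have h2 := hd b
    rw [Finset.mem_Icc]; omega)
  subst this
  rw [Submodule.mem_bot]
  exact (Submodule.Quotient.mk_eq_zero _).2 (Submodule.zero_mem _)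

end Tw

end Vale.Agent.P202.Char
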