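import Vale.Agent.P202.Char.Cut
import Vale.Agent.P202.Char.Total

/-!
P202, Lech in characteristic `p`: the twists `a^(kk) = (l * J : l ≠ kk)`, the flat level, and the
cohomology of one column in degree zero.
-/

namespace Vale.Agent.P202.Char

open IsLocalRing

universe u

variable {n : ℕ}

/-- The multiples `l * J` of `J` with `1 ≤ l ≤ n + 1`, `l` different from `kk + 1`. -/
def stdTw (kk : Fin (n + 1)) (J : ℕ) : Fin n → ℤ :=
  fun j => ((((kk.succAbove j : ℕ) + 1) * J : ℕ) : ℤ)

theorem stdTw_nonneg (kk : Fin (n + 1)) (J : ℕ) (j : Fin n) : 0 ≤ stdTw kk J j :=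
  Int.natCast_nonneg _

namespace RedData

variable {R : Type u} [CommRing R] [IsLocalRing R] (Z : RedData R n) (lam : Fin (n + 1) → R)

/-- The Cech cohomology of the slice of degree `0`, in homological degree `k`. -/
abbrev colH (a : Fin n → ℤ) (k : ℤ) :=
  (cechGC R n (Tot R n Z.Idx)).H (relCech lam a Z.ideg Z.rel 0) (freeCech R a Z.ideg 0) k

/-- Length of the cohomology of the associated graded ring, slice `N`, homological degree `k`. -/
noncomputable abbrev grh (a : Fin n → ℤ) (N k : ℤ) : ℕ :=
  (cechGC (ResidueField R) n (Tot (ResidueField R) n Z.ι)).h (Z.grSub lam a N) (Z.grFree a N) k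

/-- Finiteness of the cohomology of the associated graded ring. -/
abbrev grFin (a : Fin n → ℤ) (N k : ℤ) : Prop :=
  (cechGC (ResidueField R) n (Tot (ResidueField R) n Z.ι)).FinH (Z.grSub lam a N) (Z.grFree a N) k

/-- Euler characteristic of the associated graded ring in the slice `N`. -/
noncomputable abbrev grchi (a : Fin n → ℤ) (N : ℤ) : ℤ :=
  (cechGC (ResidueField R) n (Tot (ResidueField R) n Z.ι)).chi (Finset.Icc (-(n : ℤ)) 0)
    (Z.grSub lam a N) (Z.grFree a N)

end RedData

/-- The level at which every column carries the slice of degree `0`. -/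
def Tw.flat {R : Type u} [CommRing R] [IsLocalRing R] (P : Tw R n) : ℕ → ℤ :=
  fun i => -((i : ℤ) * P.J)

end Vale.Agent.P202.Char
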