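import Vale.Agent.P202.Char.SheafFinite
import Vale.Agent.P202.Char.Sat
import Vale.Agent.P202.Char.Twist

/-!
P202, Lech in characteristic `p`: after inverting `z 0` the slice of degree zero has `n!`
independent sections (`sections_rank`).
-/

namespace Vale.Agent.P202.Char

open IsLocalRing

universe u

namespace SectAlt

variable {n : ℕ}

/-- Shift of exponents towards the vertex chart `ε`. -/
def vsh (ε : Chart n) (K : ℕ) : Expo n := (fun j => if ε j = 0 then (K : ℤ) else 0, (K : ℤ))

/-- Chart with both variables inverted where `ε` and `η` differ. -/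
def jn (ε η : Chart n) : Chart n := fun j => if ε j = η j then ε j else 2

/-- Vertex chart. -/
def IsV (ε : Chart n) : Prop := ∀ j, ε j ≠ 2

theorem isV_iff {ε : Chart n} : IsV ε ↔ chartDeg ε = 0 := by
  simp [IsV, chartDeg, Finset.card_eq_zero, Finset.filter_eq_empty_iff]

theorem box_shift {a : Fin n → ℤ} (ha : ∀ j, 0 ≤ a j) {ε η ρ : Chart n}
    (h1 : ∀ j, η j = 1 → ε j ≠ 0 → ρ j = 1) (h0 : ∀ j, η j = 0 → ε j = 0 → ρ j = 0)
    {e : Expo n} (he : InBox a ρ e) {K : ℕ} (hK : e.2.natAbs + (∑ j, (e.1 j).natAbs) ≤ K) :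
    InBox a η (vsh ε K + e) := by
  intro j
  have hj : (e.1 j).natAbs ≤ ∑ j, (e.1 j).natAbs :=
    Finset.single_le_sum (f := fun j => (e.1 j).natAbs) (fun _ _ => Nat.zero_le _)
      (Finset.mem_univ j)
  have := ha j
  obtain ⟨b1, b0⟩ := he j
  simp only [vsh, Prod.fst_add, Prod.snd_add, Pi.add_apply]
  constructor
  · intro hη
    by_cases hε : ε j = 0
    · simp only [hε, if_true]; omega
    · have := b1 (h1 j hη hε)
      simp only [hε, if_false]; omega
  · intro hη
    by_cases hε : ε j = 0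
    · have := b0 (h0 j hη hε)
      simp only [hε, if_true]; omega
    · simp only [hε, if_false]; omega

theorem self_h1 {ε : Chart n} (hε : IsV ε) (η : Chart n) :
    ∀ j, η j = 1 → ε j ≠ 0 → ε j = 1 := by
  intro j _ h; have := hε j; omega

variable {R : Type u} [CommRing R] {ι : Type} (lam : Fin (n + 1) → R)

/-- Multiplication by the monomial of exponent `e`. -/
noncomputable abbrev shiftBy (e : Expo n) : Tot R n ι →ₗ[R] Tot R n ι :=
  lmul (AddMonoidAlgebra.single e 1)

theorem shiftBy_emb (e f : Expo n) (p : ι →₀ MvPolynomial (Fin (n + 1)) R) :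
    shiftBy e (emb lam p (AddMonoidAlgebra.single f 1)) =
      emb lam p (AddMonoidAlgebra.single (e + f) 1) := by
  rw [shiftBy, lmul_emb, AddMonoidAlgebra.single_mul_single, one_mul]

theorem shiftBy_single (e f : Expo n) (i : ι) (r : R) :
    shiftBy e (Finsupp.single (i, f) r) = Finsupp.single (i, e + f) r := by
  rw [← inComp_single, shiftBy, lmul_inComp, AddMonoidAlgebra.single_mul_single, one_mul,
    inComp_single]

/-- A monomial decomposes through the vertex chart it is deep in. -/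
theorem exists_split {e : Expo n} {L K : ℕ} (he : InPoly (fun _ => 0) e) (hL : e.2 = L)
    (hK : 2 * K ≤ L) : ∃ (ε : Chart n) (e' : Expo n), IsV ε ∧ InPoly (fun _ => 0) e' ∧
      e'.2 = (L : ℤ) - K ∧ e = e' + vsh ε K := by
  refine ⟨fun j => if (K : ℤ) ≤ e.1 j then 0 else 1,
    (fun j => if (K : ℤ) ≤ e.1 j then e.1 j - K else e.1 j, (L : ℤ) - K),
    fun j => ?_, fun j => ?_, rfl, ?_⟩
  · simp only; split_ifs <;> decide
  · have h1 : 0 ≤ e.1 j := (he j).1
    have h2 : e.1 j ≤ e.2 + 0 := (he j).2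
    simp only
    split_ifs <;> omega
  · refine Prod.ext (funext fun j => ?_) (by simp [vsh, hL])
    simp only [vsh, Prod.fst_add, Pi.add_apply]
    by_cases h : (K : ℤ) ≤ e.1 j <;> simp [h]

theorem yPow_support (k : Fin (n + 1)) (L : ℕ) :
    ∀ e ∈ (yImg lam k ^ L).coeff.support, InPoly (fun _ => 0) e ∧ e.2 = (L : ℤ) := by
  refine inPoly_of_lauMem (fun _ => 0) fun ε => ?_
  have := (lauMem_yImg lam ε k).pow L
  simpa using this

theorem lmul_eq_sum (μ : Lau R n) (y : Tot R n ι) :
    lmul μ y = ∑ e ∈ μ.coeff.support, μ.coeff e • shiftBy e y := by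
  conv_lhs => rw [← AddMonoidAlgebra.sum_coeff_single μ]
  rw [Finsupp.sum, Sheaf.lmul_sum]
  refine Finset.sum_congr rfl fun e _ => ?_
  induction y using tot_induction with
  | h0 => simp
  | hadd a b ha hb => simp only [map_add, smul_add, ha, hb]
  | hs i f r =>
    rw [map_smul, map_smul, lmul_inComp, shiftBy, lmul_inComp, AddMonoidAlgebra.single_mul_single,
      AddMonoidAlgebra.single_mul_single, inComp_single, inComp_single]
    simp only [Finsupp.smul_single, smul_eq_mul, mul_one]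
    rw [mul_comm]

variable (δ : ι → ℤ) {a : Fin n → ℤ}

theorem rel_shift (ha : ∀ j, 0 ≤ a j) {ε η ρ : Chart n}
    (h1 : ∀ j, η j = 1 → ε j ≠ 0 → ρ j = 1) (h0 : ∀ j, η j = 0 → ε j = 0 → ρ j = 0)
    {T : Set (ι →₀ MvPolynomial (Fin (n + 1)) R)} {N : ℤ} {y : Tot R n ι}
    (hy : y ∈ relSlice lam a ρ δ T N) :
    ∃ K0, ∀ K : ℕ, K0 ≤ K → shiftBy (vsh ε K) y ∈ relSlice lam a η δ T (N + K) := by
  induction hy using Submodule.span_induction with
  | mem y hy =>
    obtain ⟨p, hp, D, e, hD, he, hN, rfl⟩ := hy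
    refine ⟨e.2.natAbs + ∑ j, (e.1 j).natAbs, fun K hK => ?_⟩
    rw [shiftBy_emb]
    exact Submodule.subset_span ⟨p, hp, D, _, hD, box_shift ha h1 h0 he hK,
      by simp only [vsh, Prod.snd_add]; omega, rfl⟩
  | zero => exact ⟨0, fun K _ => by simp⟩
  | add y z _ _ hy hz =>
    obtain ⟨K1, hy⟩ := hy
    obtain ⟨K2, hz⟩ := hz
    refine ⟨max K1 K2, fun K hK => ?_⟩
    rw [map_add]
    exact add_mem (hy K ((le_max_left _ _).trans hK)) (hz K ((le_max_right _ _).trans hK))
  | smul c y _ hy =>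
    obtain ⟨K1, hy⟩ := hy
    exact ⟨K1, fun K hK => by rw [map_smul]; exact Submodule.smul_mem _ _ (hy K hK)⟩

theorem free_shift (ha : ∀ j, 0 ≤ a j) {ε : Chart n} (hε : IsV ε) {N : ℤ} {y : Tot R n ι}
    (hy : y ∈ freeSlice R a ε δ N) :
    ∃ K0, ∀ K : ℕ, K0 ≤ K → ∀ η, shiftBy (vsh ε K) y ∈ freeSlice R a η δ (N + K) := by
  rw [Sheaf.freeSlice_eq_span] at hy
  induction hy using Submodule.span_induction with
  | mem y hy =>
    obtain ⟨⟨i, e⟩, ⟨he, hN⟩, rfl⟩ := hy
    refine ⟨e.2.natAbs + ∑ j, (e.1 j).natAbs, fun K hK η => ?_⟩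
    rw [shiftBy_single]
    exact Sheaf.free_single_mem a η (box_shift ha (self_h1 hε η) (fun _ _ h => h) he hK)
      (by simp only [vsh, Prod.snd_add] at hN ⊢; omega) _
  | zero => exact ⟨0, fun K _ η => by simp⟩
  | add y z _ _ hy hz =>
    obtain ⟨K1, hy⟩ := hy
    obtain ⟨K2, hz⟩ := hz
    refine ⟨max K1 K2, fun K hK η => ?_⟩
    rw [map_add]
    exact add_mem (hy K ((le_max_left _ _).trans hK) η) (hz K ((le_max_right _ _).trans hK) η)
  | smul c y _ hy =>
    obtain ⟨K1, hy⟩ := hy
    exact ⟨K1, fun K hK η => by rw [map_smul]; exact Submodule.smul_mem _ _ (hy K hK η)⟩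

theorem inPoly_of_free {N : ℤ} {y : Tot R n ι} (hy : ∀ η, y ∈ freeSlice R a η δ N) :
    ∀ x ∈ y.support, InPoly a x.2 ∧ δ x.1 + x.2.2 = N := by
  intro x hx
  exact ⟨fun j => ⟨(((hy fun _ => 1) hx).1 j).1 rfl, (((hy fun _ => 0) hx).1 j).2 rfl⟩,
    ((hy fun _ => 1) hx).2⟩

end SectAlt

namespace RedData

open SectAlt

variable {R : Type u} [CommRing R] [IsLocalRing R] {n : ℕ} (Z : RedData R n)
  (lam : Fin (n + 1) → R) (a : Fin n → ℤ)

/-- Relations with polynomial coefficients. -/
noncomputable def polyRel : Submodule R (Tot R n Z.Idx) :=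
  Submodule.span R {y | ∃ p e, Z.ev p = 0 ∧ InPoly a e ∧
    y = emb lam p (AddMonoidAlgebra.single e 1)}

theorem shiftBy_polyRel {e : Expo n} (he : InPoly (fun _ => 0) e) {y : Tot R n Z.Idx}
    (hy : y ∈ Z.polyRel lam a) : shiftBy e y ∈ Z.polyRel lam a := by
  induction hy using Submodule.span_induction with
  | mem y hy =>
    obtain ⟨p, f, hp, hf, rfl⟩ := hy
    rw [shiftBy_emb]
    refine Submodule.subset_span ⟨p, e + f, hp, fun j => ?_, rfl⟩
    have h1 : 0 ≤ e.1 j := (he j).1
    have h2 : e.1 j ≤ e.2 + 0 := (he j).2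
    obtain ⟨g1, g2⟩ := hf j
    simp only [Prod.fst_add, Prod.snd_add, Pi.add_apply]
    omega
  | zero => simp
  | add y z _ _ hy hz => rw [map_add]; exact add_mem hy hz
  | smul c y _ hy => rw [map_smul]; exact Submodule.smul_mem _ _ hy

theorem rel_shift_poly (ha : ∀ j, 0 ≤ a j) {ε : Chart n} (hε : IsV ε) {N : ℤ}
    {y : Tot R n Z.Idx} (hy : y ∈ relSlice lam a ε Z.ideg Z.rel N) :
    ∃ K0, ∀ K : ℕ, K0 ≤ K → shiftBy (vsh ε K) y ∈ Z.polyRel lam a := by
  induction hy using Submodule.span_induction with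
  | mem y hy =>
    obtain ⟨p, hp, D, e, -, he, -, rfl⟩ := hy
    refine ⟨e.2.natAbs + ∑ j, (e.1 j).natAbs, fun K hK => ?_⟩
    rw [shiftBy_emb]
    refine Submodule.subset_span ⟨p, _, hp.2, fun j => ?_, rfl⟩
    exact ⟨((box_shift ha (η := fun _ => 1) (self_h1 hε _) (fun _ _ h => h) he hK) j).1 rfl,
      ((box_shift ha (η := fun _ => 0) (self_h1 hε _) (fun _ _ h => h) he hK) j).2 rfl⟩
  | zero => exact ⟨0, fun K _ => by simp⟩
  | add y z _ _ hy hz =>
    obtain ⟨K1, hy⟩ := hy
    obtain ⟨K2, hz⟩ := hz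
    refine ⟨max K1 K2, fun K hK => ?_⟩
    rw [map_add]
    exact add_mem (hy K ((le_max_left _ _).trans hK)) (hz K ((le_max_right _ _).trans hK))
  | smul c y _ hy =>
    obtain ⟨K1, hy⟩ := hy
    exact ⟨K1, fun K hK => by rw [map_smul]; exact Submodule.smul_mem _ _ (hy K hK)⟩

variable {Z lam a}

theorem rho_X_pow (L : ℕ) : rho lam (MvPolynomial.X 0 ^ L) = yImg lam 0 ^ L := by
  rw [map_pow, rho, MvPolynomial.aeval_X]

theorem emb_sum_right {ι : Type} {κ : Type} (p : ι →₀ MvPolynomial (Fin (n + 1)) R)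
    (s : Finset κ) (μ : κ → Lau R n) :
    emb lam p (∑ k ∈ s, μ k) = ∑ k ∈ s, emb lam p (μ k) :=
  map_sum (AddMonoidHom.mk' (fun ν => emb lam p ν) fun ν ν' => emb_add_right lam p ν ν') μ s

variable {β : Fin n.factorial → Lau R n}

/-- Relations with polynomial coefficients, expanded in the basis. -/
theorem polyRel_expand
    (hspan : ∀ e, InPoly a e → ∃ (N0 : ℕ) (c : Fin n.factorial → MvPolynomial (Fin (n + 1)) R),
      yImg lam 0 ^ N0 * AddMonoidAlgebra.single e 1 = ∑ r, rho lam (c r) * β r)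
    {y : Tot R n Z.Idx} (hy : y ∈ Z.polyRel lam a) :
    ∃ N0, ∀ N, N0 ≤ N → ∃ G : Fin n.factorial → (Z.Idx →₀ MvPolynomial (Fin (n + 1)) R),
      (∀ r, Z.ev (G r) = 0) ∧ lmul (yImg lam 0 ^ N) y = ∑ r, emb lam (G r) (β r) := by
  induction hy using Submodule.span_induction with
  | mem y hy =>
    obtain ⟨p, e, hp, he, rfl⟩ := hy
    obtain ⟨N0, c, hc⟩ := hspan e he
    refine ⟨N0, fun N hN => ⟨fun r => (MvPolynomial.X 0 ^ (N - N0) * c r) • p,
      fun r => by rw [ev_smul, hp, mul_zero], ?_⟩⟩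
    rw [lmul_emb, yImg_pow_span lam hN _ 0 c β hc, emb_sum_right]
    exact Finset.sum_congr rfl fun r _ => (emb_smul_left lam _ p _).symm
  | zero => exact ⟨0, fun N _ => ⟨0, by simp, by simp [emb_zero_left]⟩⟩
  | add y z _ _ hy hz =>
    obtain ⟨K1, hy⟩ := hy
    obtain ⟨K2, hz⟩ := hz
    refine ⟨max K1 K2, fun N hN => ?_⟩
    obtain ⟨G, hG, hy⟩ := hy N ((le_max_left _ _).trans hN)
    obtain ⟨H, hH, hz⟩ := hz N ((le_max_right _ _).trans hN)
    refine ⟨G + H, fun r => by rw [Pi.add_apply, map_add, hG, hH, add_zero], ?_⟩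
    rw [map_add, hy, hz, ← Finset.sum_add_distrib]
    exact Finset.sum_congr rfl fun r _ => (emb_add_left lam _ _ _).symm
  | smul d y _ hy =>
    obtain ⟨K1, hy⟩ := hy
    refine ⟨K1, fun N hN => ?_⟩
    obtain ⟨G, hG, hy⟩ := hy N hN
    refine ⟨fun r => MvPolynomial.C d • G r, fun r => by rw [ev_smul, hG, mul_zero], ?_⟩
    rw [map_smul, hy, Finset.smul_sum]
    refine Finset.sum_congr rfl fun r _ => ?_
    rw [emb_smul_left, Sheaf.rho_C_mul, emb_smul_right]

theorem push_upBy_zero (c : R) (x : Tot R n Z.Idx) : push lam (Z.upBy c 0) x = c • x := by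
  induction x using tot_induction with
  | h0 => simp
  | hadd u v hu hv => rw [map_add, hu, hv, smul_add]
  | hs i e r =>
    rw [map_smul, push_inComp, upBy, emb_single, Sheaf.rho_C_mul, map_smul, smul_comm]
    simp

/-- `u ^ L` undoes `Y 0 ^ L` up to `z 0 ^ L`. -/
theorem up_lmul {ε : Chart n} {x : Tot R n Z.Idx} (hx : x ∈ freeSlice R a ε Z.ideg 0) (L : ℕ) :
    push lam (Z.upBy 1 L) (lmul (yImg lam 0 ^ L) x) - Z.z 0 ^ L • x ∈
      relSlice lam a ε Z.ideg Z.rel 0 := by
  have h1 := (Z.acts_upBy (1 : R) L).comp (Z.acts_yBy 0 L)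
  rw [one_mul, show -(L : ℤ) + (L : ℤ) = 0 from neg_add_cancel _] at h1
  have h2 : Z.Acts 0 (Z.z 0 ^ L) (Z.upBy (Z.z 0 ^ L) 0) := by
    simpa using Z.acts_upBy (Z.z 0 ^ L) 0
  have h := h1.push_congr lam h2 hx
  rw [add_zero, push_upBy_zero, ← push_comp] at h
  rwa [show push lam (Z.yBy 0 L) x = lmul (yImg lam 0 ^ L) x by
    rw [← rho_X_pow]; exact Sheaf.push_scale lam _ x] at h

/-- Cocycles differ by relations on the chart inverting both variables where charts differ. -/
theorem sub_mem_jn {x : Chart n → Tot R n Z.Idx}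
    (hD : cechD R x ∈ relCech lam a Z.ideg Z.rel 0) :
    ∀ (m : ℕ) (ε η : Chart n), IsV ε → IsV η →
      (Finset.univ.filter fun j => ε j ≠ η j).card = m →
      x ε - x η ∈ relSlice lam a (jn ε η) Z.ideg Z.rel 0 := by
  intro m
  induction m with
  | zero =>
    intro ε η _ _ hm
    have : ε = η := funext fun j => by
      by_contra h
      exact (Finset.card_pos.2 ⟨j, Finset.mem_filter.2 ⟨Finset.mem_univ j, h⟩⟩).ne' hm
    simp [this]
  | succ m ih =>
    intro ε η hε hη hm
    obtain ⟨j, hj⟩ := Finset.card_pos.1 (by omega : 0 < (Finset.univ.filter fun j => ε j ≠ η j).card)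
    have hj' : ε j ≠ η j := (Finset.mem_filter.1 hj).2
    set η' := Function.update η j (ε j)
    have hη' : IsV η' := fun l => by
      by_cases hl : l = j
      · subst hl; simpa [η'] using hε l
      · simpa [η', hl] using hη l
    have hcard : (Finset.univ.filter fun l => ε l ≠ η' l).card = m := by
      have : (Finset.univ.filter fun l => ε l ≠ η' l) =
          (Finset.univ.filter fun l => ε l ≠ η l).erase j := by
        ext l
        by_cases hl : l = j
        · subst hl; simp [η']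
        · simp [η', hl]
      rw [this, Finset.card_erase_of_mem hj, hm]
      rfl
    have h1 : x ε - x η' ∈ relSlice lam a (jn ε η) Z.ideg Z.rel 0 := by
      refine relSlice_mono lam (fun l => ?_) _ _ _ (ih ε η' hε hη' hcard)
      by_cases hl : l = j
      · subst hl; simp [jn, hj']
      · exact Or.inr (by simp [jn, η', hl])
    have h2 : x η' - x η ∈ relSlice lam a (jn ε η) Z.ideg Z.rel 0 := by
      set σ := Function.update η j 2
      have hmono : ∀ l, jn ε η l = 2 ∨ jn ε η l = σ l := fun l => by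
        by_cases hl : l = j
        · subst hl; simp [jn, hj']
        · by_cases h : ε l = η l
          · right; simp [jn, σ, hl, h]
          · left; simp [jn, h]
      have h := hD σ trivial
      rw [SetLike.mem_coe, cechD_apply] at h
      have hfil : (Finset.univ.filter fun l => σ l = 2) = {j} := by
        ext l
        by_cases hl : l = j
        · subst hl; simp [σ]
        · simp [σ, hl, hη l]
      rw [hfil, Finset.sum_singleton] at h
      set k := (Finset.univ.filter fun l => l < j ∧ σ l = 2).card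
      have h' : x (Function.update σ j 1) - x (Function.update σ j 0) ∈
          relSlice lam a σ Z.ideg Z.rel 0 := by
        have := Submodule.smul_mem _ ((-1 : R) ^ k) h
        rwa [smul_smul, ← mul_pow, neg_one_mul, neg_neg, one_pow, one_smul] at this
      simp only [σ, Function.update_idem] at h'
      refine relSlice_mono lam hmono _ _ _ ?_
      have hη2 : η = Function.update η j (η j) := (Function.update_eq_self j η).symm
      rcases (show (ε j = 1 ∧ η j = 0) ∨ (ε j = 0 ∧ η j = 1) by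
        have := hε j; have := hη j; omega) with ⟨e1, e2⟩ | ⟨e1, e2⟩
      · rw [e2] at hη2
        rw [← hη2] at h'
        simpa [η', σ, e1] using h'
      · rw [e2] at hη2
        rw [← hη2] at h'
        have := Submodule.neg_mem _ h'
        simpa [η', σ, e1] using this
    simpa using add_mem h1 h2

variable (Z lam a)

/-- A cocycle times a power of `Y 0` is polynomial modulo relations. -/
theorem exists_poly (ha : ∀ j, 0 ≤ a j) {x : Chart n → Tot R n Z.Idx}
    (hx : x ∈ freeCech R a Z.ideg 0) (hD : cechD R x ∈ relCech lam a Z.ideg Z.rel 0) :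
    ∃ (L : ℕ) (G : Tot R n Z.Idx), (∀ η, G ∈ freeSlice R a η Z.ideg (L : ℤ)) ∧
      ∀ η, IsV η → lmul (yImg lam 0 ^ L) (x η) - G ∈ relSlice lam a η Z.ideg Z.rel (L : ℤ) := by
  classical
  have hA : ∀ ε : Chart n, ∃ K0, IsV ε → ∀ K : ℕ, K0 ≤ K → ∀ η,
      shiftBy (vsh ε K) (x ε) ∈ freeSlice R a η Z.ideg (0 + (K : ℤ)) := fun ε => by
    by_cases h : IsV ε
    · obtain ⟨K0, hK⟩ := free_shift Z.ideg ha h (hx ε trivial)
      exact ⟨K0, fun _ => hK⟩
    · exact ⟨0, fun h' => absurd h' h⟩
  have hB : ∀ ε η : Chart n, ∃ K0, IsV ε → IsV η → ∀ K : ℕ, K0 ≤ K →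
      shiftBy (vsh ε K) (x ε - x η) ∈ relSlice lam a η Z.ideg Z.rel (0 + (K : ℤ)) :=
    fun ε η => by
    by_cases h : IsV ε ∧ IsV η
    · obtain ⟨K0, hK⟩ := rel_shift lam Z.ideg ha (ε := ε) (η := η) (ρ := jn ε η)
        (fun j h1 h2 => by
          have := h.1 j
          simp only [jn, show ε j = 1 by omega, h1, if_true])
        (fun j h1 h2 => by simp [jn, h1, h2]) (sub_mem_jn hD _ ε η h.1 h.2 rfl)
      exact ⟨K0, fun _ _ => hK⟩
    · exact ⟨0, fun h1 h2 => absurd ⟨h1, h2⟩ h⟩
  choose KA hKA using hA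
  choose KB hKB using hB
  set K := max (Finset.univ.sup KA) (Finset.univ.sup fun p : Chart n × Chart n => KB p.1 p.2)
  set L := 2 * K
  set μ := yImg lam 0 ^ L
  have hsp : ∀ e ∈ μ.coeff.support, ∃ (ε : Chart n) (e' : Expo n), IsV ε ∧
      InPoly (fun _ => 0) e' ∧ e'.2 = (L : ℤ) - K ∧ e = e' + vsh ε K := fun e he =>
    exists_split (yPow_support lam 0 L e he).1 (yPow_support lam 0 L e he).2 le_rfl
  choose! c c' hc hc' hdeg heq using hsp
  have hshift : ∀ e ∈ μ.coeff.support, ∀ y : Tot R n Z.Idx,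
      shiftBy e y = shiftBy (c' e) (shiftBy (vsh (c e) K) y) := fun e he y => by
    rw [shiftBy, shiftBy, shiftBy, Sheaf.lmul_lmul, AddMonoidAlgebra.single_mul_single, one_mul,
      ← heq e he]
  refine ⟨L, ∑ e ∈ μ.coeff.support, μ.coeff e • shiftBy e (x (c e)), fun η => ?_, fun η hη => ?_⟩
  · refine sum_mem fun e he => Submodule.smul_mem _ _ ?_
    rw [hshift e he]
    have h := hKA (c e) (hc e he) K
      ((Finset.le_sup (Finset.mem_univ (c e))).trans (le_max_left _ _)) η
    have hbox : InBox (fun _ => 0) η (c' e) := fun j => ⟨fun _ => (hc' e he j).1,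
      fun _ => (hc' e he j).2⟩
    have h' := Submodule.mem_map_of_mem (f := shiftBy (c' e)) h
    rw [Sheaf.freeSlice_eq_span, Submodule.map_span] at h'
    refine Submodule.span_le.2 ?_ h'
    rintro _ ⟨_, ⟨⟨i, f⟩, ⟨hf, hN⟩, rfl⟩, rfl⟩
    rw [SetLike.mem_coe, shiftBy_single]
    refine Sheaf.free_single_mem a η ?_ ?_ _
    · have := hbox.add hf
      rwa [show ((fun _ => 0) + a : Fin n → ℤ) = a from zero_add a] at this
    · have := hdeg e he
      simp only [Prod.snd_add] at hN ⊢
      omega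
  · rw [lmul_eq_sum μ (x η), ← Finset.sum_sub_distrib]
    refine sum_mem fun e he => ?_
    rw [← smul_sub, ← map_sub]
    refine Submodule.smul_mem _ _ ?_
    rw [hshift e he, ← neg_sub, map_neg, map_neg, Submodule.neg_mem_iff]
    have h := hKB (c e) η (hc e he) hη K
      ((Finset.le_sup (f := fun p : Chart n × Chart n => KB p.1 p.2)
        (Finset.mem_univ (c e, η))).trans (le_max_right _ _))
    have hμ : LauMem (fun _ => 0) η ((L : ℤ) - K)
        (AddMonoidAlgebra.single (c' e) 1 : Lau R n) :=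
      lauMem_single 1 (fun j => ⟨fun _ => (hc' e he j).1, fun _ => (hc' e he j).2⟩) (hdeg e he)
    have h' := Sheaf.lmul_mem_rel lam a η hμ ⟨_, h, rfl⟩
    rwa [show (L : ℤ) - K + (0 + (K : ℤ)) = L by ring] at h'

end RedData

theorem exists_uniform {R : Type u} [CommRing R] {M : Type*} [AddCommGroup M] [Module R M]
    [Module.Finite R M] (z : R) (S : Submodule R M) (h : ∀ y, ∃ L : ℕ, z ^ L • y ∈ S) :
    ∃ L : ℕ, ∀ y, z ^ L • y ∈ S := by
  classical
  obtain ⟨s, hs⟩ := (Module.Finite.fg_top : (⊤ : Submodule R M).FG)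
  choose L hL using h
  refine ⟨s.sup L, fun y => ?_⟩
  have hy : y ∈ Submodule.span R (s : Set M) := hs ▸ trivial
  induction hy using Submodule.span_induction with
  | mem x hx =>
    rw [← Nat.sub_add_cancel (Finset.le_sup (f := L) hx), pow_add, ← smul_smul]
    exact S.smul_mem _ (hL x)
  | zero => simp
  | add x y _ _ hx hy => rw [smul_add]; exact add_mem hx hy
  | smul c x _ hx => rw [smul_comm]; exact S.smul_mem _ hx

open SectAlt RedData in
/-- After inverting `z 0`, the slice `0` has `n!` independent sections. -/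
theorem sections_rank_alt {R : Type u} [CommRing R] [IsLocalRing R] [IsNoetherianRing R] {n : ℕ}
    (Z : RedData R n) (lam : Fin (n + 1) → R) (hlam : Sep lam)
    (a : Fin n → ℤ) (ha : ∀ j, 0 ≤ a j) :
    ∃ (φ : (Fin n.factorial → R) →ₗ[R] Z.colH lam a 0) (L : ℕ),
      (∀ v, φ v = 0 → Z.z 0 ^ L • v = 0) ∧ ∀ y, Z.z 0 ^ L • y ∈ LinearMap.range φ := by
  classical
  obtain ⟨bf, hb, hA⟩ := artin_basis n R
  set β : Fin n.factorial → Lau R n := fun r => beta lam a 0 (bf r)
  have hspan : ∀ e, InPoly a e →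
      ∃ (N0 : ℕ) (c : Fin n.factorial → MvPolynomial (Fin (n + 1)) R),
        yImg lam 0 ^ N0 * AddMonoidAlgebra.single e 1 = ∑ r, rho lam (c r) * β r := fun e he => by
    obtain ⟨N0, h⟩ := span_monomial lam a hlam ha 0 bf hb hA.2 e he
    obtain ⟨-, c, -, -, hc⟩ := h N0 le_rfl
    exact ⟨N0, c, hc⟩
  have hind := beta_indep lam a hlam ha 0 bf hb hA.1
  obtain ⟨p, hp, hev⟩ := Z.exists_rep (-(n : ℤ)) (r := 1) (by simp)
  set g : Fin n.factorial → Tot R n Z.Idx := fun r => emb lam p (β r)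
  have hg : ∀ r η, g r ∈ freeSlice R a η Z.ideg 0 := fun r η =>
    emb_mem lam hp (beta_lauMem lam a ha 0 (bf r) η) (by ring)
  set G := cechGC R n (Tot R n Z.Idx)
  let fam : Fin n.factorial → (Chart n → Tot R n Z.Idx) :=
    fun r η => if IsV η then g r else 0
  have hfam : ∀ r, fam r ∈ G.cyc (relCech lam a Z.ideg Z.rel 0) (freeCech R a Z.ideg 0) 0 := by
    intro r
    refine ⟨⟨fun η _ => ?_, mem_cechDeg.2 fun η hη => if_neg fun h => hη ?_⟩, fun η _ => ?_⟩
    · simp only [fam, SetLike.mem_coe]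
      split_ifs
      · exact hg r η
      · exact Submodule.zero_mem _
    · simp [isV_iff.1 h]
    · change cechD R (fam r) η ∈ relSlice lam a η Z.ideg Z.rel 0
      rw [cechD_apply]
      refine sum_mem fun j _ => Submodule.smul_mem _ _ ?_
      have hiff : IsV (Function.update η j 1) ↔ IsV (Function.update η j 0) := by
        simp only [IsV]
        refine forall_congr' fun l => ?_
        by_cases hl : l = j
        · subst hl; simp
        · simp [hl]
      simp [fam, hiff]
  let φ₀ : (Fin n.factorial → R) →ₗ[R]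
      ↥(G.cyc (relCech lam a Z.ideg Z.rel 0) (freeCech R a Z.ideg 0) 0) :=
    Fintype.linearCombination R fun r => ⟨fam r, hfam r⟩
  let φ : (Fin n.factorial → R) →ₗ[R] Z.colH lam a 0 := (Submodule.mkQ _).comp φ₀
  have hφ₀ : ∀ (v : Fin n.factorial → R) η, IsV η → (φ₀ v).1 η = ∑ r, v r • g r :=
    fun v η hη => by
    simp [φ₀, Fintype.linearCombination_apply, fam, hη]
  have hdeg1 : G.deg (0 + 1) = ⊥ := cechDeg_eq_bot (by simp)
  have hmk : ∀ y : ↥(G.cyc (relCech lam a Z.ideg Z.rel 0) (freeCech R a Z.ideg 0) 0),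
      Submodule.Quotient.mk (p := (G.bd (relCech lam a Z.ideg Z.rel 0) (freeCech R a Z.ideg 0)
          0).comap (G.cyc (relCech lam a Z.ideg Z.rel 0) (freeCech R a Z.ideg 0) 0).subtype) y = 0 ↔
        ∀ η, IsV η → y.1 η ∈ relSlice lam a η Z.ideg Z.rel 0 := by
    intro y
    rw [Submodule.Quotient.mk_eq_zero, Submodule.mem_comap, GC.bd, hdeg1, inf_bot_eq,
      Submodule.map_bot, bot_sup_eq]
    refine ⟨fun h η _ => h.1 η trivial, fun h => ⟨fun η _ => ?_, y.2.1.2⟩⟩
    by_cases hη : IsV η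
    · exact h η hη
    · have h0 := mem_cechDeg.1 y.2.1.2 η fun e => hη (isV_iff.2 (by simpa using e))
      simp only [SetLike.mem_coe, Submodule.subtype_apply]
      rw [h0]
      exact Submodule.zero_mem _
  -- kernel
  have hker : ∀ v, φ v = 0 → ∃ L : ℕ, Z.z 0 ^ L • v = 0 := by
    intro v hv
    have hrel : ∀ η, IsV η → (∑ r, v r • g r) ∈ relSlice lam a η Z.ideg Z.rel 0 := fun η hη => by
      rw [← hφ₀ v η hη]
      exact (hmk (φ₀ v)).1 hv η hη
    set y := ∑ r, v r • g r
    have hK : ∀ ε : Chart n, ∃ K0, IsV ε → ∀ K : ℕ, K0 ≤ K →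
        shiftBy (vsh ε K) y ∈ Z.polyRel lam a := fun ε => by
      by_cases h : IsV ε
      · obtain ⟨K0, hK⟩ := Z.rel_shift_poly lam a ha h (hrel ε h)
        exact ⟨K0, fun _ => hK⟩
      · exact ⟨0, fun h' => absurd h' h⟩
    choose K0 hK0 using hK
    set K := Finset.univ.sup K0
    have hpoly : lmul (yImg lam 0 ^ (2 * K)) y ∈ Z.polyRel lam a := by
      rw [lmul_eq_sum]
      refine sum_mem fun e he => Submodule.smul_mem _ _ ?_
      obtain ⟨ε, e', hε, he', -, rfl⟩ := exists_split (K := K) (yPow_support lam 0 _ e he).1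
        (yPow_support lam 0 _ e he).2 le_rfl
      rw [shiftBy, ← one_mul (1 : R), ← AddMonoidAlgebra.single_mul_single, ← Sheaf.lmul_lmul]
      exact Z.shiftBy_polyRel lam a he' (hK0 ε hε K (Finset.le_sup (Finset.mem_univ ε)))
    obtain ⟨N0, hN0⟩ := polyRel_expand hspan hpoly
    obtain ⟨F, hF, hFeq⟩ := hN0 N0 le_rfl
    refine ⟨N0 + 2 * K, funext fun r => ?_⟩
    have h1 : ∑ r, emb lam ((MvPolynomial.X (0 : Fin (n + 1)) ^ (N0 + 2 * K) *
        MvPolynomial.C (v r)) • p) (β r) =
        ∑ r, emb lam (F r) (β r) := by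
      rw [← hFeq, Sheaf.lmul_lmul, ← pow_add]
      simp only [y, map_sum, map_smul, g, lmul_emb]
      refine Finset.sum_congr rfl fun r _ => ?_
      rw [emb_smul_left, map_mul, rho_X_pow, mul_assoc, Sheaf.rho_C_mul, mul_smul_comm,
        emb_smul_right]
    have h2 : (fun r => (MvPolynomial.X (0 : Fin (n + 1)) ^ (N0 + 2 * K) *
        MvPolynomial.C (v r)) • p) = F := by
      refine funext fun r => Finsupp.ext fun i => ?_
      have h3 := congrArg (outComp (Z := R) (n := n) i) h1
      simp only [map_sum, outComp_emb] at h3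
      refine sub_eq_zero.1 (congrFun (hind (fun r =>
        ((MvPolynomial.X 0 ^ (N0 + 2 * K) * MvPolynomial.C (v r)) • p) i - F r i) ?_) r)
      simp only [map_sub, sub_mul, Finset.sum_sub_distrib]
      exact sub_eq_zero.2 h3
    have h4 := congrArg Z.ev (congrFun h2 r)
    simp only [ev_smul, hev, mul_one, hF, map_mul, map_pow, MvPolynomial.aeval_X,
      MvPolynomial.aeval_C, Algebra.algebraMap_self_apply] at h4
    simpa using h4
  -- cokernel
  have hcoker : ∀ y : Z.colH lam a 0, ∃ L : ℕ, Z.z 0 ^ L • y ∈ LinearMap.range φ := by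
    intro y
    obtain ⟨x, rfl⟩ := Submodule.Quotient.mk_surjective _ y
    obtain ⟨⟨hxF, hxd⟩, hxD⟩ := x.2
    obtain ⟨L, P, hP, hPx⟩ := Z.exists_poly lam a ha hxF hxD
    set U := push lam (Z.upBy 1 L) P
    have hU : ∀ η, U ∈ freeSlice R a η Z.ideg 0 := fun η => by
      simpa using (Z.acts_upBy (1 : R) L).push_free lam (hP η)
    have hUx : ∀ η, IsV η → Z.z 0 ^ L • x.1 η - U ∈ relSlice lam a η Z.ideg Z.rel 0 :=
      fun η hη => by
      have h1 := (Z.acts_upBy (1 : R) L).push_rel lam (hPx η hη)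
      rw [map_sub, add_neg_cancel] at h1
      have h2 := sub_mem h1 (up_lmul (lam := lam) (hxF η trivial) L)
      simpa [U] using h2
    -- expansion of U
    have hmon : ∀ y : Z.Idx × Expo n, ∃ N0 : ℕ, y ∈ U.support → ∀ N, N0 ≤ N →
        ∃ (h : ℕ) (c : Fin n.factorial → MvPolynomial (Fin (n + 1)) R),
          (h : ℤ) + n = N + y.2.2 ∧ (∀ r, (c r).IsHomogeneous h) ∧
          yImg lam 0 ^ N * AddMonoidAlgebra.single y.2 1 =
            ∑ r, rho lam (c r) * beta lam a 0 (bf r) := fun y => by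
      by_cases hy : y ∈ U.support
      · obtain ⟨N0, h⟩ := span_monomial lam a hlam ha 0 bf hb hA.2 y.2
          (inPoly_of_free Z.ideg hU y hy).1
        exact ⟨N0, fun _ => h⟩
      · exact ⟨0, fun h => absurd h hy⟩
    choose N₁ hN₁ using hmon
    set N := U.support.sup N₁
    choose! h c hh hhom hc using fun y (hy : y ∈ U.support) => hN₁ y hy N (Finset.le_sup hy)
    set F : Fin n.factorial → (Z.Idx →₀ MvPolynomial (Fin (n + 1)) R) := fun r =>
      ∑ y ∈ U.support, Finsupp.single y.1 (MvPolynomial.C (U y) * c y r)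
    have hFhom : ∀ r, IsHomog Z.ideg (F r) ((N : ℤ) - n) := fun r => by
      refine Sheaf.homog_sum _ _ fun y hy => Sheaf.homog_single _ (d := (h y : ℤ)) (fun e he => ?_) ?_
      · have h1 := ((MvPolynomial.isHomogeneous_C _ (U y)).mul (hhom y hy r))
          (MvPolynomial.mem_support_iff.1 he)
        rw [zero_add, Finsupp.weight_apply, Finsupp.sum_fintype _ _ fun i => by simp] at h1
        simp only [Pi.one_apply, smul_eq_mul, mul_one] at h1
        rw [Finsupp.sum_fintype _ _ fun _ => rfl, ← Nat.cast_sum, h1]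
      · have := (inPoly_of_free Z.ideg hU y hy).2
        have := hh y hy
        omega
    have hFeq : lmul (yImg lam 0 ^ N) U = ∑ r, emb lam (F r) (β r) := by
      have hsum : ∀ r, emb lam (F r) (β r) = ∑ y ∈ U.support,
          emb lam (Finsupp.single y.1 (MvPolynomial.C (U y) * c y r)) (β r) := fun r =>
        map_sum (AddMonoidHom.mk' (fun q => emb lam q (β r))
          fun q q' => emb_add_left lam q q' _) _ _
      simp only [hsum, emb_single]
      rw [Finset.sum_comm]
      conv_lhs => rw [← U.sum_single, map_finsuppSum]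
      refine Finset.sum_congr rfl fun y hy => ?_
      dsimp only
      rw [show Finsupp.single y (U y) = U y • inComp y.1 (AddMonoidAlgebra.single y.2 1 : Lau R n)
        by simp [inComp_single], map_smul, lmul_inComp, hc y hy, map_sum, Finset.smul_sum]
      refine Finset.sum_congr rfl fun r _ => ?_
      rw [← map_smul, map_mul (rho lam), mul_assoc, Sheaf.rho_C_mul]
    set H : Fin n.factorial → (Z.Idx →₀ MvPolynomial (Fin (n + 1)) R) := fun r =>
      (F r).sum fun i f => f • Z.upBy 1 N i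
    have hH : ∀ r, IsHomog Z.ideg (H r) (-(n : ℤ)) := fun r => by
      have := (hFhom r).comp fun i => ((Z.acts_upBy (1 : R) N) i).1
      rwa [show (N : ℤ) - n + -(N : ℤ) = -(n : ℤ) by ring] at this
    set d : Fin n.factorial → R := fun r => Z.ev (H r)
    refine ⟨L + N, d, ?_⟩
    change Submodule.Quotient.mk (φ₀ d) = Z.z 0 ^ (L + N) • Submodule.Quotient.mk x
    rw [← Submodule.Quotient.mk_smul, ← sub_eq_zero, ← Submodule.Quotient.mk_sub, hmk]
    intro η hη
    simp only [Submodule.coe_sub, Submodule.coe_smul, Pi.sub_apply, Pi.smul_apply, hφ₀ d η hη]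
    have h1 : ∑ r, d r • g r - ∑ r, emb lam (H r) (β r) ∈ relSlice lam a η Z.ideg Z.rel 0 := by
      rw [← Finset.sum_sub_distrib]
      refine sum_mem fun r _ => ?_
      have hhomog : IsHomog Z.ideg (MvPolynomial.C (d r) • p - H r) (-(n : ℤ)) :=
        Sheaf.homog_sub (by
          simpa using Sheaf.homog_smul (d := (0 : ℤ)) (f := MvPolynomial.C (d r)) (fun e he => by
            rw [MvPolynomial.C_apply] at he
            rw [Finset.mem_singleton.1 (MvPolynomial.support_monomial_subset he)]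
            simp) hp) (hH r)
      have hm : MvPolynomial.C (d r) • p - H r ∈ Z.rel :=
        ⟨⟨_, hhomog⟩, by simp [map_sub, ev_smul, hev, d]⟩
      have := emb_mem_rel lam hm hhomog (beta_lauMem lam a ha 0 (bf r) η) (N := 0) (by ring)
      rw [sub_eq_add_neg (MvPolynomial.C (d r) • p), emb_add_left, emb_smul_left,
        Sheaf.rho_C_mul, emb_smul_right] at this
      rw [sub_eq_add_neg (d r • g r)]
      convert this using 2
      exact eq_comm.1 (eq_neg_of_add_eq_zero_left (by
        rw [← emb_add_left, neg_add_cancel, emb_zero_left]))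
    have h2 := up_lmul (lam := lam) (hU η) N
    rw [hFeq, map_sum] at h2
    simp only [push_emb] at h2
    have h3 := Submodule.smul_mem _ (Z.z 0 ^ N) (hUx η hη)
    have h4 := sub_mem (add_mem h1 h2) h3
    convert h4 using 1
    rw [pow_add, mul_comm, ← smul_smul, smul_sub]
    simp only [H]
    abel
  -- uniformity
  obtain ⟨L₁, hL₁⟩ := exists_uniform (Z.z 0) (⊥ : Submodule R (LinearMap.ker φ)) fun v => by
    obtain ⟨L, hL⟩ := hker v.1 v.2
    exact ⟨L, (Submodule.mem_bot R).2 (Subtype.ext hL)⟩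
  have hspanrel : relCech lam a Z.ideg
      (Submodule.span (MvPolynomial (Fin (n + 1)) R) Z.rel : Set _) 0 =
      relCech lam a Z.ideg Z.rel 0 := by
    simp only [relCech, relSlice_span]
  have hfin : Module.Finite R (Z.colH lam a 0) := by
    have h := (cech_finite (R := R) lam hlam (ι := Z.ι) (fun i => (Z.δ i : ℤ)) Z.z
      (Submodule.span (MvPolynomial (Fin (n + 1)) R) Z.rel)
      (fun p hp => Submodule.span_mono (t := {p |
          p ∈ Submodule.span (MvPolynomial (Fin (n + 1)) R) Z.rel ∧ ∃ D, IsHomog Z.ideg p D})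
        (fun q hq => ⟨Submodule.subset_span hq, hq.1⟩) hp)
      ?_ ?_ a ha 0 0).1
    · change Module.Finite R (G.H (relCech lam a Z.ideg
        (Submodule.span (MvPolynomial (Fin (n + 1)) R) Z.rel : Set _) 0)
        (freeCech R a Z.ideg 0) (-((0 : ℕ) : ℤ))) at h
      rwa [hspanrel, Nat.cast_zero, neg_zero] at h
    · intro q hq
      induction hq using Submodule.span_induction with
      | mem q hq =>
        obtain ⟨⟨D, hD⟩, hq0⟩ := hq
        have h1 : (q.sum fun x f => f • Z.upBy 1 1 x) = q.mapDomain fun x => (x.1, x.2 + 1) := by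
          simp [Finsupp.mapDomain, upBy]
        refine Submodule.subset_span ?_
        rw [← h1]
        exact ⟨⟨_, hD.comp fun i => ((Z.acts_upBy (1 : R) 1) i).1⟩,
          by rw [(Z.acts_upBy (1 : R) 1).ev_eq, hq0, mul_zero]⟩
      | zero => simp
      | add p q _ _ hp hq => rw [Finsupp.mapDomain_add]; exact add_mem hp hq
      | smul f q _ hq => rw [Finsupp.mapDomain_smul]; exact Submodule.smul_mem _ _ hq
    · intro i s k
      refine Submodule.subset_span ⟨⟨(Z.δ i : ℤ) - s, Sheaf.homog_sub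
        (Sheaf.homog_single _ (d := ((1 : ℕ) : ℤ))
          (by simpa using Sheaf.homog_monomial (R := R) k 1 1)
          (by simp only [ideg]; push_cast; ring))
        (Sheaf.homog_single _ (d := ((0 : ℕ) : ℤ))
          (by simpa using Sheaf.homog_monomial k (Z.z k) 0)
          (by simp only [ideg]; push_cast; ring))⟩, ?_⟩
      simp [map_sub, ev_single]
  obtain ⟨L₂, hL₂⟩ := exists_uniform (Z.z 0) (LinearMap.range φ) hcoker
  refine ⟨φ, max L₁ L₂, fun v hv => ?_, fun y => ?_⟩
  · rw [← Nat.sub_add_cancel (le_max_left L₁ L₂), pow_add, ← smul_smul]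
    have := congrArg Subtype.val ((Submodule.mem_bot R).1 (hL₁ ⟨v, hv⟩))
    rw [show Z.z 0 ^ L₁ • v = 0 from this, smul_zero]
  · rw [← Nat.sub_add_cancel (le_max_right L₁ L₂), pow_add, ← smul_smul]
    exact Submodule.smul_mem _ _ (hL₂ y)

end Vale.Agent.P202.Char
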