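import Vale.Agent.P202.Char.SheafPiece

/-! P202, Lech in characteristic `p`: the Cech cohomology of a graded module over the extended Rees
ring is finite over the base, and in positive degree a power of each `z k` kills it. -/

namespace Vale.Agent.P202.Char

universe u v w

open Sheaf

variable {n : ℕ}

namespace Sheaf

variable {R : Type u} [CommRing R] (lam : Fin (n + 1) → R)

/-- Finiteness for graded modules over the polynomial ring, by descending induction. -/
theorem finite_aux [IsNoetherianRing R] (hlam : Sep lam) (a : Fin n → ℤ) (ha : ∀ j, 0 ≤ a j) :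
    ∀ (t : ℕ) (ι : Type) [Fintype ι] (δ : ι → ℤ) (K : Set (ι →₀ MvPolynomial (Fin (n + 1)) R))
      (q : ℕ), n < q + t →
      (∀ N, Module.Finite R ((cechGC R n (Tot R n ι)).H (relCech lam a δ K N)
        (freeCech R a δ N) (-(q : ℤ)))) ∧
      (1 ≤ q → ∃ N₀, ∀ N, N₀ ≤ N → Subsingleton ((cechGC R n (Tot R n ι)).H (relCech lam a δ K N)
        (freeCech R a δ N) (-(q : ℤ)))) := by
  intro t
  induction t with
  | zero =>
    intro ι _ δ K q hq
    have hs := fun N => H_subsingleton_of_lt (Z := R) (relCech lam a δ K N) (freeCech R a δ N)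
      (k := -(q : ℤ)) (Or.inl (by omega))
    exact ⟨fun N => inferInstance, fun _ => ⟨0, fun N _ => hs N⟩⟩
  | succ t ih =>
    intro ι _ δ K q hq
    obtain ⟨m, p, η, hp, hpK, hgen⟩ := exists_gens δ K
    let p₀ : Fin 0 → (ι →₀ MvPolynomial (Fin (n + 1)) R) := Fin.elim0
    obtain ⟨hfin, hvan⟩ := ih (Fin m) η
      {c | combo p c ∈ Submodule.span (MvPolynomial (Fin (n + 1)) R) (Set.range p₀)} (q + 1)
      (by omega)
    have hpiece : ∀ N, relCech lam a δ (∅ : Set (ι →₀ MvPolynomial (Fin (n + 1)) R)) N = ⊥ ∧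
        relCech lam a δ (∅ : Set (ι →₀ MvPolynomial (Fin (n + 1)) R)) N ≤ relCech lam a δ K N ∧
        Nonempty ((cechGC R n (Tot R n (Fin m))).H (relCech lam a η
            {c | combo p c ∈ Submodule.span (MvPolynomial (Fin (n + 1)) R) (Set.range p₀)} N)
            (freeCech R a η N) (-((q + 1 : ℕ) : ℤ)) ≃ₗ[R]
          (cechGC R n (Tot R n ι)).H
            (relCech lam a δ (∅ : Set (ι →₀ MvPolynomial (Fin (n + 1)) R)) N)
            (relCech lam a δ K N) (-((q + 1 : ℕ) : ℤ))) := fun N => by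
      obtain ⟨h, he⟩ := nonempty_piece_equiv lam a hlam ha (η₀ := fun l => Fin.elim0 l) hp
        (p₀ := p₀) (fun l => Fin.elim0 l)
        (K₀ := (∅ : Set (ι →₀ MvPolynomial (Fin (n + 1)) R))) hpK (fun l => Fin.elim0 l)
        (fun l => Fin.elim0 l) (fun x hx _ => absurd hx (Set.notMem_empty x))
        (fun x hx hd => Submodule.span_mono Set.subset_union_left (hgen x hx hd)) N
        (-((q + 1 : ℕ) : ℤ))
      exact ⟨relCech_eq_bot lam a (fun x hx _ => absurd hx (Set.notMem_empty x)) N, h, he⟩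
    have hq1 : -(q : ℤ) - 1 = -((q + 1 : ℕ) : ℤ) := by push_cast; ring
    constructor
    · intro N
      obtain ⟨h0, hle, ⟨e⟩⟩ := hpiece N
      refine (cechGC R n (Tot R n ι)).finite_top hle (relCech_le_free lam) (-(q : ℤ)) ?_ ?_
      · rw [h0]
        obtain ⟨e'⟩ := free_cech_equiv (Z := R) a δ N q
        have := (band_card a δ N q).1.to_subtype
        exact Module.Finite.equiv e'.symm
      · rw [hq1]
        have := hfin N
        exact Module.Finite.equiv e
    · intro h1
      obtain ⟨N₁, hN₁⟩ := hvan (by omega)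
      refine ⟨max N₁ (∑ i, |δ i|), fun N hN => ?_⟩
      obtain ⟨h0, hle, ⟨e⟩⟩ := hpiece N
      refine (cechGC R n (Tot R n ι)).subsingleton_top hle (relCech_le_free lam) (-(q : ℤ)) ?_ ?_
      · rw [h0]
        obtain ⟨e'⟩ := free_cech_equiv (Z := R) a δ N q
        have : IsEmpty (Band a δ N q) := ⟨fun x => by
          obtain ⟨j, hj⟩ := band_top a δ N q h1 x.1 x.2
          have h2 : |δ x.1.1| ≤ ∑ i, |δ i| :=
            Finset.single_le_sum (fun i _ => abs_nonneg (δ i)) (Finset.mem_univ _)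
          have h3 := le_abs_self (δ x.1.1)
          have h4 := x.2.1
          have h5 := ha j
          have h6 : ∑ i, |δ i| ≤ N := le_trans (le_max_right _ _) hN
          linarith⟩
        exact e'.toEquiv.subsingleton
      · rw [hq1]
        have := hN₁ N (le_trans (le_max_left _ _) hN)
        exact e.symm.toEquiv.subsingleton

theorem homog_sub {ι : Type w} {δ : ι → ℤ} {D : ℤ}
    {p q : ι →₀ MvPolynomial (Fin (n + 1)) R} (hp : IsHomog δ p D) (hq : IsHomog δ q D) :
    IsHomog δ (p - q) D := by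
  classical
  intro i c hc
  rw [Finsupp.sub_apply] at hc
  rcases Finset.mem_union.1 (MvPolynomial.support_sub _ _ _ hc) with h | h
  · exact hp i c h
  · exact hq i c h

theorem homog_monomial (k : Fin (n + 1)) (r : R) (e : ℕ) :
    ∀ c ∈ (MvPolynomial.C r * MvPolynomial.X k ^ e : MvPolynomial (Fin (n + 1)) R).support,
      (c.sum fun _ v => (v : ℤ)) = (e : ℤ) := by
  intro c hc
  rw [MvPolynomial.C_mul_X_pow_eq_monomial] at hc
  rw [Finset.mem_singleton.1 (MvPolynomial.support_monomial_subset hc),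
    Finsupp.sum_single_index (by simp)]

theorem rho_C_mul (r : R) (μ : Lau R n) : rho lam (MvPolynomial.C r) * μ = r • μ := by
  rw [rho, MvPolynomial.aeval_C, Algebra.smul_def]

theorem push_scale {ι : Type w} (f : MvPolynomial (Fin (n + 1)) R) (x : Tot R n ι) :
    push lam (fun i => Finsupp.single i f) x = lmul (rho lam f) x := by
  induction x using tot_induction with
  | h0 => simp
  | hadd a b ha hb => simp [map_add, ha, hb]
  | hs i e r => simp only [map_smul, push_inComp, lmul_inComp, emb_single]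

theorem combo_scale {ι : Type w} (f : MvPolynomial (Fin (n + 1)) R)
    (c : ι →₀ MvPolynomial (Fin (n + 1)) R) :
    combo (fun x => Finsupp.single x f) c = f • c := by
  induction c using Finsupp.induction_linear with
  | zero => simp [combo]
  | add c d hc hd => rw [combo_add, hc, hd, smul_add]
  | single l g => rw [combo_single, Finsupp.smul_single, Finsupp.smul_single, smul_eq_mul,
      smul_eq_mul, mul_comm]

variable {ι : Type} (z : Fin (n + 1) → R)
  (S : Submodule (MvPolynomial (Fin (n + 1)) R) ((ι × ℕ) →₀ MvPolynomial (Fin (n + 1)) R))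

/-- `u` and `Y k` trade against `z k`. -/
theorem shift_rel
    (hz : ∀ (i : ι) (s : ℕ) (k : Fin (n + 1)),
      Finsupp.single (i, s + 1) (MvPolynomial.X k) - Finsupp.single (i, s) (MvPolynomial.C (z k)) ∈ S)
    (i : ι) (k : Fin (n + 1)) (M s : ℕ) :
    Finsupp.single (i, s + M) (MvPolynomial.X k ^ M) -
      Finsupp.single (i, s) (MvPolynomial.C (z k ^ M)) ∈ S := by
  induction M with
  | zero => simp
  | succ M ih =>
    have h1 := S.smul_mem (MvPolynomial.X k ^ M) (hz i (s + M) k)
    have h2 := S.smul_mem (MvPolynomial.C (z k)) ih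
    convert S.add_mem h1 h2 using 1
    simp only [smul_sub, Finsupp.smul_single, smul_eq_mul]
    rw [show MvPolynomial.X k ^ M * MvPolynomial.C (z k) =
        MvPolynomial.C (z k) * MvPolynomial.X k ^ M from mul_comm _ _,
      sub_add_sub_cancel, ← pow_succ, ← map_mul, ← pow_succ', Nat.add_assoc]

/-- Inclusion of the part `s = 0`. -/
noncomputable def baseFam : ι → ((ι × ℕ) →₀ MvPolynomial (Fin (n + 1)) R) :=
  fun i => Finsupp.single (i, 0) 1

/-- Clearing `u` with the power `M` of `Y k`. -/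
noncomputable def clearFam (k : Fin (n + 1)) (M : ℕ) :
    ι × ℕ → (ι →₀ MvPolynomial (Fin (n + 1)) R) :=
  fun x => if x.2 ≤ M then
    Finsupp.single x.1 (MvPolynomial.C (z k ^ x.2) * MvPolynomial.X k ^ (M - x.2)) else 0

theorem clearFam_homog (δ : ι → ℤ) (k : Fin (n + 1)) (M : ℕ) (x : ι × ℕ) :
    IsHomog δ (clearFam z k M x) (δ x.1 - x.2 + M) := by
  unfold clearFam
  split_ifs with h
  · exact homog_single _ (d := ((M - x.2 : ℕ) : ℤ)) (homog_monomial k _ _) (by omega)
  · exact homog_zero _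

variable (δ : ι → ℤ) (a : Fin n → ℤ) (ε : Chart n)

/-- Modulo relations every cochain comes from `s = 0`. -/
theorem surj_base (hlam : Sep lam)
    (hz : ∀ (i : ι) (s : ℕ) (k : Fin (n + 1)),
      Finsupp.single (i, s + 1) (MvPolynomial.X k) - Finsupp.single (i, s) (MvPolynomial.C (z k)) ∈ S)
    (N : ℤ) :
    freeSlice R a ε (fun x : ι × ℕ => δ x.1 - x.2) N ≤
      (freeSlice R a ε δ N).map (push lam baseFam) ⊔
        relSlice lam a ε (fun x : ι × ℕ => δ x.1 - x.2) (S : Set _) N := by
  set P := (freeSlice R a ε δ N).map (push lam baseFam) ⊔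
    relSlice lam a ε (fun x : ι × ℕ => δ x.1 - x.2) (S : Set _) N
  have main : ∀ (s : ℕ) (i : ι) (m : ℤ) (μ : Lau R n), LauMem a ε m μ → δ i - s + m = N →
      inComp (i, s) μ ∈ P := by
    intro s
    induction s with
    | zero =>
      intro i m μ hμ hN
      refine Submodule.mem_sup_left ⟨inComp i μ, inComp_mem hμ (by simpa using hN), ?_⟩
      rw [push_inComp, baseFam, emb_single, map_one, one_mul]
    | succ s ih =>
      intro i m μ hμ hN
      obtain ⟨g, hg, hsum⟩ := exists_unit lam hlam ε 1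
      have hμ' : inComp (i, s + 1) μ =
          ∑ k, emb lam (Finsupp.single (i, s + 1) (MvPolynomial.X k)) (g k * μ) := by
        conv_lhs => rw [← one_mul μ, ← hsum, Finset.sum_mul, map_sum]
        refine Finset.sum_congr rfl fun k _ => ?_
        rw [emb_single, rho, MvPolynomial.aeval_X, pow_one, mul_assoc]
      rw [hμ']
      refine sum_mem fun k _ => ?_
      have hgμ : LauMem a ε (m - 1) (g k * μ) := by
        have h := (show LauMem (fun _ => 0) ε (-((1 : ℕ) : ℤ)) (g k) from hg k).mul hμ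
        rwa [show ((fun _ => 0) + a : Fin n → ℤ) = a from zero_add a,
          show -((1 : ℕ) : ℤ) + m = m - 1 by push_cast; ring] at h
      rw [← sub_add_cancel (Finsupp.single (i, s + 1) (MvPolynomial.X k))
        (Finsupp.single (i, s) (MvPolynomial.C (z k))), emb_add_left]
      refine add_mem (Submodule.mem_sup_right (emb_mem_rel lam (hz i s k)
        (D := δ i - s) ?_ hgμ (by push_cast at hN; omega))) ?_
      · refine homog_sub (homog_single _ (d := ((1 : ℕ) : ℤ)) ?_ (by push_cast; ring))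
          (homog_single _ (d := ((0 : ℕ) : ℤ)) ?_ (by push_cast; ring))
        · simpa using homog_monomial (R := R) k 1 1
        · simpa using homog_monomial k (z k) 0
      · rw [emb_single, rho_C_mul, map_smul]
        exact P.smul_mem _ (ih i (m - 1) _ hgμ (by push_cast at hN; omega))
  rw [Sheaf.freeSlice_eq_span, Submodule.span_le]
  rintro _ ⟨⟨⟨i, s⟩, e⟩, ⟨he, hN⟩, rfl⟩
  have := main s i e.2 _ (lauMem_single 1 he rfl) hN
  rwa [inComp_single] at this

/-- On `s = 0` the relations are those of the preimage of `S`. -/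
theorem inj_base (hlam : Sep lam)
    (hz : ∀ (i : ι) (s : ℕ) (k : Fin (n + 1)),
      Finsupp.single (i, s + 1) (MvPolynomial.X k) - Finsupp.single (i, s) (MvPolynomial.C (z k)) ∈ S)
    (N : ℤ) (x : Tot R n ι)
    (hx : push lam baseFam x ∈ relSlice lam a ε (fun x : ι × ℕ => δ x.1 - x.2) (S : Set _) N) :
    x ∈ relSlice lam a ε δ {c | combo baseFam c ∈ S} N := by
  set δ' : ι × ℕ → ℤ := fun x => δ x.1 - x.2
  have key : ∀ y ∈ relSlice lam a ε δ' (S : Set _) N, ∃ M₀ : ℕ, ∀ M : ℕ, M₀ ≤ M → ∀ k,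
      push lam (clearFam z k M) y ∈ relSlice lam a ε δ {c | combo baseFam c ∈ S} (N + M) := by
    intro y hy
    induction hy using Submodule.span_induction with
    | mem y hy =>
      obtain ⟨p, hp, D, e, hD, he, hN, rfl⟩ := hy
      refine ⟨p.support.sup Prod.snd, fun M hM k => ?_⟩
      have hXp : combo (fun x => Finsupp.single x (MvPolynomial.X k ^ M)) p ∈ S := by
        rw [combo_scale]; exact S.smul_mem _ hp
      have hcomb : combo (fun x => combo baseFam (clearFam z k M x) -
          Finsupp.single x (MvPolynomial.X k ^ M)) p ∈ S := by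
        refine sum_mem fun x hx => S.smul_mem _ ?_
        have hs : x.2 ≤ M := le_trans (Finset.le_sup (f := Prod.snd) hx) hM
        obtain ⟨i, s⟩ := x
        simp only [clearFam, if_pos hs, combo_single, baseFam]
        have h := S.smul_mem (MvPolynomial.X k ^ (M - s)) (shift_rel z S hz i k s 0)
        convert S.neg_mem h using 1
        rw [Nat.zero_add, smul_sub, neg_sub, Finsupp.smul_single, Finsupp.smul_single,
          Finsupp.smul_single, smul_eq_mul, smul_eq_mul, smul_eq_mul, mul_one, ← pow_add,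
          Nat.sub_add_cancel hs, mul_comm (MvPolynomial.X k ^ (M - s))]
      rw [combo_sub_left, ← combo_comp] at hcomb
      rw [push_emb_combo]
      have hcl : combo baseFam (combo (clearFam z k M) p) ∈ S := by
        have h := S.add_mem hcomb hXp
        rwa [sub_add_cancel] at h
      exact Submodule.subset_span ⟨_, hcl, D + M, e,
        homog_combo (clearFam_homog z δ k M) hD, he, by omega, rfl⟩
    | zero => exact ⟨0, fun M _ k => by simp⟩
    | add y₁ y₂ _ _ h₁ h₂ =>
      obtain ⟨M₁, h₁⟩ := h₁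
      obtain ⟨M₂, h₂⟩ := h₂
      exact ⟨max M₁ M₂, fun M hM k => by
        rw [map_add]
        exact add_mem (h₁ M (le_trans (le_max_left _ _) hM) k)
          (h₂ M (le_trans (le_max_right _ _) hM) k)⟩
    | smul c y _ h =>
      obtain ⟨M₁, h⟩ := h
      exact ⟨M₁, fun M hM k => by rw [map_smul]; exact Submodule.smul_mem _ _ (h M hM k)⟩
  obtain ⟨M, hM⟩ := key _ hx
  have hclear : ∀ k, push lam (clearFam z k M) (push lam baseFam x) =
      lmul (yImg lam k ^ M) x := fun k => by
    rw [push_push]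
    simp only [baseFam, combo_single, one_smul, clearFam, Nat.zero_le, if_true, pow_zero, map_one,
      one_mul, Nat.sub_zero]
    rw [push_scale, map_pow, rho, MvPolynomial.aeval_X]
  obtain ⟨g, hg, hsum⟩ := exists_unit lam hlam ε M
  rw [← lmul_one x, ← hsum, lmul_sum]
  refine sum_mem fun k _ => ?_
  rw [mul_comm, ← lmul_lmul, ← hclear]
  have h := lmul_mem_rel lam a ε (show LauMem (fun _ => 0) ε (-(M : ℤ)) (g k) from hg k)
    ⟨_, hM M le_rfl k, rfl⟩
  rwa [show -(M : ℤ) + (N + M) = N by ring] at h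

theorem nonempty_base_equiv (hlam : Sep lam)
    (hz : ∀ (i : ι) (s : ℕ) (k : Fin (n + 1)),
      Finsupp.single (i, s + 1) (MvPolynomial.X k) - Finsupp.single (i, s) (MvPolynomial.C (z k)) ∈ S)
    (N k : ℤ) :
    Nonempty ((cechGC R n (Tot R n ι)).H (relCech lam a δ {c | combo baseFam c ∈ S} N)
        (freeCech R a δ N) k ≃ₗ[R]
      (cechGC R n (Tot R n (ι × ℕ))).H
        (relCech lam a (fun x : ι × ℕ => δ x.1 - x.2) (S : Set _) N)
        (freeCech R a (fun x : ι × ℕ => δ x.1 - x.2) N) k) := by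
  have hb : ∀ i, IsHomog (fun x : ι × ℕ => δ x.1 - x.2)
      (baseFam (n := n) (R := R) i) (δ i + 0) := fun i => homog_single_one _ (by simp)
  refine nonempty_cech_equiv (push lam baseFam) _ _ _ _
    (fun ε j v hε => freeSlice_mono (update_two hε) δ N)
    (fun ε j v hε => relSlice_mono lam (update_two hε) _ _ N) (fun ε => ?_) (fun ε => ?_)
    (fun ε => surj_base lam z S δ a ε hlam hz N)
    (fun ε x hx => inj_base lam z S δ a ε hlam hz N x hx.2) k
  · have h := map_push_rel lam a ε hb (N := N) (K := {c | combo baseFam c ∈ S})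
      (K' := (S : Set _)) fun c hc _ => hc
    rwa [add_zero] at h
  · have h := map_push_free lam a ε hb (N := N)
    rwa [add_zero] at h

/-- A boundary upstairs gives one downstairs. -/
theorem bd_of_shift {V : Type*} [AddCommGroup V] [Module R V] (G : GC R V) (T : V →ₗ[R] V)
    (X Y X' Y' : Submodule R V) (d : ℤ) (hD : ∀ v, T (G.D v) = G.D (T v))
    (hdeg : ∀ (v : V) (e : ℤ), v ∈ G.deg e → T v ∈ G.deg e)
    (hY : ∀ v ∈ Y', T v ∈ Y) (hX : ∀ v ∈ X', T v ∈ X) {x y : V} (c : R)
    (hy : y ∈ G.bd X' Y' d) (hxd : x ∈ G.deg d) (hyd : y ∈ G.deg d) (hTy : T y - c • x ∈ X) :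
    c • x ∈ G.bd X Y d := by
  obtain ⟨_, ⟨w, hw, rfl⟩, r, hr, hs⟩ := Submodule.mem_sup.1 hy
  have h : c • x = G.D (T w) + T r - (T y - c • x) := by
    rw [← hD, ← map_add, hs, sub_sub_cancel]
  rw [h]
  refine sub_mem (add_mem (Submodule.mem_sup_left ⟨T w, ⟨hY _ hw.1, hdeg _ _ hw.2⟩, rfl⟩)
    (Submodule.mem_sup_right ⟨hX _ hr.1, hdeg _ _ hr.2⟩)) ?_
  exact Submodule.mem_sup_right ⟨hTy, sub_mem (hdeg _ _ hyd) (Submodule.smul_mem _ _ hxd)⟩

theorem compLeft_deg {M M' : Type*} [AddCommGroup M] [Module R M] [AddCommGroup M'] [Module R M']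
    (f : M →ₗ[R] M') (v : Chart n → M) (e : ℤ) (hv : v ∈ (cechGC R n M).deg e) :
    f.compLeft (Chart n) v ∈ (cechGC R n M').deg e := by
  intro ε h
  have := hv ε h
  change f (v ε) ∈ (if -(chartDeg ε : ℤ) = e then ⊤ else ⊥ : Submodule R M')
  split_ifs with hε
  · exact Submodule.mem_top
  · simp only [hε, if_false, SetLike.mem_coe, Submodule.mem_bot] at this
    simp [this]

theorem compLeft_free {L L' : Type} {η : L → ℤ} {η' : L' → ℤ} {D N N' : ℤ}
    {p : L → (L' →₀ MvPolynomial (Fin (n + 1)) R)} (hp : ∀ l, IsHomog η' (p l) (η l + D))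
    (hN : N + D = N') (v : Chart n → Tot R n L) (hv : v ∈ freeCech R a η N) :
    (push lam p).compLeft (Chart n) v ∈ freeCech R a η' N' := by
  subst hN
  exact fun ε h => push_mem_free lam hp (hv ε h)

theorem compLeft_rel {L L' : Type} {η : L → ℤ} {η' : L' → ℤ} {D N N' : ℤ}
    {p : L → (L' →₀ MvPolynomial (Fin (n + 1)) R)} (hp : ∀ l, IsHomog η' (p l) (η l + D))
    {K : Set (L →₀ MvPolynomial (Fin (n + 1)) R)} {K' : Set (L' →₀ MvPolynomial (Fin (n + 1)) R)}
    (hK : ∀ c ∈ K, combo p c ∈ K')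
    (hN : N + D = N') (v : Chart n → Tot R n L) (hv : v ∈ relCech lam a η K N) :
    (push lam p).compLeft (Chart n) v ∈ relCech lam a η' K' N' := by
  subst hN
  exact fun ε h => map_push_rel lam a ε hp (fun c hc _ => hK c hc) ⟨_, hv ε h, rfl⟩

theorem combo_shift_mem (hu : ∀ p ∈ S, (p.mapDomain fun x => (x.1, x.2 + 1)) ∈ S) (M : ℕ)
    (c : (ι × ℕ) →₀ MvPolynomial (Fin (n + 1)) R) (hc : c ∈ (S : Set _)) :
    combo (fun x : ι × ℕ => Finsupp.single (x.1, x.2 + M)
      (1 : MvPolynomial (Fin (n + 1)) R)) c ∈ S := by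
  induction M with
  | zero => simpa [combo] using hc
  | succ J ih =>
    convert hu _ ih using 1
    rw [combo, combo, Finsupp.mapDomain_sum]
    refine Finsupp.sum_congr fun x _ => ?_
    rw [Finsupp.smul_single, Finsupp.smul_single, Finsupp.mapDomain_single, Nat.add_assoc]

/-- A vanishing degree further up makes a power of `z k` act as zero. -/
theorem pow_kills
    (hu : ∀ p ∈ S, (p.mapDomain fun x => (x.1, x.2 + 1)) ∈ S)
    (hz : ∀ (i : ι) (s : ℕ) (k : Fin (n + 1)),
      Finsupp.single (i, s + 1) (MvPolynomial.X k) - Finsupp.single (i, s) (MvPolynomial.C (z k)) ∈ S)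
    (N : ℤ) (M : ℕ) (d : ℤ)
    (h0 : Subsingleton ((cechGC R n (Tot R n (ι × ℕ))).H
      (relCech lam a (fun x : ι × ℕ => δ x.1 - x.2) (S : Set _) (N + M))
      (freeCech R a (fun x : ι × ℕ => δ x.1 - x.2) (N + M)) d))
    (k : Fin (n + 1))
    (x : (cechGC R n (Tot R n (ι × ℕ))).H
      (relCech lam a (fun x : ι × ℕ => δ x.1 - x.2) (S : Set _) N)
      (freeCech R a (fun x : ι × ℕ => δ x.1 - x.2) N) d) :
    z k ^ M • x = 0 := by
  obtain ⟨⟨x, ⟨hxF, hxd⟩, hxX⟩, rfl⟩ := Submodule.Quotient.mk_surjective _ x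
  set δ' : ι × ℕ → ℤ := fun x => δ x.1 - x.2
  set G := cechGC R n (Tot R n (ι × ℕ))
  let fy : ι × ℕ → ((ι × ℕ) →₀ MvPolynomial (Fin (n + 1)) R) :=
    fun x => Finsupp.single x (MvPolynomial.X k ^ M)
  let fs : ι × ℕ → ((ι × ℕ) →₀ MvPolynomial (Fin (n + 1)) R) :=
    fun x => Finsupp.single (x.1, x.2 + M) 1
  have hfy : ∀ x, IsHomog δ' (fy x) (δ' x + (M : ℤ)) := fun x =>
    homog_single _ (d := (M : ℤ)) (by simpa using homog_monomial (R := R) k 1 M) rfl
  have hfs : ∀ x, IsHomog δ' (fs x) (δ' x + (-(M : ℤ))) := fun x =>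
    homog_single_one _ (by simp only [δ']; push_cast; ring)
  have hfsS : ∀ c ∈ (S : Set _), combo fs c ∈ S := combo_shift_mem S hu M
  set y := (push lam fy).compLeft (Chart n) x
  have hyc : y ∈ G.cyc (relCech lam a δ' (S : Set _) (N + M)) (freeCech R a δ' (N + M)) d := by
    refine ⟨⟨compLeft_free lam a hfy rfl x hxF, compLeft_deg (push lam fy) x d hxd⟩, fun ε h => ?_⟩
    · change cechD R y ε ∈ relSlice lam a ε δ' (S : Set _) (N + M)
      rw [show cechD R y = (push lam fy).compLeft (Chart n) (cechD R x) from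
        (compLeft_cechD _ _).symm]
      exact map_push_rel lam a ε hfy
        (fun c hc _ => by rw [combo_scale]; exact S.smul_mem _ hc) ⟨_, hxX ε h, rfl⟩
  have hyb := (G.mk_eq_zero_iff_bd ⟨y, hyc⟩).1 (Subsingleton.elim _ _)
  set T := (push lam fs).compLeft (Chart n)
  have hTy : T y - z k ^ M • x ∈ relCech lam a δ' (S : Set _) N := by
    intro ε h
    change push lam fs (push lam fy (x ε)) - z k ^ M • x ε ∈ relSlice lam a ε δ' (S : Set _) N
    have hxε : x ε ∈ freeSlice R a ε δ' N := hxF ε h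
    rw [Sheaf.freeSlice_eq_span] at hxε
    refine Submodule.span_induction (p := fun v _ =>
      push lam fs (push lam fy v) - z k ^ M • v ∈ relSlice lam a ε δ' (S : Set _) N)
      ?_ ?_ ?_ ?_ hxε
    · rintro _ ⟨⟨⟨i, s⟩, e⟩, ⟨he, hN⟩, rfl⟩
      simp only [push_push, fy, fs, combo_single]
      rw [← inComp_single, push_inComp, Finsupp.smul_single, smul_eq_mul, mul_one, ← map_smul,
        ← rho_C_mul lam, ← emb_single]
      have hemb : ∀ p q : (ι × ℕ) →₀ MvPolynomial (Fin (n + 1)) R, ∀ μ : Lau R n,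
          emb lam p μ - emb lam q μ = emb lam (p - q) μ := fun p q μ => by
        rw [sub_eq_iff_eq_add, ← emb_add_left, sub_add_cancel]
      rw [hemb]
      refine emb_mem_rel lam (shift_rel z S hz i k M s) (D := δ' (i, s)) ?_
        (lauMem_single 1 he rfl) hN
      refine homog_sub (homog_single _ (d := (M : ℤ)) (by simpa using homog_monomial (R := R) k 1 M)
        (by simp only [δ']; push_cast; ring))
        (homog_single _ (d := ((0 : ℕ) : ℤ)) (by simpa using homog_monomial k (z k ^ M) 0)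
          (by simp))
    · simp
    · intro u v _ _ hu hv
      rw [map_add, map_add, smul_add, add_sub_add_comm]
      exact add_mem hu hv
    · intro c u _ hu
      rw [map_smul, map_smul, smul_comm (z k ^ M), ← smul_sub]
      exact Submodule.smul_mem _ _ hu
  rw [← Submodule.Quotient.mk_smul]
  refine (G.mk_eq_zero_iff_bd _).2 ?_
  exact bd_of_shift G T (relCech lam a δ' (S : Set _) N)
    (freeCech R a δ' N) (relCech lam a δ' (S : Set _) (N + (M : ℤ)))
    (freeCech R a δ' (N + (M : ℤ))) d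
    (fun v => compLeft_cechD (push lam fs) v) (compLeft_deg (push lam fs))
    (compLeft_free lam a hfs (add_neg_cancel_right N _))
    (compLeft_rel lam a hfs hfsS (add_neg_cancel_right N _))
    (z k ^ M) hyb hxd hyc.1.2 hTy

end Sheaf

/-- finiteness over the base -/
theorem cech_finite {R : Type u} [CommRing R] [IsNoetherianRing R] (lam : Fin (n + 1) → R)
    (hlam : Sep lam) {ι : Type} [Fintype ι] (δ : ι → ℤ) (z : Fin (n + 1) → R)
    (S : Submodule (MvPolynomial (Fin (n + 1)) R) ((ι × ℕ) →₀ MvPolynomial (Fin (n + 1)) R))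
    (hS : ∀ p ∈ S, p ∈ Submodule.span (MvPolynomial (Fin (n + 1)) R)
      {p | p ∈ S ∧ ∃ D, IsHomog (fun x : ι × ℕ => δ x.1 - x.2) p D})
    (hu : ∀ p ∈ S, (p.mapDomain fun x => (x.1, x.2 + 1)) ∈ S)
    (hz : ∀ (i : ι) (s : ℕ) (k : Fin (n + 1)),
      Finsupp.single (i, s + 1) (MvPolynomial.X k) - Finsupp.single (i, s) (MvPolynomial.C (z k)) ∈ S)
    (a : Fin n → ℤ) (ha : ∀ j, 0 ≤ a j) (N : ℤ) (q : ℕ) :
    Module.Finite R ((cechGC R n (Tot R n (ι × ℕ))).H
      (relCech lam a (fun x : ι × ℕ => δ x.1 - x.2) (S : Set _) N)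
      (freeCech R a (fun x : ι × ℕ => δ x.1 - x.2) N) (-(q : ℤ))) ∧
    (1 ≤ q → ∃ M : ℕ, ∀ k, ∀ x : (cechGC R n (Tot R n (ι × ℕ))).H
      (relCech lam a (fun x : ι × ℕ => δ x.1 - x.2) (S : Set _) N)
      (freeCech R a (fun x : ι × ℕ => δ x.1 - x.2) N) (-(q : ℤ)), z k ^ M • x = 0) := by
  clear hS
  obtain ⟨hfin, hvan⟩ := finite_aux lam hlam a ha (n + 1) ι δ {c | combo baseFam c ∈ S} q (by omega)
  refine ⟨?_, fun hq => ?_⟩
  · obtain ⟨e⟩ := nonempty_base_equiv lam z S δ a hlam hz N (-(q : ℤ))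
    have := hfin N
    exact Module.Finite.equiv e
  · obtain ⟨N₀, hN₀⟩ := hvan hq
    refine ⟨(N₀ - N).toNat, pow_kills lam z S δ a hu hz N _ (-(q : ℤ)) ?_⟩
    obtain ⟨e⟩ := nonempty_base_equiv lam z S δ a hlam hz (N + ((N₀ - N).toNat : ℤ)) (-(q : ℤ))
    have := hN₀ (N + ((N₀ - N).toNat : ℤ)) (by omega)
    exact e.symm.toEquiv.subsingleton

end Vale.Agent.P202.Char
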