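import Vale.Agent.P202.Char.Gr
import Vale.Agent.P202.Char.Sat
import Vale.Agent.P202.Char.GC

/-!
P202, Lech in characteristic `p`: slices of the extended Rees algebra.

`cut a w N` is the subcomplex of the free slice of degree `N` generated by the relations and
`u ^ w`; its one-step quotients are the slices of the associated graded ring.
-/

namespace Vale.Agent.P202.Char

universe u v w

open IsLocalRing

section Transfer

variable {R : Type u} [CommRing R] {K : Type v} [CommRing K] [Algebra R K] {M : Type w}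
  [AddCommGroup M] [Module R M] [Module K M] [IsScalarTower R K M]

/-- A subquotient by vector subspaces has the same length over the base. -/
theorem length_subquotient (hs : Function.Surjective (algebraMap R K)) {A B : Submodule R M}
    {A' B' : Submodule K M} (hA : ∀ x, x ∈ A ↔ x ∈ A') (hB : ∀ x, x ∈ B ↔ x ∈ B') :
    Module.length R (A ⧸ B.comap A.subtype) = Module.length K (A' ⧸ B'.comap A'.subtype) := by
  let i : A →ₗ[R] A' :=
    { toFun := fun x => ⟨x, (hA x).1 x.2⟩
      map_add' := fun _ _ => rfl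
      map_smul' := fun _ _ => rfl }
  let f : A →ₗ[R] A' ⧸ B'.comap A'.subtype :=
    ((B'.comap A'.subtype).mkQ.restrictScalars R) ∘ₗ i
  have hf : Function.Surjective f := fun y => by
    obtain ⟨⟨y, hy⟩, rfl⟩ := Submodule.mkQ_surjective _ y
    exact ⟨⟨y, (hA y).2 hy⟩, rfl⟩
  have hk : LinearMap.ker f = B.comap A.subtype := by
    ext x
    simp [f, i, Submodule.Quotient.mk_eq_zero, hB]
  rw [← Module.length_eq_of_surjective (M := A' ⧸ B'.comap A'.subtype) hs, ← hk]
  exact (f.quotKerEquivOfSurjective hf).length_eq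

end Transfer

namespace RedData

variable {R : Type u} [CommRing R] [IsLocalRing R] {n : ℕ} (Z : RedData R n)
  (lam : Fin (n + 1) → R) (a : Fin n → ℤ)

/-- One step: the slice modulo `u` is the slice of the associated graded ring. -/
theorem length_slice (N k : ℤ) :
    Module.length R ((cechGC R n (Tot R n Z.Idx)).H (Z.cut lam a 1 N)
        (freeCech R a Z.ideg N) k) =
      Module.length (ResidueField R) ((cechGC (ResidueField R) n
        (Tot (ResidueField R) n Z.ι)).H (Z.grSub lam a N) (Z.grFree a N) k) := by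
  classical
  set C := cechGC R n (Tot R n Z.Idx)
  set C' := cechGC R n (Tot (ResidueField R) n Z.ι)
  set X' := (Z.grSub lam a N).restrictScalars R
  set Y' := (Z.grFree a N).restrictScalars R
  set f : (Chart n → Tot R n Z.Idx) →ₗ[R] (Chart n → Tot (ResidueField R) n Z.ι) :=
    LinearMap.pi fun ε => Z.redTot ∘ₗ LinearMap.proj ε
  have hD : ∀ (x : Chart n → Tot (ResidueField R) n Z.ι),
      cechD R x = cechD (ResidueField R) x := fun x => cechD_tower x
  have hspan : ∀ ε, relSlice (resLam lam) a ε (fun i => (Z.δ i : ℤ)) Z.grRel N ≤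
      relSlice (resLam lam) a ε (fun i => (Z.δ i : ℤ))
        (Submodule.span (MvPolynomial (Fin (n + 1)) (ResidueField R)) Z.grRel : Set _) N :=
    fun ε => Submodule.span_mono fun _ ⟨p, hp, h⟩ => ⟨p, Submodule.subset_span hp, h⟩
  have h1 : Module.length R (C.H (Z.cut lam a 1 N) (freeCech R a Z.ideg N) k) =
      Module.length R (C'.H X' Y' (k + 0)) := by
    refine GC.h_congr C C' f 1 0 (fun j x _ => ?_) (cut_isSub Z lam a 1 N) (free_isSub Z a N)
      (cut_le_free Z lam a 1 N) ?_ ?_ ?_ (fun j => ?_) ?_ ?_ (fun j => ?_) fun j => ?_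
    · have : f (cechD R x) = cechD R (f x) := funext fun ε => cechD_map Z.redTot x ε
      simp [C, C', cechGC, this]
    · rintro _ ⟨x, hx, rfl⟩
      show cechD R x ∈ _
      rw [hD]
      exact cechD_mem_rel (resLam lam) ⟨x, hx, rfl⟩
    · rintro _ ⟨x, hx, rfl⟩
      show cechD R x ∈ _
      rw [hD]
      exact cechD_mem ⟨x, hx, rfl⟩
    · exact relCech_le_free (resLam lam)
    · rintro _ ⟨x, hx, rfl⟩
      refine mem_cechDeg.2 fun ε h => ?_
      show Z.redTot (x ε) = 0
      rw [mem_cechDeg.1 hx ε (by simpa using h), map_zero]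
    · rw [cut, Submodule.map_sup]
      refine sup_le ?_ ?_
      · rintro _ ⟨x, hx, rfl⟩ ε -
        exact hspan ε (redTot_rel lam (hx ε trivial))
      · rintro _ ⟨_, ⟨x, -, rfl⟩, rfl⟩ ε -
        show Z.redTot (push lam (Z.upBy 1 1) (x ε)) ∈ _
        induction x ε using tot_induction with
        | h0 => simp
        | hadd b c hb hc => rw [map_add, map_add]; exact Submodule.add_mem _ hb hc
        | hs i e r => simp [push_inComp, upBy, emb_single, redTot_inComp]
    · rintro _ ⟨x, hx, rfl⟩ ε -
      exact redTot_free (hx ε trivial)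
    · rintro y ⟨hy, hy'⟩
      have hl : ∀ v : ResidueField R, ∃ r, residue R r = v := residue_surjective
      choose l hl using hl
      let l0 : ResidueField R → R := fun v => if v = 0 then 0 else l v
      have hl0 : ∀ v, residue R (l0 v) = v := fun v => by
        by_cases h : v = 0 <;> simp [l0, h, hl]
      let x : Chart n → Tot R n Z.Idx := fun ε =>
        ((y ε).mapRange l0 (by simp [l0])).mapDomain fun z => ((z.1, 0), z.2)
      refine Submodule.mem_sup_left ⟨x, ⟨fun ε _ => ?_, mem_cechDeg.2 fun ε h => ?_⟩, funext fun ε => ?_⟩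
      · have h : y ε ∈ freeSlice (ResidueField R) a ε (fun i => (Z.δ i : ℤ)) N := hy ε trivial
        rw [freeSlice, Finsupp.mem_supported] at h
        show x ε ∈ freeSlice R a ε Z.ideg N
        rw [freeSlice, Finsupp.mem_supported]
        intro z hz
        obtain ⟨z', hz', rfl⟩ := Finset.mem_image.1 (Finsupp.mapDomain_support hz)
        simpa [ideg] using h (Finsupp.support_mapRange hz')
      · have h0 : y ε = 0 := mem_cechDeg.1 hy' ε (by simpa using h)
        simp [x, h0]
      · refine Finsupp.ext fun ⟨i, e⟩ => ?_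
        show Z.redTot (x ε) (i, e) = y ε (i, e)
        have hj : Function.Injective fun z : Z.ι × Expo n => (((z.1, 0) : Z.Idx), z.2) :=
          fun z z' h => by simpa [Prod.ext_iff] using h
        rw [redTot_apply, show (((i, 0) : Z.Idx), e) =
          (fun z : Z.ι × Expo n => (((z.1, 0) : Z.Idx), z.2)) (i, e) from rfl,
          Finsupp.mapDomain_apply hj, Finsupp.mapRange_apply, hl0]
    · rintro x ⟨⟨hx, -⟩, hxf⟩
      have key : ∀ ε, ∃ r ∈ relSlice lam a ε Z.ideg Z.rel N,
          ∃ z ∈ freeSlice R a ε Z.ideg (N + 1), r + push lam (Z.upBy 1 1) z = x ε := by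
        intro ε
        obtain ⟨r, hr, _, ⟨z, hz, rfl⟩, h⟩ := Submodule.mem_sup.1
          (mem_of_redTot_mem lam (hx ε trivial) (hxf ε trivial))
        exact ⟨r, hr, z, hz, h⟩
      choose r hr z hz hrz using key
      rw [← show r + Z.upC lam 1 z = x from funext hrz]
      exact Submodule.add_mem_sup (fun ε _ => hr ε)
        (Submodule.mem_map_of_mem fun ε _ => by simpa using hz ε)
  rw [h1, add_zero]
  refine length_subquotient residue_surjective (fun x => ?_) fun x => ?_
  · simp only [GC.cyc, Submodule.mem_inf, Submodule.mem_comap, X', Y',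
      Submodule.restrictScalars_mem]
    simp only [C', cechGC, hD, mem_cechDeg]
  · simp only [GC.bd, Submodule.mem_sup, Submodule.mem_map, Submodule.mem_inf, X', Y',
      Submodule.restrictScalars_mem]
    simp only [C', cechGC, hD, mem_cechDeg]

/-- Steps of the filtration by powers of `u`. -/
theorem length_step (hlam : Sep lam) (ha : ∀ j, 0 ≤ a j) (j : ℕ) (N k : ℤ) :
    Module.length R ((cechGC R n (Tot R n Z.Idx)).H (Z.cut lam a (j + 1) N)
        (Z.cut lam a j N) k) =
      Module.length (ResidueField R) ((cechGC (ResidueField R) n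
        (Tot (ResidueField R) n Z.ι)).H (Z.grSub lam a (N + j)) (Z.grFree a (N + j)) k) := by
  rw [← length_slice Z lam a (N + j) k]
  set C := cechGC R n (Tot R n Z.Idx)
  symm
  have h : Module.length R (C.H (Z.cut lam a 1 (N + j)) (freeCech R a Z.ideg (N + j)) k) =
      Module.length R (C.H (Z.cut lam a (j + 1) N) (Z.cut lam a j N) (k + 0)) := by
    refine GC.h_congr C C (Z.upC lam j) 1 0 (fun l x _ => ?_) (cut_isSub Z lam a 1 _)
      (free_isSub Z a _) (cut_le_free Z lam a 1 _) (cut_isSub Z lam a _ N)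
      (cut_isSub Z lam a j N) (cut_anti Z lam a j.le_succ N) (fun l => ?_) ?_ ?_ (fun l => ?_)
      fun l => ?_
    · simp [C, cechGC, upC_cechD]
    · rintro _ ⟨x, hx, rfl⟩
      refine mem_cechDeg.2 fun ε h => ?_
      rw [upC_apply, mem_cechDeg.1 hx ε (by simpa using h), map_zero]
    · rw [cut, Submodule.map_sup]
      refine sup_le ?_ ?_
      · rintro _ ⟨x, hx, rfl⟩
        exact Submodule.mem_sup_left (by simpa using upC_rel (w := j) hx)
      · rintro _ ⟨_, ⟨x, hx, rfl⟩, rfl⟩
        refine Submodule.mem_sup_right ⟨x, ?_, ?_⟩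
        · simpa [add_assoc] using hx
        · rw [upC_upC, add_comm 1 j]
    · exact le_sup_right
    · rintro y ⟨hy, hy'⟩
      obtain ⟨r, hr, _, ⟨z, hz, rfl⟩, rfl⟩ := Submodule.mem_sup.1 hy
      classical
      let cutDeg : (Chart n → Tot R n Z.Idx) → Chart n → Tot R n Z.Idx :=
        fun x ε => if -(chartDeg ε : ℤ) = l then x ε else 0
      have e : cutDeg r + Z.upC lam j (cutDeg z) = r + Z.upC lam j z := by
        funext ε
        by_cases h : -(chartDeg ε : ℤ) = l
        · simp [cutDeg, h, upC_apply]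
        · rw [mem_cechDeg.1 hy' ε (by simpa using h)]
          simp [cutDeg, h, upC_apply]
      rw [← e]
      refine Submodule.add_mem _ (Submodule.mem_sup_right ⟨Submodule.mem_sup_left fun ε _ => ?_,
        mem_cechDeg.2 fun ε h => by simp_all [cutDeg]⟩) (Submodule.mem_sup_left
        (Submodule.mem_map_of_mem ⟨fun ε _ => ?_, mem_cechDeg.2 fun ε h => by simp [cutDeg, h]⟩))
      · simp only [cutDeg]
        split_ifs
        · exact hr ε trivial
        · exact Submodule.zero_mem _
      · simp only [cutDeg]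
        split_ifs
        · exact hz ε trivial
        · exact Submodule.zero_mem _
    · rintro x ⟨⟨hx, -⟩, hxu⟩
      obtain ⟨r, hr, _, ⟨z, hz, rfl⟩, h⟩ := Submodule.mem_sup.1 hxu
      have hU : Z.upC lam 1 z ∈ freeCech R a Z.ideg (N + j) := by
        have := upC_free (lam := lam) (w := 1) hz
        simpa [← add_assoc] using this
      have hs : x - Z.upC lam 1 z ∈ relCech lam a Z.ideg Z.rel (N + j) :=
        upC_sat hlam ha (Submodule.sub_mem _ hx hU)
          (by rw [map_sub, upC_upC, add_comm 1 j, ← h, add_sub_cancel_right]; exact hr)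
      rw [← sub_add_cancel x (Z.upC lam 1 z)]
      exact Submodule.add_mem_sup hs
        (Submodule.mem_map_of_mem (by simpa [add_assoc] using hz))
  rw [h, add_zero]

theorem length_self (w : Submodule R (Chart n → Tot R n Z.Idx)) (k : ℤ) :
    Module.length R ((cechGC R n (Tot R n Z.Idx)).H w w k) = 0 := by
  set C := cechGC R n (Tot R n Z.Idx)
  have : Subsingleton (C.H w w k) := by
    refine Submodule.Quotient.subsingleton_iff.2 (eq_top_iff.2 ?_)
    rintro ⟨x, hx, -⟩ -
    exact Submodule.mem_sup_right hx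
  exact Module.length_eq_zero

/-- The relations modulo `u ^ w` are bounded by the graded slices. -/
theorem h_cut (hlam : Sep lam) (ha : ∀ j, 0 ≤ a j) (w : ℕ) (N k : ℤ)
    (hf : ∀ s < w, (cechGC (ResidueField R) n (Tot (ResidueField R) n Z.ι)).FinH
      (Z.grSub lam a (N + s)) (Z.grFree a (N + s)) k) :
    (cechGC R n (Tot R n Z.Idx)).FinH (Z.cut lam a w N) (freeCech R a Z.ideg N) k ∧
    (cechGC R n (Tot R n Z.Idx)).h (Z.cut lam a w N) (freeCech R a Z.ideg N) k ≤
      ∑ s ∈ Finset.range w, (cechGC (ResidueField R) n (Tot (ResidueField R) n Z.ι)).h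
        (Z.grSub lam a (N + s)) (Z.grFree a (N + s)) k := by
  induction w with
  | zero =>
    rw [cut_zero]
    simp [GC.FinH, GC.h, len, length_self]
  | succ w ih =>
    obtain ⟨h2, h2'⟩ := ih fun s hs => hf s (hs.trans w.lt_succ_self)
    have e := length_step Z lam a hlam ha w N k
    have h1 : (cechGC R n (Tot R n Z.Idx)).FinH (Z.cut lam a (w + 1) N) (Z.cut lam a w N) k := by
      rw [GC.FinH, e]; exact hf w w.lt_succ_self
    obtain ⟨h3, h3'⟩ := GC.h_le_trans _ (cut_isSub Z lam a w N) (cut_anti Z lam a w.le_succ N)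
      (cut_le_free Z lam a w N) h1 h2
    refine ⟨h3, h3'.trans ?_⟩
    rw [Finset.sum_range_succ, add_comm (Finset.sum _ _)]
    exact add_le_add (by simp [GC.h, len, e]) h2'

theorem chi_cut (hlam : Sep lam) (ha : ∀ j, 0 ≤ a j) (w : ℕ) (N : ℤ)
    (hf : ∀ s < w, ∀ k, (cechGC (ResidueField R) n (Tot (ResidueField R) n Z.ι)).FinH
      (Z.grSub lam a (N + s)) (Z.grFree a (N + s)) k) :
    (∀ k, (cechGC R n (Tot R n Z.Idx)).FinH (Z.cut lam a w N) (freeCech R a Z.ideg N) k) ∧
    (cechGC R n (Tot R n Z.Idx)).chi (Finset.Icc (-(n : ℤ)) 0) (Z.cut lam a w N)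
        (freeCech R a Z.ideg N) =
      ∑ s ∈ Finset.range w, (cechGC (ResidueField R) n (Tot (ResidueField R) n Z.ι)).chi
        (Finset.Icc (-(n : ℤ)) 0) (Z.grSub lam a (N + s)) (Z.grFree a (N + s)) := by
  induction w with
  | zero =>
    rw [cut_zero]
    simp [GC.FinH, GC.chi, GC.h, len, length_self]
  | succ w ih =>
    obtain ⟨h2, h2'⟩ := ih fun s hs => hf s (hs.trans w.lt_succ_self)
    have e := fun k => length_step Z lam a hlam ha w N k
    have h1 : ∀ k, (cechGC R n (Tot R n Z.Idx)).FinH (Z.cut lam a (w + 1) N)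
        (Z.cut lam a w N) k := fun k => by
      rw [GC.FinH, e]; exact hf w w.lt_succ_self k
    obtain ⟨h3, h3'⟩ := GC.chi_add (cechGC R n (Tot R n Z.Idx)) (-(n : ℤ)) 0
      (fun k hk => cechDeg_eq_bot hk) (cut_isSub Z lam a _ N) (cut_isSub Z lam a w N)
      (free_isSub Z a N) (cut_anti Z lam a w.le_succ N) (cut_le_free Z lam a w N) h1 h2
    refine ⟨h3, ?_⟩
    have h4 : (cechGC R n (Tot R n Z.Idx)).chi (Finset.Icc (-(n : ℤ)) 0) (Z.cut lam a (w + 1) N)
        (Z.cut lam a w N) = (cechGC (ResidueField R) n (Tot (ResidueField R) n Z.ι)).chi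
          (Finset.Icc (-(n : ℤ)) 0) (Z.grSub lam a (N + w)) (Z.grFree a (N + w)) :=
      Finset.sum_congr rfl fun k _ => by rw [GC.h, GC.h, len, len, e k]
    rw [h3', h4, h2', Finset.sum_range_succ, add_comm]

end RedData

end Vale.Agent.P202.Char
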