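import Vale.Agent.P202.Char.Total

/-!
P202, Lech in characteristic `p`: raising the level by `(n + 1) * M` kills the homology of a level
when every `z k ^ M` is null-homotopic: on each chart the `Y k` generate the unit ideal.
-/

namespace Vale.Agent.P202.Char

universe u w

variable {R : Type u} [CommRing R] [IsLocalRing R] {n : ℕ}

theorem lmul_add {ι : Type w} (μ ν : Lau R n) (x : Tot R n ι) :
    lmul (μ + ν) x = lmul μ x + lmul ν x := by
  induction x using tot_induction with
  | h0 => simp
  | hadd a b ha hb => simp only [map_add, ha, hb]; abel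
  | hs i e r => simp only [map_smul, lmul_inComp, add_mul, map_add, smul_add]

theorem lmul_one {ι : Type w} (x : Tot R n ι) : lmul (1 : Lau R n) x = x := by
  induction x using tot_induction with
  | h0 => simp
  | hadd a b ha hb => simp only [map_add, ha, hb]
  | hs i e r => simp only [map_smul, lmul_inComp, one_mul]

theorem lmul_lmul {ι : Type w} (μ ν : Lau R n) (x : Tot R n ι) :
    lmul μ (lmul ν x) = lmul (μ * ν) x := by
  induction x using tot_induction with
  | h0 => simp
  | hadd a b ha hb => simp only [map_add, ha, hb]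
  | hs i e r => simp only [map_smul, lmul_inComp, mul_assoc]

theorem lmul_sum {ι : Type w} {κ : Type*} (s : Finset κ) (μ : κ → Lau R n) (x : Tot R n ι) :
    lmul (∑ k ∈ s, μ k) x = ∑ k ∈ s, lmul (μ k) x := by
  classical
  induction s using Finset.induction_on with
  | empty =>
    simp only [Finset.sum_empty]
    induction x using tot_induction with
    | h0 => simp
    | hadd a b ha hb => simp [map_add, ha, hb]
    | hs i e r => simp [lmul_inComp]
  | insert k s hk ih => rw [Finset.sum_insert hk, Finset.sum_insert hk, lmul_add, ih]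

theorem lmul_mem_free {ι : Type w} {δ : ι → ℤ} {a : Fin n → ℤ} {ε : Chart n} {c N : ℤ}
    {μ : Lau R n} (hμ : LauMem (fun _ => 0) ε c μ) {x : Tot R n ι}
    (hx : x ∈ freeSlice R a ε δ N) : lmul μ x ∈ freeSlice R a ε δ (N + c) := by
  rw [freeSlice, Finsupp.supported_eq_span_single] at hx
  induction hx using Submodule.span_induction with
  | mem y hy =>
    obtain ⟨⟨i, e⟩, ⟨hb, hd⟩, rfl⟩ := hy
    simp only at hb hd ⊢
    rw [← inComp_single i e (1 : R), lmul_inComp]
    have := hμ.mul (lauMem_single (a := a) (m := e.2) (1 : R) hb rfl)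
    rw [show ((fun _ => 0) + a : Fin n → ℤ) = a by ext; simp] at this
    exact inComp_mem this (by omega)
  | zero => simp
  | add p q _ _ hp hq => rw [map_add]; exact Submodule.add_mem _ hp hq
  | smul r p _ hp => rw [map_smul]; exact Submodule.smul_mem _ r hp

theorem lmul_mem_rel {ι : Type w} (lam : Fin (n + 1) → R) {δ : ι → ℤ} {a : Fin n → ℤ}
    {ε : Chart n} {c N : ℤ} {K : Set (ι →₀ MvPolynomial (Fin (n + 1)) R)} {μ : Lau R n}
    (hμ : LauMem (fun _ => 0) ε c μ) {x : Tot R n ι} (hx : x ∈ relSlice lam a ε δ K N) :
    lmul μ x ∈ relSlice lam a ε δ K (N + c) := by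
  induction hx using Submodule.span_induction with
  | mem y hy =>
    obtain ⟨p, hp, D, e, hD, hb, hN, rfl⟩ := hy
    rw [lmul_emb]
    have := hμ.mul (lauMem_single (a := a) (m := e.2) (1 : R) hb rfl)
    rw [show ((fun _ => 0) + a : Fin n → ℤ) = a by ext; simp] at this
    exact emb_mem_rel lam hp hD this (by omega)
  | zero => simp
  | add p q _ _ hp hq => rw [map_add]; exact Submodule.add_mem _ hp hq
  | smul r p _ hp => rw [map_smul]; exact Submodule.smul_mem _ r hp

namespace RedData

variable {Z : RedData R n} (lam : Fin (n + 1) → R)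

theorem push_scalar (a : R) (x : Tot R n Z.Idx) : push lam (Z.upBy a 0) x = a • x := by
  induction x using tot_induction with
  | h0 => simp
  | hadd p q hp hq => simp [map_add, hp, hq]
  | hs i e r =>
    have hC : rho lam (MvPolynomial.C a) * (AddMonoidAlgebra.single e 1 : Lau R n) =
        a • AddMonoidAlgebra.single e 1 := by
      rw [rho, MvPolynomial.aeval_C, ← Algebra.smul_def]
    rw [map_smul, push_inComp, upBy, add_zero, emb_single, hC, map_smul]
    exact smul_comm _ _ _

theorem push_yBy (k : Fin (n + 1)) (s : ℕ) (x : Tot R n Z.Idx) :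
    push lam (Z.yBy k s) x = lmul (yImg lam k ^ s) x := by
  induction x using tot_induction with
  | h0 => simp
  | hadd p q hp hq => simp [map_add, hp, hq]
  | hs i e r =>
    rw [map_smul, push_inComp, map_smul, lmul_inComp, yBy, emb_single, map_pow, rho,
      MvPolynomial.aeval_X]

end RedData

namespace Tw

variable (P : Tw R n)

/-- `u ^ M` is injective modulo relations. -/
def UInj : Prop :=
  ∀ (ε : Chart n) (N : ℤ) (M : ℕ) (x : Tot R n P.Z.Idx),
    x ∈ freeSlice R P.tw ε P.Z.ideg N →
    push P.lam (P.Z.upBy 1 M) x ∈ relSlice P.lam P.tw ε P.Z.ideg P.Z.rel (N - M) →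
    x ∈ relSlice P.lam P.tw ε P.Z.ideg P.Z.rel N

/-- The `M`-th powers of the `Y k` generate the unit ideal on every chart. -/
def YUnit (M : ℕ) : Prop :=
  ∀ ε : Chart n, ∃ g : Fin (n + 1) → Lau R n,
    (∀ k, LauMem (fun _ => 0) ε (-(M : ℤ)) (g k)) ∧ ∑ k, yImg P.lam k ^ M * g k = 1

variable {P}

/-- One layer of a cycle is a boundary one level higher. -/
theorem layer {M : ℕ} (hu : P.UInj) (hg : P.YUnit M)
    (hnull : ∀ k, P.Q.IsNullHtpic (P.Z.z k ^ M)) {c : ℕ → ℤ} (hc : ∀ i, c i + M ≤ P.w)
    (hanti : ∀ i, c (i + 1) ≤ c i) (hJ : ∀ i, c i - P.J ≤ c (i + 1)) (ε : Chart n)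
    (x : P.Q.β → Tot R n P.Z.Idx) (hx : ∀ b, x b ∈ P.comp0 c b ε)
    (hcyc : ∀ b, (∑ b', if P.Q.deg b' = P.Q.deg b + 1 then push P.lam (P.fam b b') (x b') else 0)
      ∈ relSlice P.lam P.tw ε P.Z.ideg P.Z.rel (P.slot b)) :
    ∃ y : P.Q.β → Tot R n P.Z.Idx, (∀ b, y b ∈ P.comp0 (fun i => c i + M) b ε) ∧
      (∀ b, (∀ b', P.Q.deg b = P.Q.deg b' + 1 → x b' = 0) → y b = 0) ∧
      ∀ b, x b - (∑ b', if P.Q.deg b' = P.Q.deg b + 1 then push P.lam (P.fam b b') (y b') else 0)
        ∈ relSlice P.lam P.tw ε P.Z.ideg P.Z.rel (P.slot b) := by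
  classical
  obtain ⟨g, hgm, hg1⟩ := hg ε
  choose h hdeg hh using hnull
  set Rel := fun N => relSlice P.lam P.tw ε P.Z.ideg P.Z.rel N
  have hrep : ∀ b, ∃ v ∈ freeSlice R P.tw ε P.Z.ideg (P.slot b + M),
      x b - push P.lam (P.Z.upBy 1 M) v ∈ Rel (P.slot b) ∧
      (x b = 0 → v = 0) ∧
      ∀ k, lmul (g k) v ∈ P.comp0 (fun i => c i + M) b ε := by
    intro b
    by_cases h0 : x b = 0
    · exact ⟨0, Submodule.zero_mem _, by simp [h0], fun _ => rfl, fun k => by simp⟩
    obtain ⟨_, ⟨t, ht, rfl⟩, r, hr, hxr⟩ := Submodule.mem_sup.1 (hx b)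
    have hcb := hc (P.Q.deg b)
    set W := (P.w - (c (P.Q.deg b) + M)).toNat with hW
    have hWz : (W : ℤ) = P.w - (c (P.Q.deg b) + M) := by omega
    have hv := (RedData.acts_upBy P.Z 1 W).push_free P.lam ht
    rw [show -((P.Q.deg b : ℤ) * P.J) - c (P.Q.deg b) + -(W : ℤ) = P.slot b + M by
      simp only [slot]; omega] at hv
    refine ⟨_, hv, ?_, fun h => absurd h h0, fun k => Submodule.mem_sup_left ?_⟩
    · have hA := (RedData.acts_upBy P.Z 1 M).comp (RedData.acts_upBy P.Z 1 W)
      rw [one_mul, show -(M : ℤ) + -(W : ℤ) =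
        -(((P.w - c (P.Q.deg b)).toNat : ℕ) : ℤ) by omega] at hA
      have hd := (RedData.acts_upBy P.Z 1 (P.w - c (P.Q.deg b)).toNat).push_congr P.lam hA ht
      rw [← push_comp, show -((P.Q.deg b : ℤ) * P.J) - c (P.Q.deg b) +
        -(((P.w - c (P.Q.deg b)).toNat : ℕ) : ℤ) = P.slot b by simp only [slot]; omega] at hd
      rw [← hxr]
      have := Submodule.add_mem _ hd hr
      simp only [Rel]
      convert this using 1
      abel
    · have hm := lmul_mem_free (hgm k) ht
      rw [show -((P.Q.deg b : ℤ) * P.J) - c (P.Q.deg b) + -(M : ℤ) =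
        -((P.Q.deg b : ℤ) * P.J) - (c (P.Q.deg b) + M) by ring] at hm
      exact ⟨_, hm, push_lmul _ _ _ _⟩
  choose v hv hxv hv0 hvl using hrep
  set E : (P.Q.β → Tot R n P.Z.Idx) → P.Q.β → Tot R n P.Z.Idx := fun f b =>
    ∑ b', if P.Q.deg b' = P.Q.deg b + 1 then push P.lam (P.fam b b') (f b') else 0
  set K : Fin (n + 1) → (P.Q.β → Tot R n P.Z.Idx) → P.Q.β → Tot R n P.Z.Idx := fun k f b =>
    ∑ b', if P.Q.deg b = P.Q.deg b' + 1 then push P.lam (P.Z.upBy (h k b b') P.J) (f b') else 0
  set wv : Fin (n + 1) → P.Q.β → Tot R n P.Z.Idx := fun k b => lmul (g k) (v b)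
  have hwslot : ∀ k b, wv k b ∈ freeSlice R P.tw ε P.Z.ideg (P.slot b) := fun k b => by
    have := lmul_mem_free (hgm k) (hv b)
    rwa [add_neg_cancel_right] at this
  -- the pieces are cycles
  have hS : ∀ k b, E (wv k) b ∈ Rel (P.slot b) := by
    intro k b
    have hcomm : E (wv k) b = lmul (g k) (E v b) := by
      simp only [E, wv, map_sum]
      refine Finset.sum_congr rfl fun b' _ => ?_
      split_ifs <;> simp [push_lmul]
    have hfree : E v b ∈ freeSlice R P.tw ε P.Z.ideg (P.slot b + M) := by
      refine Submodule.sum_mem _ fun b' _ => ?_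
      split_ifs with hb'
      · have := (P.hfam b b').push_free P.lam (hv b')
        rwa [show P.slot b' + M + (P.J : ℤ) = P.slot b + M by rw [P.slot_step hb']; ring] at this
      · exact Submodule.zero_mem _
    have hUm : push P.lam (P.Z.upBy 1 M) (E v b) ∈ Rel (P.slot b) := by
      have h1 : push P.lam (P.Z.upBy 1 M) (E v b) - E x b ∈ Rel (P.slot b) := by
        simp only [E, map_sum, ← Finset.sum_sub_distrib]
        refine Submodule.sum_mem _ fun b' _ => ?_
        split_ifs with hb'
        · have hA := (P.hfam b b').comp (RedData.acts_upBy P.Z 1 M)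
          have hB := (RedData.acts_upBy P.Z 1 M).comp (P.hfam b b')
          rw [mul_one] at hA
          rw [one_mul, add_comm] at hB
          have hd := hB.push_congr P.lam hA (hv b')
          rw [← push_comp, ← push_comp, show P.slot b' + M + ((P.J : ℤ) + -(M : ℤ)) = P.slot b by
            rw [P.slot_step hb']; ring] at hd
          have h2 := (P.hfam b b').push_rel P.lam (hxv b')
          rw [← P.slot_step hb', map_sub] at h2
          have := Submodule.sub_mem _ hd h2
          simp only [Rel]
          convert this using 1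
          abel
        · simp
      have := Submodule.add_mem _ h1 (hcyc b)
      simpa [E] using this
    have h2 := hu ε (P.slot b + M) M _ hfree (by rwa [add_sub_cancel_right])
    rw [hcomm]
    have := lmul_mem_rel P.lam (hgm k) h2
    rwa [add_neg_cancel_right] at this
  refine ⟨fun b => ∑ k, K k (wv k) b, fun b => ?_, fun b hb => ?_, fun b => ?_⟩
  · refine Submodule.sum_mem _ fun k _ => Submodule.sum_mem _ fun b' _ => ?_
    split_ifs with hb'
    · obtain ⟨_, ⟨t, ht, rfl⟩, r, hr, hsum⟩ := Submodule.mem_sup.1 (hvl b' k)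
      simp only [wv, ← hsum, map_add]
      refine Submodule.add_mem _ ?_ (Submodule.mem_sup_right ?_)
      · have hcb := hc (P.Q.deg b')
        have hJ' := hJ (P.Q.deg b')
        have hlow : ∀ i, c i + M ≤ P.w := hc
        refine P.comp0_mono
          (a := fun l => if l = P.Q.deg b then c (P.Q.deg b') + M - P.J else c l + M) hlow
          (fun l => by
            split_ifs with hl
            · subst hl; rw [hb'] at *; omega
            · exact le_rfl) b ε (Submodule.mem_sup.2 ?_)
        set W' := (P.w - (c (P.Q.deg b') + M)).toNat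
        have hA := (RedData.acts_upBy P.Z (h k b b') P.J).comp (RedData.acts_upBy P.Z 1 W')
        have hB := (RedData.acts_upBy P.Z 1 (W' + P.J)).comp
          (RedData.acts_upBy P.Z (h k b b') 0)
        rw [mul_one] at hA
        rw [one_mul, show -((W' + P.J : ℕ) : ℤ) + -((0 : ℕ) : ℤ) =
          -(P.J : ℤ) + -(W' : ℤ) by push_cast; ring] at hB
        have hd := hA.push_congr P.lam hB ht
        rw [← push_comp, ← push_comp, RedData.push_scalar,
          show -((P.Q.deg b' : ℤ) * P.J) - (c (P.Q.deg b') + M) + (-(P.J : ℤ) + -(W' : ℤ)) =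
            P.slot b by simp only [slot, hb']; push_cast; grind] at hd
        refine ⟨_, Submodule.mem_map_of_mem (r := h k b b' • t) ?_, _, hd, ?_⟩
        · simp only [if_pos]
          refine Submodule.smul_mem _ _ ?_
          rw [show -((P.Q.deg b : ℤ) * P.J) - (c (P.Q.deg b') + M - P.J) =
            -((P.Q.deg b' : ℤ) * P.J) - (c (P.Q.deg b') + M) by rw [hb']; push_cast; ring]
          exact ht
        · simp only [if_pos]
          rw [show (P.w - (c (P.Q.deg b') + M - P.J)).toNat = W' + P.J by omega]
          abel
      · have := (RedData.acts_upBy P.Z (h k b b') P.J).push_rel P.lam hr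
        rwa [show P.slot b' + -((P.J : ℕ) : ℤ) = P.slot b by
          simp only [slot, hb']; push_cast; ring] at this
    · exact Submodule.zero_mem _
  · refine Finset.sum_eq_zero fun k _ => Finset.sum_eq_zero fun b' _ => ?_
    split_ifs with hb'
    · simp [wv, hv0 b' (hb b' hb')]
    · rfl
  · -- the homotopy identity in the slot of `b`
    have key : ∀ k, E (K k (wv k)) b - P.Z.z k ^ M • wv k b ∈ Rel (P.slot b) := by
      intro k
      have hKE : K k (E (wv k)) b ∈ Rel (P.slot b) := by
        refine Submodule.sum_mem _ fun b' _ => ?_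
        split_ifs with hb'
        · have := (RedData.acts_upBy P.Z (h k b b') P.J).push_rel P.lam (hS k b')
          rwa [show P.slot b' + -((P.J : ℕ) : ℤ) = P.slot b by
            simp only [slot, hb']; push_cast; ring] at this
        · exact Submodule.zero_mem _
      have htot : E (K k (wv k)) b + K k (E (wv k)) b - P.Z.z k ^ M • wv k b ∈
          Rel (P.slot b) := by
        have hid : ∀ b'', P.Q.deg b'' = P.Q.deg b → ∀ (s : Finset P.Q.β),
            ∃ f, P.Z.Acts 0 (∑ b' ∈ s, (P.Q.D b b' * h k b' b'' + h k b b' * P.Q.D b' b'')) f ∧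
            (∑ b' ∈ s, ((if P.Q.deg b' = P.Q.deg b + 1 then push P.lam (P.fam b b')
                (if P.Q.deg b' = P.Q.deg b'' + 1 then
                  push P.lam (P.Z.upBy (h k b' b'') P.J) (wv k b'') else 0) else 0) +
              (if P.Q.deg b = P.Q.deg b' + 1 then push P.lam (P.Z.upBy (h k b b') P.J)
                (if P.Q.deg b'' = P.Q.deg b' + 1 then
                  push P.lam (P.fam b' b'') (wv k b'') else 0) else 0))) -
              push P.lam f (wv k b'') ∈ Rel (P.slot b) := by
          intro b'' hb'' s
          induction s using Finset.induction_on with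
          | empty => exact ⟨0, by simpa using RedData.acts_zero _,
              by simp [RedData.push_zero']⟩
          | insert b' s hb' ih =>
            obtain ⟨f, hf, hfx⟩ := ih
            have t1 := (P.hfam b b').comp (RedData.acts_upBy P.Z (h k b' b'') P.J)
            have t2 := (RedData.acts_upBy P.Z (h k b b') P.J).comp (P.hfam b' b'')
            rw [add_neg_cancel] at t1
            rw [neg_add_cancel] at t2
            have hsl : P.slot b'' = P.slot b := by simp only [slot, hb'']
            have hwf := hwslot k b''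
            rw [hsl] at hwf
            have e1 : ∃ f1, P.Z.Acts 0 (P.Q.D b b' * h k b' b'') f1 ∧
                (if P.Q.deg b' = P.Q.deg b + 1 then push P.lam (P.fam b b')
                  (if P.Q.deg b' = P.Q.deg b'' + 1 then
                    push P.lam (P.Z.upBy (h k b' b'') P.J) (wv k b'') else 0) else 0) =
                  push P.lam f1 (wv k b'') := by
              by_cases hd : P.Q.deg b' = P.Q.deg b + 1
              · exact ⟨_, t1, by rw [if_pos hd, if_pos (by omega), push_comp]⟩
              · refine ⟨0, ?_, by simp [hd, RedData.push_zero']⟩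
                by_cases h00 : P.Q.D b b' = 0
                · simpa [h00] using RedData.acts_zero (Z := P.Z) 0
                · exact absurd (P.Q.homog b b' h00) hd
            have e2 : ∃ f2, P.Z.Acts 0 (h k b b' * P.Q.D b' b'') f2 ∧
                (if P.Q.deg b = P.Q.deg b' + 1 then push P.lam (P.Z.upBy (h k b b') P.J)
                  (if P.Q.deg b'' = P.Q.deg b' + 1 then
                    push P.lam (P.fam b' b'') (wv k b'') else 0) else 0) =
                  push P.lam f2 (wv k b'') := by
              by_cases hd : P.Q.deg b = P.Q.deg b' + 1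
              · exact ⟨_, t2, by rw [if_pos hd, if_pos (by omega), push_comp]⟩
              · refine ⟨0, ?_, by simp [hd, RedData.push_zero']⟩
                by_cases h00 : h k b b' = 0
                · simpa [h00] using RedData.acts_zero (Z := P.Z) 0
                · exact absurd (hdeg k b b' h00) hd
            obtain ⟨f1, a1, q1⟩ := e1
            obtain ⟨f2, a2, q2⟩ := e2
            refine ⟨f1 + f2 + f, ?_, ?_⟩
            · rw [Finset.sum_insert hb']
              exact (a1.add a2).add hf
            · rw [Finset.sum_insert hb', q1, q2]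
              have p12 := push_sub P.lam (f1 + f2) f2 (wv k b'')
              have p := push_sub P.lam (f1 + f2 + f) f (wv k b'')
              rw [add_sub_cancel_right] at p12 p
              simp only [Rel] at hfx ⊢
              convert hfx using 1
              rw [show push P.lam f1 (wv k b'') = _ from p12,
                eq_add_of_sub_eq p.symm]
              abel
        have hexp : E (K k (wv k)) b + K k (E (wv k)) b = ∑ b'', ∑ b',
            ((if P.Q.deg b' = P.Q.deg b + 1 then push P.lam (P.fam b b')
                (if P.Q.deg b' = P.Q.deg b'' + 1 then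
                  push P.lam (P.Z.upBy (h k b' b'') P.J) (wv k b'') else 0) else 0) +
              (if P.Q.deg b = P.Q.deg b' + 1 then push P.lam (P.Z.upBy (h k b b') P.J)
                (if P.Q.deg b'' = P.Q.deg b' + 1 then
                  push P.lam (P.fam b' b'') (wv k b'') else 0) else 0)) := by
          rw [Finset.sum_comm]
          simp only [E, K, map_sum, Finset.sum_add_distrib]
          congr 1 <;> (refine Finset.sum_congr rfl fun b' _ => ?_; split_ifs <;> simp)
        have hsplit : P.Z.z k ^ M • wv k b =
            ∑ b'', if b'' = b then P.Z.z k ^ M • wv k b'' else 0 := by simp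
        rw [hexp, hsplit, ← Finset.sum_sub_distrib]
        refine Submodule.sum_mem _ fun b'' _ => ?_
        by_cases hd : P.Q.deg b'' = P.Q.deg b
        · obtain ⟨f, hf, hfx⟩ := hid b'' hd Finset.univ
          have hsl : P.slot b'' = P.slot b := by simp only [slot, hd]
          have hwf := hwslot k b''
          rw [hsl] at hwf
          have hval : ∑ b', (P.Q.D b b' * h k b' b'' + h k b b' * P.Q.D b' b'') =
              if b'' = b then P.Z.z k ^ M else 0 := by
            have e := congrFun (congrFun (hh k) b) b''
            simp only [Matrix.add_apply, Matrix.mul_apply, Matrix.smul_apply,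
              Matrix.one_apply, smul_eq_mul, mul_ite, mul_one, mul_zero] at e
            rw [Finset.sum_add_distrib, e]
            simp [eq_comm]
          rw [hval] at hf
          have hsc : P.Z.Acts 0 (if b'' = b then P.Z.z k ^ M else 0)
              (P.Z.upBy (if b'' = b then P.Z.z k ^ M else 0) 0) := by
            simpa using RedData.acts_upBy P.Z (if b'' = b then P.Z.z k ^ M else 0) 0
          have hd2 := hf.push_congr P.lam hsc hwf
          rw [RedData.push_scalar, add_zero] at hd2
          have := Submodule.add_mem _ hfx hd2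
          simp only [Rel]
          convert this using 1
          split_ifs <;> simp <;> abel
        · have hne : b'' ≠ b := fun he => hd (by rw [he])
          rw [if_neg hne, sub_zero]
          refine Submodule.sum_mem _ fun b' _ => Submodule.add_mem _ ?_ ?_ <;>
            · split_ifs <;> first | (exfalso; omega) | simp
      have := Submodule.sub_mem _ htot hKE
      simp only [Rel]
      convert this using 1
      abel
    have hsum : E (fun b => ∑ k, K k (wv k) b) b = ∑ k, E (K k (wv k)) b := by
      simp only [E, map_sum]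
      rw [Finset.sum_comm]
      refine Finset.sum_congr rfl fun b' _ => ?_
      split_ifs <;> simp
    have hx1 : x b - ∑ k, P.Z.z k ^ M • wv k b ∈ Rel (P.slot b) := by
      have hk : ∀ k, P.Z.z k ^ M • wv k b - lmul (g k * yImg P.lam k ^ M)
          (push P.lam (P.Z.upBy 1 M) (v b)) ∈ Rel (P.slot b) := by
        intro k
        have hB := (RedData.acts_yBy P.Z k M).comp (RedData.acts_upBy P.Z 1 M)
        rw [mul_one, add_neg_cancel] at hB
        have hA : P.Z.Acts 0 (P.Z.z k ^ M) (P.Z.upBy (P.Z.z k ^ M) 0) := by
          simpa using RedData.acts_upBy P.Z (P.Z.z k ^ M) 0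
        have hd := hA.push_congr P.lam hB (hv b)
        rw [add_zero, ← push_comp, RedData.push_scalar, RedData.push_yBy] at hd
        have := lmul_mem_rel P.lam (hgm k) hd
        rw [map_sub, map_smul, lmul_lmul, add_neg_cancel_right] at this
        exact this
      have h1 : ∑ k, lmul (g k * yImg P.lam k ^ M) (push P.lam (P.Z.upBy 1 M) (v b)) =
          push P.lam (P.Z.upBy 1 M) (v b) := by
        rw [← lmul_sum]
        simp only [mul_comm (g _)]
        rw [hg1, lmul_one]
      have h2 : ∑ k, (P.Z.z k ^ M • wv k b - lmul (g k * yImg P.lam k ^ M)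
          (push P.lam (P.Z.upBy 1 M) (v b))) ∈ Rel (P.slot b) := Submodule.sum_mem _ fun k _ => hk k
      rw [Finset.sum_sub_distrib, h1] at h2
      have := Submodule.sub_mem _ (hxv b) h2
      simp only [Rel]
      convert this using 1
      abel
    have h3 : ∑ k, (E (K k (wv k)) b - P.Z.z k ^ M • wv k b) ∈ Rel (P.slot b) :=
      Submodule.sum_mem _ fun k _ => key k
    rw [Finset.sum_sub_distrib, ← hsum] at h3
    have := Submodule.sub_mem _ hx1 h3
    simp only [Rel, E] at this
    convert this using 1
    abel

end Tw

end Vale.Agent.P202.Char
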