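import Vale.Agent.P202.Char.Twist
import Vale.Agent.P202.Char.Homotopy
import Vale.Agent.P202.Char.Bicomplex

/-!
P202, Lech in characteristic `p`: the flat level of the total complex, filtered by the Cech
degree.
-/

namespace Vale.Agent.P202.Char

universe u

namespace Tw

variable {R : Type u} [CommRing R] [IsLocalRing R] {n : ℕ}

theorem flat_le (P : Tw R n) (hw : 0 ≤ P.w) (i : ℕ) : P.flat i ≤ P.w := by
  have : (0 : ℤ) ≤ (i : ℤ) * P.J := by positivity
  simp only [flat]; omega

theorem flat_anti (P : Tw R n) (i : ℕ) : P.flat (i + 1) ≤ P.flat i := by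
  have : ((i + 1 : ℕ) : ℤ) * P.J = (i : ℤ) * P.J + P.J := by push_cast; ring
  simp only [flat]; omega

/-- The Cech complex, decomposed by the degree. -/
noncomputable def cechDec (R : Type u) [CommRing R] (n : ℕ) (M : Type u) [AddCommGroup M]
    [Module R M] : Bic.Dec (cechGC R n M) (-(n : ℤ)) where
  π j := LinearMap.pi fun ε => if -(chartDeg ε : ℤ) = j then LinearMap.proj ε else 0
  mem j y := by
    intro ε _
    by_cases h : -(chartDeg ε : ℤ) = j <;> simp [h]
  same j y hy := by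
    funext ε
    by_cases h : -(chartDeg ε : ℤ) = j
    · simp [h]
    · have h0 := hy ε trivial
      simp only [SetLike.mem_coe, if_neg h, Submodule.mem_bot] at h0
      simp [h, h0]
  other i j hij y hy := by
    funext ε
    by_cases h : -(chartDeg ε : ℤ) = j
    · have h0 := hy ε trivial
      simp only [SetLike.mem_coe] at h0
      rw [if_neg (by omega), Submodule.mem_bot] at h0
      simp [h, h0]
    · simp [h]
  total y := by
    funext ε
    have h1 : chartDeg ε ≤ n := by
      simpa [chartDeg] using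
        Finset.card_filter_le (Finset.univ : Finset (Fin n)) fun j => ε j = 2
    rw [Finset.sum_apply, Finset.sum_eq_single (-(chartDeg ε : ℤ))]
    · simp
    · intro j _ hj
      simp [Ne.symm hj]
    · intro h
      exact absurd (Finset.mem_Icc.2 ⟨by omega, by omega⟩) h
  bound j hj := by
    refine eq_bot_iff.2 fun x hx => (Submodule.mem_bot R).2 (funext fun ε => ?_)
    have h0 := hx ε trivial
    have h1 : chartDeg ε ≤ n := by
      simpa [chartDeg] using
        Finset.card_filter_le (Finset.univ : Finset (Fin n)) fun j => ε j = 2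
    simp only [SetLike.mem_coe] at h0
    rw [if_neg fun h => hj (Finset.mem_Icc.2 ⟨by omega, by omega⟩), Submodule.mem_bot] at h0
    exact h0

/-- Chartwise submodules are closed under the projections. -/
theorem closed_pi (M : Type u) [AddCommGroup M] [Module R M] (S : Chart n → Submodule R M) :
    Bic.Closed (cechDec R n M) (Submodule.pi Set.univ S) := by
  intro j y hy ε _
  by_cases h : -(chartDeg ε : ℤ) = j
  · simpa [cechDec, h] using hy ε trivial
  · simp [cechDec, h]

variable (P : Tw R n)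

/-- The flat level is the matrix complex applied to the slice of degree `0`. -/
theorem length_flat (hu : P.UInj) (hw : 0 ≤ P.w) (k : ℤ) :
    Module.length R ((Bic.bic P.Q (cechGC R n (Tot R n P.Z.Idx))).H
      (Submodule.pi Set.univ fun _ => relCech P.lam P.tw P.Z.ideg P.Z.rel 0)
      (Submodule.pi Set.univ fun _ => freeCech R P.tw P.Z.ideg 0) k) =
      Module.length R (P.gc.H ⊥ (P.lvl P.flat) k) := by
  classical
  set C := cechGC R n (Tot R n P.Z.Idx)
  set B := Bic.bic P.Q C
  -- the exponent of `u` in each component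
  set W : P.Q.β → ℕ := fun b => (P.w - P.flat (P.Q.deg b)).toNat
  have hW : ∀ b, (W b : ℤ) = -P.slot b := fun b => by
    have := P.flat_le hw (P.Q.deg b)
    simp only [W, flat, slot] at this ⊢
    omega
  have hslot : ∀ b, (0 : ℤ) + -(W b : ℤ) = P.slot b := fun b => by rw [hW]; ring
  have hlev : ∀ b : P.Q.β, -((P.Q.deg b : ℤ) * P.J) - P.flat (P.Q.deg b) = 0 := fun b => by
    simp [flat]
  -- projection to the right slices
  have hproj : ∀ (b : P.Q.β) (ε : Chart n), ∃ q : Tot R n P.Z.Idx →ₗ[R] Tot R n P.Z.Idx,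
      (∀ x, q x ∈ freeSlice R P.tw ε P.Z.ideg (P.slot b)) ∧
      ∀ x ∈ freeSlice R P.tw ε P.Z.ideg (P.slot b), q x = x := fun b ε => by
    refine ⟨(Submodule.subtype _) ∘ₗ Finsupp.restrictDom R R
      {x : P.Z.Idx × Expo n | InBox P.tw ε x.2 ∧ P.Z.ideg x.1 + x.2.2 = P.slot b},
      fun x => (Finsupp.restrictDom R R _ x).2, fun x hx => ?_⟩
    rw [freeSlice, Finsupp.mem_supported'] at hx
    ext z
    by_cases hz : z ∈ {x : P.Z.Idx × Expo n | InBox P.tw ε x.2 ∧ P.Z.ideg x.1 + x.2.2 = P.slot b}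
    · simp [hz.1, hz.2]
    · rw [Set.mem_ofPred_eq] at hz
      simp [hz, hx z hz]
  choose q hq hq' using hproj
  set g : P.T0 →ₗ[R] P.T0 := LinearMap.pi fun b => LinearMap.pi fun ε =>
    q b ε ∘ₗ push P.lam (P.Z.upBy 1 (W b)) ∘ₗ LinearMap.proj ε ∘ₗ LinearMap.proj b
  have hg : ∀ x, g x ∈ P.free0 := fun x b _ ε _ => hq b ε _
  set f : P.T0 →ₗ[R] P.T := Submodule.mkQ _ ∘ₗ g.codRestrict P.free0 hg
  have hf : ∀ x, f x = P.cls (g x) (hg x) := fun x => rfl
  have hgx : ∀ x : P.T0, (∀ b, x b ∈ freeCech R P.tw P.Z.ideg 0) → ∀ b ε,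
      g x b ε = push P.lam (P.Z.upBy 1 (W b)) (x b ε) := fun x hx b ε => by
    refine hq' b ε _ ?_
    have := (P.Z.acts_upBy 1 (W b)).push_free P.lam (hx b ε trivial)
    rwa [hslot] at this
  have hcls0 : ∀ {x : P.T0} (hx : x ∈ P.free0), P.cls x hx = 0 ↔ x ∈ P.rel0 := fun hx => by
    rw [cls, Submodule.Quotient.mk_eq_zero]; rfl
  have h := GC.h_congr (C := B) (C' := P.gc) f 1 0 (n := k)
    (X := Submodule.pi Set.univ fun _ => relCech P.lam P.tw P.Z.ideg P.Z.rel 0)
    (Y := Submodule.pi Set.univ fun _ => freeCech R P.tw P.Z.ideg 0)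
    (X' := ⊥) (Y' := P.lvl P.flat) ?_ (Bic.isSub_pi _ _ (cechD_mem_rel P.lam))
    (Bic.isSub_pi _ _ cechD_mem) (Submodule.pi_mono fun b _ => relCech_le_free P.lam)
    (by simp [GC.IsSub]) (P.isSub_lvl (P.flat_le hw) P.flat_anti) bot_le ?_ ?_ ?_ ?_ ?_
  · rwa [add_zero] at h
  · -- commutation modulo relations
    rintro j x ⟨hx, -⟩
    have hBx : ∀ b, B.D x b ∈ freeCech R P.tw P.Z.ideg 0 := fun b =>
      Bic.isSub_pi P.Q C cechD_mem (Submodule.mem_map_of_mem hx) b trivial
    rw [Submodule.mem_bot, Units.val_one, one_smul, sub_eq_zero, hf, hf, gc_cls, cls, cls,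
      Submodule.Quotient.eq]
    intro b _ ε _
    simp only [Submodule.coe_subtype, AddSubgroupClass.coe_sub, Pi.sub_apply, SetLike.mem_coe]
    rw [hgx _ hBx]
    have e1 : B.D x b ε = (∑ b', P.Q.D b b' • x b' ε) +
        ((-1 : R) ^ P.Q.deg b) • cechD R (x b) ε := by
      simp [B, Bic.bic_apply, C, cechGC]
    have e2 : cechD R (g x b) ε = push P.lam (P.Z.upBy 1 (W b)) (cechD R (x b) ε) := by
      simp only [cechD_apply, map_sum, map_smul, map_sub]
      refine Finset.sum_congr rfl fun l _ => ?_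
      rw [hgx x (fun b => hx b trivial), hgx x (fun b => hx b trivial)]
    rw [e1, D0_apply, Pi.add_apply, Finset.sum_apply, Pi.smul_apply, e2, map_add, map_smul,
      map_sum, add_sub_add_right_eq_sub, ← Finset.sum_sub_distrib]
    refine Submodule.sum_mem _ fun b' _ => ?_
    rw [map_smul, entry_apply, hgx x fun b => hx b trivial]
    split_ifs with hd
    · have hA := (P.hfam b b').comp (P.Z.acts_upBy 1 (W b'))
      have hB := P.Z.acts_upBy (P.Q.D b b') (W b)
      have hC := (P.Z.acts_upBy (1 : R) (W b)).comp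
        (p := P.Z.upBy 1 (W b)) (q := P.Z.upBy (P.Q.D b b') 0) (P.Z.acts_upBy (P.Q.D b b') 0)
      rw [mul_one] at hA
      rw [one_mul, Nat.cast_zero, neg_zero, add_zero] at hC
      rw [show (P.J : ℤ) + -(W b' : ℤ) = -(W b : ℤ) by rw [hW, hW, P.slot_step hd]; ring] at hA
      have hd' := hC.push_congr P.lam hA (hx b' trivial ε trivial)
      rw [← push_comp, ← push_comp, RedData.push_scalar, map_smul, hslot] at hd'
      exact hd'
    · have h0 : P.Q.D b b' = 0 := by
        by_contra h0; exact hd (P.Q.homog b b' h0)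
      simp [h0]
  · -- degrees
    rintro j _ ⟨x, hx, rfl⟩
    refine P.mem_img.2 ⟨g x, hg x, P.mem_deg0_iff.2 fun b ε hne => ?_, rfl⟩
    have h0 := hx b trivial ε trivial
    simp only [SetLike.mem_coe] at h0
    rw [if_neg (by omega), Submodule.mem_bot] at h0
    simp [g, h0]
  · rintro _ ⟨x, hx, rfl⟩
    rw [Submodule.mem_bot, hf, hcls0]
    intro b _ ε _
    rw [SetLike.mem_coe, hgx x fun b => relCech_le_free P.lam (hx b trivial)]
    have := (P.Z.acts_upBy (1 : R) (W b)).push_rel P.lam (hx b trivial ε trivial)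
    rwa [hslot] at this
  · rintro _ ⟨x, hx, rfl⟩
    refine P.mem_img.2 ⟨g x, hg x, fun b _ ε _ => ?_, rfl⟩
    rw [SetLike.mem_coe, hgx x fun b => hx b trivial]
    refine Submodule.mem_sup_left ⟨x b ε, ?_, rfl⟩
    rw [hlev]
    exact hx b trivial ε trivial
  · -- surjectivity
    intro j
    rw [lvl_inf_deg, add_zero]
    intro y hy
    obtain ⟨x, hx, ⟨hxl, hxd⟩, rfl⟩ := P.mem_img.1 hy
    have key : ∀ b ε, ∃ t ∈ freeSlice R P.tw ε P.Z.ideg 0,
        x b ε - push P.lam (P.Z.upBy 1 (W b)) t ∈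
          relSlice P.lam P.tw ε P.Z.ideg P.Z.rel (P.slot b) := fun b ε => by
      obtain ⟨_, ⟨t, ht, rfl⟩, r, hr, e⟩ := Submodule.mem_sup.1 (hxl b trivial ε trivial)
      rw [hlev] at ht
      exact ⟨t, ht, by rw [← e, add_sub_cancel_left]; exact hr⟩
    choose t ht hxt using key
    let t' : P.T0 := fun b ε => if (P.Q.deg b : ℤ) - chartDeg ε = j then t b ε else 0
    have ht' : t' ∈ Submodule.pi Set.univ fun _ => freeCech R P.tw P.Z.ideg 0 := fun b _ ε _ => by
      simp only [t', SetLike.mem_coe]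
      split_ifs
      · exact ht b ε
      · exact Submodule.zero_mem _
    refine Submodule.mem_sup_left ⟨t', ⟨ht', fun b _ ε _ => ?_⟩, ?_⟩
    · simp only [SetLike.mem_coe, t']
      split_ifs with h1 h2 <;> first | exact Submodule.mem_top | exact Submodule.zero_mem _ | omega
    · rw [hf, cls, cls, Submodule.Quotient.eq]
      intro b _ ε _
      simp only [Submodule.coe_subtype, AddSubgroupClass.coe_sub, Pi.sub_apply, SetLike.mem_coe]
      rw [hgx t' fun b => ht' b trivial]
      by_cases h : (P.Q.deg b : ℤ) - chartDeg ε = j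
      · simpa [t', h] using Submodule.neg_mem _ (hxt b ε)
      · simp [t', h, P.mem_deg0_iff.1 hxd b ε h]
  · rintro j x ⟨⟨hx, -⟩, hxf⟩ b - ε -
    rw [SetLike.mem_coe, Submodule.mem_comap, Submodule.mem_bot, hf, hcls0] at hxf
    have := hxf b trivial ε trivial
    rw [SetLike.mem_coe, hgx x fun b => hx b trivial] at this
    exact hu ε 0 (W b) _ (hx b trivial ε trivial) (by rwa [sub_eq_add_neg, hslot])

variable [IsNoetherianRing R]

/-- The flat level: filter by the Cech degree. -/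
theorem _root_.Vale.Agent.P202.Char.chi_flat_columns (P : Tw R n) (hu : P.UInj) (hw : 0 ≤ P.w)
    (hd : ∀ b, P.Q.deg b ≤ n + 1)
    (hfin : ∀ qq : ℕ, qq ≤ n → ∀ j,
      (P.Q.gc (P.Z.colH P.lam P.tw (-(qq : ℤ)))).FinH ⊥ ⊤ j) :
    (∀ k, P.gc.FinH ⊥ (P.lvl P.flat) k) ∧
      P.gc.chi (Finset.Icc (-(n : ℤ)) ((n + 1 : ℕ) : ℤ)) ⊥ (P.lvl P.flat) =
        ∑ qq ∈ Finset.range (n + 1), (-1 : ℤ) ^ qq *
          (P.Q.gc (P.Z.colH P.lam P.tw (-(qq : ℤ)))).chi (Finset.Icc 0 ((n + 1 : ℕ) : ℤ)) ⊥ ⊤ := by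
  obtain ⟨h1, h2⟩ := Bic.chi_bic (C := cechGC R n (Tot R n P.Z.Idx))
    (P := cechDec R n (Tot R n P.Z.Idx))
    (X := relCech P.lam P.tw P.Z.ideg P.Z.rel 0) (Y := freeCech R P.tw P.Z.ideg 0)
    (cechD_mem_rel P.lam) cechD_mem (relCech_le_free P.lam) P.Q
    (closed_pi _ _) (closed_pi _ _) rfl hd hfin
  refine ⟨fun k => by rw [GC.FinH, ← P.length_flat hu hw]; exact h1 k, ?_⟩
  rw [← h2]
  exact Finset.sum_congr rfl fun k _ => by rw [GC.h, GC.h, len, len, P.length_flat hu hw]

end Tw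

end Vale.Agent.P202.Char
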