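import Vale.Agent.P202.Char.Sat
import Vale.Agent.P202.Char.Homotopy

/-! P202, Lech in characteristic `p`: powers of `u` are injective on the total complex. -/

namespace Vale.Agent.P202.Char

universe u

variable {R : Type u} [CommRing R] [IsLocalRing R] {n : ℕ}

theorem Tw.uInj (P : Tw R n) (hlam : Sep P.lam) (ha : ∀ j, 0 ≤ P.tw j) : P.UInj :=
  fun ε N M x hx h => RedData.push_sat hlam ha ε N M x hx h

end Vale.Agent.P202.Char
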