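import Vale.Agent.P202.Char.BandMul
import Vale.Agent.P202.Char.Flat

/-! P202, Lech in characteristic `p`: multiplication by a nonzero form changes little. -/

namespace Vale.Agent.P202.Char

universe u v w

variable {n : ℕ} {ι : Type w}

theorem rho_ne_zero {Z : Type u} [CommRing Z] [Nontrivial Z] (lam : Fin (n + 1) → Z)
    (hlam : Sep lam) {g : MvPolynomial (Fin (n + 1)) Z} (hg : g ≠ 0) : rho lam g ≠ 0 := by
  classical
  obtain ⟨m₀, β, -, -, hind⟩ := exists_basis lam hlam (fun _ => 0) (fun _ => le_rfl) 0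
  intro h
  have h1 := congrFun (hind (Pi.single (⟨0, n.factorial_pos⟩ : Fin n.factorial) g) ?_)
    ⟨0, n.factorial_pos⟩
  · exact hg (by simpa using h1)
  · rw [Finset.sum_eq_single (⟨0, n.factorial_pos⟩ : Fin n.factorial)]
    · simp [h]
    · intro b _ hb; simp [Pi.single_eq_of_ne hb]
    · simp

/-- multiplication by a nonzero form changes little -/
theorem mul_bound {K : Type u} [Field K] (lam : Fin (n + 1) → K) (hlam : Sep lam) [Fintype ι]
    (δ : ι → ℤ) {g : MvPolynomial (Fin (n + 1)) K} {γ : ℕ} (hg : g ≠ 0)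
    (hh : g.IsHomogeneous γ) :
    ∃ C : ℕ, ∀ (a : Fin n → ℤ), (∀ j, 0 ≤ a j) → ∀ (N : ℤ) (q : ℕ),
      (cechGC K n (Tot K n ι)).FinH
        (relCech lam a δ (Set.range fun i => Finsupp.single i g) N) (freeCech K a δ N)
        (-(q : ℤ)) ∧
      (cechGC K n (Tot K n ι)).h
        (relCech lam a δ (Set.range fun i => Finsupp.single i g) N) (freeCech K a δ N)
        (-(q : ℤ)) * (1 + N.natAbs + ∑ j, (a j).natAbs) ≤
          C * (1 + N.natAbs + ∑ j, (a j).natAbs) ^ n :=
  mul_bound_of_rho lam δ hg hh (rho_ne_zero lam hlam hg)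

end Vale.Agent.P202.Char
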