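import Vale.Agent.P202.Char.SheafPiece
import Vale.Agent.P202.Char.MulBound

/-! P202, Lech in characteristic `p`: modules killed by a form have small cohomology, and modules
that are free up to such modules have the cohomology of the free module up to a small error. -/

namespace Vale.Agent.P202.Char

universe u v w

open Sheaf

variable {n : ℕ}

namespace Sheaf

theorem scale_le {x m₁ m₂ B Q C₁ C₂ : ℕ} (h : x ≤ m₁ + m₂) (h1 : m₁ * B ≤ C₁ * Q)
    (h2 : m₂ * B ≤ C₂ * Q) : x * B ≤ (C₁ + C₂) * Q :=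
  calc x * B ≤ (m₁ + m₂) * B := Nat.mul_le_mul_right _ h
    _ = m₁ * B + m₂ * B := add_mul _ _ _
    _ ≤ C₁ * Q + C₂ * Q := add_le_add h1 h2
    _ = (C₁ + C₂) * Q := (add_mul _ _ _).symm

theorem homog_form {K : Type u} [CommRing K] {g : MvPolynomial (Fin (n + 1)) K} {γ : ℕ}
    (hh : g.IsHomogeneous γ) :
    ∀ c ∈ g.support, (c.sum fun _ v => (v : ℤ)) = γ := by
  intro c hc
  have h := hh (MvPolynomial.mem_support_iff.1 hc)
  rw [Finsupp.weight_apply] at h
  rw [← h]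
  simp [Finsupp.sum]

/-- The bound by descending induction on the Cech degree. -/
theorem torsion_aux {K : Type u} [Field K] (lam : Fin (n + 1) → K) (hlam : Sep lam)
    {g : MvPolynomial (Fin (n + 1)) K} {γ : ℕ} (hg : g ≠ 0) (hh : g.IsHomogeneous γ) :
    ∀ (t : ℕ) (ι : Type) [Fintype ι] (δ : ι → ℤ) (K' : Set (ι →₀ MvPolynomial (Fin (n + 1)) K)),
      (∀ i, Finsupp.single i g ∈ K') →
      ∃ C : ℕ, ∀ (a : Fin n → ℤ), (∀ j, 0 ≤ a j) → ∀ (N : ℤ) (q : ℕ), n < q + t →
        ∃ m : ℕ, Module.length K ((cechGC K n (Tot K n ι)).H (relCech lam a δ K' N)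
            (freeCech K a δ N) (-(q : ℤ))) ≤ m ∧
          m * (1 + N.natAbs + ∑ j, (a j).natAbs) ≤
            C * (1 + N.natAbs + ∑ j, (a j).natAbs) ^ n := by
  intro t
  induction t with
  | zero =>
    intro ι _ δ K' _
    refine ⟨0, fun a _ N q hq => ⟨0, ?_, by simp⟩⟩
    have := H_subsingleton_of_lt (Z := K) (relCech lam a δ K' N) (freeCech K a δ N)
      (k := -(q : ℤ)) (Or.inl (by omega))
    exact le_of_eq Module.length_eq_zero
  | succ t ih =>
    intro ι _ δ K' hgK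
    set p₀ : ι → (ι →₀ MvPolynomial (Fin (n + 1)) K) := fun i => Finsupp.single i g
    obtain ⟨m, p, η, hp, hpK, hgen⟩ := exists_gens δ K'
    have hp₀ : ∀ i, IsHomog δ (p₀ i) (δ i + γ) := fun i => homog_single i (homog_form hh) rfl
    have hsmul : ∀ v : ι →₀ MvPolynomial (Fin (n + 1)) K,
        g • v ∈ Submodule.span (MvPolynomial (Fin (n + 1)) K) (Set.range p₀) := by
      intro v
      induction v using Finsupp.induction_linear with
      | zero => simp
      | add x y hx hy => rw [smul_add]; exact add_mem hx hy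
      | single i f =>
        rw [show g • Finsupp.single i f = f • p₀ i by
          simp only [p₀, Finsupp.smul_single, smul_eq_mul, mul_comm]]
        exact Submodule.smul_mem _ _ (Submodule.subset_span (Set.mem_range_self i))
    set L' : Set (Fin m →₀ MvPolynomial (Fin (n + 1)) K) :=
      {c | combo p c ∈ Submodule.span (MvPolynomial (Fin (n + 1)) K) (Set.range p₀)}
    have hL' : ∀ l, Finsupp.single l g ∈ L' := fun l => by
      show combo p (Finsupp.single l g) ∈ Submodule.span (MvPolynomial (Fin (n + 1)) K) (Set.range p₀)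
      rw [combo_single]
      exact hsmul _
    obtain ⟨C₁, hC₁⟩ := mul_bound lam hlam δ hg hh
    obtain ⟨C₂, hC₂⟩ := ih (Fin m) η L' hL'
    refine ⟨C₁ + C₂, fun a ha N q hq => ?_⟩
    obtain ⟨hXY, ⟨e⟩⟩ := nonempty_piece_equiv lam a hlam ha hp hp₀ hpK (fun i => hgK i)
      (K₀ := Set.range p₀) (fun i => Set.mem_range_self i)
      (fun x hx _ => Submodule.subset_span hx)
      (fun x hx h => Submodule.span_mono Set.subset_union_left (hgen x hx h)) N
      (-((q + 1 : ℕ) : ℤ))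
    obtain ⟨m₂, hm₂, hb₂⟩ := hC₂ a ha N (q + 1) (by omega)
    rw [LinearEquiv.length_eq e] at hm₂
    obtain ⟨hf, hb⟩ := hC₁ a ha N q
    have hle := (cechGC K n (Tot K n ι)).length_top_le hXY (relCech_le_free lam) (-(q : ℤ))
    rw [show -(q : ℤ) - 1 = -((q + 1 : ℕ) : ℤ) by push_cast; ring] at hle
    refine ⟨(cechGC K n (Tot K n ι)).h (relCech lam a δ (Set.range p₀) N) (freeCech K a δ N)
      (-(q : ℤ)) + m₂, hle.trans ?_, scale_le le_rfl hb hb₂⟩
    rw [Nat.cast_add]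
    exact add_le_add (le_of_eq (ENat.coe_toNat hf).symm) hm₂

theorem length_free {K : Type u} [Field K] (a : Fin n → ℤ) {ι : Type w} [Fintype ι]
    (δ : ι → ℤ) (N : ℤ) (q : ℕ) :
    Module.length K ((cechGC K n (Tot K n ι)).H ⊥ (freeCech K a δ N) (-(q : ℤ))) =
      ((∑ i, hP a (N - δ i) q : ℕ) : ℕ∞) := by
  obtain ⟨e⟩ := free_cech_equiv (Z := K) a δ N q
  obtain ⟨hfin, hcard⟩ := band_card a δ N q
  have := hfin.fintype
  rw [LinearEquiv.length_eq e, Module.length_eq_finrank, Module.finrank_finsupp_self, ← hcard,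
    ← Nat.card_coe_set_eq, Nat.card_eq_fintype_card]

end Sheaf

/-- lower dimensional modules have small cohomology -/
theorem torsion_bound {K : Type u} [Field K] (lam : Fin (n + 1) → K) (hlam : Sep lam)
    {ι : Type} [Fintype ι] (δ : ι → ℤ)
    (S : Submodule (MvPolynomial (Fin (n + 1)) K) (ι →₀ MvPolynomial (Fin (n + 1)) K))
    (hS : ∀ p ∈ S, p ∈ Submodule.span (MvPolynomial (Fin (n + 1)) K) {p | p ∈ S ∧ ∃ D, IsHomog δ p D})
    {g : MvPolynomial (Fin (n + 1)) K} {γ : ℕ} (hg : g ≠ 0) (hh : g.IsHomogeneous γ)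
    (hgS : ∀ i, Finsupp.single i g ∈ S) :
    ∃ C : ℕ, ∀ (a : Fin n → ℤ), (∀ j, 0 ≤ a j) → ∀ (N : ℤ) (q : ℕ),
      (cechGC K n (Tot K n ι)).FinH (relCech lam a δ (S : Set _) N) (freeCech K a δ N)
        (-(q : ℤ)) ∧
      (cechGC K n (Tot K n ι)).h (relCech lam a δ (S : Set _) N) (freeCech K a δ N)
        (-(q : ℤ)) * (1 + N.natAbs + ∑ j, (a j).natAbs) ≤
          C * (1 + N.natAbs + ∑ j, (a j).natAbs) ^ n := by
  clear hS
  obtain ⟨C, hC⟩ := torsion_aux lam hlam hg hh (n + 1) ι δ (S : Set _) hgS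
  refine ⟨C, fun a ha N q => ?_⟩
  obtain ⟨m, hm, hb⟩ := hC a ha N q (by omega)
  have hne : (cechGC K n (Tot K n ι)).FinH (relCech lam a δ (S : Set _) N) (freeCech K a δ N)
      (-(q : ℤ)) := ne_top_of_le_ne_top (ENat.coe_ne_top m) hm
  refine ⟨hne, le_trans (Nat.mul_le_mul_right _ ?_) hb⟩
  unfold GC.h len
  rw [← ENat.coe_le_coe, ENat.coe_toNat hne]
  exact hm

/-- modules that are free of rank `r` up to torsion -/
theorem rank_bound {K : Type u} [Field K] (lam : Fin (n + 1) → K) (hlam : Sep lam)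
    {ι : Type} [Fintype ι] (δ : ι → ℤ)
    (Rel : Set (ι →₀ MvPolynomial (Fin (n + 1)) K)) (hRel : ∀ p ∈ Rel, ∃ D, IsHomog δ p D)
    {r : ℕ} (D : Fin r → ℤ) (v : Fin r → (ι →₀ MvPolynomial (Fin (n + 1)) K))
    (hv : ∀ l, IsHomog δ (v l) (D l))
    {g : MvPolynomial (Fin (n + 1)) K} {γ : ℕ} (hg : g ≠ 0) (hh : g.IsHomogeneous γ)
    (hind : ∀ c : Fin r → MvPolynomial (Fin (n + 1)) K,
      (∑ l, c l • v l) ∈ Submodule.span (MvPolynomial (Fin (n + 1)) K) Rel → c = 0)
    (hgen : ∀ i, Finsupp.single i g ∈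
      Submodule.span (MvPolynomial (Fin (n + 1)) K) (Rel ∪ Set.range v)) :
    ∃ C : ℕ, ∀ (a : Fin n → ℤ), (∀ j, 0 ≤ a j) → ∀ (N : ℤ) (q : ℕ),
      (cechGC K n (Tot K n ι)).FinH (relCech lam a δ
        (Submodule.span (MvPolynomial (Fin (n + 1)) K) Rel : Set _) N) (freeCech K a δ N)
        (-(q : ℤ)) ∧
      (((cechGC K n (Tot K n ι)).h (relCech lam a δ
        (Submodule.span (MvPolynomial (Fin (n + 1)) K) Rel : Set _) N) (freeCech K a δ N)
        (-(q : ℤ)) : ℤ) - ∑ l, (hP a (N - D l) q : ℤ)).natAbs *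
          (1 + N.natAbs + ∑ j, (a j).natAbs) ≤
            C * (1 + N.natAbs + ∑ j, (a j).natAbs) ^ n := by
  set K₀ := Submodule.span (MvPolynomial (Fin (n + 1)) K) Rel
  set K₁ := Submodule.span (MvPolynomial (Fin (n + 1)) K) (Rel ∪ Set.range v)
  obtain ⟨m, p₀, η₀, hp₀, hp₀K, hgen₀⟩ := exists_gens δ (K₀ : Set (ι →₀ MvPolynomial (Fin (n + 1)) K))
  have h01 : K₀ ≤ K₁ := Submodule.span_mono Set.subset_union_left
  have hsp : Submodule.span (MvPolynomial (Fin (n + 1)) K) (Set.range p₀) ≤ K₀ :=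
    Submodule.span_le.2 (by rintro _ ⟨l, rfl⟩; exact hp₀K l)
  obtain ⟨C, hC⟩ := torsion_aux lam hlam hg hh (n + 1) ι δ (K₁ : Set _) hgen
  refine ⟨C + C, fun a ha N q => ?_⟩
  obtain ⟨hXY, ⟨e⟩⟩ := nonempty_piece_equiv lam a hlam ha hv hp₀
    (K := (K₁ : Set (ι →₀ MvPolynomial (Fin (n + 1)) K))) (K₀ := (K₀ : Set (ι →₀ MvPolynomial (Fin (n + 1)) K)))
    (fun l => Submodule.subset_span (Or.inr (Set.mem_range_self l)))
    (fun l => h01 (hp₀K l)) hp₀K hgen₀ (fun x hx _ => by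
      refine (Submodule.span_le.2 (Set.union_subset (fun y hy => ?_) fun y hy =>
        Submodule.subset_span (Or.inl hy))) hx
      exact Submodule.span_mono Set.subset_union_right
        (hgen₀ y (Submodule.subset_span hy) (hRel y hy))) N (-(q : ℤ))
  have hbot : relCech lam a D
      {c | combo v c ∈ Submodule.span (MvPolynomial (Fin (n + 1)) K) (Set.range p₀)} N = ⊥ := by
    refine relCech_eq_bot lam a (fun x hx _ => ?_) N
    have hc : combo v x ∈ K₀ := hsp hx
    rw [combo, Finsupp.sum_fintype _ _ (by simp)] at hc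
    exact Finsupp.ext fun l => congrFun (hind (fun l => x l) hc) l
  have hA : Module.length K ((cechGC K n (Tot K n ι)).H (relCech lam a δ (K₀ : Set _) N)
      (relCech lam a δ (K₁ : Set _) N) (-(q : ℤ))) = ((∑ l, hP a (N - D l) q : ℕ) : ℕ∞) := by
    rw [← LinearEquiv.length_eq e, hbot, length_free]
  obtain ⟨m₁, hm₁, hb₁⟩ := hC a ha N q (by omega)
  obtain ⟨m₂, hm₂, hb₂⟩ : ∃ m₂ : ℕ, Module.length K ((cechGC K n (Tot K n ι)).H
      (relCech lam a δ (K₁ : Set _) N) (freeCech K a δ N) (-(q : ℤ) + 1)) ≤ m₂ ∧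
      m₂ * (1 + N.natAbs + ∑ j, (a j).natAbs) ≤
        C * (1 + N.natAbs + ∑ j, (a j).natAbs) ^ n := by
    rcases q with _ | q
    · refine ⟨0, ?_, by simp⟩
      have := H_subsingleton_of_lt (Z := K) (relCech lam a δ (K₁ : Set _) N) (freeCech K a δ N)
        (k := -((0 : ℕ) : ℤ) + 1) (Or.inr (by simp))
      exact le_of_eq Module.length_eq_zero
    · rw [show -((q + 1 : ℕ) : ℤ) + 1 = -(q : ℤ) by push_cast; ring]
      exact hC a ha N q (by omega)
  have h1 := (cechGC K n (Tot K n ι)).length_mid_le hXY (relCech_le_free lam) (-(q : ℤ))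
  have h2 := (cechGC K n (Tot K n ι)).length_sub_le hXY (relCech_le_free lam) (-(q : ℤ))
  rw [hA] at h1 h2
  have hfin : (cechGC K n (Tot K n ι)).FinH (relCech lam a δ (K₀ : Set _) N)
      (freeCech K a δ N) (-(q : ℤ)) :=
    ne_top_of_le_ne_top (ENat.coe_ne_top _)
      (h1.trans ((add_le_add le_rfl hm₁).trans_eq (Nat.cast_add _ _).symm))
  refine ⟨hfin, ?_⟩
  set A := ∑ l, hP a (N - D l) q
  have hb1 : (cechGC K n (Tot K n ι)).h (relCech lam a δ (K₀ : Set _) N) (freeCech K a δ N)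
      (-(q : ℤ)) ≤ A + m₁ := by
    unfold GC.h len
    rw [← ENat.coe_le_coe, ENat.coe_toNat hfin, Nat.cast_add]
    exact h1.trans (add_le_add le_rfl hm₁)
  have hb2 : A ≤ m₂ + (cechGC K n (Tot K n ι)).h (relCech lam a δ (K₀ : Set _) N)
      (freeCech K a δ N) (-(q : ℤ)) := by
    unfold GC.h len
    rw [← ENat.coe_le_coe, Nat.cast_add, ENat.coe_toNat hfin]
    exact h2.trans (add_le_add hm₂ le_rfl)
  rw [← Nat.cast_sum]
  exact scale_le (by omega) hb₁ hb₂

end Vale.Agent.P202.Char
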