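import Vale.Agent.P202.Char.Defs

/-!
P202, Lech in characteristic `p`: integer estimates for the windows: signed products, telescoping
of `∏ (y + l J)`.
-/

namespace Vale.Agent.P202.Char

open Finset

theorem abs_prod_le {ι : Type*} (s : Finset ι) (v : ι → ℤ) (M : ℤ) (h : ∀ l ∈ s, |v l| ≤ M) :
    |∏ l ∈ s, v l| ≤ M ^ s.card := by
  rw [abs_prod]
  exact (prod_le_prod (fun l _ => abs_nonneg _) h).trans (by simp)

theorem prod_shift {ι : Type*} [DecidableEq ι] (s : Finset ι) (v : ι → ℤ) (t M : ℤ) (hM : 0 ≤ M)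
    (h0 : ∀ l ∈ s, |v l| ≤ M) (h1 : ∀ l ∈ s, |v l + t| ≤ M) :
    |∏ l ∈ s, (v l + t) - ∏ l ∈ s, v l| * M ≤ |t| * s.card * M ^ s.card := by
  induction s using Finset.induction_on with
  | empty => simp
  | insert a s ha ih =>
    have ih' := ih (fun l hl => h0 l (mem_insert_of_mem hl)) fun l hl => h1 l (mem_insert_of_mem hl)
    have hP := abs_prod_le s (fun l => v l + t) M fun l hl => h1 l (mem_insert_of_mem hl)
    have hva := h0 a (mem_insert_self a s)
    rw [prod_insert ha, prod_insert ha, card_insert_of_notMem ha]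
    set P' := ∏ l ∈ s, (v l + t)
    set P := ∏ l ∈ s, v l
    rw [show (v a + t) * P' - v a * P = v a * (P' - P) + t * P' by ring]
    calc |v a * (P' - P) + t * P'| * M ≤ (|v a| * |P' - P| + |t| * |P'|) * M := by
          gcongr
          rw [← abs_mul, ← abs_mul]
          exact abs_add_le _ _
      _ = |v a| * (|P' - P| * M) + |t| * |P'| * M := by ring
      _ ≤ M * (|t| * s.card * M ^ s.card) + |t| * M ^ s.card * M := by gcongr
      _ = _ := by push_cast; ring

theorem prod_step {ι : Type*} [DecidableEq ι] (s : Finset ι) (v : ι → ℤ) (M : ℤ) (hM : 0 ≤ M)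
    (h0 : ∀ l ∈ s, |v l| ≤ M) (h1 : ∀ l ∈ s, |v l + 1| ≤ M) :
    |∏ l ∈ s, (v l + 1) - ∏ l ∈ s, v l - ∑ l ∈ s, ∏ k ∈ s.erase l, v k| * M ^ 2 ≤
      (s.card : ℤ) ^ 2 * M ^ s.card := by
  induction s using Finset.induction_on with
  | empty => simp
  | insert a s ha ih =>
    have h0' : ∀ l ∈ s, |v l| ≤ M := fun l hl => h0 l (mem_insert_of_mem hl)
    have h1' : ∀ l ∈ s, |v l + 1| ≤ M := fun l hl => h1 l (mem_insert_of_mem hl)
    have ih' := ih h0' h1'
    have hd := prod_shift s v 1 M hM h0' h1'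
    rw [abs_one, one_mul] at hd
    have hva := h0 a (mem_insert_self a s)
    have hsum : ∑ l ∈ insert a s, ∏ k ∈ (insert a s).erase l, v k =
        ∏ k ∈ s, v k + v a * ∑ l ∈ s, ∏ k ∈ s.erase l, v k := by
      rw [sum_insert ha, erase_insert ha, mul_sum]
      congr 1
      refine sum_congr rfl fun l hl => ?_
      have hne : a ≠ l := fun h => ha (h ▸ hl)
      rw [erase_insert_of_ne hne, prod_insert (fun h => ha (mem_of_mem_erase h))]
    rw [hsum, prod_insert ha, prod_insert ha, card_insert_of_notMem ha]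
    set P' := ∏ l ∈ s, (v l + 1)
    set P := ∏ l ∈ s, v l
    set S := ∑ l ∈ s, ∏ k ∈ s.erase l, v k
    rw [show (v a + 1) * P' - v a * P - (P + v a * S) = v a * (P' - P - S) + (P' - P) by ring]
    calc |v a * (P' - P - S) + (P' - P)| * M ^ 2 ≤ (|v a| * |P' - P - S| + |P' - P|) * M ^ 2 := by
          gcongr
          rw [← abs_mul]
          exact abs_add_le _ _
      _ = |v a| * (|P' - P - S| * M ^ 2) + |P' - P| * M * M := by ring
      _ ≤ M * ((s.card : ℤ) ^ 2 * M ^ s.card) + (s.card : ℤ) * M ^ s.card * M := by gcongr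
      _ ≤ _ := by
          push_cast
          have h2 : (0 : ℤ) ≤ M ^ s.card * M := mul_nonneg (pow_nonneg hM _) hM
          calc M * ((s.card : ℤ) ^ 2 * M ^ s.card) + (s.card : ℤ) * M ^ s.card * M
              = ((s.card : ℤ) ^ 2 + s.card) * (M ^ s.card * M) := by ring
            _ ≤ ((s.card : ℤ) + 1) ^ 2 * (M ^ s.card * M) := by
                refine mul_le_mul_of_nonneg_right ?_ h2
                nlinarith
            _ = _ := by ring

/-- The Euler characteristic of the cohomology of `O(m + a)` is the signed product. -/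
theorem sum_hP {n : ℕ} (a : Fin n → ℤ) (m : ℤ) :
    ∑ q ∈ range (n + 1), (-1 : ℤ) ^ q * (hP a m q : ℤ) = ∏ j, (m + a j + 1) := by
  set s := univ.filter fun j => m + a j + 1 < 0
  have hs : s.card ∈ range (n + 1) := by
    rw [mem_range]
    have := s.card_le_univ
    rw [Fintype.card_fin] at this
    omega
  rw [sum_eq_single_of_mem _ hs fun q _ hq => by rw [hP, if_neg (Ne.symm hq)]; simp, hP, if_pos rfl,
    Nat.cast_prod, ← prod_filter_mul_prod_filter_not univ (fun j => m + a j + 1 < 0),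
    ← prod_filter_mul_prod_filter_not univ (fun j => m + a j + 1 < 0) (fun j => m + a j + 1),
    ← mul_assoc]
  congr 1
  · rw [← prod_const, ← prod_mul_distrib]
    refine prod_congr rfl fun j hj => ?_
    have := (mem_filter.1 hj).2
    omega
  · refine prod_congr rfl fun j hj => ?_
    have := (mem_filter.1 hj).2
    omega

/-- `∏ l, (y + (l + 1) * J)` -/
def winF (n : ℕ) (J y : ℤ) : ℤ := ∏ l : Fin (n + 1), (y + ((l : ℕ) + 1) * J)

/-- its formal derivative -/
def winG (n : ℕ) (J y : ℤ) : ℤ :=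
  ∑ kk : Fin (n + 1), ∏ l ∈ univ.erase kk, (y + ((l : ℕ) + 1) * J)

theorem winG_eq (n : ℕ) (J y : ℤ) :
    winG n J y = ∑ kk : Fin (n + 1), ∏ j : Fin n, (y + ((kk.succAbove j : ℕ) + 1) * J) := by
  refine sum_congr rfl fun kk _ => ?_
  rw [show univ.erase kk = (univ : Finset (Fin n)).map kk.succAboveEmb from ?_, prod_map]
  · rfl
  · ext l
    simp only [mem_erase, mem_univ, and_true, mem_map, true_and, Fin.succAboveEmb_apply]
    exact ⟨fun h => Fin.exists_succAbove_eq h, fun ⟨j, hj⟩ => hj ▸ Fin.succAbove_ne kk j⟩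

/-- the window of `i * J` slices ending at `-1`, shifted by `D`, carries `(n+1)! J^(n+1)` -/
theorem winG_sum (n : ℕ) (i J D : ℕ) (hi : 1 ≤ i) (hin : i ≤ n + 1) (hD : D + 1 ≤ J) :
    |∑ s ∈ range (i * J), winG n J (-((i : ℤ) * J) + 1 - D + s) -
      ((n + 1).factorial : ℤ) * (J : ℤ) ^ (n + 1)| ≤
      ((n : ℤ) + 1) * (((n : ℤ) + 1) ^ 2 + 2 * (D + 1)) * (2 * (n : ℤ) + 5) ^ (n + 1) *
        (J : ℤ) ^ n := by
  set K : ℤ := 2 * (n : ℤ) + 5 with hK
  set M : ℤ := K * J with hMdef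
  have hJ : (1 : ℤ) ≤ J := by exact_mod_cast le_trans (Nat.le_add_left 1 D) hD
  have hDJ : (D : ℤ) + 1 ≤ J := by exact_mod_cast hD
  have hiJ : (i : ℤ) * J ≤ ((n : ℤ) + 1) * J := by
    gcongr
    exact_mod_cast hin
  have hM1 : 1 ≤ M := by nlinarith
  have hb : ∀ (y : ℤ), -((i : ℤ) * J) - D ≤ y → y ≤ 1 → ∀ l : Fin (n + 1),
      |y + ((l : ℕ) + 1 : ℤ) * J| ≤ M ∧ |y + ((l : ℕ) + 1 : ℤ) * J + 1| ≤ M := by
    intro y h1 h2 l
    have hl : ((l : ℕ) + 1 : ℤ) * J ≤ ((n : ℤ) + 1) * J := by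
      gcongr
      exact_mod_cast Nat.le_of_lt_succ l.2
    have hl0 : (0 : ℤ) ≤ ((l : ℕ) + 1 : ℤ) * J := by positivity
    constructor <;> rw [abs_le] <;> constructor <;> nlinarith
  have hcard : (univ : Finset (Fin (n + 1))).card = n + 1 := by simp
  set y₀ : ℤ := -((i : ℤ) * J) + 1 - D
  have hstep : ∀ s ∈ range (i * J),
      |winG n J (y₀ + s) - (winF n J (y₀ + (s + 1 : ℕ)) - winF n J (y₀ + s))| * M ^ 2 ≤
        ((n : ℤ) + 1) ^ 2 * M ^ (n + 1) := by
    intro s hs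
    have hs' : (s : ℤ) + 1 ≤ (i : ℤ) * J := by exact_mod_cast mem_range.1 hs
    have h := prod_step univ (fun l : Fin (n + 1) => y₀ + s + ((l : ℕ) + 1 : ℤ) * J) M (by omega)
      (fun l _ => (hb _ (by omega) (by omega) l).1) (fun l _ => (hb _ (by omega) (by omega) l).2)
    rw [hcard] at h
    rw [abs_sub_comm]
    refine le_trans (le_of_eq ?_) (h.trans (le_of_eq (by push_cast; rfl)))
    simp only [winF, winG]
    congr 3
    congr 1
    refine prod_congr rfl fun l _ => ?_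
    push_cast
    ring
  have hshift : ∀ x : ℤ, -((i : ℤ) * J) ≤ x → x ≤ 0 →
      |winF n J (x + (1 - D)) - winF n J x| * M ≤ ((D : ℤ) + 1) * (n + 1) * M ^ (n + 1) := by
    intro x h1 h2
    have h := prod_shift univ (fun l : Fin (n + 1) => x + ((l : ℕ) + 1 : ℤ) * J) (1 - D) M (by omega)
      (fun l _ => (hb x (by omega) (by omega) l).1)
      (fun l _ => by
        have := (hb (x + (1 - D)) (by omega) (by omega) l).1
        rwa [show x + ((l : ℕ) + 1 : ℤ) * J + (1 - D) = x + (1 - D) + ((l : ℕ) + 1 : ℤ) * J by ring])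
    rw [hcard] at h
    refine le_trans (le_of_eq ?_) (h.trans ?_)
    · simp only [winF]
      congr 3
      refine prod_congr rfl fun l _ => by ring
    · push_cast
      gcongr
      rw [abs_le]
      omega
  have hF0 : winF n J 0 = ((n + 1).factorial : ℤ) * (J : ℤ) ^ (n + 1) := by
    rw [winF]
    simp only [zero_add, prod_mul_distrib, prod_const, card_univ, Fintype.card_fin]
    congr 1
    rw [Fin.prod_univ_eq_prod_range (fun k => ((k : ℕ) : ℤ) + 1) (n + 1), ← prod_range_add_one_eq_factorial]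
    push_cast
    rfl
  have hFi : winF n J (-((i : ℤ) * J)) = 0 := by
    refine prod_eq_zero (mem_univ ⟨i - 1, by omega⟩) ?_
    rw [show (((⟨i - 1, by omega⟩ : Fin (n + 1)) : ℕ) : ℤ) + 1 = i by simp; omega]
    ring
  have htel : ∑ s ∈ range (i * J), (winF n J (y₀ + (s + 1 : ℕ)) - winF n J (y₀ + s)) =
      winF n J (0 + (1 - (D : ℤ))) - winF n J (-((i : ℤ) * J) + (1 - (D : ℤ))) := by
    rw [sum_range_sub (fun s : ℕ => winF n J (y₀ + s))]
    congr 2 <;> simp [y₀] <;> ring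
  have e1 := hshift 0 (by nlinarith) le_rfl
  have e2 := hshift (-((i : ℤ) * J)) le_rfl (by nlinarith)
  rw [hFi, sub_zero] at e2
  rw [hF0] at e1
  set E₀ := ∑ s ∈ range (i * J),
    (winG n J (y₀ + s) - (winF n J (y₀ + (s + 1 : ℕ)) - winF n J (y₀ + s))) with hE0
  have hsplit : ∑ s ∈ range (i * J), winG n J (y₀ + s) -
      ((n + 1).factorial : ℤ) * (J : ℤ) ^ (n + 1) = E₀ +
      (winF n J (0 + (1 - (D : ℤ))) - ((n + 1).factorial : ℤ) * (J : ℤ) ^ (n + 1)) -
      winF n J (-((i : ℤ) * J) + (1 - (D : ℤ))) := by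
    rw [hE0, sum_sub_distrib, htel]
    ring
  have hE : |E₀| * M ^ 2 ≤ ((n : ℤ) + 1) * J * (((n : ℤ) + 1) ^ 2 * M ^ (n + 1)) := by
    refine (mul_le_mul_of_nonneg_right (abs_sum_le_sum_abs _ _) (sq_nonneg _)).trans ?_
    rw [sum_mul]
    refine (sum_le_sum hstep).trans ?_
    rw [sum_const, card_range, nsmul_eq_mul]
    push_cast
    gcongr
  rw [hsplit]
  refine le_of_mul_le_mul_right ?_ (pow_pos (by linarith : (0 : ℤ) < M) 2)
  calc _ ≤ (|E₀| + |winF n J (0 + (1 - (D : ℤ))) - ((n + 1).factorial : ℤ) * (J : ℤ) ^ (n + 1)| +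
        |winF n J (-((i : ℤ) * J) + (1 - (D : ℤ)))|) * M ^ 2 := by
          gcongr
          exact (abs_sub _ _).trans (by gcongr; exact abs_add_le _ _)
    _ = |E₀| * M ^ 2 +
        |winF n J (0 + (1 - (D : ℤ))) - ((n + 1).factorial : ℤ) * (J : ℤ) ^ (n + 1)| * M * M +
        |winF n J (-((i : ℤ) * J) + (1 - (D : ℤ)))| * M * M := by ring
    _ ≤ ((n : ℤ) + 1) * J * (((n : ℤ) + 1) ^ 2 * M ^ (n + 1)) +
        ((D : ℤ) + 1) * (n + 1) * M ^ (n + 1) * M + ((D : ℤ) + 1) * (n + 1) * M ^ (n + 1) * M := by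
          gcongr
    _ = ((n : ℤ) + 1) * (((n : ℤ) + 1) ^ 2 + 2 * (D + 1) * K) * K ^ (n + 1) * (J : ℤ) ^ (n + 2) := by
          rw [hMdef, mul_pow]; ring
    _ ≤ _ := by
          have h1 : ((n : ℤ) + 1) ^ 2 + 2 * (D + 1) * K ≤ (((n : ℤ) + 1) ^ 2 + 2 * (D + 1)) * K ^ 2 := by
            have hK1 : 1 ≤ K := by omega
            have h2 : K ≤ K ^ 2 := by nlinarith
            have h3 : 1 ≤ K ^ 2 := by nlinarith
            nlinarith [sq_nonneg ((n : ℤ) + 1)]
          calc ((n : ℤ) + 1) * (((n : ℤ) + 1) ^ 2 + 2 * (D + 1) * K) * K ^ (n + 1) * (J : ℤ) ^ (n + 2)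
              ≤ ((n : ℤ) + 1) * ((((n : ℤ) + 1) ^ 2 + 2 * (D + 1)) * K ^ 2) * K ^ (n + 1) *
                (J : ℤ) ^ (n + 2) := by gcongr
            _ = _ := by rw [hMdef]; ring

end Vale.Agent.P202.Char
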