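import Vale.Agent.P202.Char.Twist
import Vale.Agent.P202.Char.Reduction
import Vale.Agent.P202.Char.SheafBound
import Vale.Agent.P202.Char.WindowAlg

/-!
P202, Lech in characteristic `p`: the cohomology of the associated graded ring is negligible in
the outer windows and has Euler characteristic `e (n+1)! J^(n+1)` in the middle one.
-/

namespace Vale.Agent.P202.Char

open IsLocalRing Finset

universe u

variable {R : Type u} [CommRing R] [IsLocalRing R] [IsNoetherianRing R] {n : ℕ}
  (Z : RedData R n) (lam : Fin (n + 1) → R)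

theorem sep_residue (hlam : Sep lam) : Sep (fun k => residue R (lam k)) := fun k l h => by
  simpa only [← map_sub] using (hlam k l h).map (residue R)

theorem grRel_homog {p : Z.ι →₀ MvPolynomial (Fin (n + 1)) (ResidueField R)} (hp : p ∈ Z.grRel) :
    ∃ D, IsHomog (fun i => (Z.δ i : ℤ)) p D := by
  obtain ⟨D, q, rfl, hq, -⟩ := hp
  refine ⟨D, fun i c hc => hq i c ?_⟩
  rw [Finsupp.mapRange_apply] at hc
  exact MvPolynomial.support_map_subset _ _ hc

theorem gr_rank_bound (hlam : Sep lam) {e : ℝ} (he : IsMultiplicity R (n + 1) e) :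
    ∃ (r : ℕ) (D : Fin r → ℕ) (C : ℕ), e = (r : ℝ) ∧
      ∀ (a : Fin n → ℤ), (∀ j, 0 ≤ a j) → ∀ (N : ℤ) (q : ℕ),
        Z.grFin lam a N (-(q : ℤ)) ∧
        ((Z.grh lam a N (-(q : ℤ)) : ℤ) - ∑ l, (hP a (N - D l) q : ℤ)).natAbs *
          (1 + N.natAbs + ∑ j, (a j).natAbs) ≤ C * (1 + N.natAbs + ∑ j, (a j).natAbs) ^ n := by
  obtain ⟨r, D, v, g, γ, hg, hh, her, hv, hind, hgen⟩ := grRel_rank Z he
  obtain ⟨C, hC⟩ := rank_bound (fun k => residue R (lam k)) (sep_residue lam hlam)
    (fun i => (Z.δ i : ℤ)) Z.grRel (fun p hp => grRel_homog Z hp) (fun l => (D l : ℤ)) v hv hg hh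
    hind hgen
  exact ⟨r, D, C, her, hC⟩

theorem gr_finH (hlam : Sep lam) {e : ℝ} (he : IsMultiplicity R (n + 1) e) (a : Fin n → ℤ)
    (ha : ∀ j, 0 ≤ a j) (N k : ℤ) : Z.grFin lam a N k := by
  obtain ⟨r, D, C, -, hC⟩ := gr_rank_bound Z lam hlam he
  by_cases hk : k ≤ 0
  · obtain ⟨q, rfl⟩ : ∃ q : ℕ, k = -(q : ℤ) := ⟨k.natAbs, by omega⟩
    exact (hC a ha N q).1
  · have : Subsingleton ((cechGC (ResidueField R) n (Tot (ResidueField R) n Z.ι)).H
        (Z.grSub lam a N) (Z.grFree a N) k) := by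
      refine subsingleton_of_forall_eq 0 fun y => ?_
      obtain ⟨⟨z, hz⟩, rfl⟩ := Submodule.mkQ_surjective _ y
      have h0 : z = 0 := funext fun ε => mem_cechDeg_iff.1 hz.1.2 ε (by omega)
      subst h0
      exact map_zero _
    exact ne_of_eq_of_ne Module.length_eq_zero ENat.zero_ne_top

theorem stdTw_le (kk : Fin (n + 1)) (J : ℕ) (j : Fin n) : stdTw kk J j ≤ ((n : ℤ) + 1) * J := by
  have := (kk.succAbove j).2
  simp only [stdTw]
  push_cast
  gcongr
  exact_mod_cast Nat.le_of_lt_succ this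

theorem one_le_stdTw (kk : Fin (n + 1)) (J : ℕ) (j : Fin n) : (J : ℤ) ≤ stdTw kk J j := by
  simp only [stdTw]
  push_cast
  exact le_mul_of_one_le_left (Int.natCast_nonneg _) (by omega)

/-- The error terms over a window sum to `O(J^n)`. -/
theorem sum_err (C c : ℕ) : ∃ C' : ℕ, ∀ (kk : Fin (n + 1)) (J : ℕ) (b : ℤ) (w : ℕ) (E : ℤ → ℕ),
    1 ≤ J → w ≤ c * J → b.natAbs + w ≤ (n + 1 + 2 * c) * J →
    (∀ N, E N * (1 + N.natAbs + ∑ j, (stdTw kk J j).natAbs) ≤
      C * (1 + N.natAbs + ∑ j, (stdTw kk J j).natAbs) ^ n) →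
    ∑ s ∈ range w, E (b + s) ≤ C' * J ^ n := by
  refine ⟨(2 * C + 1) * C + c * C * (2 + (n + 1 + 2 * c) + n * (n + 1)) ^ (n - 1),
    fun kk J b w E hJ hw hb hE => ?_⟩
  rcases n.eq_zero_or_pos with hn | hn
  · subst hn
    simp only [pow_zero, mul_one, univ_eq_empty, sum_empty, add_zero] at hE ⊢
    refine le_trans ?_ (Nat.le_add_right _ _)
    have hle : ∀ s ∈ range w, E (b + s) ≤ if (b + (s : ℤ)) ∈ Icc (-(C : ℤ)) C then C else 0 := by
      intro s _
      have h := hE (b + s)
      split_ifs with hmem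
      · calc E (b + s) = E (b + s) * 1 := by ring
          _ ≤ E (b + s) * (1 + (b + (s : ℤ)).natAbs) := by gcongr; omega
          _ ≤ C := h
      · rw [mem_Icc] at hmem
        by_contra h0
        have : 1 * (1 + (b + (s : ℤ)).natAbs) ≤ C := le_trans (by gcongr; omega) h
        omega
    refine (sum_le_sum hle).trans ?_
    rw [← sum_filter, sum_const, smul_eq_mul]
    gcongr
    refine (card_le_card_of_injOn (fun s : ℕ => b + (s : ℤ))
      (t := Icc (-(C : ℤ)) C) (fun s hs => (mem_filter.1 hs).2) fun s _ t _ h => by simpa using h).trans ?_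
    rw [Int.card_Icc]
    omega
  · set T := 2 + (n + 1 + 2 * c) + n * (n + 1)
    have hle : ∀ s ∈ range w, E (b + s) ≤ C * T ^ (n - 1) * J ^ (n - 1) := by
      intro s hs
      set X := 1 + (b + (s : ℤ)).natAbs + ∑ j, (stdTw kk J j).natAbs with hX
      have hsum : ∑ j, (stdTw kk J j).natAbs ≤ n * ((n + 1) * J) := by
        refine (sum_le_card_nsmul _ _ ((n + 1) * J) fun j _ => ?_).trans (by simp)
        have h1 := stdTw_le kk J j
        have h2 := stdTw_nonneg kk J j
        zify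
        rw [abs_of_nonneg h2]
        exact h1
      have hs' := mem_range.1 hs
      have hXle : X ≤ T * J := by
        have : 1 + (n + 1 + 2 * c) * J + n * ((n + 1) * J) ≤ T * J := by
          simp only [T]; ring_nf; omega
        omega
      have h := hE (b + s)
      rw [show C * X ^ n = C * X ^ (n - 1) * X by
        rw [mul_assoc, ← pow_succ, show n - 1 + 1 = n by omega]] at h
      refine (Nat.le_of_mul_le_mul_right h (by omega)).trans ?_
      rw [mul_assoc, ← mul_pow]
      gcongr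
    refine (sum_le_card_nsmul _ _ _ hle).trans ?_
    rw [card_range, smul_eq_mul]
    calc w * (C * T ^ (n - 1) * J ^ (n - 1)) ≤ c * J * (C * T ^ (n - 1) * J ^ (n - 1)) := by gcongr
      _ = c * C * T ^ (n - 1) * (J ^ (n - 1) * J) := by ring
      _ ≤ _ := by
        rw [← pow_succ, show n - 1 + 1 = n by omega]
        gcongr
        omega

/-- no cohomology of the free part in the low window -/
theorem hP_low (kk : Fin (n + 1)) (J i qq D : ℕ) (N : ℤ) (hD : D ≤ J + 1) (hq : i < qq)
    (hN : -((i : ℤ) * J) ≤ N) : hP (stdTw kk J) (N - D) qq = 0 := by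
  rw [hP, if_neg]
  intro h
  have hsub : (univ.filter fun j => N - D + stdTw kk J j + 1 < 0).card ≤ i := by
    refine (card_le_card_of_injOn (fun j => (kk.succAbove j : ℕ)) (t := range i) (fun j hj => ?_)
      fun a _ b _ hab => Fin.succAbove_right_injective (Fin.ext hab)).trans (card_range i).le
    have h1 := (mem_filter.1 hj).2
    simp only [coe_range, Set.mem_Iio]
    by_contra hge
    have : ((i : ℤ) + 1) * J ≤ stdTw kk J j := by
      simp only [stdTw]
      push_cast
      gcongr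
      exact_mod_cast (by omega : i ≤ (kk.succAbove j : ℕ))
    rw [add_mul, one_mul] at this
    omega
  omega

/-- no cohomology of the free part in the high window -/
theorem hP_high (kk : Fin (n + 1)) (J i qq D : ℕ) (N : ℤ) (hi : i ≤ n + 1) (hq : qq + 2 ≤ i)
    (hN : N + 1 ≤ -((i : ℤ) * J)) : hP (stdTw kk J) (N - D) qq = 0 := by
  classical
  rw [hP]
  split_ifs with h
  swap
  · rfl
  by_contra hne
  have hsub : ((univ : Finset (Fin (n + 1))).filter fun l : Fin (n + 1) => (l : ℕ) < i).erase kk ⊆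
      ((univ : Finset (Fin n)).filter fun j => N - D + stdTw kk J j + 1 < 0).image (fun j => kk.succAbove j) := by
    intro l hl
    obtain ⟨hlk, hl⟩ := mem_erase.1 hl
    obtain ⟨j, rfl⟩ := Fin.exists_succAbove_eq hlk
    refine mem_image.2 ⟨j, mem_filter.2 ⟨mem_univ j, ?_⟩, rfl⟩
    have hle : stdTw kk J j ≤ (i : ℤ) * J := by
      simp only [stdTw]
      push_cast
      gcongr
      exact_mod_cast ((mem_filter.1 hl).2 : (kk.succAbove j : ℕ) < i)
    have hz : N - D + stdTw kk J j + 1 ≠ 0 := fun h0 => hne (prod_eq_zero (mem_univ j) (by simp [h0]))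
    omega
  have h1 := card_le_card hsub
  rw [card_image_of_injective _ Fin.succAbove_right_injective, h] at h1
  have h2 : ((univ : Finset (Fin (n + 1))).filter fun l : Fin (n + 1) => (l : ℕ) < i).card = i := by
    rw [Fin.card_filter_val_lt, min_eq_right hi]
  have := pred_card_le_card_erase (s := (univ : Finset (Fin (n + 1))).filter fun l : Fin (n + 1) => (l : ℕ) < i)
    (a := kk)
  omega

theorem grchi_eq (a : Fin n → ℤ) (N : ℤ) :
    Z.grchi lam a N = ∑ q ∈ range (n + 1), (-1 : ℤ) ^ q * (Z.grh lam a N (-(q : ℤ)) : ℤ) := by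
  unfold RedData.grchi GC.chi
  refine sum_nbij' (fun k : ℤ => k.natAbs) (fun q : ℕ => -(q : ℤ)) ?_ ?_ ?_ ?_ ?_
  · intro k hk; simp only [mem_Icc] at hk; simp only [mem_range]; omega
  · intro q hq; simp only [mem_range] at hq; simp only [mem_Icc]; omega
  · intro k hk; simp only [mem_Icc] at hk; omega
  · intro q _; omega
  · intro k hk
    simp only [mem_Icc] at hk
    rw [show -((k.natAbs : ℕ) : ℤ) = k by omega]

/-- The two windows are negligible, the middle one gives `e (n+1)! J^(n+1)` -/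
theorem window_bounds (hlam : Sep lam) {e : ℝ} (he : IsMultiplicity R (n + 1) e) (c : ℕ) :
    ∃ C : ℕ, ∀ J : ℕ, C ≤ J →
      (∀ (kk : Fin (n + 1)) (i w : ℕ), i ≤ n + 1 → w ≤ c * J → ∀ qq : ℕ,
        (i < qq → ∑ s ∈ Finset.range w,
            Z.grh lam (stdTw kk J) (-((i : ℤ) * J) + s) (-(qq : ℤ)) ≤ C * J ^ n) ∧
        (qq + 2 ≤ i → ∑ s ∈ Finset.range w,
            Z.grh lam (stdTw kk J) (-((i : ℤ) * J) - w + s) (-(qq : ℤ)) ≤ C * J ^ n)) ∧
      ∀ i : ℕ, 1 ≤ i → i ≤ n + 1 →
        |((∑ kk : Fin (n + 1), ∑ s ∈ Finset.range (i * J),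
            Z.grchi lam (stdTw kk J) (-((i : ℤ) * J) + s) : ℤ) : ℝ) -
          e * ((n + 1).factorial : ℝ) * (J : ℝ) ^ (n + 1)| ≤ (C : ℝ) * (J : ℝ) ^ n := by
  obtain ⟨r, D, C₀, her, hC⟩ := gr_rank_bound Z lam hlam he
  obtain ⟨C₁, h₁⟩ := sum_err (n := n) C₀ c
  obtain ⟨C₂, h₂⟩ := sum_err (n := n) C₀ (n + 1)
  set A := (n + 1) * (n + 1) * C₂ + ∑ l, (n + 1) * ((n + 1) ^ 2 + 2 * (D l + 1)) * (2 * n + 5) ^ (n + 1)
    with hA
  refine ⟨C₁ + A + ∑ l, D l + 2, fun J hJ => ⟨fun kk i w hi hw qq => ?_, fun i hi1 hi => ?_⟩⟩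
  · have hJ1 : 1 ≤ J := by omega
    have hDl : ∀ l, D l + 1 ≤ J := fun l => by
      have := single_le_sum (f := D) (fun _ _ => Nat.zero_le _) (mem_univ l)
      omega
    have hiJ : i * J ≤ (n + 1) * J := Nat.mul_le_mul_right J hi
    have hiJ' : ((i : ℤ) * J).natAbs = i * J := by rw [← Int.natCast_mul, Int.natAbs_natCast]
    have key : ∀ N : ℤ, (∀ l, hP (stdTw kk J) (N - D l) qq = 0) →
        Z.grh lam (stdTw kk J) N (-(qq : ℤ)) =
          ((Z.grh lam (stdTw kk J) N (-(qq : ℤ)) : ℤ) -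
            ∑ l, (hP (stdTw kk J) (N - D l) qq : ℤ)).natAbs := by
      intro N hN
      simp [hN]
    have hb : (n + 1) * J + (c * J + c * J) ≤ (n + 1 + 2 * c) * J := by ring_nf; omega
    have hbnd := fun (b : ℤ) (hb : b.natAbs + w ≤ (n + 1 + 2 * c) * J) =>
      h₁ kk J b w (fun N => ((Z.grh lam (stdTw kk J) N (-(qq : ℤ)) : ℤ) -
        ∑ l, (hP (stdTw kk J) (N - D l) qq : ℤ)).natAbs) hJ1 hw hb
        fun N => (hC _ (stdTw_nonneg kk J) N qq).2
    constructor
    · intro hq
      rw [sum_congr rfl fun s _ => key _ fun l => hP_low kk J i qq (D l) _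
        (by have := hDl l; omega) hq (by omega)]
      exact (hbnd _ (by rw [Int.natAbs_neg, hiJ']; omega)).trans (by gcongr; omega)
    · intro hq
      rw [sum_congr rfl fun s hs => key _ fun l => hP_high kk J i qq (D l) _ hi hq
        (by have := mem_range.1 hs; omega)]
      refine (hbnd _ ?_).trans (by gcongr; omega)
      have h3 := Int.natAbs_sub_le (-((i : ℤ) * J)) (w : ℤ)
      rw [Int.natAbs_neg, hiJ', Int.natAbs_natCast] at h3
      omega
  · have hJ1 : 1 ≤ J := by omega
    have hiJ : i * J ≤ (n + 1) * J := Nat.mul_le_mul_right J hi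
    have hiJ' : ((i : ℤ) * J).natAbs = i * J := by rw [← Int.natCast_mul, Int.natAbs_natCast]
    set b : ℤ := -((i : ℤ) * J) with hb
    have hbb : b.natAbs + i * J ≤ (n + 1 + 2 * (n + 1)) * J := by
      rw [hb, Int.natAbs_neg, hiJ']
      ring_nf at hiJ ⊢
      omega
    set h := fun kk s q => (Z.grh lam (stdTw kk J) (b + s) (-(q : ℤ)) : ℤ)
    set p := fun (kk : Fin (n + 1)) (s : ℕ) (l : Fin r) (q : ℕ) =>
      (hP (stdTw kk J) (b + s - D l) q : ℤ)
    have herr : ∀ kk : Fin (n + 1), ∀ q : ℕ,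
        ∑ s ∈ range (i * J), |h kk s q - ∑ l, p kk s l q| ≤ (C₂ : ℤ) * (J : ℤ) ^ n := by
      intro kk q
      have := h₂ kk J b (i * J) (fun N => ((Z.grh lam (stdTw kk J) N (-(q : ℤ)) : ℤ) -
        ∑ l, (hP (stdTw kk J) (N - D l) q : ℤ)).natAbs) hJ1 hiJ hbb
        fun N => (hC _ (stdTw_nonneg kk J) N q).2
      zify at this
      exact this
    have hmain : ∑ kk : Fin (n + 1), ∑ s ∈ range (i * J), ∑ l, ∑ q ∈ range (n + 1),
        (-1 : ℤ) ^ q * p kk s l q =
          ∑ l, ∑ s ∈ range (i * J), winG n J (b + 1 - D l + s) := by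
      rw [sum_comm, sum_comm (s := (univ : Finset (Fin r)))]
      refine sum_congr rfl fun s _ => ?_
      rw [sum_comm]
      refine sum_congr rfl fun l _ => ?_
      rw [winG_eq]
      refine sum_congr rfl fun kk _ => ?_
      simp only [p]
      rw [sum_hP]
      refine prod_congr rfl fun j _ => ?_
      simp only [stdTw]
      push_cast
      ring
    set S : ℤ := ∑ kk : Fin (n + 1), ∑ s ∈ range (i * J), Z.grchi lam (stdTw kk J) (b + s)
    have hS : |S - (r : ℤ) * ((n + 1).factorial : ℤ) * (J : ℤ) ^ (n + 1)| ≤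
        (A : ℤ) * (J : ℤ) ^ n := by
      have e1 : S - (r : ℤ) * ((n + 1).factorial : ℤ) * (J : ℤ) ^ (n + 1) =
          (∑ kk : Fin (n + 1), ∑ q ∈ range (n + 1), ∑ s ∈ range (i * J),
            (-1 : ℤ) ^ q * (h kk s q - ∑ l, p kk s l q)) +
          ∑ l, (∑ s ∈ range (i * J), winG n J (b + 1 - D l + s) -
            ((n + 1).factorial : ℤ) * (J : ℤ) ^ (n + 1)) := by
        rw [sum_sub_distrib, ← hmain, sum_const, card_univ, Fintype.card_fin, nsmul_eq_mul,
          ← mul_assoc, add_sub_assoc']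
        congr 1
        rw [← sum_add_distrib]
        refine sum_congr rfl fun kk _ => ?_
        rw [sum_comm (s := range (n + 1)), ← sum_add_distrib]
        refine sum_congr rfl fun s _ => ?_
        rw [sum_comm (s := (univ : Finset (Fin r))), ← sum_add_distrib, grchi_eq]
        refine sum_congr rfl fun q _ => ?_
        rw [← mul_sum, mul_sub, sub_add_cancel]
      rw [e1]
      refine (abs_add_le _ _).trans ?_
      rw [hA]
      push_cast
      rw [add_mul]
      refine add_le_add ?_ ?_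
      · calc _ ≤ ∑ kk : Fin (n + 1), ∑ q ∈ range (n + 1), (C₂ : ℤ) * (J : ℤ) ^ n := by
              refine (abs_sum_le_sum_abs _ _).trans (sum_le_sum fun kk _ => ?_)
              refine (abs_sum_le_sum_abs _ _).trans (sum_le_sum fun q _ => ?_)
              refine (abs_sum_le_sum_abs _ _).trans (le_trans (le_of_eq ?_) (herr kk q))
              exact sum_congr rfl fun s _ => by rw [abs_mul, abs_pow, abs_neg, abs_one, one_pow, one_mul]
          _ = _ := by simp; ring
      · rw [sum_mul]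
        refine (abs_sum_le_sum_abs _ _).trans (sum_le_sum fun l _ => ?_)
        exact winG_sum n i J (D l) hi1 hi (by
          have := single_le_sum (f := D) (fun _ _ => Nat.zero_le _) (mem_univ l)
          omega)
    rw [her]
    have hcast : (|S - (r : ℤ) * ((n + 1).factorial : ℤ) * (J : ℤ) ^ (n + 1)| : ℝ) ≤
        ((A : ℤ) : ℝ) * ((J : ℤ) : ℝ) ^ n := by exact_mod_cast hS
    push_cast at hcast
    refine le_trans (le_of_eq ?_) (hcast.trans ?_)
    · rfl
    · gcongr
      exact_mod_cast (by omega : A ≤ C₁ + A + ∑ l, D l + 2)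

end Vale.Agent.P202.Char
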