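import Vale.Agent.P202.Char.Levels
import Vale.Agent.P202.Char.Killed
import Vale.Agent.P202.Char.UInj
import Vale.Agent.P202.Char.Reduction
import Vale.Agent.P202.Char.SheafFinite
import Vale.Agent.P202.Char.Windows
import Vale.Agent.P202.Char.Slices
import Vale.Agent.P202.Char.Trunc
import Vale.Agent.P202.Char.RankChi
import Vale.Agent.P202.Char.SectionsAlt

/-!
P202, Lech in characteristic `p`: the flat level. Only the sections of the slice of degree zero
contribute, with generic rank `n!`.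
-/

namespace Vale.Agent.P202.Char

open IsLocalRing Filter Topology

universe u

variable {R : Type u} [CommRing R] [IsLocalRing R] [IsNoetherianRing R] {n : ℕ}

/-- A module of finite length does not contribute to an Euler characteristic of rank zero. -/
theorem MCx.chi_of_finite_length (Q : MCx R) {d : ℕ} (hd : ∀ b, Q.deg b ≤ d)
    (halt : ∑ b, (-1 : ℤ) ^ Q.deg b = 0) (N : Type u) [AddCommGroup N] [Module R N]
    (hN : Module.length R N ≠ ⊤) :
    (∀ k, (Q.gc N).FinH ⊥ ⊤ k) ∧ (Q.gc N).chi (Finset.Icc 0 (d : ℤ)) ⊥ ⊤ = 0 := by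
  classical
  have he : ∀ k : ℤ, Module.length R
      ↥((⊤ : Submodule R (Q.β → N)) ⊓ (Q.gc N).deg k) =
        ((Finset.univ.filter fun b => (Q.deg b : ℤ) = k).card : ℕ) * Module.length R N := by
    intro k
    let φ : ↥((⊤ : Submodule R (Q.β → N)) ⊓ (Q.gc N).deg k) ≃ₗ[R]
        ({b // (Q.deg b : ℤ) = k} → N) :=
      { toFun := fun x b => (x : Q.β → N) b.1
        map_add' := fun _ _ => rfl
        map_smul' := fun _ _ => rfl
        invFun := fun v => ⟨fun b => if h : (Q.deg b : ℤ) = k then v ⟨b, h⟩ else 0, trivial,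
          fun b _ => by
            simp only [SetLike.mem_coe]
            by_cases h : (Q.deg b : ℤ) = k <;> simp [h]⟩
        left_inv := fun x => by
          refine Subtype.ext (funext fun b => ?_)
          by_cases h : (Q.deg b : ℤ) = k
          · simp [h]
          · have := x.2.2 b trivial
            simp only [SetLike.mem_coe] at this
            rw [if_neg h, Submodule.mem_bot] at this
            simp [h, this]
        right_inv := fun v => funext fun b => by simp [b.2] }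
    rw [φ.length_eq, Module.length_pi_of_fintype, Finset.sum_const, nsmul_eq_mul,
      Finset.card_univ, Fintype.card_subtype]
  have hout : ∀ k : ℤ, k ∉ Finset.Icc (0 : ℤ) d → (Q.gc N).deg k = ⊥ := by
    intro k hk
    rw [eq_bot_iff]
    intro x hx
    rw [Submodule.mem_bot]
    funext b
    have h := hx b trivial
    simp only [SetLike.mem_coe] at h
    rw [if_neg, Submodule.mem_bot] at h
    · exact h
    · intro he
      have := hd b
      exact hk (Finset.mem_Icc.2 ⟨by omega, by omega⟩)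
  obtain ⟨h1, h2⟩ := (Q.gc N).chi_finite 0 d hout (Y := ⊤) le_top fun k => by
    rw [he k]
    exact WithTop.mul_ne_top (WithTop.natCast_ne_top _) hN
  refine ⟨h1, ?_⟩
  rw [h2]
  trans ∑ b, ((Module.length R N).toNat : ℤ) * (-1 : ℤ) ^ Q.deg b
  swap
  · rw [← Finset.mul_sum, halt, mul_zero]
  have hk : ∀ k : ℤ, (-1 : ℤ) ^ k.natAbs *
      (len R ↥((⊤ : Submodule R (Q.β → N)) ⊓ (Q.gc N).deg k) : ℤ) =
        ∑ b ∈ Finset.univ.filter (fun b => (Q.deg b : ℤ) = k),
          ((Module.length R N).toNat : ℤ) * (-1 : ℤ) ^ Q.deg b := by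
    intro k
    rw [len, he k, ENat.toNat_mul, ENat.toNat_coe]
    rw [Finset.sum_congr rfl (g := fun _ => ((Module.length R N).toNat : ℤ) * (-1) ^ k.natAbs)
      fun b hb => by rw [← (Finset.mem_filter.1 hb).2, Int.natAbs_natCast]]
    rw [Finset.sum_const, nsmul_eq_mul]
    push_cast; ring
  rw [Finset.sum_congr rfl fun k _ => hk k]
  refine Finset.sum_fiberwise_of_maps_to (fun b _ => ?_) _
  have := hd b
  exact Finset.mem_Icc.2 ⟨by omega, by omega⟩

namespace RedData

variable (Z : RedData R n) (lam : Fin (n + 1) → R)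

theorem z_radical (M : ℕ) :
    ∃ c, maximalIdeal R ^ c ≤ Ideal.span (Set.range fun k => Z.z k ^ M) := by
  set I := Ideal.span (Set.range fun k => Z.z k ^ M)
  have h : maximalIdeal R ≤ I.radical := by
    intro x hx
    obtain ⟨j, hj⟩ : ∃ j, ∀ i, Z.δ i < j :=
      ⟨(∑ i, Z.δ i) + 1, fun i => Nat.lt_succ_of_le
        (Finset.single_le_sum (fun _ _ => Nat.zero_le _) (Finset.mem_univ i))⟩
    have h1 : maximalIdeal R ^ j ≤ Ideal.span (Set.range Z.z) := by
      rw [Z.pow_eq j]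
      refine iSup_le fun i => (Ideal.mul_le_left).trans ?_
      exact Ideal.pow_le_self (by have := hj i; omega)
    have h2 : Ideal.span (Set.range Z.z) ≤ I.radical := by
      rw [Ideal.span_le]
      rintro _ ⟨k, rfl⟩
      exact ⟨M, Ideal.subset_span ⟨k, rfl⟩⟩
    exact (I.radical_isRadical) ⟨j, h2 (h1 (Ideal.pow_mem_pow hx j))⟩
  exact Ideal.exists_pow_le_of_le_radical_of_fg h (IsNoetherian.noetherian _)

variable {Z lam} {a : Fin n → ℤ}

theorem span_rel_shift : ∀ p ∈ Submodule.span (MvPolynomial (Fin (n + 1)) R) Z.rel,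
    (p.mapDomain fun x => (x.1, x.2 + 1)) ∈
      Submodule.span (MvPolynomial (Fin (n + 1)) R) Z.rel := by
  intro p hp
  induction hp using Submodule.span_induction with
  | mem q hq =>
    obtain ⟨⟨D, hD⟩, hev⟩ := hq
    refine Submodule.subset_span ⟨⟨D - 1, ?_⟩, ?_⟩
    · intro y c hc
      by_cases hy : y ∈ Set.range fun x : Z.Idx => (x.1, x.2 + 1)
      · obtain ⟨x, rfl⟩ := hy
        rw [Finsupp.mapDomain_apply (fun x y h => by
          simp only [Prod.mk.injEq, add_left_inj] at h; exact Prod.ext h.1 h.2)] at hc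
        have := hD x c hc
        simp only [ideg] at this ⊢
        push_cast
        omega
      · rw [Finsupp.mapDomain_notin_range _ _ hy] at hc
        simp at hc
    · rw [ev, Finsupp.lsum_apply, Finsupp.sum_mapDomain_index (fun _ => map_zero _)
        (fun _ _ _ => map_add _ _ _)]
      rw [ev, Finsupp.lsum_apply] at hev
      exact hev
  | zero => simp
  | add q r _ _ hq hr => rw [Finsupp.mapDomain_add]; exact Submodule.add_mem _ hq hr
  | smul f q _ hq => rw [Finsupp.mapDomain_smul]; exact Submodule.smul_mem _ f hq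

theorem span_rel_zsub (i : Z.ι) (s : ℕ) (k : Fin (n + 1)) :
    Finsupp.single (i, s + 1) (MvPolynomial.X k) - Finsupp.single (i, s) (MvPolynomial.C (Z.z k)) ∈
      Submodule.span (MvPolynomial (Fin (n + 1)) R) Z.rel := by
  classical
  refine Submodule.subset_span ⟨⟨(Z.δ i : ℤ) - s, ?_⟩, by rw [map_sub]; simp [ev, mul_comm]⟩
  intro y c hc
  rw [Finsupp.sub_apply] at hc
  have h2 := MvPolynomial.support_sub _ _ _ hc
  rcases Finset.mem_union.1 h2 with h | h
  · rw [Finsupp.single_apply] at h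
    split_ifs at h with hy
    · subst hy
      have h3 : c = Finsupp.single k 1 := by
        by_contra hne
        simp [MvPolynomial.coeff_X', Ne.symm hne] at h
      subst h3
      simp [ideg]; ring
    · simp at h
  · rw [Finsupp.single_apply] at h
    split_ifs at h with hy
    · subst hy
      have h3 : c = 0 := by
        by_contra hne
        simp [MvPolynomial.coeff_C, Ne.symm hne] at h
      subst h3
      simp [ideg]
    · simp at h

theorem colH_finite (hlam : Sep lam) (ha : ∀ j, 0 ≤ a j) (qq : ℕ) :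
    Module.Finite R (Z.colH lam a (-(qq : ℤ))) ∧
      (1 ≤ qq → ∃ M : ℕ, ∀ k, ∀ x : Z.colH lam a (-(qq : ℤ)), Z.z k ^ M • x = 0) := by
  classical
  have hS : ∀ p ∈ Submodule.span (MvPolynomial (Fin (n + 1)) R) Z.rel,
      p ∈ Submodule.span (MvPolynomial (Fin (n + 1)) R)
        {p | p ∈ Submodule.span (MvPolynomial (Fin (n + 1)) R) Z.rel ∧
          ∃ D, IsHomog (fun x : Z.ι × ℕ => (Z.δ x.1 : ℤ) - x.2) p D} := fun p hp =>
    Submodule.span_mono (fun q hq => by
      exact ⟨Submodule.subset_span hq, hq.1⟩) hp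
  obtain ⟨h1, h2⟩ := cech_finite lam hlam (fun i => (Z.δ i : ℤ)) Z.z
    (Submodule.span (MvPolynomial (Fin (n + 1)) R) Z.rel) hS span_rel_shift span_rel_zsub a ha 0 qq
  have he : relCech lam a Z.ideg (Submodule.span (MvPolynomial (Fin (n + 1)) R) Z.rel : Set _) 0 =
      relCech lam a Z.ideg Z.rel 0 :=
    congrArg (Submodule.pi Set.univ) (funext fun ε => relSlice_span (Z := Z) lam a ε 0)
  unfold colH
  rw [← he]
  exact ⟨h1, h2⟩

theorem colH_length (hlam : Sep lam) (ha : ∀ j, 0 ≤ a j) {qq : ℕ} (hq : 1 ≤ qq) :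
    Module.length R (Z.colH lam a (-(qq : ℤ))) ≠ ⊤ := by
  obtain ⟨hfin, hkill⟩ := colH_finite (Z := Z) hlam ha qq
  obtain ⟨M, hM⟩ := hkill hq
  obtain ⟨c, hc⟩ := Z.z_radical M
  set I := Ideal.span (Set.range fun k => Z.z k ^ M)
  obtain ⟨g, f, hf⟩ := Module.Finite.exists_fin' R (Z.colH lam a (-(qq : ℤ)))
  have hker : Submodule.pi Set.univ (fun _ : Fin g => I) ≤ LinearMap.ker f := by
    intro v hv
    have hann : ∀ r ∈ I, ∀ x : Z.colH lam a (-(qq : ℤ)), r • x = 0 := by
      intro r hr x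
      induction hr using Submodule.span_induction with
      | mem y hy => obtain ⟨k, rfl⟩ := hy; exact hM k x
      | zero => exact zero_smul R x
      | add y z _ _ hy hz => rw [add_smul, hy, hz, add_zero]
      | smul r y _ hy => rw [smul_eq_mul, mul_smul, hy, smul_zero]
    rw [LinearMap.mem_ker, pi_eq_sum_univ v, map_sum]
    refine Finset.sum_eq_zero fun i _ => ?_
    rw [map_smul]
    exact hann _ (hv i trivial) _
  refine ne_top_of_le_ne_top ?_ (Module.length_le_of_surjective (Submodule.liftQ _ f hker)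
    fun y => by obtain ⟨x, rfl⟩ := hf y; exact ⟨Submodule.Quotient.mk x, rfl⟩)
  rw [(Submodule.quotientPi fun _ : Fin g => I).length_eq, Module.length_pi_of_fintype]
  simp only [Finset.sum_const, Finset.card_univ, Fintype.card_fin, nsmul_eq_mul]
  exact WithTop.mul_ne_top (WithTop.natCast_ne_top _) (length_quotient_ne_top I c hc)

theorem sections_rank_cast (hlam : Sep lam) (ha : ∀ j, 0 ≤ a j) (k : ℤ) (hk : k = 0) :
    ∃ (φ : (Fin n.factorial → R) →ₗ[R] Z.colH lam a k) (L : ℕ),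
      (∀ v, φ v = 0 → Z.z 0 ^ L • v = 0) ∧ ∀ y, Z.z 0 ^ L • y ∈ LinearMap.range φ := by
  subst hk
  exact sections_rank_alt Z lam hlam a ha

/-- The Euler characteristics of the cohomology of the slice `0`. -/
theorem colH_chi (hlam : Sep lam) (ha : ∀ j, 0 ≤ a j) (Q : MCx R) (hd : ∀ b, Q.deg b ≤ n + 1)
    (halt : ∑ b, (-1 : ℤ) ^ Q.deg b = 0) (hR : ∀ j, (Q.gc R).FinH ⊥ ⊤ j)
    (hsmall : ∀ (M : Type u) [AddCommGroup M] [Module R M] [Module.Finite R M] (L : ℕ),
      (∀ m : M, Z.z 0 ^ L • m = 0) → (∀ j, (Q.gc M).FinH ⊥ ⊤ j) ∧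
        (Q.gc M).chi (Finset.Icc 0 ((n + 1 : ℕ) : ℤ)) ⊥ ⊤ = 0) (qq : ℕ) :
    (∀ j, (Q.gc (Z.colH lam a (-(qq : ℤ)))).FinH ⊥ ⊤ j) ∧
      (Q.gc (Z.colH lam a (-(qq : ℤ)))).chi (Finset.Icc 0 ((n + 1 : ℕ) : ℤ)) ⊥ ⊤ =
        if qq = 0 then (n.factorial : ℤ) * (Q.gc R).chi (Finset.Icc 0 ((n + 1 : ℕ) : ℤ)) ⊥ ⊤
        else 0 := by
  by_cases hq : qq = 0
  · subst hq
    rw [if_pos rfl]
    obtain ⟨φ, L, hker, hcok⟩ :=
      sections_rank_cast (Z := Z) (lam := lam) (a := a) hlam ha (-((0 : ℕ) : ℤ)) (by simp)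
    haveI := (colH_finite (Z := Z) (lam := lam) (a := a) hlam ha 0).1
    exact chi_of_rank Z Q hd hR hsmall φ L hker hcok
  · rw [if_neg hq]
    exact MCx.chi_of_finite_length Q (d := n + 1) hd halt _
      (colH_length (Z := Z) (lam := lam) (a := a) hlam ha (Nat.pos_of_ne_zero hq))

end RedData

/-- The Euler characteristic of the flat level. -/
theorem Tw.chi_flat (P : Tw R n) (hlam : Sep P.lam) (ha : ∀ j, 0 ≤ P.tw j) (hw : 0 ≤ P.w)
    (hd : ∀ b, P.Q.deg b ≤ n + 1)
    (halt : ∑ b, (-1 : ℤ) ^ P.Q.deg b = 0) (hR : ∀ j, (P.Q.gc R).FinH ⊥ ⊤ j)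
    (hsmall : ∀ (M : Type u) [AddCommGroup M] [Module R M] [Module.Finite R M] (L : ℕ),
      (∀ m : M, P.Z.z 0 ^ L • m = 0) → (∀ j, (P.Q.gc M).FinH ⊥ ⊤ j) ∧
        (P.Q.gc M).chi (Finset.Icc 0 ((n + 1 : ℕ) : ℤ)) ⊥ ⊤ = 0) :
    (∀ k, P.gc.FinH ⊥ (P.lvl P.flat) k) ∧
      P.gc.chi (Finset.Icc (-(n : ℤ)) ((n + 1 : ℕ) : ℤ)) ⊥ (P.lvl P.flat) =
        (n.factorial : ℤ) * (P.Q.gc R).chi (Finset.Icc 0 ((n + 1 : ℕ) : ℤ)) ⊥ ⊤ := by
  have h := RedData.colH_chi (Z := P.Z) (lam := P.lam) (a := P.tw) hlam ha P.Q hd halt hR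
    hsmall
  obtain ⟨h1, h2⟩ := chi_flat_columns P (P.uInj hlam ha) hw hd fun qq _ => (h qq).1
  refine ⟨h1, ?_⟩
  rw [h2, Finset.sum_eq_single 0 (fun qq _ hne => ?_) (fun h0 => ?_)]
  · rw [(h 0).2, if_pos rfl, pow_zero, one_mul]
  · rw [(h qq).2, if_neg hne, mul_zero]
  · exact absurd (Finset.mem_range.2 (Nat.succ_pos n)) h0

end Vale.Agent.P202.Char
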