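import Vale.Agent.P202.Lech

/-!
P202, Lech in characteristic `p`, stage 2: a fibrewise criterion of flatness. If `R → A` is flat
with `m A` maximal, `R → B` is flat and `B / m B` is finite over `A`, then `A → B` is flat.
-/

namespace Vale.Agent.P202.Char

open IsLocalRing TensorProduct

universe u

namespace FlatTower

variable {A : Type u} {B : Type u} [CommRing A] [CommRing B] [IsNoetherianRing A]
  [IsNoetherianRing B] [IsLocalRing A] [IsLocalRing B] [Algebra A B]
  [IsLocalHom (algebraMap A B)]

/-- A family which is a basis modulo every power of the maximal ideal gives flatness. -/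
theorem flat_of_basis_mod {ι : Type*} [Fintype ι] (v : ι → B)
    (hspan : ∀ (N : ℕ) (b : B), ∃ c : ι → A,
      b - ∑ l, c l • v l ∈ ((maximalIdeal A).map (algebraMap A B)) ^ N)
    (hind : ∀ (N : ℕ) (c : ι → A),
      ∑ l, c l • v l ∈ ((maximalIdeal A).map (algebraMap A B)) ^ N →
        ∀ l, c l ∈ maximalIdeal A ^ N) :
    Module.Flat A B := by
  rw [Module.Flat.iff_rTensor_injective']
  intro I
  classical
  set J := (maximalIdeal A).map (algebraMap A B)
  obtain ⟨k, hk⟩ := Ideal.exists_pow_inf_eq_pow_smul (maximalIdeal A) I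
  rw [← LinearMap.ker_eq_bot, eq_bot_iff]
  intro x hx
  suffices h : ∀ M : ℕ, (TensorProduct.comm A I B) x ∈
      J ^ M • (⊤ : Submodule B (B ⊗[A] I)) by
    have h0 : (TensorProduct.comm A I B) x ∈ (⨅ M, J ^ M • (⊤ : Submodule B (B ⊗[A] I))) :=
      Submodule.mem_iInf _ |>.2 h
    rw [Ideal.iInf_pow_smul_eq_bot_of_isLocalRing J
      (IsLocalRing.map_maximalIdeal_lt_top (algebraMap A B)).ne] at h0
    simpa using h0
  intro M
  set y := (TensorProduct.comm A I B) x
  obtain ⟨s, hs⟩ := TensorProduct.exists_finset (R := A) y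
  -- coefficients modulo a high power
  choose c hc using fun p : B × I => hspan (M + k) p.1
  set a : ι → I := fun l => ∑ p ∈ s, c p l • p.2
  have hsplit : y = (∑ p ∈ s, (p.1 - ∑ l, c p l • v l) ⊗ₜ p.2) + ∑ l, v l ⊗ₜ[A] a l := by
    rw [hs]
    simp only [a, TensorProduct.tmul_sum, TensorProduct.sub_tmul, TensorProduct.sum_tmul,
      TensorProduct.smul_tmul, Finset.sum_sub_distrib]
    rw [Finset.sum_comm (s := Finset.univ) (t := s)]
    abel
  have hmul : ∀ (r : B) (i : I) (N : ℕ), r ∈ J ^ N →
      r ⊗ₜ[A] i ∈ J ^ N • (⊤ : Submodule B (B ⊗[A] I)) := fun r i N hr => by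
    rw [show r ⊗ₜ[A] i = r • ((1 : B) ⊗ₜ[A] i) by rw [TensorProduct.smul_tmul', smul_eq_mul, mul_one]]
    exact Submodule.smul_mem_smul hr trivial
  have hle : J ^ (M + k) • (⊤ : Submodule B (B ⊗[A] I)) ≤ J ^ M • ⊤ :=
    Submodule.smul_mono_left (Ideal.pow_le_pow_right (Nat.le_add_right M k))
  -- the combination maps to zero
  have hev : ∀ z : B ⊗[A] I, (LinearMap.rTensor B I.subtype) ((TensorProduct.comm A I B).symm z) =
      (TensorProduct.comm A A B).symm ((LinearMap.lTensor B I.subtype) z) := fun z => by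
    induction z using TensorProduct.induction_on with
    | zero => simp
    | tmul b i => simp
    | add p q hp hq => simp only [map_add, hp, hq]
  set φ : B ⊗[A] I →ₗ[A] B :=
    (TensorProduct.rid A B).toLinearMap ∘ₗ LinearMap.lTensor B I.subtype with hφ
  have hφy : φ y = 0 := by
    have h1 := hev y
    rw [LinearEquiv.symm_apply_apply, LinearMap.mem_ker.1 hx, eq_comm,
      LinearEquiv.map_eq_zero_iff] at h1
    rw [hφ, LinearMap.comp_apply, h1, map_zero]
  have hφt : ∀ (b : B) (i : I), φ (b ⊗ₜ i) = (i : A) • b := fun b i => by simp [hφ]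
  have hI : ∀ l, ((a l : I) : A) ∈ maximalIdeal A ^ (M + k) := by
    refine hind (M + k) _ ?_
    rw [hsplit, map_add, map_sum, map_sum] at hφy
    simp only [hφt] at hφy
    rw [add_eq_zero_iff_neg_eq] at hφy
    rw [← hφy]
    refine neg_mem (Ideal.sum_mem _ fun p _ => ?_)
    rw [Algebra.smul_def]
    exact Ideal.mul_mem_left _ _ (hc p)
  rw [hsplit]
  refine add_mem (Submodule.sum_mem _ fun p _ => hle (hmul _ _ _ (hc p)))
    (Submodule.sum_mem _ fun l _ => ?_)
  have hl : ((a l : I) : A) ∈ maximalIdeal A ^ (M + k) • (⊤ : Submodule A A) ⊓ I :=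
    ⟨by simpa using hI l, (a l).2⟩
  rw [hk (M + k) (Nat.le_add_left k M), Nat.add_sub_cancel] at hl
  have hmem : a l ∈ maximalIdeal A ^ M • (⊤ : Submodule A I) := by
    have h2 := Submodule.smul_mono (le_refl (maximalIdeal A ^ M))
      (inf_le_right : maximalIdeal A ^ k • (⊤ : Submodule A A) ⊓ I ≤ I) hl
    have e : Submodule.map (Submodule.subtype I) (maximalIdeal A ^ M • (⊤ : Submodule A I)) =
        maximalIdeal A ^ M • I := by rw [Submodule.map_smul'', Submodule.map_subtype_top]
    rw [← e] at h2
    obtain ⟨w, hw, hwa⟩ := h2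
    rwa [← Subtype.ext hwa]
  refine Submodule.smul_induction_on (p := fun w : I => v l ⊗ₜ[A] w ∈
    J ^ M • (⊤ : Submodule B (B ⊗[A] I))) hmem (fun r hr i _ => ?_)
    (fun p q hp hq => by rw [TensorProduct.tmul_add]; exact add_mem hp hq)
  rw [← TensorProduct.smul_tmul]
  refine hmul _ _ _ ?_
  rw [Algebra.smul_def]
  refine Ideal.mul_mem_right _ _ ?_
  rw [← Ideal.map_pow]
  exact Ideal.mem_map_of_mem _ hr

/-- An additive map between modules of the same finite length is injective once surjective. -/
theorem injective_of_length_le {R : Type*} [Ring R] {M N : Type*} [AddCommGroup M] [AddCommGroup N]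
    [Module R M] [Module R N] (f : M →ₗ[R] N) (hf : Function.Surjective f)
    (h : Module.length R M ≤ Module.length R N) (hfin : Module.length R N ≠ ⊤) :
    Function.Injective f := by
  have h1 := Module.length_eq_add_of_exact (LinearMap.ker f).subtype f Subtype.val_injective hf
    (LinearMap.exact_subtype_ker_map f)
  rw [h1] at h
  have h2 : Module.length R (LinearMap.ker f) ≤ 0 :=
    (ENat.add_le_add_iff_right hfin).1 (by simpa using h)
  rw [← LinearMap.ker_eq_bot]
  exact Submodule.eq_bot_iff _ |>.2 fun x hx => by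
    have := Module.length_eq_zero_iff.1 (nonpos_iff_eq_zero.1 h2)
    exact congrArg Subtype.val (Subsingleton.elim (⟨x, hx⟩ : LinearMap.ker f) 0)

/-- Flatness from the fibre. -/
theorem flat {R : Type u} [CommRing R] [IsNoetherianRing R] [IsLocalRing R] [Algebra R A]
    [Algebra R B] [IsScalarTower R A B] [IsLocalHom (algebraMap R A)]
    [IsLocalHom (algebraMap R B)] [Module.Flat R A] [Module.Flat R B]
    (hA : (maximalIdeal R).map (algebraMap R A) = maximalIdeal A)
    [Module.Finite A (B ⧸ (maximalIdeal R).map (algebraMap R B))] :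
    Module.Flat A B := by
  classical
  set mB := (maximalIdeal R).map (algebraMap R B) with hmB
  have hJ : (maximalIdeal A).map (algebraMap A B) = mB := by
    rw [← hA, Ideal.map_map, ← IsScalarTower.algebraMap_eq]
  set F := B ⧸ mB
  have hkill : Module.IsTorsionBySet A F (maximalIdeal A : Set A) := by
    intro y a
    obtain ⟨b, rfl⟩ := Ideal.Quotient.mk_surjective y
    show Ideal.Quotient.mk mB ((a : A) • b) = 0
    refine Ideal.Quotient.eq_zero_iff_mem.2 ?_
    rw [Algebra.smul_def]
    exact Ideal.mul_mem_right _ _ (hJ ▸ Ideal.mem_map_of_mem _ a.2)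
  let : Module (ResidueField A) F := hkill.module
  have : IsScalarTower A (ResidueField A) F := hkill.isScalarTower
  have : Module.Finite (ResidueField A) F :=
    Module.Finite.of_restrictScalars_finite A (ResidueField A) F
  set d := Module.finrank (ResidueField A) F
  set w : Module.Basis (Fin d) (ResidueField A) F := Module.finBasis (ResidueField A) F
  choose v hv using fun l => Ideal.Quotient.mk_surjective (I := mB) (w l)
  -- generation
  have hone : ∀ b : B, ∃ c : Fin d → A, b - ∑ l, c l • v l ∈ mB := fun b => by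
    choose c hc using fun l => residue_surjective (w.repr (Ideal.Quotient.mk mB b) l)
    refine ⟨c, Ideal.Quotient.eq.1 ?_⟩
    conv_lhs => rw [← w.sum_repr (Ideal.Quotient.mk mB b)]
    rw [map_sum]
    refine Finset.sum_congr rfl fun l _ => ?_
    rw [← hc l, ← IsLocalRing.ResidueField.algebraMap_eq, algebraMap_smul]
    exact (congrArg (fun t : F => c l • t) (hv l).symm).trans rfl
  set V : Submodule A B := LinearMap.range (Fintype.linearCombination A v)
  have hpow : ∀ N, ((mB ^ N).restrictScalars A : Submodule A B) =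
      maximalIdeal A ^ N • (⊤ : Submodule A B) := fun N => by
    rw [← hJ, ← Ideal.map_pow, Ideal.smul_top_eq_map]
  have hstep : (⊤ : Submodule A B) ≤ V ⊔ maximalIdeal A • (⊤ : Submodule A B) := fun b _ => by
    obtain ⟨c, hc⟩ := hone b
    rw [show b = ∑ l, c l • v l + (b - ∑ l, c l • v l) by ring, ← pow_one (maximalIdeal A), ← hpow,
      pow_one]
    exact Submodule.add_mem_sup ⟨c, Fintype.linearCombination_apply A v c⟩ hc
  have hgen : ∀ N, (⊤ : Submodule A B) ≤ V ⊔ maximalIdeal A ^ N • (⊤ : Submodule A B) := by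
    intro N
    induction N with
    | zero =>
      rw [pow_zero, Ideal.one_eq_top, Submodule.top_smul]
      exact le_sup_right
    | succ N ih =>
      refine ih.trans (sup_le le_sup_left ?_)
      calc maximalIdeal A ^ N • (⊤ : Submodule A B)
          ≤ maximalIdeal A ^ N • (V ⊔ maximalIdeal A • (⊤ : Submodule A B)) :=
            Submodule.smul_mono le_rfl hstep
        _ ≤ _ := by
            rw [Submodule.smul_sup, ← Submodule.smul_assoc, smul_eq_mul, ← pow_succ]
            exact sup_le_sup_right Submodule.smul_le_right _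
  -- independence by counting lengths
  refine flat_of_basis_mod v (fun N b => ?_) fun N c hc l => ?_
  · obtain ⟨_, ⟨c, rfl⟩, q, hq, hcq⟩ := Submodule.mem_sup.1 (hgen N (trivial : b ∈ ⊤))
    refine ⟨c, ?_⟩
    rw [← hcq, Fintype.linearCombination_apply, add_sub_cancel_left, hJ]
    rw [← hpow] at hq
    exact hq
  rw [hJ] at hc
  set QA := A ⧸ maximalIdeal A ^ N
  set QB := B ⧸ mB ^ N
  have hψ : ∀ i, maximalIdeal A ^ N ≤
      LinearMap.ker (((mB ^ N : Ideal B).restrictScalars A).mkQ ∘ₗ
        LinearMap.toSpanSingleton A B (v i)) := fun i r hr => by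
    simp only [LinearMap.mem_ker, LinearMap.comp_apply, LinearMap.toSpanSingleton_apply,
      Submodule.mkQ_apply, Submodule.Quotient.mk_eq_zero, hpow]
    exact Submodule.smul_mem_smul hr trivial
  let ψ : (Fin d → QA) →ₗ[A] (B ⧸ (mB ^ N : Ideal B).restrictScalars A) :=
    ∑ i, (maximalIdeal A ^ N).liftQ _ (hψ i) ∘ₗ LinearMap.proj i
  have hψa : ∀ c : Fin d → A, ψ (fun i => Submodule.Quotient.mk (c i)) =
      Submodule.Quotient.mk (∑ i, c i • v i) := fun c => by
    simp only [ψ, LinearMap.coe_sum, Finset.sum_apply, LinearMap.comp_apply, LinearMap.proj_apply,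
      Submodule.liftQ_apply, LinearMap.toSpanSingleton_apply, Submodule.mkQ_apply]
    exact (map_sum ((mB ^ N : Ideal B).restrictScalars A).mkQ _ _).symm
  have hψs : Function.Surjective ψ := by
    intro y
    obtain ⟨b, rfl⟩ := Submodule.Quotient.mk_surjective _ y
    obtain ⟨_, ⟨c', rfl⟩, q, hq, hcq⟩ := Submodule.mem_sup.1 (hgen N (trivial : b ∈ ⊤))
    refine ⟨fun i => Submodule.Quotient.mk (c' i), ?_⟩
    rw [hψa, Submodule.Quotient.eq, ← hcq, Fintype.linearCombination_apply, sub_add_cancel_left,
      hpow]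
    exact neg_mem hq
  have hlenA : Module.length A QA = Module.length R (R ⧸ maximalIdeal R ^ N) := by
    have h1 := length_map (R := R) (S := A) N
    rw [hA] at h1
    have : IsSimpleModule A (A ⧸ maximalIdeal A) :=
      isSimpleModule_iff_isCoatom.2 (IsLocalRing.maximalIdeal.isMaximal A).out
    rwa [Module.length_eq_one A (A ⧸ maximalIdeal A), mul_one] at h1
  have hlenF : Module.length A F = (d : ℕ∞) := by
    rw [Module.length_eq_of_surjective (R := ResidueField A) (S := A) residue_surjective,
      Module.length_eq_finrank]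
  have hlenB : Module.length A (B ⧸ (mB ^ N : Ideal B).restrictScalars A) =
      Module.length R (R ⧸ maximalIdeal R ^ N) * d := by
    rw [(Submodule.Quotient.restrictScalarsEquiv A (mB ^ N : Ideal B)).length_eq,
      IsLocalRing.length_restrictScalars A B (B ⧸ mB ^ N), length_map (R := R) (S := B) N,
      mul_assoc, ← IsLocalRing.length_restrictScalars A B F, hlenF]
  have hfin : Module.length R (R ⧸ maximalIdeal R ^ N) ≠ ⊤ := length_quotient_ne_top _ N le_rfl
  have hinj : Function.Injective ψ := injective_of_length_le ψ hψs (by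
    rw [hlenB, Module.length_pi_of_fintype]
    simp only [hlenA, Finset.sum_const, Finset.card_univ, Fintype.card_fin, nsmul_eq_mul]
    rw [mul_comm]) (hlenB ▸ WithTop.mul_ne_top hfin (ENat.natCast_ne_top d))
  have h0 : ψ (fun i => Submodule.Quotient.mk (c i)) = 0 := by
    rw [hψa]
    exact (Submodule.Quotient.mk_eq_zero _).2 hc
  have h1 := congrFun (hinj (h0.trans (map_zero ψ).symm)) l
  exact (Submodule.Quotient.mk_eq_zero _).1 h1

end FlatTower

end Vale.Agent.P202.Char
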