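import Vale.Agent.P202.Char.FrobRank

/-!
P202, Lech in characteristic `p`: the Koszul Euler characteristic of the Frobenius base change of
a finite free algebra over a local domain is `q ^ d` times the original one.
-/

namespace Vale.Agent.P202.Char

open Finset IsLocalRing
open scoped TensorProduct nonZeroDivisors

universe u v w

/-- An injection of finite modules over a Noetherian domain splits up to a nonzero scalar. -/
theorem exists_retraction {D : Type u} [CommRing D] [IsDomain D] [IsNoetherianRing D]
    {N₁ : Type v} {N₂ : Type w} [AddCommGroup N₁] [AddCommGroup N₂] [Module D N₁] [Module D N₂]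
    [Module.Finite D N₁] [Module.Finite D N₂] (f : N₁ →ₗ[D] N₂) (hf : Function.Injective f) :
    ∃ g : D, g ≠ 0 ∧ ∃ h : N₂ →ₗ[D] N₁, ∀ x, h (f x) = g • x := by
  let K := FractionRing D
  let l₁ : N₁ →ₗ[D] LocalizedModule D⁰ N₁ := LocalizedModule.mkLinearMap D⁰ N₁
  let l₂ : N₂ →ₗ[D] LocalizedModule D⁰ N₂ := LocalizedModule.mkLinearMap D⁰ N₂
  let fK : LocalizedModule D⁰ N₁ →ₗ[K] LocalizedModule D⁰ N₂ :=
    IsLocalizedModule.mapExtendScalars D⁰ l₁ l₂ K f
  have hfK : Function.Injective fK := IsLocalizedModule.map_injective D⁰ l₁ l₂ f hf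
  obtain ⟨r, hr⟩ := fK.exists_leftInverse_of_injective (LinearMap.ker_eq_bot.2 hfK)
  have : Module.FinitePresentation D N₂ := Module.finitePresentation_of_finite D N₂
  obtain ⟨h, s, hs⟩ := Module.FinitePresentation.exists_lift_of_isLocalizedModule D⁰ l₁
    ((r.restrictScalars D) ∘ₗ l₂)
  have hloc : ∀ x, ∃ t : D⁰, t • h (f x) = t • ((s : D) • x) := fun x => by
    apply IsLocalizedModule.exists_of_eq (S := D⁰) (f := l₁)
    have h1 := LinearMap.congr_fun hs (f x)
    have h2 : fK (l₁ x) = l₂ (f x) := IsLocalizedModule.map_apply D⁰ l₁ l₂ f x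
    simp only [LinearMap.comp_apply, LinearMap.smul_apply, LinearMap.restrictScalars_apply] at h1
    rw [h1, ← h2, ← LinearMap.comp_apply r fK, hr, LinearMap.id_apply, map_smul]
    rfl
  choose t ht using hloc
  obtain ⟨n, b, hb⟩ := Module.Finite.exists_fin (R := D) (M := N₁)
  set T : D := ∏ i, (t (b i) : D)
  have hT : T ≠ 0 := Finset.prod_ne_zero_iff.2 fun i _ => nonZeroDivisors.ne_zero (t (b i)).2
  have heq : (T • h) ∘ₗ f = (T * (s : D)) • LinearMap.id := by
    refine LinearMap.ext_on_range hb fun i => ?_
    obtain ⟨T', hT'⟩ := Finset.dvd_prod_of_mem (fun i => (t (b i) : D)) (Finset.mem_univ i)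
    have := congrArg (T' • ·) (ht (b i))
    simp only [Submonoid.smul_def, smul_smul] at this
    simp only [LinearMap.comp_apply, LinearMap.smul_apply, LinearMap.id_apply, T]
    rw [hT', mul_comm _ T']
    simpa [mul_assoc] using this
  exact ⟨T * (s : D), mul_ne_zero hT (nonZeroDivisors.ne_zero s.2), T • h,
    fun x => LinearMap.congr_fun heq x⟩

/-- Ideals of definition after a change of rings. -/
theorem exists_pow_map_le {R : Type u} [CommRing R] [IsLocalRing R] {R' : Type u} [CommRing R']
    [IsLocalRing R'] [IsNoetherianRing R'] [Algebra R R'] {S : Type u} [CommRing S] [Algebra R S]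
    {d : ℕ} (x : Fin d → S)
    (hx : ∃ c, (maximalIdeal R).map (algebraMap R S) ^ c ≤ Ideal.span (Set.range x))
    (hrad : ∀ r ∈ maximalIdeal R', ∃ n, r ^ n ∈ (maximalIdeal R).map (algebraMap R R')) :
    ∃ c, (maximalIdeal R').map (algebraMap R' (R' ⊗[R] S)) ^ c ≤
      Ideal.span (Set.range fun j => (1 : R') ⊗ₜ[R] x j) := by
  obtain ⟨c, hc⟩ := hx
  obtain ⟨n, hn⟩ := Ideal.exists_pow_le_of_le_radical_of_fg
    (I := maximalIdeal R') (J := (maximalIdeal R).map (algebraMap R R'))
    (fun r hr => hrad r hr) (maximalIdeal R').fg_of_isNoetherianRing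
  refine ⟨n * c, ?_⟩
  let ι : S →+* R' ⊗[R] S := (Algebra.TensorProduct.includeRight (A := R')).toRingHom
  have hι : ι.comp (algebraMap R S) = (algebraMap R' (R' ⊗[R] S)).comp (algebraMap R R') :=
    RingHom.ext fun r => by
      simp [ι, Algebra.TensorProduct.algebraMap_apply, Algebra.TensorProduct.tmul_one_eq_one_tmul]
  calc (maximalIdeal R').map (algebraMap R' (R' ⊗[R] S)) ^ (n * c)
      = ((maximalIdeal R' ^ n).map (algebraMap R' (R' ⊗[R] S))) ^ c := by
        rw [pow_mul, Ideal.map_pow]
    _ ≤ (((maximalIdeal R).map (algebraMap R R')).map (algebraMap R' (R' ⊗[R] S))) ^ c :=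
        Ideal.pow_right_mono (Ideal.map_mono hn) c
    _ = ((maximalIdeal R).map (algebraMap R S) ^ c).map ι := by
        rw [Ideal.map_pow, Ideal.map_map, Ideal.map_map, hι]
    _ ≤ (Ideal.span (Set.range x)).map ι := Ideal.map_mono hc
    _ = Ideal.span (Set.range fun j => (1 : R') ⊗ₜ[R] x j) := by
        rw [Ideal.map_span, ← Set.range_comp]
        rfl

attribute [local instance] Algebra.TensorProduct.rightAlgebra

/-- Frobenius base change multiplies the Koszul Euler characteristic by `q ^ d`. -/
theorem kchi_frob {D E : Type u} [CommRing D] [IsNoetherianRing D] [IsLocalRing D] [IsDomain D]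
    [CommRing E] [IsNoetherianRing E] [IsLocalRing E] [IsDomain E] [Algebra D E]
    (p k : ℕ) [hp : Fact p.Prime] [CharP D p] (σ : E ≃+* D)
    (hσ : ∀ r, σ (algebraMap D E r) = r ^ p ^ k)
    {B : Type u} [CommRing B] [Algebra D B] [Module.Finite D B] [Module.Free D B] [Nontrivial B]
    {d : ℕ} (x : Fin d → B)
    (hx : ∃ c, (maximalIdeal D).map (algebraMap D B) ^ c ≤ Ideal.span (Set.range x)) :
    kchi E (fun j => (1 : E) ⊗ₜ[D] x j) (E ⊗[D] B) = ((p ^ k : ℕ) : ℤ) ^ d * kchi D x B := by
  set q := p ^ k with hq
  have hq0 : 0 < q := pow_pos hp.out.pos k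
  have hDE : Function.Injective (algebraMap D E) := fun a b h => by
    have := congrArg σ h
    rw [hσ, hσ] at this
    exact iterateFrobenius_inj D p k (by simpa [iterateFrobenius_def] using this)
  have : FaithfulSMul D E := (faithfulSMul_iff_algebraMap_injective D E).2 hDE
  have : CharP E p := charP_of_injective_algebraMap hDE p
  have : Nontrivial (E ⊗[D] B) :=
    (Algebra.TensorProduct.basis E (Module.Free.chooseBasis D B)).repr.toEquiv.nontrivial
  have : CharP B p := charP_of_injective_algebraMap (FaithfulSMul.algebraMap_injective D B) p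
  have : CharP (E ⊗[D] B) p :=
    charP_of_injective_algebraMap (FaithfulSMul.algebraMap_injective E (E ⊗[D] B)) p
  set y : Fin d → E ⊗[D] B := fun j => (1 : E) ⊗ₜ[D] x j
  have hy : ∃ c, (maximalIdeal E).map (algebraMap E (E ⊗[D] B)) ^ c ≤ Ideal.span (Set.range y) := by
    refine exists_pow_map_le x hx fun r hr => ⟨q, ?_⟩
    have : r ^ q = algebraMap D E (σ r) := σ.injective (by rw [map_pow, hσ])
    rw [this]
    refine Ideal.mem_map_of_mem _ ?_
    rw [mem_maximalIdeal, mem_nonunits_iff] at hr ⊢
    exact fun h => hr (by simpa using h.map σ.symm)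
  have hB' : ∀ g : E, g ≠ 0 → ∀ b : E ⊗[D] B, g • b = 0 → b = 0 :=
    fun g hg b h => (smul_eq_zero.1 h).resolve_left hg
  have hBD : ∀ g : D, g ≠ 0 → ∀ b : B, g • b = 0 → b = 0 :=
    fun g hg b h => (smul_eq_zero.1 h).resolve_left hg
  let θ₀ : E ⊗[D] B →+ B := TensorProduct.liftAddHom
    (((AddMonoidHom.mul (R := B)).compl₂ (iterateFrobenius B p k).toAddMonoidHom).comp
      ((algebraMap D B).comp (σ : E →+* D)).toAddMonoidHom) (fun r e b => by
        simp [Algebra.smul_def, iterateFrobenius_def, hσ, mul_pow]
        ring)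
  have θ₀t : ∀ e b, θ₀ (e ⊗ₜ[D] b) = algebraMap D B (σ e) * b ^ q := fun e b => by
    simp [θ₀, iterateFrobenius_def, hq]
  let θ : E ⊗[D] B →+* B :=
    { θ₀ with
      map_one' := by
        change θ₀ (1 ⊗ₜ[D] 1) = 1
        simp [θ₀t]
      map_mul' := fun u v => by
        change θ₀ (u * v) = θ₀ u * θ₀ v
        induction u with
        | zero => simp
        | add a b ha hb => simp [add_mul, ha, hb]
        | tmul e b =>
          induction v with
          | zero => simp
          | add a b ha hb => simp [mul_add, ha, hb]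
          | tmul e' b' =>
            simp only [Algebra.TensorProduct.tmul_mul_tmul, θ₀t, map_mul, mul_pow]
            ring }
  have θt : ∀ e b, θ (e ⊗ₜ[D] b) = algebraMap D B (σ e) * b ^ q := θ₀t
  have hpow : ∀ z : E ⊗[D] B, z ^ q = algebraMap B (E ⊗[D] B) (θ z) := by
    intro z
    induction z with
    | zero => simp [zero_pow hq0.ne']
    | add a b ha hb => rw [hq, add_pow_char_pow, ← hq, ha, hb, map_add, map_add]
    | tmul e b =>
      have h1 : e ^ q = σ e • (1 : E) := σ.injective (by
        rw [map_pow, Algebra.smul_def, mul_one, hσ])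
      rw [Algebra.TensorProduct.tmul_pow, θt, Algebra.TensorProduct.right_algebraMap_apply, h1,
        TensorProduct.smul_tmul, Algebra.smul_def]
  suffices hmain : ∀ (N : Type u) [AddCommGroup N] [Module B N] [Module.Finite B N] [Module D N]
      [IsScalarTower D B N], kchi E y ((E ⊗[D] B) ⊗[B] N) = (q : ℤ) ^ d * kchi D x N by
    rw [← hmain B]
    exact (kchi_congr y y (RingHom.id E) Function.surjective_id
      (TensorProduct.AlgebraTensorModule.rid B (E ⊗[D] B) (E ⊗[D] B)).toAddEquiv
      (fun r m => ((TensorProduct.AlgebraTensorModule.rid B (E ⊗[D] B) (E ⊗[D] B)).restrictScalars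
        E).map_smul r m)
      (fun i m => (TensorProduct.AlgebraTensorModule.rid B (E ⊗[D] B) (E ⊗[D] B)).map_smul
        (y i) m)).symm
  intro N _ _ hfin
  have : IsNoetherianRing B := IsNoetherianRing.of_finite D B
  have : IsNoetherianRing (E ⊗[D] B) := IsNoetherianRing.of_finite E (E ⊗[D] B)
  induction hfin using IsNoetherianRing.induction_on_isQuotientEquivQuotientPrime B with
  | subsingleton N =>
    intro _ _
    have : Subsingleton ((E ⊗[D] B) ⊗[B] N) := by
      refine subsingleton_of_forall_eq 0 fun z => ?_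
      induction z with
      | zero => rfl
      | add a b ha hb => rw [ha, hb, add_zero]
      | tmul a n => rw [Subsingleton.elim n 0, TensorProduct.tmul_zero]
    rw [kchi_subsingleton y hy _, kchi_subsingleton x hx N, mul_zero]
  | quotient N Q e =>
    intro _ _
    have : Module.Finite B N := Module.Finite.equiv e.symm
    have : Module.Finite D N := Module.Finite.trans B N
    have hQN : ∀ r ∈ Q.1, ∀ m : N, r • m = 0 := fun r hr m => e.injective (by
      rw [map_smul, map_zero]
      obtain ⟨m', hm'⟩ := Submodule.mkQ_surjective _ (e m)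
      rw [← hm', Submodule.mkQ_apply, ← Submodule.Quotient.mk_smul, Submodule.Quotient.mk_eq_zero]
      exact Ideal.mul_mem_right _ _ hr)
    by_cases hgen : ∀ g : D, algebraMap D B g ∈ Q.1 → g = 0
    · set a : Ideal (E ⊗[D] B) := Q.1.map (algebraMap B (E ⊗[D] B))
      have := Q.2
      let Q₀ : Ideal (E ⊗[D] B) := Q.1.comap θ
      have : Q₀.IsPrime := Ideal.comap_isPrime θ Q.1
      have hQ₀ : ∀ g : E, algebraMap E (E ⊗[D] B) g ∈ Q₀ → g = 0 := fun g hg => by
        rw [Ideal.mem_comap, Algebra.TensorProduct.algebraMap_apply, θt, one_pow, mul_one] at hg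
        exact σ.injective (by rw [map_zero]; exact hgen _ hg)
      have huniq : ∀ P : Ideal (E ⊗[D] B), P.IsPrime → a ≤ P →
          (∀ g : E, algebraMap E (E ⊗[D] B) g ∈ P → g = 0) → Q₀ ≤ P := fun P hP haP _ z hz =>
        hP.mem_of_pow_mem q (by rw [hpow]; exact haP (Ideal.mem_map_of_mem _ hz))
      have haN : ∀ r ∈ a, ∀ w : (E ⊗[D] B) ⊗[B] N, r • w = 0 := by
        intro r hr w
        have hle : a ≤ Module.annihilator (E ⊗[D] B) ((E ⊗[D] B) ⊗[B] N) :=
          Ideal.map_le_iff_le_comap.2 fun s hs => Module.mem_annihilator.2 fun w => by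
            change s • w = 0
            induction w with
            | zero => simp
            | add a b ha hb => rw [smul_add, ha, hb, add_zero]
            | tmul b n => rw [← TensorProduct.tmul_smul, hQN s hs n, TensorProduct.tmul_zero]
        exact Module.mem_annihilator.1 (hle hr) w
      have hr' : Module.finrank E ((E ⊗[D] B) ⊗[B] N) = Module.finrank D N :=
        (Algebra.IsPushout.cancelBaseChange D E B (E ⊗[D] B) N).finrank_eq.trans
          (TensorProduct.isBaseChange D N E).finrank_eq
      have h1 := kchi_rank y hy hB' a Q₀ hQ₀ huniq ((E ⊗[D] B) ⊗[B] N) haN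
      let _ : Module (E ⊗[D] B) N := Module.compHom N θ
      let _ : Module E N := Module.compHom N (σ : E →+* D)
      have : IsScalarTower E (E ⊗[D] B) N := IsScalarTower.of_algebraMap_smul fun g m => by
        change θ (algebraMap E (E ⊗[D] B) g) • m = σ g • m
        rw [Algebra.TensorProduct.algebraMap_apply, θt, one_pow, mul_one, algebraMap_smul]
        rfl
      have : Module.Finite E N := by
        obtain ⟨n, s, hs⟩ := Module.Finite.exists_fin (R := D) (M := N)
        refine Module.Finite.of_fg_top (Submodule.fg_def.2 ⟨Set.range s, Set.finite_range s, ?_⟩)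
        refine eq_top_iff.2 fun m _ => ?_
        obtain ⟨c, rfl⟩ := (Submodule.mem_span_range_iff_exists_fun D).1 (hs ▸ trivial :
          m ∈ Submodule.span D (Set.range s))
        refine Submodule.sum_mem _ fun i _ => ?_
        have h2 : c i • s i = σ.symm (c i) • s i := by
          change c i • s i = σ (σ.symm (c i)) • s i
          rw [σ.apply_symm_apply]
        rw [h2]
        exact Submodule.smul_mem _ _ (Submodule.subset_span (Set.mem_range_self i))
      have : Module.Finite (E ⊗[D] B) N := Module.Finite.of_restrictScalars_finite E _ _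
      have haθ : ∀ r ∈ a, ∀ m : N, r • m = 0 := fun r hr m => by
        have hle : a ≤ Q.1.comap θ := Ideal.map_le_iff_le_comap.2 fun s hs => by
          rw [Ideal.mem_comap, Ideal.mem_comap, Algebra.TensorProduct.right_algebraMap_apply, θt,
            map_one, map_one, one_mul]
          exact Ideal.pow_mem_of_mem _ hs q hq0
        exact hQN _ (hle hr) m
      have h2 := kchi_rank y hy hB' a Q₀ hQ₀ huniq N haθ
      have hrθ : Module.finrank E N = Module.finrank D N :=
        congrArg Cardinal.toNat (rank_eq_of_equiv_equiv (fun g => σ g) (AddEquiv.refl N) σ.bijective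
          fun r m => rfl)
      have hne : (Module.finrank E ((E ⊗[D] B) ⧸ Q₀) : ℤ) ≠ 0 := by
        have : Module.Finite E ((E ⊗[D] B) ⧸ Q₀) := Module.Finite.trans (E ⊗[D] B) _
        simp only [ne_eq, Nat.cast_eq_zero]
        intro h
        obtain ⟨⟨g, hg⟩, hgm⟩ := Module.finrank_eq_zero_iff_isTorsion.1 h
          (x := (Submodule.Quotient.mk 1 : (E ⊗[D] B) ⧸ Q₀))
        change g • (Submodule.Quotient.mk 1 : (E ⊗[D] B) ⧸ Q₀) = 0 at hgm
        rw [← Submodule.Quotient.mk_smul, Submodule.Quotient.mk_eq_zero, Algebra.smul_def,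
          mul_one] at hgm
        exact nonZeroDivisors.ne_zero hg (hQ₀ g hgm)
      have h3 : kchi E y N = kchi D (fun j => x j ^ q) N :=
        kchi_congr y _ (σ : E →+* D) σ.surjective (AddEquiv.refl N) (fun r m => rfl) fun i m => by
          change θ (y i) • m = x i ^ q • m
          rw [θt, map_one, map_one, one_mul]
      rw [← kchi_pow x q hq0 N (quot_finLength x hx N), ← h3]
      refine mul_right_cancel₀ hne ?_
      rw [h1, h2, hr', hrθ]
    · simp only [not_forall] at hgen
      obtain ⟨g, hgQ, hg0⟩ := hgen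
      have hk : ∀ m : N, g • m = 0 := fun m => by
        rw [← algebraMap_smul B g m]
        exact hQN _ hgQ m
      have hk' : ∀ w : (E ⊗[D] B) ⊗[B] N, algebraMap D E g • w = 0 := fun w => by
        induction w with
        | zero => simp
        | add a b ha hb => rw [smul_add, ha, hb, add_zero]
        | tmul b n =>
          rw [TensorProduct.smul_tmul', algebraMap_smul, ← algebraMap_smul B g b,
            TensorProduct.smul_tmul, hQN _ hgQ n, TensorProduct.tmul_zero]
      rw [kchi_torsion x hx hBD hg0 N hk, kchi_torsion y hy hB'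
        (fun h => hg0 (hDE (h.trans (map_zero _).symm))) _ hk', mul_zero]
  | exact N₁ N₂ N₃ f g hf hg he h1 h3 =>
    intro _ _
    let _ : Module D N₁ := Module.compHom N₁ (algebraMap D B)
    let _ : Module D N₃ := Module.compHom N₃ (algebraMap D B)
    have : IsScalarTower D B N₁ := IsScalarTower.of_algebraMap_smul fun _ _ => rfl
    have : IsScalarTower D B N₃ := IsScalarTower.of_algebraMap_smul fun _ _ => rfl
    have : Module.Finite D N₁ := Module.Finite.trans B _
    have : Module.Finite D N₂ := Module.Finite.trans B _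
    let fD := f.restrictScalars D
    obtain ⟨c, hc, h, hh⟩ := exists_retraction fD hf
    let f' := f.baseChange (E ⊗[D] B)
    let g' := g.baseChange (E ⊗[D] B)
    have hker : ∀ z : LinearMap.ker f', algebraMap D E c • z = 0 := by
      rintro ⟨z, hz⟩
      obtain ⟨u, rfl⟩ :=
        (Algebra.IsPushout.cancelBaseChange D E B (E ⊗[D] B) N₁).symm.surjective z
      have hcomm : ∀ u, f' ((Algebra.IsPushout.cancelBaseChange D E B (E ⊗[D] B) N₁).symm u) =
          (Algebra.IsPushout.cancelBaseChange D E B (E ⊗[D] B) N₂).symm (fD.baseChange E u) := by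
        intro u
        induction u with
        | zero => simp
        | add a b ha hb => simp only [map_add, ha, hb]
        | tmul e n => simp [f', fD]
      have hret : ∀ u, h.baseChange E (fD.baseChange E u) = algebraMap D E c • u := by
        intro u
        induction u with
        | zero => simp
        | add a b ha hb => simp only [map_add, ha, hb, smul_add]
        | tmul e n =>
          rw [LinearMap.baseChange_tmul, LinearMap.baseChange_tmul, hh, TensorProduct.tmul_smul,
            TensorProduct.smul_tmul', TensorProduct.smul_tmul', algebraMap_smul]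
      rw [LinearMap.mem_ker, hcomm, LinearEquiv.map_eq_zero_iff] at hz
      have h0 := hret u
      rw [hz, map_zero] at h0
      refine Subtype.ext ?_
      change algebraMap D E c • _ = 0
      rw [← map_smul, ← h0, map_zero]
    have hk := kchi_torsion y hy hB' (fun h => hc (hDE (h.trans (map_zero _).symm)))
      (LinearMap.ker f') hker
    have e1 := kchi_exact (M₁ := LinearMap.ker f') (M₂ := (E ⊗[D] B) ⊗[B] N₁)
      (M₃ := LinearMap.range f') y hy (LinearMap.ker f').subtype (LinearMap.rangeRestrict f')
      Subtype.val_injective f'.surjective_rangeRestrict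
      (LinearMap.exact_iff.2 (by simp [LinearMap.ker_rangeRestrict]))
    have e2 := kchi_exact (M₁ := LinearMap.range f') (M₂ := (E ⊗[D] B) ⊗[B] N₂)
      (M₃ := (E ⊗[D] B) ⊗[B] N₃) y hy (LinearMap.range f').subtype g' Subtype.val_injective
      (LinearMap.lTensor_surjective (E ⊗[D] B) hg) (fun z => by
        have h5 := lTensor_exact (E ⊗[D] B) he hg z
        change g' z = 0 ↔ _ at h5
        rw [h5]
        simp [f', LinearMap.baseChange_eq_ltensor])
    rw [kchi_exact x hx f g hf hg he, e2]
    linarith [h1, h3]

end Vale.Agent.P202.Char
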