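import Vale.Agent.P202.Char.Complexes
import Vale.Agent.P202.Char.GC

/-!
P202, Lech in characteristic `p`: Euler characteristics are additive in the module.
-/

namespace Vale.Agent.P202.Char

open Finset

universe u v w

variable {R : Type u} [CommRing R] {d : ℕ}

/-- Additivity of the Euler characteristic in a short exact sequence of complexes. -/
theorem GC.chi_exact {T₁ T₂ T₃ : Type v} [AddCommGroup T₁] [AddCommGroup T₂] [AddCommGroup T₃]
    [Module R T₁] [Module R T₂] [Module R T₃] (C₁ : GC R T₁) (C₂ : GC R T₂) (C₃ : GC R T₃)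
    (F : T₁ →ₗ[R] T₂) (G : T₂ →ₗ[R] T₃) (lo hi : ℤ)
    (hdeg : ∀ k, k ∉ Finset.Icc lo hi → C₂.deg k = ⊥)
    (hF : Function.Injective F) (hFG : ∀ v, G v = 0 ↔ ∃ w, F w = v)
    (hFD : ∀ v, F (C₁.D v) = C₂.D (F v)) (hGD : ∀ v, G (C₂.D v) = C₃.D (G v))
    (hFdeg : ∀ k v, v ∈ C₁.deg k ↔ F v ∈ C₂.deg k)
    (hGdeg : ∀ k v, v ∈ C₂.deg k → G v ∈ C₃.deg k)
    (hGsurj : ∀ k, ∀ w ∈ C₃.deg k, ∃ v ∈ C₂.deg k, G v = w)
    (h1 : ∀ k, C₁.FinH ⊥ ⊤ k) (h3 : ∀ k, C₃.FinH ⊥ ⊤ k) :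
    (∀ k, C₂.FinH ⊥ ⊤ k) ∧ C₂.chi (Finset.Icc lo hi) ⊥ ⊤ =
      C₁.chi (Finset.Icc lo hi) ⊥ ⊤ + C₃.chi (Finset.Icc lo hi) ⊥ ⊤ := by
  set X := LinearMap.range F
  have hX : C₂.IsSub X := by
    rintro _ ⟨_, ⟨v, rfl⟩, rfl⟩
    exact ⟨C₁.D v, hFD v⟩
  have e1 : ∀ k, Module.length R (C₁.H ⊥ ⊤ k) = Module.length R (C₂.H ⊥ X (k + 0)) := fun k => by
    refine GC.h_congr _ _ F 1 0 (fun j v _ => ?_) (by simp [GC.IsSub]) (by simp [GC.IsSub])
      bot_le (by simp [GC.IsSub]) hX bot_le (fun j => ?_) (by simp)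
      (by rw [Submodule.map_top]) (fun j => ?_) (fun j => ?_)
    · simp [hFD]
    · rintro _ ⟨v, hv, rfl⟩
      rw [add_zero]
      exact (hFdeg j v).1 hv
    · rintro _ ⟨⟨v, rfl⟩, hv⟩
      rw [add_zero] at hv
      exact Submodule.mem_sup_left ⟨v, ⟨trivial, (hFdeg j v).2 hv⟩, rfl⟩
    · rintro v ⟨-, hv⟩
      rw [Submodule.mem_bot]
      exact hF (by simpa using hv)
  have e3 : ∀ k, Module.length R (C₂.H X ⊤ k) = Module.length R (C₃.H ⊥ ⊤ (k + 0)) := fun k => by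
    refine GC.h_congr _ _ G 1 0 (fun j v _ => ?_) hX (by simp [GC.IsSub])
      le_top (by simp [GC.IsSub]) (by simp [GC.IsSub]) bot_le (fun j => ?_) ?_
      le_top (fun j => ?_) (fun j => ?_)
    · simp [hGD]
    · rintro _ ⟨v, hv, rfl⟩
      rw [add_zero]
      exact hGdeg j v hv
    · rintro _ ⟨v, hv, rfl⟩
      exact (Submodule.mem_bot R).2 ((hFG v).2 hv)
    · rintro w ⟨-, hw⟩
      rw [add_zero] at hw
      obtain ⟨v, hv, rfl⟩ := hGsurj j w hw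
      exact Submodule.mem_sup_left ⟨v, ⟨trivial, hv⟩, rfl⟩
    · rintro v ⟨-, hv⟩
      exact (hFG v).1 ((Submodule.mem_bot R).1 hv)
  obtain ⟨hfin, hchi⟩ := GC.chi_add C₂ lo hi hdeg (by simp [GC.IsSub]) hX
    (by simp [GC.IsSub]) bot_le le_top
    (fun k => by rw [GC.FinH]; have := e1 k; rw [add_zero] at this; rw [← this]; exact h1 k)
    (fun k => by rw [GC.FinH]; have := e3 k; rw [add_zero] at this; rw [this]; exact h3 k)
  refine ⟨hfin, hchi.trans ?_⟩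
  congr 1 <;> refine sum_congr rfl fun k _ => ?_
  · have := e1 k; rw [add_zero] at this; simp only [GC.h, len, this]
  · have := e3 k; rw [add_zero] at this; simp only [GC.h, len, this]

theorem mem_pi_deg {ι : Type*} (dg : ι → ℤ) {M : Type v} [AddCommGroup M] [Module R M] (k : ℤ)
    (v : ι → M) : v ∈ Submodule.pi (R := R) Set.univ (fun i => if dg i = k then ⊤ else ⊥) ↔
      ∀ i, dg i ≠ k → v i = 0 := by
  simp only [Submodule.mem_pi, Set.mem_univ, true_implies]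
  refine forall_congr' fun i => ?_
  by_cases h : dg i = k <;> simp [h]

/-- The same for complexes on tuples, with a map of coefficient modules. -/
theorem GC.chi_exact_pi {ι : Type} (dg : ι → ℤ) {M₁ M₂ M₃ : Type v} [AddCommGroup M₁]
    [AddCommGroup M₂] [AddCommGroup M₃] [Module R M₁] [Module R M₂] [Module R M₃]
    (C₁ : GC R (ι → M₁)) (C₂ : GC R (ι → M₂)) (C₃ : GC R (ι → M₃))
    (e₁ : ∀ k, C₁.deg k = Submodule.pi (R := R) Set.univ fun i => if dg i = k then ⊤ else ⊥)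
    (e₂ : ∀ k, C₂.deg k = Submodule.pi (R := R) Set.univ fun i => if dg i = k then ⊤ else ⊥)
    (e₃ : ∀ k, C₃.deg k = Submodule.pi (R := R) Set.univ fun i => if dg i = k then ⊤ else ⊥)
    (lo hi : ℤ) (hdg : ∀ i, dg i ∈ Finset.Icc lo hi)
    (f : M₁ →ₗ[R] M₂) (g : M₂ →ₗ[R] M₃) (hf : Function.Injective f) (hg : Function.Surjective g)
    (he : Function.Exact f g)
    (hFD : ∀ v i, f (C₁.D v i) = C₂.D (fun j => f (v j)) i)
    (hGD : ∀ v i, g (C₂.D v i) = C₃.D (fun j => g (v j)) i)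
    (h1 : ∀ k, C₁.FinH ⊥ ⊤ k) (h3 : ∀ k, C₃.FinH ⊥ ⊤ k) :
    (∀ k, C₂.FinH ⊥ ⊤ k) ∧ C₂.chi (Finset.Icc lo hi) ⊥ ⊤ =
      C₁.chi (Finset.Icc lo hi) ⊥ ⊤ + C₃.chi (Finset.Icc lo hi) ⊥ ⊤ := by
  refine GC.chi_exact C₁ C₂ C₃ (f.compLeft ι) (g.compLeft ι) lo hi (fun k hk => ?_) ?_ ?_
    (fun v => funext (hFD v)) (fun v => funext (hGD v)) ?_ ?_ ?_ h1 h3
  · refine (Submodule.eq_bot_iff _).2 fun v hv => funext fun i => ?_
    rw [e₂, mem_pi_deg] at hv
    exact hv i fun h => hk (h ▸ hdg i)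
  · exact fun v w h => funext fun i => hf (congrFun h i)
  · intro v
    constructor
    · intro h
      choose w hw using fun i => (he (v i)).1 (congrFun h i)
      exact ⟨w, funext hw⟩
    · rintro ⟨w, rfl⟩
      exact funext fun i => he.apply_apply_eq_zero (w i)
  · intro k v
    rw [e₁, e₂, mem_pi_deg, mem_pi_deg]
    exact forall₂_congr fun i _ => ⟨fun h => by simp [h], fun h => hf (by simpa using h)⟩
  · intro k v hv
    rw [e₂, mem_pi_deg] at hv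
    rw [e₃, mem_pi_deg]
    exact fun i hi => by simp [hv i hi]
  · intro k w hw
    rw [e₃, mem_pi_deg] at hw
    choose w' hw' using fun i => hg (w i)
    refine ⟨fun i => if dg i = k then w' i else 0, ?_, funext fun i => ?_⟩
    · rw [e₂, mem_pi_deg]; exact fun i hi => if_neg hi
    · by_cases hi : dg i = k
      · simp [hi, hw']
      · simp [hi, hw i hi]

/-- Euler characteristics are additive in the module. -/
theorem chi_additive (P : MCx R) (hd : ∀ b, P.deg b ≤ d) (M₁ M₂ M₃ : Type u) [AddCommGroup M₁]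
    [AddCommGroup M₂] [AddCommGroup M₃] [Module R M₁] [Module R M₂] [Module R M₃]
    (f : M₁ →ₗ[R] M₂) (g : M₂ →ₗ[R] M₃) (hf : Function.Injective f) (hg : Function.Surjective g)
    (he : Function.Exact f g) (h1 : ∀ k, (P.gc M₁).FinH ⊥ ⊤ k)
    (h3 : ∀ k, (P.gc M₃).FinH ⊥ ⊤ k) :
    (∀ k, (P.gc M₂).FinH ⊥ ⊤ k) ∧ (P.gc M₂).chi (Finset.Icc 0 (d : ℤ)) ⊥ ⊤ =
      (P.gc M₁).chi (Finset.Icc 0 (d : ℤ)) ⊥ ⊤ + (P.gc M₃).chi (Finset.Icc 0 (d : ℤ)) ⊥ ⊤ :=
  GC.chi_exact_pi (fun b => (P.deg b : ℤ)) (P.gc M₁) (P.gc M₂) (P.gc M₃) (fun _ => rfl)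
    (fun _ => rfl) (fun _ => rfl) 0 (d : ℤ)
    (fun b => Finset.mem_Icc.2 ⟨by omega, by exact_mod_cast hd b⟩) f g hf hg he
    (fun v i => by change f (P.dlin M₁ v i) = P.dlin M₂ _ i; simp [MCx.dlin_apply])
    (fun v i => by change g (P.dlin M₂ v i) = P.dlin M₃ _ i; simp [MCx.dlin_apply])
    h1 h3

/-- Additivity of Koszul Euler characteristics. -/
theorem koszul_chi_exact {S : Type u} [CommRing S] [Algebra R S] (x : Fin d → S)
    {N₁ N₂ N₃ : Type v} [AddCommGroup N₁] [AddCommGroup N₂] [AddCommGroup N₃] [Module S N₁]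
    [Module S N₂] [Module S N₃] [Module R N₁] [Module R N₂] [Module R N₃]
    [IsScalarTower R S N₁] [IsScalarTower R S N₂] [IsScalarTower R S N₃]
    (f : N₁ →ₗ[S] N₂) (g : N₂ →ₗ[S] N₃) (hf : Function.Injective f) (hg : Function.Surjective g)
    (he : Function.Exact f g) (h1 : ∀ k, (koszulGC R x N₁).FinH ⊥ ⊤ k)
    (h3 : ∀ k, (koszulGC R x N₃).FinH ⊥ ⊤ k) :
    (∀ k, (koszulGC R x N₂).FinH ⊥ ⊤ k) ∧
      (koszulGC R x N₂).chi (Finset.Icc 0 (d : ℤ)) ⊥ ⊤ =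
        (koszulGC R x N₁).chi (Finset.Icc 0 (d : ℤ)) ⊥ ⊤ +
          (koszulGC R x N₃).chi (Finset.Icc 0 (d : ℤ)) ⊥ ⊤ :=
  GC.chi_exact_pi (fun s : Finset (Fin d) => (s.card : ℤ)) (koszulGC R x N₁) (koszulGC R x N₂)
    (koszulGC R x N₃) (fun _ => rfl) (fun _ => rfl) (fun _ => rfl) 0 (d : ℤ)
    (fun s => Finset.mem_Icc.2 ⟨by omega, by exact_mod_cast (by simpa using s.card_le_univ)⟩)
    (f.restrictScalars R) (g.restrictScalars R) hf hg he
    (fun v i => by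
      change f (koszulD x N₁ v i) = koszulD x N₂ _ i
      simp [koszulD_apply])
    (fun v i => by
      change g (koszulD x N₂ v i) = koszulD x N₃ _ i
      simp [koszulD_apply])
    h1 h3

end Vale.Agent.P202.Char
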