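import Vale.Agent.P202.Char.KoszulSmall
import Vale.Agent.P202.Char.KoszulChi

/-!
P202, Lech in characteristic `p`: over a Noetherian local domain, Koszul Euler characteristics
vanish on torsion modules and are proportional to the rank on modules with a single generic prime;
Koszul Euler characteristics of powers of the elements.
-/

namespace Vale.Agent.P202.Char

open Filter Topology Finset IsLocalRing

universe u v

/-- Koszul Euler characteristic. -/
noncomputable def kchi (E : Type u) [CommRing E] {B : Type u} [CommRing B] [Algebra E B] {d : ℕ}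
    (y : Fin d → B) (M : Type v) [AddCommGroup M] [Module B M] [Module E M]
    [IsScalarTower E B M] : ℤ :=
  (koszulGC E y M).chi (Finset.Icc 0 (d : ℤ)) ⊥ ⊤

/-- Koszul homology under a semilinear bijection. -/
theorem koszul_length_congr {E : Type u} [CommRing E] {B : Type u} [CommRing B] [Algebra E B]
    {E' : Type u} [CommRing E'] {B' : Type u} [CommRing B'] [Algebra E' B'] {d : ℕ}
    (y : Fin d → B) (y' : Fin d → B') {M : Type v} [AddCommGroup M] [Module B M] [Module E M]
    [IsScalarTower E B M] {M' : Type v} [AddCommGroup M'] [Module B' M'] [Module E' M']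
    [IsScalarTower E' B' M'] (σ : E →+* E') (hσ : Function.Surjective σ) (j : M ≃+ M')
    (hj : ∀ (r : E) (m : M), j (r • m) = σ r • j m)
    (hy : ∀ i (m : M), j (y i • m) = y' i • j m) (k : ℤ) :
    Module.length E ((koszulGC E y M).H ⊥ ⊤ k) =
      Module.length E' ((koszulGC E' y' M').H ⊥ ⊤ k) := by
  have : RingHomSurjective σ := ⟨hσ⟩
  let f : (Finset (Fin d) → M) →ₛₗ[σ] (Finset (Fin d) → M') :=
    { toFun := fun v s => j (v s)
      map_add' := fun v w => funext fun s => map_add j (v s) (w s)
      map_smul' := fun r v => funext fun s => hj r (v s) }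
  refine GC.length_H_semi _ _ σ f ⟨?_, ?_⟩ ?_ ?_ k
  · exact fun v w h => funext fun s => j.injective (congrFun h s)
  · exact fun w => ⟨fun s => j.symm (w s), funext fun s => j.apply_symm_apply (w s)⟩
  · intro v
    funext s
    change j (koszulD y M v s) = koszulD y' M' (fun t => j (v t)) s
    simp only [koszulD_apply, map_sum, smul_assoc, map_zsmul, hy]
  · intro i v
    change v ∈ koszulDeg E d M i ↔ f v ∈ koszulDeg E' d M' i
    rw [mem_koszulDeg (R := E), mem_koszulDeg (R := E')]
    refine forall₂_congr fun s _ => ?_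
    change v s = 0 ↔ j (v s) = 0
    simp

theorem kchi_congr {E : Type u} [CommRing E] {B : Type u} [CommRing B] [Algebra E B]
    {E' : Type u} [CommRing E'] {B' : Type u} [CommRing B'] [Algebra E' B'] {d : ℕ}
    (y : Fin d → B) (y' : Fin d → B') {M : Type v} [AddCommGroup M] [Module B M] [Module E M]
    [IsScalarTower E B M] {M' : Type v} [AddCommGroup M'] [Module B' M'] [Module E' M']
    [IsScalarTower E' B' M'] (σ : E →+* E') (hσ : Function.Surjective σ) (j : M ≃+ M')
    (hj : ∀ (r : E) (m : M), j (r • m) = σ r • j m)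
    (hy : ∀ i (m : M), j (y i • m) = y' i • j m) : kchi E y M = kchi E' y' M' := by
  unfold kchi GC.chi
  exact sum_congr rfl fun k _ => by
    simp only [GC.h, len, koszul_length_congr y y' σ hσ j hj hy k]

/-- High powers of `I` lie in powers of the ideal of `q`-th powers. -/
theorem pow_le_pow_pows {S : Type u} [CommRing S] {d : ℕ} (x : Fin d → S) (q : ℕ) (hq : 0 < q)
    (k : ℕ) : Ideal.span (Set.range x) ^ (q * k + d * (q - 1)) ≤
      Ideal.span (Set.range fun j => x j ^ q) ^ k := by
  set I := Ideal.span (Set.range x)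
  set J := Ideal.span (Set.range fun j => x j ^ q)
  set c := d * (q - 1)
  have hmon : ∀ n, I ^ n ≤ Ideal.span {z | ∃ a : Fin d → ℕ, ∑ j, a j = n ∧ z = ∏ j, x j ^ a j} := by
    intro n
    induction n with
    | zero =>
      rw [pow_zero, Ideal.one_eq_top, ← Ideal.span_singleton_one]
      exact Ideal.span_mono (Set.singleton_subset_iff.2 ⟨0, by simp⟩)
    | succ n ih =>
      rw [pow_succ]
      refine (mul_le_mul_left ih I).trans ?_
      rw [Ideal.span_mul_span']
      refine Ideal.span_mono ?_
      rintro _ ⟨_, ⟨a, ha, rfl⟩, _, ⟨i, rfl⟩, rfl⟩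
      refine ⟨a + Pi.single i 1, ?_, ?_⟩
      · simp [Finset.sum_add_distrib, ha]
      · simp only [Pi.add_apply, pow_add, Finset.prod_mul_distrib]
        rw [Finset.prod_eq_single i (f := fun j => x j ^ (Pi.single i 1 : Fin d → ℕ) j)
          (fun j _ hj => by simp [Pi.single_eq_of_ne hj]) (by simp)]
        simp
  have hstep : I ^ (c + q) ≤ J * I ^ c := by
    refine (hmon _).trans (Ideal.span_le.2 ?_)
    rintro _ ⟨a, ha, rfl⟩
    obtain ⟨i, hi⟩ : ∃ i, q ≤ a i := by
      by_contra h
      simp only [not_exists, not_le] at h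
      have : ∑ j, a j ≤ ∑ _j : Fin d, (q - 1) := Finset.sum_le_sum fun j _ => by
        have := h j; omega
      simp only [Finset.sum_const, Finset.card_univ, Fintype.card_fin, smul_eq_mul] at this
      omega
    obtain ⟨r, hr⟩ := Nat.exists_eq_add_of_le hi
    have hb : ∏ j, x j ^ a j = x i ^ q * ∏ j, x j ^ Function.update a i r j := by
      rw [← Finset.mul_prod_erase _ _ (Finset.mem_univ i),
        ← Finset.mul_prod_erase _ (fun j => x j ^ Function.update a i r j) (Finset.mem_univ i),
        Function.update_self, hr, pow_add, mul_assoc]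
      congr 2
      exact Finset.prod_congr rfl fun j hj => by
        rw [Function.update_of_ne (Finset.ne_of_mem_erase hj)]
    rw [SetLike.mem_coe, hb]
    refine Ideal.mul_mem_mul (Ideal.subset_span (Set.mem_range_self i)) ?_
    have hs : ∑ j, Function.update a i r j = c := by
      rw [← Finset.add_sum_erase _ _ (Finset.mem_univ i)] at ha ⊢
      rw [Function.update_self, Finset.sum_congr rfl fun j hj => by
        rw [Function.update_of_ne (Finset.ne_of_mem_erase hj)]]
      change r + ∑ x ∈ univ.erase i, a x = c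
      omega
    rw [← hs, ← Finset.prod_pow_eq_pow_sum]
    exact Ideal.prod_mem_prod fun j _ =>
      Ideal.pow_mem_pow (Ideal.subset_span (Set.mem_range_self j)) _
  induction k with
  | zero => simp
  | succ k ih =>
    calc I ^ (q * (k + 1) + c) = I ^ (q * k) * I ^ (c + q) := by rw [← pow_add]; ring_nf
      _ ≤ I ^ (q * k) * (J * I ^ c) := mul_le_mul_right hstep _
      _ = J * I ^ (q * k + c) := by rw [pow_add]; ring
      _ ≤ J * J ^ k := mul_le_mul_right ih _
      _ = J ^ (k + 1) := (pow_succ' J k).symm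

/-- Koszul Euler characteristic of powers. -/
theorem kchi_pow {D : Type u} [CommRing D] [IsNoetherianRing D] {S : Type u} [CommRing S]
    [Algebra D S] [Module.Finite D S] {d : ℕ} (x : Fin d → S) (q : ℕ) (hq : 0 < q) (N : Type u)
    [AddCommGroup N] [Module S N] [Module D N] [IsScalarTower D S N] [Module.Finite S N]
    (hf : ∀ k, Module.length D (N ⧸ Ideal.span (Set.range x) ^ k • (⊤ : Submodule S N)) ≠ ⊤) :
    kchi D (fun j => x j ^ q) N = (q : ℤ) ^ d * kchi D x N := by
  set I := Ideal.span (Set.range x)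
  set J := Ideal.span (Set.range fun j => x j ^ q)
  have hJI : J ≤ I ^ q := Ideal.span_le.2 (by
    rintro _ ⟨j, rfl⟩
    exact Ideal.pow_mem_pow (Ideal.subset_span (Set.mem_range_self j)) q)
  have hle : ∀ {A A' : Ideal S}, A ≤ A' → Module.length D (N ⧸ A' • (⊤ : Submodule S N)) ≤
      Module.length D (N ⧸ A • (⊤ : Submodule S N)) := fun {A A'} h => by
    have hh : A • (⊤ : Submodule S N) ≤ A' • (⊤ : Submodule S N) :=
      Submodule.smul_le.2 fun r hr m hm => Submodule.smul_mem_smul (h hr) hm
    let f : (N ⧸ A • (⊤ : Submodule S N)) →ₗ[D] (N ⧸ A' • (⊤ : Submodule S N)) :=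
      (Submodule.factor hh).restrictScalars D
    exact Module.length_le_of_surjective f (Submodule.factor_surjective hh)
  have h1 : ∀ k, Module.length D (N ⧸ I ^ (q * k) • (⊤ : Submodule S N)) ≤
      Module.length D (N ⧸ J ^ k • (⊤ : Submodule S N)) := fun k =>
    hle ((Ideal.pow_right_mono hJI k).trans (by rw [← pow_mul]))
  have h2 : ∀ k, Module.length D (N ⧸ J ^ k • (⊤ : Submodule S N)) ≤
      Module.length D (N ⧸ I ^ (q * k + d * (q - 1)) • (⊤ : Submodule S N)) := fun k =>
    hle (pow_le_pow_pows x q hq k)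
  have hfJ : ∀ k, Module.length D (N ⧸ J ^ k • (⊤ : Submodule S N)) ≠ ⊤ := fun k =>
    ne_top_of_le_ne_top (hf _) (h2 k)
  have e1 := (koszul_tendsto (R := D) x N hf).2
  have e2 := (koszul_tendsto (R := D) (fun j => x j ^ q) N hfJ).2
  set l : ℕ → ℝ := fun k =>
    (d.factorial : ℝ) * (len D (N ⧸ I ^ k • (⊤ : Submodule S N)) : ℝ) / (k : ℝ) ^ d
  set e : ℝ := ((kchi D x N : ℤ) : ℝ)
  have hlim : ∀ s : ℕ, Tendsto (fun k : ℕ => (d.factorial : ℝ) *
      (len D (N ⧸ I ^ (q * k + s) • (⊤ : Submodule S N)) : ℝ) / (k : ℝ) ^ d) atTop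
      (𝓝 ((q : ℝ) ^ d * e)) := by
    intro s
    have hg : Tendsto (fun k : ℕ => q * k + s) atTop atTop :=
      tendsto_atTop_mono (fun k => (Nat.le_mul_of_pos_left k hq).trans (Nat.le_add_right _ _))
        tendsto_id
    have hr : Tendsto (fun k : ℕ => ((q * k + s : ℕ) : ℝ) / (k : ℝ)) atTop (𝓝 (q : ℝ)) := by
      have h0 : Tendsto (fun k : ℕ => (s : ℝ) / (k : ℝ)) atTop (𝓝 0) :=
        tendsto_const_div_atTop_nhds_zero_nat _
      refine Tendsto.congr' ?_ (by simpa using (tendsto_const_nhds (x := (q : ℝ))).add h0)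
      filter_upwards [eventually_ge_atTop 1] with k hk
      have : (0 : ℝ) < k := by exact_mod_cast hk
      push_cast
      field_simp
    have h3 := (hr.pow d).mul (e1.comp hg)
    refine (h3.congr' ?_).trans_eq ?_
    · filter_upwards [eventually_ge_atTop 1] with k hk
      have : (0 : ℝ) < k := by exact_mod_cast hk
      have hqk : (0 : ℝ) < ((q * k + s : ℕ) : ℝ) := by
        exact_mod_cast Nat.lt_of_lt_of_le (Nat.mul_pos hq (by omega)) (Nat.le_add_right _ _)
      simp only [Function.comp, div_pow, l]
      field_simp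
    · rfl
  have e3 : Tendsto (fun k : ℕ => (d.factorial : ℝ) *
      (len D (N ⧸ J ^ k • (⊤ : Submodule S N)) : ℝ) / (k : ℝ) ^ d) atTop
      (𝓝 ((q : ℝ) ^ d * e)) := by
    refine tendsto_of_tendsto_of_tendsto_of_le_of_le (hlim 0) (hlim (d * (q - 1)))
      (fun k => ?_) fun k => ?_
    · simp only [add_zero]
      gcongr
      exact_mod_cast ENat.toNat_le_toNat (h1 k) (hfJ k)
    · gcongr
      exact_mod_cast ENat.toNat_le_toNat (h2 k) (hf _)
  have e4 : ((kchi D (fun j => x j ^ q) N : ℤ) : ℝ) = (q : ℝ) ^ d * (kchi D x N : ℤ) :=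
    tendsto_nhds_unique e2 e3
  exact_mod_cast e4

section Domain

variable {E : Type u} [CommRing E] [IsNoetherianRing E] [IsLocalRing E] {B : Type u} [CommRing B]
  [Algebra E B] [Module.Finite E B] {d : ℕ} (y : Fin d → B)
  (hy : ∃ c, (maximalIdeal E).map (algebraMap E B) ^ c ≤ Ideal.span (Set.range y))

include hy

theorem quot_finLength (M : Type u) [AddCommGroup M] [Module B M] [Module E M]
    [IsScalarTower E B M] [Module.Finite B M] (k : ℕ) :
    Module.length E (M ⧸ Ideal.span (Set.range y) ^ k • (⊤ : Submodule B M)) ≠ ⊤ := by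
  obtain ⟨c, hc⟩ := hy
  have : Module.Finite E M := Module.Finite.trans B M
  refine length_ne_top_of_killed (N := c * k) fun r hr m => ?_
  obtain ⟨m, rfl⟩ := Submodule.mkQ_surjective _ m
  rw [Submodule.mkQ_apply, ← Submodule.Quotient.mk_smul, Submodule.Quotient.mk_eq_zero,
    algebra_compatible_smul B r m]
  refine Submodule.smul_mem_smul ?_ trivial
  refine (le_trans ?_ (Ideal.pow_right_mono hc k)) (Ideal.mem_map_of_mem _ hr)
  rw [← pow_mul, Ideal.map_pow]

theorem kfin (M : Type u) [AddCommGroup M] [Module B M] [Module E M] [IsScalarTower E B M]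
    [Module.Finite B M] (k : ℤ) : (koszulGC E y M).FinH ⊥ ⊤ k :=
  (koszul_tendsto y M (quot_finLength y hy M)).1 k

theorem kchi_exact {M₁ M₂ M₃ : Type u} [AddCommGroup M₁] [AddCommGroup M₂] [AddCommGroup M₃]
    [Module B M₁] [Module B M₂] [Module B M₃] [Module E M₁] [Module E M₂] [Module E M₃]
    [IsScalarTower E B M₁] [IsScalarTower E B M₂] [IsScalarTower E B M₃] [Module.Finite B M₁]
    [Module.Finite B M₃] (f : M₁ →ₗ[B] M₂) (g : M₂ →ₗ[B] M₃) (hf : Function.Injective f)
    (hg : Function.Surjective g) (he : Function.Exact f g) :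
    kchi E y M₂ = kchi E y M₁ + kchi E y M₃ :=
  (koszul_chi_exact y f g hf hg he (kfin y hy M₁) (kfin y hy M₃)).2

theorem kchi_subsingleton (M : Type u) [AddCommGroup M] [Module B M] [Module E M]
    [IsScalarTower E B M] [Subsingleton M] : kchi E y M = 0 := by
  have h := kchi_exact y hy (0 : M →ₗ[B] M) (0 : M →ₗ[B] M) (Function.injective_of_subsingleton _)
    (Function.surjective_to_subsingleton _) (fun z => ⟨fun _ => ⟨z, Subsingleton.elim _ _⟩,
      fun _ => Subsingleton.elim _ _⟩)
  omega

/-- Torsion modules have Euler characteristic zero. -/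
theorem kchi_torsion (hB : ∀ g : E, g ≠ 0 → ∀ b : B, g • b = 0 → b = 0) {g : E} (hg : g ≠ 0)
    (M : Type u) [AddCommGroup M] [Module B M] [Module E M] [IsScalarTower E B M]
    [Module.Finite B M] (hM : ∀ m : M, g • m = 0) : kchi E y M = 0 := by
  set I := Ideal.span (Set.range y)
  set G := Ideal.span {algebraMap E B g}
  have h0 : kchi E y (B ⧸ G) = 0 := by
    have hi : Function.Injective (LinearMap.lsmul B B (algebraMap E B g)) := by
      intro a b hab
      refine sub_eq_zero.1 (hB g hg _ ?_)
      simp only [LinearMap.lsmul_apply, smul_eq_mul] at hab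
      rw [Algebra.smul_def, mul_sub, hab, sub_self]
    have h := kchi_exact y hy (LinearMap.lsmul B B (algebraMap E B g)) G.mkQ hi
      (Submodule.mkQ_surjective _) (fun z => by
        rw [Submodule.mkQ_apply, Submodule.Quotient.mk_eq_zero, Ideal.mem_span_singleton']
        simp [mul_comm, eq_comm])
    omega
  obtain ⟨j, s, hs⟩ := Module.Finite.exists_fin (R := B) (M := M)
  have hbd : ∀ k, Module.length E (M ⧸ I ^ k • (⊤ : Submodule B M)) ≤
      j * Module.length E ((B ⧸ G) ⧸ I ^ k • (⊤ : Submodule B (B ⧸ G))) := by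
    intro k
    set U := I ^ k • (⊤ : Submodule B M)
    let q0 : Fin j → (B ⧸ G) →ₗ[B] M ⧸ U := fun i =>
      Submodule.liftQ G (U.mkQ ∘ₗ LinearMap.toSpanSingleton B M (s i)) fun b hb => by
        obtain ⟨a, rfl⟩ := Ideal.mem_span_singleton'.1 hb
        simp [mul_comm a, mul_smul, algebraMap_smul, hM]
    let q : (Fin j → (B ⧸ G) ⧸ I ^ k • (⊤ : Submodule B (B ⧸ G))) →ₗ[B] M ⧸ U :=
      ∑ i, Submodule.liftQ _ (q0 i) (Submodule.smul_le.2 fun r hr m _ => by
        rw [LinearMap.mem_ker, map_smul]
        obtain ⟨m', hm'⟩ := Submodule.mkQ_surjective U (q0 i m)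
        rw [← hm', ← map_smul, Submodule.mkQ_apply, Submodule.Quotient.mk_eq_zero]
        exact Submodule.smul_mem_smul hr trivial) ∘ₗ LinearMap.proj i
    have hq : Function.Surjective q := by
      intro z
      obtain ⟨m, rfl⟩ := Submodule.mkQ_surjective _ z
      have hm : m ∈ Submodule.span B (Set.range s) := hs ▸ trivial
      obtain ⟨a, rfl⟩ := (Submodule.mem_span_range_iff_exists_fun B).1 hm
      refine ⟨fun i => Submodule.Quotient.mk (Submodule.Quotient.mk (a i)), ?_⟩
      simp only [q, LinearMap.sum_apply, LinearMap.comp_apply, LinearMap.proj_apply,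
        Submodule.liftQ_apply, map_sum, map_smul, Submodule.mkQ_apply]
      refine Finset.sum_congr rfl fun i _ => ?_
      change U.mkQ (a i • s i) = _
      rw [map_smul, Submodule.mkQ_apply]
    refine (Module.length_le_of_surjective (q.restrictScalars E) hq).trans ?_
    simp [Module.length_pi_of_fintype]
  refine koszul_chi_zero y M (quot_finLength y hy M) ?_
  have hG := (koszul_tendsto (R := E) y (B ⧸ G) (quot_finLength y hy _)).2
  have hG0 : (koszulGC E y (B ⧸ G)).chi (Finset.Icc 0 (d : ℤ)) ⊥ ⊤ = 0 := h0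
  rw [hG0, Int.cast_zero] at hG
  have hG' := hG.const_mul ((j : ℝ) / d.factorial)
  rw [mul_zero] at hG'
  refine squeeze_zero (fun k => by positivity) (fun k => ?_) hG'
  have h1 : (len E (M ⧸ I ^ k • (⊤ : Submodule B M)) : ℝ) ≤
      j * (len E ((B ⧸ G) ⧸ I ^ k • (⊤ : Submodule B (B ⧸ G))) : ℝ) := by
    have := ENat.toNat_le_toNat (hbd k)
      (WithTop.mul_ne_top (ENat.natCast_ne_top _) (quot_finLength y hy _ k))
    rw [ENat.toNat_mul, ENat.toNat_natCast] at this
    exact_mod_cast this
  have hd0 : (d.factorial : ℝ) ≠ 0 := by positivity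
  calc _ ≤ (j : ℝ) * (len E ((B ⧸ G) ⧸ I ^ k • (⊤ : Submodule B (B ⧸ G))) : ℝ) / (k : ℝ) ^ d :=
        div_le_div_of_nonneg_right h1 (by positivity)
    _ = _ := by simp only [I]; field_simp

variable [IsDomain E] (hB : ∀ g : E, g ≠ 0 → ∀ b : B, g • b = 0 → b = 0)
include hB

/-- Proportionality to the rank, for modules supported on one generic prime. -/
theorem kchi_rank (a Q₀ : Ideal B) [Q₀.IsPrime] (hQ₀ : ∀ g : E, algebraMap E B g ∈ Q₀ → g = 0)
    (huniq : ∀ P : Ideal B, P.IsPrime → a ≤ P → (∀ g : E, algebraMap E B g ∈ P → g = 0) → Q₀ ≤ P)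
    (M : Type u) [AddCommGroup M] [Module B M] [hfin : Module.Finite B M]
    (ha : ∀ r ∈ a, ∀ m : M, r • m = 0) :
    ∀ [Module E M] [IsScalarTower E B M],
      kchi E y M * (Module.finrank E (B ⧸ Q₀) : ℤ) =
        (Module.finrank E M : ℤ) * kchi E y (B ⧸ Q₀) := by
  have : IsNoetherianRing B := IsNoetherianRing.of_finite E B
  revert ha
  induction hfin using IsNoetherianRing.induction_on_isQuotientEquivQuotientPrime B with
  | subsingleton N =>
    intro _ _ _
    rw [kchi_subsingleton y hy N, Module.finrank_zero_of_subsingleton (R := E) (M := N)]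
    simp
  | quotient N p e =>
    intro ha _ _
    have he : kchi E y N = kchi E y (B ⧸ p.1) :=
      kchi_congr y y (RingHom.id E) Function.surjective_id e.toAddEquiv
        (fun r m => by
          change e (r • m) = r • e m
          exact (e.restrictScalars E).map_smul r m) (fun i m => e.map_smul _ m)
    have hr : Module.finrank E N = Module.finrank E (B ⧸ p.1) :=
      (e.restrictScalars E).finrank_eq
    have hap : a ≤ p.1 := fun r hr' => by
      have := ha r hr' (e.symm (Submodule.Quotient.mk 1))
      rw [← map_smul, LinearEquiv.map_eq_zero_iff, ← Submodule.Quotient.mk_smul, smul_eq_mul,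
        mul_one, Submodule.Quotient.mk_eq_zero] at this
      exact this
    rw [he, hr]
    by_cases hp : ∀ g : E, algebraMap E B g ∈ p.1 → g = 0
    · have hpQ : Q₀ = p.1 := by
        refine le_antisymm (huniq p.1 p.2 hap hp) ?_
        by_contra hne
        have hlt : Q₀ < p.1 := lt_of_le_not_ge (huniq p.1 p.2 hap hp) hne
        have h1 := Ideal.IsIntegral.comap_lt_comap (R := E) hlt
        refine h1.ne (le_antisymm h1.le fun g hg => ?_)
        rw [Ideal.mem_comap, hp g hg, map_zero]
        exact zero_mem _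
      subst hpQ
      ring
    · simp only [not_forall] at hp
      obtain ⟨g, hg, hg0⟩ := hp
      have hk : ∀ m : B ⧸ p.1, g • m = 0 := fun m => by
        obtain ⟨m, rfl⟩ := Submodule.mkQ_surjective _ m
        rw [Submodule.mkQ_apply, ← Submodule.Quotient.mk_smul, Submodule.Quotient.mk_eq_zero,
          Algebra.smul_def]
        exact Ideal.mul_mem_right _ _ hg
      have : Module.Finite E (B ⧸ p.1) := Module.Finite.trans B _
      rw [kchi_torsion y hy hB hg0 (B ⧸ p.1) hk,
        Module.finrank_eq_zero_iff_isTorsion.2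
          (fun {m} => ⟨⟨g, mem_nonZeroDivisors_of_ne_zero hg0⟩, hk m⟩)]
      simp
  | exact N₁ N₂ N₃ f g hf hg he h1 h3 =>
    intro ha _ _
    let _ : Module E N₁ := Module.compHom N₁ (algebraMap E B)
    let _ : Module E N₃ := Module.compHom N₃ (algebraMap E B)
    have : IsScalarTower E B N₁ := IsScalarTower.of_algebraMap_smul fun _ _ => rfl
    have : IsScalarTower E B N₃ := IsScalarTower.of_algebraMap_smul fun _ _ => rfl
    have a1 : ∀ r ∈ a, ∀ m : N₁, r • m = 0 := fun r hr m =>
      hf (by rw [map_smul, map_zero]; exact ha r hr _)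
    have a3 : ∀ r ∈ a, ∀ m : N₃, r • m = 0 := fun r hr m => by
      obtain ⟨m, rfl⟩ := hg m
      rw [← map_smul, ha r hr m, map_zero]
    have : Module.Finite E N₁ := Module.Finite.trans B _
    have : Module.Finite E N₂ := Module.Finite.trans B _
    have : Module.Finite E N₃ := Module.Finite.trans B _
    have hr : Module.finrank E N₂ = Module.finrank E N₁ + Module.finrank E N₃ := by
      set f' := f.restrictScalars E
      set g' := g.restrictScalars E
      have h4 := Submodule.finrank_quotient_add_finrank (LinearMap.ker g')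
      rw [(g'.quotKerEquivOfSurjective hg).finrank_eq] at h4
      have h5 : LinearMap.ker g' = LinearMap.range f' := by
        ext z
        exact he z
      rw [h5, ← (LinearEquiv.ofInjective f' hf).finrank_eq] at h4
      omega
    rw [kchi_exact y hy f g hf hg he, hr]
    push_cast
    linear_combination h1 a1 + h3 a3

end Domain

end Vale.Agent.P202.Char
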