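import Vale.Agent.P202.Char.Stage2Dim

/-!
P202 stage 2: a prime of `K[[U, W]]` that is finite over `K[[U]]` and meets it in zero has as many
generators, after localising, as there are variables `W`.
-/

namespace Vale.Agent.P202.Char

open IsLocalRing

universe u

namespace Gen

/-- A proper ideal with a given finite number of generators can be padded. -/
theorem exists_generators {A : Type u} [CommRing A] {I : Ideal A} (hI : I.FG) {h : ℕ}
    (hh : I.spanFinrank ≤ h) : ∃ g : Fin h → A, I = Ideal.span (Set.range g) := by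
  have hfin := Submodule.FG.finite_generators hI
  have hcard : hfin.toFinset.card ≤ h := by
    rw [← Set.ncard_eq_toFinset_card _ hfin, Submodule.FG.generators_ncard hI]
    exact hh
  obtain ⟨k, hk⟩ := Nat.exists_eq_add_of_le hcard
  subst hk
  refine ⟨Fin.append (fun i => ((hfin.toFinset.equivFin.symm i : hfin.toFinset) : A)) fun _ => 0,
    le_antisymm ?_ (Ideal.span_le.2 ?_)⟩
  · conv_lhs => rw [← Submodule.span_generators I]
    refine Submodule.span_le.2 fun x hx => Ideal.subset_span ?_
    refine ⟨Fin.castAdd k (hfin.toFinset.equivFin ⟨x, hfin.mem_toFinset.2 hx⟩), ?_⟩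
    simp
  · rintro _ ⟨i, rfl⟩
    induction i using Fin.addCases with
    | left i =>
      rw [Fin.append_left]
      have h2 := hfin.mem_toFinset.1 (hfin.toFinset.equivFin.symm i).2
      exact (Submodule.span_generators I).le (Submodule.subset_span h2)
    | right i => simp

variable {K : Type u} [Field K] {r h : ℕ}

/-- The maximal ideal at a prime of a polynomial ring over a field needs few generators. -/
theorem spanFinrank_le {F : Type u} [Field F] (p : Ideal (MvPolynomial (Fin h) F)) [p.IsPrime] :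
    (maximalIdeal (Localization.AtPrime p)).spanFinrank ≤ h := by
  have h1 : ringKrullDim (Localization.AtPrime p) ≤ ringKrullDim (MvPolynomial (Fin h) F) := by
    rw [IsLocalization.AtPrime.ringKrullDim_eq_height p (Localization.AtPrime p)]
    exact Ideal.height_le_ringKrullDim_of_ne_top (Ideal.IsPrime.ne_top inferInstance)
  rw [← IsRegularLocalRing.spanFinrank_maximalIdeal,
    MvPolynomial.ringKrullDim_of_isNoetherianRing, ringKrullDim_eq_zero_of_field, zero_add,
    Nat.card_fin] at h1
  exact_mod_cast h1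

variable (ι : MvPowerSeries (Fin r) K →+* MvPowerSeries (Fin (r + h)) K)

/-- Polynomials in the last variables over the power series in the first ones. -/
noncomputable def α : MvPolynomial (Fin h) (MvPowerSeries (Fin r) K) →+*
    MvPowerSeries (Fin (r + h)) K :=
  MvPolynomial.eval₂Hom ι fun j => MvPowerSeries.X (Fin.natAdd r j)

variable {ι}

theorem coe_mem_range (hι : ∀ i, ι (MvPowerSeries.X i) = MvPowerSeries.X (Fin.castAdd h i))
    (hιC : ∀ c, ι (MvPowerSeries.C c) = MvPowerSeries.C c) (f : MvPolynomial (Fin (r + h)) K) :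
    (f : MvPowerSeries (Fin (r + h)) K) ∈ Set.range (α ι) := by
  induction f using MvPolynomial.induction_on with
  | C a => exact ⟨MvPolynomial.C (MvPowerSeries.C a), by simp [α, hιC]⟩
  | add f g hf hg =>
    obtain ⟨a, ha⟩ := hf
    obtain ⟨b, hb⟩ := hg
    exact ⟨a + b, by rw [map_add, ha, hb, MvPolynomial.coe_add]⟩
  | mul_X f i hf =>
    obtain ⟨a, ha⟩ := hf
    induction i using Fin.addCases with
    | left i =>
      refine ⟨a * MvPolynomial.C (MvPowerSeries.X i), ?_⟩
      rw [map_mul, ha, MvPolynomial.coe_mul, MvPolynomial.coe_X]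
      simp [α, hι]
    | right i =>
      refine ⟨a * MvPolynomial.X i, ?_⟩
      rw [map_mul, ha, MvPolynomial.coe_mul, MvPolynomial.coe_X]
      simp [α]

/-- A power of a variable lies in any ideal containing a monic relation of it and the first
variables. -/
theorem exists_pow_mem (hι : ∀ i, ι (MvPowerSeries.X i) = MvPowerSeries.X (Fin.castAdd h i))
    (hιC : ∀ c, ι (MvPowerSeries.C c) = MvPowerSeries.C c)
    {I : Ideal (MvPowerSeries (Fin (r + h)) K)}
    (hU : ∀ i, MvPowerSeries.X (Fin.castAdd h i) ∈ I) {P : Polynomial (MvPowerSeries (Fin r) K)}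
    (hP : P.Monic) (i : Fin h) (hPI : P.eval₂ ι (MvPowerSeries.X (Fin.natAdd r i)) ∈ I) :
    ∃ s, (MvPowerSeries.X (Fin.natAdd r i) : MvPowerSeries (Fin (r + h)) K) ^ s ∈ I := by
  set C := MvPowerSeries (Fin (r + h)) K
  set W : C := MvPowerSeries.X (Fin.natAdd r i)
  set P₀ : Polynomial K := P.map MvPowerSeries.constantCoeff with hP₀
  have hP0 : P₀ ≠ 0 := (hP.map _).ne_zero
  have hcong : ∀ v : MvPowerSeries (Fin r) K,
      Ideal.Quotient.mk I (ι v) =
        Ideal.Quotient.mk I (MvPowerSeries.C (MvPowerSeries.constantCoeff v)) := fun v => by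
    have hv : v - MvPowerSeries.C (MvPowerSeries.constantCoeff v) ∈
        maximalIdeal (MvPowerSeries (Fin r) K) :=
      (mem_maximalIdeal _).2 fun hu => by
        simpa using (MvPowerSeries.isUnit_iff_constantCoeff.1 hu).ne_zero
    rw [Stage2.maximalIdeal_ps] at hv
    have := Ideal.mem_map_of_mem ι hv
    rw [Ideal.map_span, map_sub, hιC] at this
    refine Ideal.Quotient.eq.2 (Ideal.span_le.2 ?_ this)
    rintro _ ⟨_, ⟨j, rfl⟩, rfl⟩
    rw [hι]
    exact hU j
  have h0 : P₀.eval₂ (MvPowerSeries.C : K →+* C) W ∈ I := by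
    rw [← Ideal.Quotient.eq_zero_iff_mem, Polynomial.hom_eval₂]
    rw [← Ideal.Quotient.eq_zero_iff_mem, Polynomial.hom_eval₂] at hPI
    rw [hP₀, Polynomial.eval₂_map, ← hPI]
    exact congrArg (fun f => Polynomial.eval₂ f _ P) (RingHom.ext fun v => (hcong v).symm)
  obtain ⟨s, Q, hPQ, hQ⟩ : ∃ (s : ℕ) (Q : Polynomial K),
      P₀ = Polynomial.X ^ s * Q ∧ Q.coeff 0 ≠ 0 := by
    obtain ⟨Q, hQ, hQ'⟩ := Polynomial.exists_eq_pow_rootMultiplicity_mul_and_not_dvd P₀ hP0 0
    refine ⟨_, Q, by simpa using hQ, ?_⟩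
    simpa [Polynomial.X_dvd_iff] using hQ'
  refine ⟨s, ?_⟩
  rw [hPQ, Polynomial.eval₂_mul, Polynomial.eval₂_X_pow] at h0
  refine (Ideal.unit_mul_mem_iff_mem I
    (x := W ^ s) (y := Q.eval₂ MvPowerSeries.C W) ?_).1 (mul_comm (W ^ s) _ ▸ h0)
  rw [MvPowerSeries.isUnit_iff_constantCoeff, Polynomial.hom_eval₂]
  simp only [W, MvPowerSeries.constantCoeff_X]
  rw [Polynomial.eval₂_at_zero]
  simpa using hQ

end Gen

open Gen

/-- Generators of a prime finite over the first variables. -/
theorem exists_prime_generators (K : Type u) [Field K] (r h : ℕ)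
    (q : Ideal (MvPowerSeries (Fin (r + h)) K)) [q.IsPrime]
    (ι : MvPowerSeries (Fin r) K →+* MvPowerSeries (Fin (r + h)) K)
    (hι : ∀ i, ι (MvPowerSeries.X i) = MvPowerSeries.X (Fin.castAdd h i))
    (hιC : ∀ c, ι (MvPowerSeries.C c) = MvPowerSeries.C c)
    (hfin : ((Ideal.Quotient.mk q).comp ι).Finite)
    (hinj : q.comap ι = ⊥) :
    ∃ g : Fin h → Localization.AtPrime q,
      maximalIdeal (Localization.AtPrime q) = Ideal.span (Set.range g) := by
  classical
  set V := MvPowerSeries (Fin r) K
  set C := MvPowerSeries (Fin (r + h)) K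
  have : IsDomain V := NoZeroDivisors.to_isDomain _
  -- monic relations of the last variables
  have hrel : ∀ j : Fin h, ∃ P : Polynomial V, P.Monic ∧
      P.eval₂ ι (MvPowerSeries.X (Fin.natAdd r j)) ∈ q := fun j => by
    obtain ⟨P, hP, h0⟩ :=
      hfin.to_isIntegral (Ideal.Quotient.mk q (MvPowerSeries.X (Fin.natAdd r j)))
    exact ⟨P, hP, Ideal.Quotient.eq_zero_iff_mem.1 (by rw [Polynomial.hom_eval₂]; exact h0)⟩
  choose P hPm hPq using hrel
  set γ : Fin h → MvPolynomial (Fin h) V :=
    fun j => Polynomial.eval₂ MvPolynomial.C (MvPolynomial.X j) (P j)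
  have hαγ : ∀ j, α ι (γ j) = (P j).eval₂ ι (MvPowerSeries.X (Fin.natAdd r j)) := fun j => by
    simp only [γ, α, Polynomial.hom_eval₂, MvPolynomial.eval₂Hom_X']
    congr 1
    exact RingHom.ext fun v => MvPolynomial.eval₂Hom_C _ _ v
  set G : Ideal C := Ideal.span (Set.range fun j => α ι (γ j))
  have hGq : G ≤ q := Ideal.span_le.2 (by rintro _ ⟨j, rfl⟩; show α ι (γ j) ∈ q; rw [hαγ]; exact hPq j)
  set q₀ := q.comap (α ι)
  have hG₀ : G ≤ q₀.map (α ι) := Ideal.span_le.2 (by
    rintro _ ⟨j, rfl⟩
    exact Ideal.mem_map_of_mem _ (show α ι (γ j) ∈ q by rw [hαγ]; exact hPq j))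
  -- the quotient by the relations is finite over the first variables
  have hGne : G ≠ ⊤ := fun h => Ideal.IsPrime.ne_top' (I := q) (top_le_iff.1 (h ▸ hGq))
  have : Nontrivial (C ⧸ G) := Ideal.Quotient.nontrivial_iff.2 hGne
  have : IsLocalRing (C ⧸ G) :=
    IsLocalRing.of_surjective' (Ideal.Quotient.mk G) Ideal.Quotient.mk_surjective
  have hmax : (maximalIdeal C).map (Ideal.Quotient.mk G) = maximalIdeal (C ⧸ G) :=
    IsLocalRing.eq_maximalIdeal (Ideal.IsMaximal.map_of_surjective_of_ker_le
      Ideal.Quotient.mk_surjective (Ideal.mk_ker.trans_le (le_maximalIdeal hGne)))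
  set U : Ideal C := Ideal.span (Set.range fun i => ι (MvPowerSeries.X i))
  obtain ⟨c, hc⟩ : ∃ c, maximalIdeal C ^ c ≤ G ⊔ U := by
    refine Ideal.exists_pow_le_of_le_radical_of_fg ?_ (IsNoetherian.noetherian _)
    rw [Stage2.maximalIdeal_ps, Ideal.span_le]
    have hU : ∀ i, MvPowerSeries.X (Fin.castAdd h i) ∈ G ⊔ U := fun i =>
      Ideal.mem_sup_right (Ideal.subset_span ⟨i, hι i⟩)
    rintro _ ⟨i, rfl⟩
    induction i using Fin.addCases with
    | left i => exact Ideal.le_radical (hU i)
    | right i =>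
      exact exists_pow_mem hι hιC hU (hPm i) i
        (Ideal.mem_sup_left (hαγ i ▸ Ideal.subset_span ⟨i, rfl⟩))
  set f : V →+* C ⧸ G := (Ideal.Quotient.mk G).comp ι with hf
  have hfin' : f.Finite := by
    refine Stage2.finite_of_param (c := c) f (fun i => ?_) ?_ ?_
    · rw [hf, RingHom.comp_apply, hι, ← hmax]
      refine Ideal.mem_map_of_mem _ ?_
      rw [Stage2.maximalIdeal_ps]
      exact Ideal.subset_span ⟨_, rfl⟩
    · refine RingHom.Finite.of_surjective _ fun x => ?_
      obtain ⟨y, rfl⟩ := residue_surjective x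
      obtain ⟨z, rfl⟩ := Ideal.Quotient.mk_surjective y
      refine ⟨MvPowerSeries.constantCoeff z, ?_⟩
      rw [RingHom.comp_apply, RingHom.comp_apply, hf, RingHom.comp_apply, hιC]
      refine Ideal.Quotient.eq.2 ?_
      rw [← map_sub, ← hmax]
      exact Ideal.mem_map_of_mem _ ((mem_maximalIdeal _).2 fun hu => by
        simpa using (MvPowerSeries.isUnit_iff_constantCoeff.1 hu).ne_zero)
    · rw [← hmax, ← Ideal.map_pow]
      refine (Ideal.map_mono hc).trans (le_of_eq ?_)
      rw [Ideal.map_sup, Ideal.map_quotient_self, bot_sup_eq, Ideal.map_span, ← Set.range_comp]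
      rfl
  let : Algebra V (C ⧸ G) := f.toAlgebra
  have : Module.Finite V (C ⧸ G) := hfin'
  let β : MvPolynomial (Fin h) V →ₐ[V] C ⧸ G :=
    { (Ideal.Quotient.mk G).comp (α ι) with
      commutes' := fun v => congrArg (Ideal.Quotient.mk G) (MvPolynomial.eval₂Hom_C _ _ v) }
  have hβ : (⊤ : Submodule V (C ⧸ G)) ≤ LinearMap.range β.toLinearMap := by
    refine Submodule.le_of_le_smul_of_le_jacobson_bot Module.Finite.fg_top
      (IsLocalRing.maximalIdeal_le_jacobson ⊥) fun y _ => ?_
    obtain ⟨x, rfl⟩ := Ideal.Quotient.mk_surjective y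
    set e := MvPowerSeries.toAdicCompletionAlgEquiv (Fin (r + h)) K
    have htail : x - (MvPowerSeries.truncTotal c x : MvPowerSeries (Fin (r + h)) K) ∈
        maximalIdeal C ^ c := by
      have hm : IsAdicComplete (maximalIdeal C) C :=
        Stage2.maximalIdeal_ps (L := K) (r := r + h) ▸ inferInstance
      have hX : ∀ i, (MvPowerSeries.X i : C) ∈ maximalIdeal C := fun i => by
        rw [Stage2.maximalIdeal_ps]; exact Ideal.subset_span ⟨i, rfl⟩
      have h1 := EvalPS.eval_sub_mem (MvPowerSeries.C : K →+* C)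
        (fun i => MvPowerSeries.X i) hX x c
      have hid : ∀ p : MvPolynomial (Fin (r + h)) K,
          MvPolynomial.eval₂Hom (MvPowerSeries.C : K →+* C) (fun i => MvPowerSeries.X i) p =
            (p : C) := fun p => by
        have e := RingHom.congr_fun (MvPolynomial.ringHom_ext
          (f := MvPolynomial.eval₂Hom (MvPowerSeries.C : K →+* C) fun i => MvPowerSeries.X i)
          (g := MvPolynomial.coeToMvPowerSeries.ringHom)
          (fun a => by simp) (fun i => by simp)) p
        simpa using e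
      have hev : EvalPS.eval (MvPowerSeries.C : K →+* C) (fun i => MvPowerSeries.X i) hX x = x := by
        refine sub_eq_zero.1 (IsHausdorff.haus' (I := maximalIdeal C) _ fun k => ?_)
        rw [SModEq.zero, smul_eq_mul, Ideal.mul_top]
        have h2 := EvalPS.eval_sub_mem (MvPowerSeries.C : K →+* C)
          (fun i => MvPowerSeries.X i) hX x k
        rw [hid] at h2
        have h3 : (MvPowerSeries.truncTotal k x : C) - x ∈ maximalIdeal C ^ k := by
          rw [Stage2.maximalIdeal_ps]
          exact Stage2.sub_trunc_mem x k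
        have := add_mem h2 h3
        rwa [sub_add_sub_cancel] at this
      rwa [hev, hid] at h1
    obtain ⟨a, ha⟩ := coe_mem_range hι hιC (MvPowerSeries.truncTotal c x)
    refine Submodule.mem_sup.2 ⟨β a, ⟨a, rfl⟩, Ideal.Quotient.mk G x - β a, ?_, by abel⟩
    rw [Ideal.smul_top_eq_map, Submodule.restrictScalars_mem, Stage2.maximalIdeal_ps,
      Ideal.map_span, ← Set.range_comp]
    have hsub : Ideal.Quotient.mk G x - β a =
        Ideal.Quotient.mk G (x - (MvPowerSeries.truncTotal c x : C)) := by
      rw [map_sub, ← ha]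
      rfl
    rw [hsub]
    have h4 := Ideal.mem_map_of_mem (Ideal.Quotient.mk G) (hc htail)
    rw [Ideal.map_sup, Ideal.map_quotient_self, bot_sup_eq, Ideal.map_span, ← Set.range_comp] at h4
    exact h4
  have hqmap : q ≤ q₀.map (α ι) := by
    intro x hx
    obtain ⟨a, ha⟩ := hβ (x := Ideal.Quotient.mk G x) trivial
    have h1 : α ι a - x ∈ G := Ideal.Quotient.eq.1 ha
    have h2 : α ι a ∈ q := by simpa using add_mem (hGq h1) hx
    have := sub_mem (Ideal.mem_map_of_mem (α ι) (show a ∈ q₀ from h2)) (hG₀ h1)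
    simpa using this
  -- through the rational functions of the first variables
  set Cq := Localization.AtPrime q
  have hunit : ∀ v : nonZeroDivisors V, IsUnit ((algebraMap C Cq).comp ι v) := fun v => by
    refine IsLocalization.map_units Cq (M := q.primeCompl) ⟨ι v, fun hv => ?_⟩
    have : (v : V) ∈ q.comap ι := hv
    rw [hinj, Submodule.mem_bot] at this
    exact nonZeroDivisors.ne_zero v.2 this
  set F := FractionRing V
  set κ : F →+* Cq := IsLocalization.lift hunit
  set ψ : MvPolynomial (Fin h) F →+* Cq :=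
    MvPolynomial.eval₂Hom κ fun j => algebraMap C Cq (MvPowerSeries.X (Fin.natAdd r j))
  set p := (maximalIdeal Cq).comap ψ
  have hunit' : ∀ s : p.primeCompl, IsUnit (ψ s) := fun s => of_not_not fun hs =>
    s.2 ((mem_maximalIdeal _).2 hs)
  set lam : Localization.AtPrime p →+* Cq := IsLocalization.lift hunit'
  have hψ : ∀ a, ψ (MvPolynomial.map (algebraMap V F) a) = algebraMap C Cq (α ι a) := by
    intro a
    refine RingHom.congr_fun (f := ψ.comp (MvPolynomial.map (algebraMap V F)))
      (g := (algebraMap C Cq).comp (α ι)) (MvPolynomial.ringHom_ext (fun v => ?_) fun j => ?_) a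
    · simp [ψ, α, κ, IsLocalization.lift_eq]
    · simp [ψ, α]
  have hlam : maximalIdeal Cq = (maximalIdeal (Localization.AtPrime p)).map lam := by
    refine le_antisymm ?_ (Ideal.map_le_iff_le_comap.2 fun z hz => ?_)
    · refine Localization.AtPrime.map_eq_maximalIdeal.ge.trans ?_
      refine Ideal.map_le_iff_le_comap.2 fun x hx => ?_
      refine (Ideal.map_le_iff_le_comap.2 ?_ : q₀.map (α ι) ≤
        ((maximalIdeal (Localization.AtPrime p)).map lam).comap (algebraMap C Cq)) (hqmap hx)
      intro a ha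
      rw [Ideal.mem_comap, Ideal.mem_comap, ← hψ]
      have hap : MvPolynomial.map (algebraMap V F) a ∈ p := by
        rw [Ideal.mem_comap, hψ, IsLocalization.AtPrime.to_map_mem_maximal_iff Cq q]
        exact ha
      have := Ideal.mem_map_of_mem lam
        ((IsLocalization.AtPrime.to_map_mem_maximal_iff (Localization.AtPrime p) p _).2 hap)
      rwa [IsLocalization.lift_eq (S := Localization.AtPrime p) hunit'] at this
    · obtain ⟨⟨a, s⟩, he⟩ := IsLocalization.surj p.primeCompl z
      rw [Ideal.mem_comap]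
      refine (Ideal.mul_unit_mem_iff_mem _ (hunit' s)).1 ?_
      rw [← IsLocalization.lift_eq (S := Localization.AtPrime p) hunit'
        (s : MvPolynomial (Fin h) F), ← map_mul, he,
        IsLocalization.lift_eq (S := Localization.AtPrime p) hunit']
      exact (IsLocalization.AtPrime.to_map_mem_maximal_iff (Localization.AtPrime p) p a).1
        (he ▸ Ideal.mul_mem_right _ _ hz)
  obtain ⟨g, hg⟩ := exists_generators (IsNoetherian.noetherian _) (spanFinrank_le p)
  exact ⟨lam ∘ g, hlam.trans (by rw [hg, Ideal.map_span, Set.range_comp])⟩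

end Vale.Agent.P202.Char
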