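import Vale.Agent.P202.Char.Acts

/-!
P202, Lech in characteristic `p`: reduction of slices of the extended Rees algebra to slices of
the associated graded ring (coefficients modulo the maximal ideal, components with `s = 0`).
-/

namespace Vale.Agent.P202.Char

universe u v w

open IsLocalRing

section General

variable {Z : Type u} [CommRing Z] {n : ℕ} {ι : Type w} (lam : Fin (n + 1) → Z)

theorem inBox_zero_add {a : Fin n → ℤ} : ((fun _ => 0) + a : Fin n → ℤ) = a := by
  ext; simp

/-- Multiplying by the image of a polynomial keeps a chart. -/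
theorem box_rho {a : Fin n → ℤ} {ε : Chart n} (f : MvPolynomial (Fin (n + 1)) Z) {ν : Lau Z n}
    (hν : ∀ e ∈ ν.coeff.support, InBox a ε e) :
    ∀ e ∈ (rho lam f * ν).coeff.support, InBox a ε e := by
  classical
  induction f using MvPolynomial.induction_on' with
  | monomial c r =>
    intro e he
    obtain ⟨e₁, h1, e₂, h2, rfl⟩ :=
      Finset.mem_add.1 ((AddMonoidAlgebra.support_coeff_mul_subset _ _) he)
    have h := (lauMem_rho lam ε (MvPolynomial.monomial c r) (c.sum fun _ v => (v : ℤ))
      (fun d hd => by rw [Finset.mem_singleton.1 (MvPolynomial.support_monomial_subset hd)])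
      e₁ h1).1.add (hν e₂ h2)
    rwa [inBox_zero_add] at h
  | add p q hp hq =>
    intro e he
    rw [map_add, add_mul, AddMonoidAlgebra.coeff_add] at he
    rcases Finset.mem_union.1 (Finsupp.support_add he) with h | h
    · exact hp e h
    · exact hq e h

/-- Relation slices of a set of homogeneous tuples see the submodule it spans. -/
theorem relSlice_span_eq {a : Fin n → ℤ} {ε : Chart n} {δ : ι → ℤ}
    {K : Set (ι →₀ MvPolynomial (Fin (n + 1)) Z)} (hK : ∀ p ∈ K, ∃ D, IsHomog δ p D) (N : ℤ) :
    relSlice lam a ε δ (Submodule.span (MvPolynomial (Fin (n + 1)) Z) K : Set _) N =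
      relSlice lam a ε δ K N := by
  classical
  refine le_antisymm (Submodule.span_le.2 ?_) (Submodule.span_mono ?_)
  swap
  · rintro x ⟨p, hp, rest⟩
    exact ⟨p, Submodule.subset_span hp, rest⟩
  let P : Tot Z n ι → Tot Z n ι := Finsupp.filter fun x => δ x.1 + x.2.2 = N
  have key : ∀ p ∈ Submodule.span (MvPolynomial (Fin (n + 1)) Z) K, ∀ ν : Lau Z n,
      (∀ e ∈ ν.coeff.support, InBox a ε e) → P (emb lam p ν) ∈ relSlice lam a ε δ K N := by
    intro p hp
    induction hp using Submodule.span_induction with
    | zero => intro ν _; simp [P, emb_zero_left, Finsupp.filter_zero]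
    | add x y _ _ hx hy =>
      intro ν hν
      rw [emb_add_left]
      simp only [P, Finsupp.filter_add]
      exact Submodule.add_mem _ (hx ν hν) (hy ν hν)
    | smul f x _ hx =>
      intro ν hν
      rw [emb_smul_left]
      exact hx _ (box_rho lam f hν)
    | mem p hp =>
      obtain ⟨D, hD⟩ := hK p hp
      intro ν hν
      rw [← AddMonoidAlgebra.sum_coeff_single ν, Finsupp.sum]
      refine Finset.sum_induction _
        (fun μ => P (emb lam p μ) ∈ relSlice lam a ε δ K N) (fun μ μ' hμ hμ' => ?_) ?_ ?_
      · simp only [P, emb_add_right, Finsupp.filter_add] at hμ hμ' ⊢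
        exact Submodule.add_mem _ hμ hμ'
      · simp [P, emb_zero_right, Finsupp.filter_zero]
      intro e he
      have hmem := emb_mem lam hD (lauMem_single (m := e.2) (ν.coeff e) (hν e he) rfl) rfl
      rw [freeSlice, Finsupp.mem_supported] at hmem
      simp only [P]
      by_cases hN : D + e.2 = N
      · rw [Finsupp.filter_eq_self_iff _ _ |>.2 fun x hx =>
          (hmem (Finsupp.mem_support_iff.2 hx)).2.trans hN]
        exact emb_mem_rel lam hp hD (lauMem_single _ (hν e he) rfl) hN
      · rw [Finsupp.filter_eq_zero_iff _ _ |>.2 fun x hx => by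
          by_contra h
          exact hN ((hmem (Finsupp.mem_support_iff.2 h)).2.symm.trans hx)]
        exact Submodule.zero_mem _
  rintro x ⟨p, hp, D, e, hD, he, hN, rfl⟩
  have hmem := emb_mem lam hD (lauMem_single (m := e.2) (1 : Z) he rfl) hN
  rw [freeSlice, Finsupp.mem_supported] at hmem
  have h := key p hp (AddMonoidAlgebra.single e 1) fun f hf => by
    rw [AddMonoidAlgebra.coeff_single] at hf
    rw [Finset.mem_singleton.1 (Finsupp.support_single_subset hf)]
    exact he
  simp only [P] at h
  rwa [Finsupp.filter_eq_self_iff _ _ |>.2 fun x hx =>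
    (hmem (Finsupp.mem_support_iff.2 hx)).2] at h

end General

namespace RedData

variable {R : Type u} [CommRing R] [IsLocalRing R] {n : ℕ} (Z : RedData R n)

/-- Reduction of slices: keep `s = 0`, reduce the coefficients. -/
noncomputable def redTot : Tot R n Z.Idx →ₗ[R] Tot (ResidueField R) n Z.ι :=
  Finsupp.lsum R fun x : Z.Idx × Expo n =>
    if x.1.2 = 0 then Finsupp.lsingle (x.1.1, x.2) ∘ₗ Algebra.linearMap R (ResidueField R) else 0

/-- Reduction of tuples: keep `s = 0`, reduce the coefficients. -/
noncomputable def redTup : (Z.Idx →₀ MvPolynomial (Fin (n + 1)) R) →+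
    (Z.ι →₀ MvPolynomial (Fin (n + 1)) (ResidueField R)) :=
  Finsupp.liftAddHom fun x : Z.Idx =>
    if x.2 = 0 then (Finsupp.singleAddHom x.1).comp
      (MvPolynomial.map (residue R)).toAddMonoidHom else 0

/-- Reduction of Laurent polynomials. -/
noncomputable def redLau (R : Type u) [CommRing R] [IsLocalRing R] (n : ℕ) :
    Lau R n →+* Lau (ResidueField R) n :=
  AddMonoidAlgebra.mapRingHom (Expo n) (residue R)

theorem redTot_single (i : Z.ι) (s : ℕ) (e : Expo n) (r : R) :
    Z.redTot (Finsupp.single ((i, s), e) r) =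
      if s = 0 then Finsupp.single (i, e) (residue R r) else 0 := by
  rw [redTot, Finsupp.lsum_single]
  split_ifs <;> simp

theorem redTup_single (i : Z.ι) (s : ℕ) (f : MvPolynomial (Fin (n + 1)) R) :
    Z.redTup (Finsupp.single (i, s) f) =
      if s = 0 then Finsupp.single i (MvPolynomial.map (residue R) f) else 0 := by
  rw [redTup, Finsupp.liftAddHom_apply_single]
  split_ifs <;> simp

theorem redTot_apply (x : Tot R n Z.Idx) (i : Z.ι) (e : Expo n) :
    Z.redTot x (i, e) = residue R (x ((i, 0), e)) := by
  classical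
  induction x using Finsupp.induction_linear with
  | zero => simp
  | add y z hy hz => simp [map_add, hy, hz]
  | single y r =>
    obtain ⟨⟨j, s⟩, f⟩ := y
    rw [redTot_single]
    rcases eq_or_ne s 0 with rfl | hs
    · by_cases h : j = i ∧ f = e
      · obtain ⟨rfl, rfl⟩ := h; simp
      · simp [Finsupp.single_apply, Prod.ext_iff, apply_ite (residue R)]
    · simp [Prod.ext_iff, hs]

theorem redTup_apply (p : Z.Idx →₀ MvPolynomial (Fin (n + 1)) R) (i : Z.ι) :
    Z.redTup p i = MvPolynomial.map (residue R) (p (i, 0)) := by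
  classical
  induction p using Finsupp.induction_linear with
  | zero => simp
  | add y z hy hz => simp [map_add, hy, hz]
  | single y r =>
    obtain ⟨j, s⟩ := y
    rw [redTup_single]
    rcases eq_or_ne s 0 with rfl | hs
    · by_cases h : j = i
      · subst h; simp
      · simp [h]
    · simp [hs]

theorem redLau_single (e : Expo n) (r : R) :
    redLau R n (AddMonoidAlgebra.single e r) = AddMonoidAlgebra.single e (residue R r) := by
  simp [redLau]

theorem redTot_inComp (i : Z.ι) (s : ℕ) (ν : Lau R n) :
    Z.redTot (inComp (i, s) ν) = if s = 0 then inComp i (redLau R n ν) else 0 := by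
  induction ν using lau_induction with
  | h0 => simp
  | hadd a b ha hb => rw [map_add, map_add, ha, hb]; split_ifs <;> simp [map_add]
  | hs e r =>
    rw [AddMonoidAlgebra.smul_single, smul_eq_mul, mul_one, inComp_single, redTot_single,
      redLau_single, inComp_single]

variable {Z} (lam : Fin (n + 1) → R)

/-- The residues of the `lam`. -/
noncomputable abbrev resLam : Fin (n + 1) → ResidueField R := fun k => residue R (lam k)

theorem redLau_rho (f : MvPolynomial (Fin (n + 1)) R) :
    redLau R n (rho lam f) = rho (resLam lam) (MvPolynomial.map (residue R) f) := by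
  induction f using MvPolynomial.induction_on with
  | C r => simp [rho, AddMonoidAlgebra.coe_algebraMap, redLau]
  | add p q hp hq => simp [map_add, hp, hq]
  | mul_X p k hp =>
    rw [map_mul, map_mul, map_mul, map_mul, hp]
    congr 1
    simp [rho, yImg, redLau, map_prod, map_add]

theorem redTot_emb (p : Z.Idx →₀ MvPolynomial (Fin (n + 1)) R) (μ : Lau R n) :
    Z.redTot (emb lam p μ) = emb (resLam lam) (Z.redTup p) (redLau R n μ) := by
  induction p using Finsupp.induction_linear with
  | zero => simp [emb_zero_left]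
  | add y z hy hz => rw [emb_add_left, map_add, map_add, hy, hz, emb_add_left]
  | single y f =>
    obtain ⟨i, s⟩ := y
    rw [emb_single, redTot_inComp, redTup_single]
    split_ifs
    · rw [emb_single, map_mul, redLau_rho]
    · rw [emb_zero_left]

variable {a : Fin n → ℤ} {ε : Chart n}

theorem redTot_free {N : ℤ} {x : Tot R n Z.Idx} (hx : x ∈ freeSlice R a ε Z.ideg N) :
    Z.redTot x ∈ freeSlice (ResidueField R) a ε (fun i => (Z.δ i : ℤ)) N := by
  rw [freeSlice, Finsupp.mem_supported] at hx ⊢
  rintro ⟨i, e⟩ h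
  simp only [Finset.mem_coe, Finsupp.mem_support_iff, redTot_apply] at h
  have h' := hx (a := ((i, 0), e)) (Finsupp.mem_support_iff.2 fun h0 => h (by rw [h0, map_zero]))
  simpa [ideg] using h'

theorem aeval_mem_pow {t : ℕ} {f : MvPolynomial (Fin (n + 1)) R}
    (hf : ∀ c ∈ f.support, (c.sum fun _ v => (v : ℤ)) = t) :
    MvPolynomial.aeval Z.z f ∈ maximalIdeal R ^ t := by
  classical
  rw [f.as_sum, map_sum]
  refine Ideal.sum_mem _ fun c hc => ?_
  rw [MvPolynomial.aeval_monomial]
  refine Ideal.mul_mem_left _ _ ?_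
  have hsum : c.sum (fun _ v => v) = t := by
    have h := hf c hc
    simp only [Finsupp.sum, ← Nat.cast_sum] at h
    exact_mod_cast h
  rw [← hsum, Finsupp.sum, ← Finset.prod_pow_eq_pow_sum]
  exact Ideal.prod_mem_prod fun k _ => Ideal.pow_mem_pow (Z.z_mem k) _

/-- The value of a homogeneous tuple is that of its components `s = 0`, one degree higher. -/
theorem ev_sub_mem {D : ℕ} (p : Z.Idx →₀ MvPolynomial (Fin (n + 1)) R)
    (hp : IsHomog Z.ideg p D) :
    Z.ev p - ∑ i, MvPolynomial.aeval Z.z (p (i, 0)) * Z.gen i ∈ maximalIdeal R ^ (D + 1) := by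
  classical
  induction p using Finsupp.induction with
  | zero => simp
  | single_add x f g hx hf ih =>
    have hg : IsHomog Z.ideg g D := fun y c hc => hp y c (by
      by_cases h : y = x
      · subst h; simp [Finsupp.notMem_support_iff.1 hx] at hc
      · simpa [Finsupp.single_apply, Ne.symm h] using hc)
    have hf' : ∀ c ∈ f.support, Z.ideg x + (c.sum fun _ v => (v : ℤ)) = D := fun c hc =>
      hp x c (by simpa [Finsupp.notMem_support_iff.1 hx] using hc)
    simp only [map_add, Finsupp.add_apply, add_mul, Finset.sum_add_distrib]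
    rw [add_sub_add_comm]
    refine Ideal.add_mem _ ?_ (ih hg)
    obtain ⟨j, s⟩ := x
    rw [ev_single]
    rcases eq_or_ne s 0 with rfl | hs
    · rw [Finset.sum_eq_single j (fun i _ h => by simp [Ne.symm h])
        (fun h => absurd (Finset.mem_univ j) h), Finsupp.single_eq_same, mul_comm, sub_self]
      exact Ideal.zero_mem _
    · rw [Finset.sum_eq_zero fun i _ => by simp [hs], sub_zero]
      refine Ideal.pow_le_pow_right (m := D + 1) (n := Z.δ j + (D + s - Z.δ j)) (by omega) ?_
      rw [pow_add]
      exact Ideal.mul_mem_mul (Z.gen_mem j) (aeval_mem_pow fun c hc => by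
        have h1 := hf' c hc
        have h2 : (0 : ℤ) ≤ c.sum fun _ v => (v : ℤ) := Finset.sum_nonneg fun k _ => by positivity
        simp only [ideg] at h1
        omega)

theorem redTup_homog {D : ℤ} {p : Z.Idx →₀ MvPolynomial (Fin (n + 1)) R}
    (hp : IsHomog Z.ideg p D) : IsHomog (fun i => (Z.δ i : ℤ)) (Z.redTup p) D := by
  intro i c hc
  rw [redTup_apply] at hc
  simpa [ideg] using hp (i, 0) c (MvPolynomial.support_map_subset _ _ hc)

theorem redTup_rel {D : ℤ} {p : Z.Idx →₀ MvPolynomial (Fin (n + 1)) R} (hp : IsHomog Z.ideg p D)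
    (hev : Z.ev p = 0) : Z.redTup p = 0 ∨ Z.redTup p ∈ Z.grRel := by
  classical
  rcases lt_or_ge D 0 with hD | hD
  · refine Or.inl (Finsupp.ext fun i => ?_)
    rw [redTup_apply]
    have : p (i, 0) = 0 := by
      refine MvPolynomial.ext _ _ fun c => ?_
      by_contra h
      have h1 := hp (i, 0) c (MvPolynomial.mem_support_iff.2 (by simpa using h))
      have h2 : (0 : ℤ) ≤ c.sum fun _ v => (v : ℤ) := Finset.sum_nonneg fun k _ => by positivity
      simp only [ideg] at h1
      omega
    simp [this]
  · obtain ⟨m, rfl⟩ := Int.eq_ofNat_of_zero_le hD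
    let q : Z.ι →₀ MvPolynomial (Fin (n + 1)) R :=
      Finsupp.equivFunOnFinite.symm fun i => p (i, 0)
    refine Or.inr ⟨m, q, Finsupp.ext fun i => ?_, fun i c hc => ?_, ?_⟩
    · simp [redTup_apply, q]
    · simpa [ideg] using hp (i, 0) c (by simpa [q] using hc)
    · rw [Finsupp.sum_fintype _ _ (fun i => by simp)]
      have h := ev_sub_mem p hp
      rw [hev, zero_sub] at h
      simpa [q] using Ideal.neg_mem_iff _ |>.1 h

/-- The relations reduce to the relations of the associated graded ring. -/
theorem redTot_rel {N : ℤ} {x : Tot R n Z.Idx} (hx : x ∈ relSlice lam a ε Z.ideg Z.rel N) :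
    Z.redTot x ∈ relSlice (resLam lam) a ε (fun i => (Z.δ i : ℤ)) Z.grRel N := by
  induction hx using Submodule.span_induction with
  | mem y hy =>
    obtain ⟨p, hp, D, e, hD, he, hN, rfl⟩ := hy
    rw [redTot_emb, redLau_single, map_one]
    rcases redTup_rel hD hp.2 with h | h
    · rw [h, emb_zero_left]; exact Submodule.zero_mem _
    · exact emb_mem_rel _ h (redTup_homog hD) (lauMem_single 1 he rfl) hN
  | zero => simp
  | add y z _ _ hy hz => rw [map_add]; exact Submodule.add_mem _ hy hz
  | smul r y _ hy => rw [map_smul]; exact Submodule.smul_of_tower_mem _ r hy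

/-- Every relation of the associated graded ring lifts to a relation. -/
theorem exists_rel_lift {N : ℤ} {v : Tot (ResidueField R) n Z.ι}
    (hv : v ∈ relSlice (resLam lam) a ε (fun i => (Z.δ i : ℤ)) Z.grRel N) :
    ∃ x ∈ relSlice lam a ε Z.ideg Z.rel N, Z.redTot x = v := by
  classical
  induction hv using Submodule.span_induction with
  | mem y hy =>
    obtain ⟨g, ⟨D, q, rfl, hq, hval⟩, D', e, hD', he, hN, rfl⟩ := hy
    set g := q.mapRange (MvPolynomial.map (residue R)) (map_zero _)
    rcases eq_or_ne g 0 with hg | hg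
    · exact ⟨0, Submodule.zero_mem _, by rw [map_zero, hg, emb_zero_left]⟩
    have hDD : D' = D := by
      obtain ⟨i, hi⟩ := Finsupp.ne_iff.1 hg
      obtain ⟨c, hc⟩ := MvPolynomial.support_nonempty.2 (by simpa using hi)
      rw [← hD' i c hc, ← hq i c (MvPolynomial.support_map_subset _ _ (by simpa [g] using hc))]
    obtain ⟨t, ht, hte⟩ := exists_rep (Z := Z) ((D : ℤ) + 1)
      (r := q.sum fun i f => MvPolynomial.aeval Z.z f * Z.gen i)
      (by rw [show ((D : ℤ) + 1).toNat = D + 1 by omega]; exact hval)
    have hup := Z.acts_upBy (1 : R) 1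
    let q0 : Z.Idx →₀ MvPolynomial (Fin (n + 1)) R := q.mapDomain fun i => (i, 0)
    let t' : Z.Idx →₀ MvPolynomial (Fin (n + 1)) R := t.sum fun x f => f • Z.upBy 1 1 x
    have hq0 : IsHomog Z.ideg q0 D := fun x c hc => by
      by_cases h : ∃ i, x = (i, 0)
      · obtain ⟨i, rfl⟩ := h
        rw [show q0 = q.mapDomain fun i => (i, 0) from rfl,
          Finsupp.mapDomain_apply (fun _ _ h => (Prod.mk.injEq ..).mp h |>.1)] at hc
        simpa [ideg] using hq i c hc
      · rw [show q0 = q.mapDomain fun i => (i, 0) from rfl,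
          Finsupp.mapDomain_of_notMem_range _ _ (fun ⟨i, hi⟩ => h ⟨i, hi.symm⟩)] at hc
        simp at hc
    have ht' : IsHomog Z.ideg t' D := by
      have h := ht.comp fun l => (hup l).1
      simpa using h
    have hev0 : Z.ev q0 = q.sum fun i f => MvPolynomial.aeval Z.z f * Z.gen i := by
      rw [show q0 = q.mapDomain fun i => (i, 0) from rfl]
      rw [Finsupp.mapDomain, map_finsuppSum]
      refine Finsupp.sum_congr fun i _ => ?_
      rw [ev_single, mul_comm]
    have hP : IsHomog Z.ideg (q0 - t') D := by simpa [sub_eq_add_neg] using hq0.add ht'.neg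
    refine ⟨emb lam (q0 - t') (AddMonoidAlgebra.single e 1),
      emb_mem_rel lam (K := Z.rel) ⟨⟨_, hP⟩, ?_⟩ hP (lauMem_single 1 he rfl) (by rw [← hDD]; exact hN), ?_⟩
    · rw [map_sub, hev0, hup.ev_eq, hte, one_mul, sub_self]
    rw [redTot_emb, redLau_single, map_one]
    congr 1
    refine Finsupp.ext fun i => ?_
    rw [redTup_apply, Finsupp.sub_apply,
      show q0 = q.mapDomain fun i => (i, 0) from rfl,
      Finsupp.mapDomain_apply (fun _ _ h => (Prod.mk.injEq ..).mp h |>.1)]
    have : t' (i, 0) = 0 := by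
      rw [show t' = t.sum fun x f => f • Z.upBy 1 1 x from rfl, Finsupp.sum_apply]
      exact Finset.sum_eq_zero fun x _ => by simp [upBy]
    simp [this, g]
  | zero => exact ⟨0, Submodule.zero_mem _, map_zero _⟩
  | add y z _ _ hy hz =>
    obtain ⟨x, hx, rfl⟩ := hy
    obtain ⟨x', hx', rfl⟩ := hz
    exact ⟨x + x', Submodule.add_mem _ hx hx', map_add _ _ _⟩
  | smul c y _ hy =>
    obtain ⟨x, hx, rfl⟩ := hy
    obtain ⟨r, rfl⟩ := residue_surjective c
    refine ⟨r • x, Submodule.smul_mem _ r hx, ?_⟩
    rw [map_smul]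
    exact (algebraMap_smul (ResidueField R) r _).symm

/-- The kernel of the reduction is generated by the relations and the image of `u`. -/
theorem mem_of_redTot_eq_zero {N : ℤ} {x : Tot R n Z.Idx} (hx : x ∈ freeSlice R a ε Z.ideg N)
    (h0 : Z.redTot x = 0) : x ∈ relSlice lam a ε Z.ideg Z.rel N ⊔
      (freeSlice R a ε Z.ideg (N + 1)).map (push lam (Z.upBy 1 1)) := by
  classical
  rw [← x.sum_single]
  refine Submodule.sum_mem _ fun y hy => ?_
  rw [freeSlice, Finsupp.mem_supported] at hx
  obtain ⟨⟨i, s⟩, e⟩ := y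
  obtain ⟨he, hd⟩ := hx hy
  simp only [ideg] at hd
  rcases Nat.eq_zero_or_pos s with rfl | hs
  · have hr : x ((i, 0), e) ∈ maximalIdeal R := by
      rw [← residue_eq_zero_iff]
      simpa [redTot_apply] using DFunLike.congr_fun h0 (i, e)
    set r := x ((i, 0), e)
    obtain ⟨p, hp⟩ := exists_acts (Z := Z) (J := 1) (a := r) (by simpa using hr)
    set y : Tot R n Z.Idx := Finsupp.single ((i, 0), e) 1
    have hy1 : y ∈ freeSlice R a ε Z.ideg N :=
      Finsupp.single_mem_supported R 1 ⟨he, by simpa [ideg] using hd⟩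
    have hc := (Z.acts_upBy (1 : R) 1).comp hp
    have hq := Z.acts_upBy r 0
    have hcon := Acts.push_congr lam (J := 0) (a := r) (p := Z.upBy r 0)
      (q := compFam (Z.upBy 1 1) p) (by simpa using hq) (by simpa using hc) hy1
    rw [← push_comp, add_zero] at hcon
    have hry : push lam (Z.upBy r 0) y = Finsupp.single ((i, 0), e) r := by
      rw [show y = Finsupp.single ((i, 0), e) 1 from rfl, push_single, one_smul, upBy, emb_single]
      simp [rho, AddMonoidAlgebra.coe_algebraMap, inComp_single]
    rw [hry] at hcon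
    have hfree : push lam p y ∈ freeSlice R a ε Z.ideg (N + 1) := by
      simpa using hp.push_free lam hy1
    rw [← sub_add_cancel (Finsupp.single ((i, 0), e) r) (push lam (Z.upBy 1 1) (push lam p y))]
    exact Submodule.add_mem_sup hcon (Submodule.mem_map_of_mem hfree)
  · refine Submodule.mem_sup_right ⟨Finsupp.single ((i, s - 1), e) (x ((i, s), e)),
      Finsupp.single_mem_supported R _ ⟨he, ?_⟩, ?_⟩
    · simp only [ideg]; omega
    · rw [push_single, upBy, emb_single, show s - 1 + 1 = s by omega]
      simp [rho, inComp_single]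

/-- Slices that reduce to relations of the associated graded ring. -/
theorem mem_of_redTot_mem {N : ℤ} {x : Tot R n Z.Idx} (hx : x ∈ freeSlice R a ε Z.ideg N)
    (h : Z.redTot x ∈ relSlice (resLam lam) a ε (fun i => (Z.δ i : ℤ))
      (Submodule.span (MvPolynomial (Fin (n + 1)) (ResidueField R)) Z.grRel : Set _) N) :
    x ∈ relSlice lam a ε Z.ideg Z.rel N ⊔
      (freeSlice R a ε Z.ideg (N + 1)).map (push lam (Z.upBy 1 1)) := by
  rw [relSlice_span_eq] at h
  · obtain ⟨y, hy, hyx⟩ := exists_rel_lift lam h
    rw [← add_sub_cancel y x]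
    refine Submodule.add_mem _ (Submodule.mem_sup_left hy) (mem_of_redTot_eq_zero lam
      (Submodule.sub_mem _ hx (relSlice_le_free lam a ε _ _ _ hy)) ?_)
    rw [map_sub, hyx, sub_self]
  · rintro p ⟨D, q, rfl, hq, -⟩
    exact ⟨D, fun i c hc => hq i c (MvPolynomial.support_map_subset _ _ (by simpa using hc))⟩

end RedData

end Vale.Agent.P202.Char
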