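import Vale.Agent.P202.Char.RedBase

/-!
P202, Lech in characteristic `p`: the Hilbert function of the associated graded ring in terms of a
presentation over a polynomial ring.
-/

namespace Vale.Agent.P202.Char

open IsLocalRing Filter Topology MvPolynomial

universe u v w

namespace Red

variable {R : Type u} [CommRing R] [IsLocalRing R] {n : ℕ} (Z : RedData R n)

theorem degree_cast {σ : Type v} (c : σ →₀ ℕ) :
    (c.sum fun _ v => (v : ℤ)) = (c.degree : ℤ) := by
  simp [Finsupp.sum, Finsupp.degree_apply]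

theorem isHomog_iff {A : Type v} [CommRing A] {ι : Type w} (δ : ι → ℕ)
    (p : ι →₀ MvPolynomial (Fin (n + 1)) A) (D : ℕ) :
    IsHomog (fun i => (δ i : ℤ)) p (D : ℤ) ↔ p ∈ hom A (Fin (n + 1)) δ D := by
  constructor
  · intro h i c hc
    have := h i c (mem_support_iff.2 hc)
    rw [degree_cast] at this
    simp only at this
    omega
  · intro h i c hc
    rw [degree_cast]
    have := h i c (mem_support_iff.1 hc)
    simp only
    omega

/-- Reduction of the coefficients. -/
noncomputable def red : (Z.ι →₀ MvPolynomial (Fin (n + 1)) R) →ₗ[R]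
    (Z.ι →₀ MvPolynomial (Fin (n + 1)) (ResidueField R)) :=
  Finsupp.mapRange.linearMap (MvPolynomial.mapAlgHom (Algebra.ofId R (ResidueField R))).toLinearMap

theorem red_apply (q : Z.ι →₀ MvPolynomial (Fin (n + 1)) R) (i : Z.ι) :
    (red Z q) i = MvPolynomial.map (residue R) (q i) := rfl

theorem red_eq (q : Z.ι →₀ MvPolynomial (Fin (n + 1)) R) :
    red Z q = q.mapRange (MvPolynomial.map (residue R)) (map_zero _) := rfl

theorem red_comp (D : ℕ) (q : Z.ι →₀ MvPolynomial (Fin (n + 1)) R) :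
    red Z (comp R _ Z.δ D q) = comp (ResidueField R) _ Z.δ D (red Z q) := by
  refine Finsupp.ext fun i => MvPolynomial.ext _ _ fun c => ?_
  rw [red_apply, coeff_map, coeff_comp, coeff_comp, red_apply, coeff_map]
  split_ifs <;> simp

theorem red_mem_hom {D : ℕ} {q : Z.ι →₀ MvPolynomial (Fin (n + 1)) R}
    (hq : q ∈ hom R (Fin (n + 1)) Z.δ D) : red Z q ∈ hom (ResidueField R) (Fin (n + 1)) Z.δ D := by
  intro i c h
  refine hq i c fun h0 => h ?_
  rw [red_apply, coeff_map, h0, map_zero]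

theorem exists_lift_hom {D : ℕ} {p : Z.ι →₀ MvPolynomial (Fin (n + 1)) (ResidueField R)}
    (hp : p ∈ hom (ResidueField R) (Fin (n + 1)) Z.δ D) :
    ∃ q ∈ hom R (Fin (n + 1)) Z.δ D, red Z q = p := by
  obtain ⟨q, hq⟩ := Finsupp.mapRange_surjective _ (map_zero _)
    (map_surjective (residue R) residue_surjective) p
  refine ⟨comp R _ Z.δ D q, comp_mem _ _ _, ?_⟩
  rw [red_comp, red_eq, hq, comp_of_mem _ hp, if_pos rfl]

/-- Evaluation of tuples. -/
noncomputable def ev0 : (Z.ι →₀ MvPolynomial (Fin (n + 1)) R) →ₗ[R] R := evt Z.z Z.gen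

theorem span_z_le : Ideal.span (Set.range Z.z) ≤ maximalIdeal R :=
  Ideal.span_le.2 (by rintro _ ⟨k, rfl⟩; exact Z.z_mem k)

theorem ev0_mem {D : ℕ} (I : Ideal R) {q : Z.ι →₀ MvPolynomial (Fin (n + 1)) R}
    (hq : q ∈ hom R (Fin (n + 1)) Z.δ D) (hI : ∀ i c, coeff c (q i) ∈ I) :
    ev0 Z q ∈ I * maximalIdeal R ^ D := by
  simp only [ev0, evt, Finsupp.lsum_apply, Finsupp.sum]
  refine Ideal.sum_mem _ fun i _ => ?_
  simp only [LinearMap.comp_apply, AlgHom.toLinearMap_apply, LinearMap.mulLeft_apply]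
  rw [MvPolynomial.aeval_def, MvPolynomial.eval₂_eq', Finset.mul_sum]
  refine Ideal.sum_mem _ fun c hc => ?_
  have h1 := hq i c (mem_support_iff.1 hc)
  rw [mul_left_comm, show D = Z.δ i + c.degree from h1.symm]
  refine Ideal.mul_mem_mul (hI i c) ?_
  rw [pow_add]
  refine Ideal.mul_mem_mul (Z.gen_mem i) ?_
  rw [Finsupp.degree_eq_sum, ← Finset.prod_pow_eq_pow_sum]
  exact Ideal.prod_mem_prod fun l _ => Ideal.pow_mem_pow (Z.z_mem l) _

theorem ev0_mem_pow {D : ℕ} {q : Z.ι →₀ MvPolynomial (Fin (n + 1)) R}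
    (hq : q ∈ hom R (Fin (n + 1)) Z.δ D) : ev0 Z q ∈ maximalIdeal R ^ D := by
  simpa using ev0_mem Z ⊤ hq (fun _ _ => Submodule.mem_top)

theorem ev0_mem_succ {D : ℕ} {q : Z.ι →₀ MvPolynomial (Fin (n + 1)) R}
    (hq : q ∈ hom R (Fin (n + 1)) Z.δ D) (h0 : red Z q = 0) : ev0 Z q ∈ maximalIdeal R ^ (D + 1) := by
  rw [pow_succ']
  refine ev0_mem Z _ hq fun i c => (residue_eq_zero_iff _).1 ?_
  rw [← coeff_map, ← red_apply, h0, Finsupp.zero_apply, coeff_zero]

/-- The relations of the associated graded ring. -/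
noncomputable def W : Submodule (MvPolynomial (Fin (n + 1)) (ResidueField R))
    (Z.ι →₀ MvPolynomial (Fin (n + 1)) (ResidueField R)) := Submodule.span _ Z.grRel

theorem mem_grRel {p : Z.ι →₀ MvPolynomial (Fin (n + 1)) (ResidueField R)} :
    p ∈ Z.grRel ↔ ∃ D, ∃ q ∈ hom R (Fin (n + 1)) Z.δ D, red Z q = p ∧
      ev0 Z q ∈ maximalIdeal R ^ (D + 1) := by
  have hev : ∀ q : Z.ι →₀ MvPolynomial (Fin (n + 1)) R,
      (q.sum fun i f => MvPolynomial.aeval Z.z f * Z.gen i) = ev0 Z q := fun q => by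
    simp [ev0, evt, Finsupp.lsum_apply, Finsupp.sum, mul_comm]
  constructor
  · rintro ⟨D, q, rfl, hq, hm⟩
    exact ⟨D, q, (isHomog_iff _ _ _).1 hq, red_eq Z q, hev q ▸ hm⟩
  · rintro ⟨D, q, hq, rfl, hm⟩
    exact ⟨D, q, red_eq Z q, (isHomog_iff _ _ _).2 hq, (hev q).symm ▸ hm⟩

theorem grRel_homog : ∀ p ∈ Z.grRel, ∃ D, p ∈ hom (ResidueField R) (Fin (n + 1)) Z.δ D := by
  intro p hp
  obtain ⟨D, q, hq, rfl, -⟩ := (mem_grRel Z).1 hp
  exact ⟨D, red_mem_hom Z hq⟩

/-- Homogeneous relations evaluate into the next power. -/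
theorem key {D : ℕ} {q : Z.ι →₀ MvPolynomial (Fin (n + 1)) R} (hq : q ∈ hom R (Fin (n + 1)) Z.δ D)
    (h : red Z q ∈ W Z) : ev0 Z q ∈ maximalIdeal R ^ (D + 1) := by
  have main : ∀ x ∈ W Z, ∃ Q, red Z Q = x ∧
      ∀ D, ev0 Z (comp R _ Z.δ D Q) ∈ maximalIdeal R ^ (D + 1) := by
    intro x hx
    induction hx using Submodule.span_induction with
    | mem x hx =>
      obtain ⟨D', q', hq', rfl, hm⟩ := (mem_grRel Z).1 hx
      refine ⟨q', rfl, fun D => ?_⟩
      rw [comp_of_mem _ hq']
      split_ifs with hD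
      · rwa [hD]
      · simp
    | zero => exact ⟨0, map_zero _, fun D => by simp⟩
    | add x y _ _ hx hy =>
      obtain ⟨P, rfl, hP⟩ := hx
      obtain ⟨Q, rfl, hQ⟩ := hy
      exact ⟨P + Q, map_add _ _ _, fun D => by rw [map_add, map_add]; exact add_mem (hP D) (hQ D)⟩
    | smul f x _ hx =>
      obtain ⟨Q, rfl, hQ⟩ := hx
      obtain ⟨F, rfl⟩ := map_surjective (residue R) residue_surjective f
      refine ⟨F • Q, Finsupp.ext fun i => by simp [red_apply], ?_⟩
      induction F using MvPolynomial.induction_on with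
      | C r =>
        intro D
        rw [comp_C_smul, ev0, evt_smul, aeval_C]
        exact Ideal.mul_mem_left _ _ (hQ D)
      | add f g hf hg =>
        intro D
        rw [add_smul, map_add, map_add]
        exact add_mem (hf D) (hg D)
      | mul_X f l hf =>
        intro D
        rw [mul_comm, mul_smul, comp_X_smul]
        split_ifs with h0
        · simp
        · rw [ev0, evt_smul, aeval_X]
          have := Ideal.mul_mem_mul (Z.z_mem l) (hf (D - 1))
          rw [← pow_succ', show D - 1 + 1 + 1 = D + 1 by omega] at this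
          exact this
  obtain ⟨Q, hQ, hQD⟩ := main _ h
  have h2 : q - comp R _ Z.δ D Q ∈ hom R (Fin (n + 1)) Z.δ D := sub_mem hq (comp_mem _ _ _)
  have := ev0_mem_succ Z h2 (by
    rw [map_sub, red_comp, hQ, comp_of_mem _ (red_mem_hom Z hq), if_pos rfl, sub_self])
  have h3 := add_mem this (hQD D)
  rwa [← map_add, sub_add_cancel] at h3

/-- Homogeneous tuples of degree `j` map onto the graded piece. -/
theorem pow_le_range (j : ℕ) : maximalIdeal R ^ j ≤
    (hom R (Fin (n + 1)) Z.δ j).map (ev0 Z) ⊔ maximalIdeal R ^ (j + 1) := by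
  rw [Z.pow_eq j]
  refine iSup_le fun i => ?_
  by_cases hi : Z.δ i ≤ j
  · refine le_sup_of_le_left ?_
    rw [← map_forms]
    intro x hx
    obtain ⟨y, hy, rfl⟩ := Ideal.mem_mul_span_singleton.1 hx
    obtain ⟨f, hf, rfl⟩ := hy
    refine ⟨Finsupp.single i f, single_mem_hom _ (mem_slot.2 fun c hc => ?_), ?_⟩
    · have : c.degree = j - Z.δ i := by
        by_contra h
        exact hc (MvPolynomial.IsHomogeneous.coeff_eq_zero hf h)
      omega
    · rw [ev0, evt_single, mul_comm]; rfl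
  · refine le_sup_of_le_right ?_
    refine le_trans Ideal.mul_le_right ?_
    rw [Ideal.span_singleton_le_iff_mem]
    exact Ideal.pow_le_pow_right (by omega) (Z.gen_mem i)

/-- The projection of the homogeneous tuples of degree `j` modulo the relations. -/
noncomputable def qmap (j : ℕ) : hom (ResidueField R) (Fin (n + 1)) Z.δ j →ₗ[ResidueField R]
    (Z.ι →₀ MvPolynomial (Fin (n + 1)) (ResidueField R)) ⧸
      (W Z).restrictScalars (ResidueField R) :=
  ((W Z).restrictScalars (ResidueField R)).mkQ ∘ₗ (hom (ResidueField R) (Fin (n + 1)) Z.δ j).subtype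

/-- The Hilbert function of the presentation. -/
noncomputable def hf (j : ℕ) : ℕ := Module.finrank (ResidueField R) (LinearMap.range (qmap Z j))

variable {Z}

theorem slot_finite (a D : ℕ) :
    Module.Finite (ResidueField R) (slot (ResidueField R) (Fin (n + 1)) a D) :=
  (cnt_finrank n a D).1

/-- Homogeneous tuples as products of slots. -/
noncomputable def homEquiv (j : ℕ) :
    (∀ i : Z.ι, slot (ResidueField R) (Fin (n + 1)) (Z.δ i) j) ≃ₗ[ResidueField R]
      hom (ResidueField R) (Fin (n + 1)) Z.δ j where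
  toFun c := ⟨Finsupp.equivFunOnFinite.symm fun i => (c i : MvPolynomial _ _),
    fun i d h => mem_slot.1 (c i).2 d (by simpa using h)⟩
  invFun p i := ⟨(p : Z.ι →₀ _) i, mem_slot.2 fun d hd => p.2 i d hd⟩
  left_inv c := by funext i; ext1; simp
  right_inv p := by ext1; ext1 i; simp
  map_add' c d := by ext1; ext1 i; simp
  map_smul' r c := by ext1; ext1 i; simp

theorem hom_finite (j : ℕ) :
    Module.Finite (ResidueField R) (hom (ResidueField R) (Fin (n + 1)) Z.δ j) := by
  have := fun i => slot_finite (R := R) (n := n) (Z.δ i) j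
  exact Module.Finite.equiv (homEquiv j)

theorem hom_finrank (j : ℕ) :
    Module.finrank (ResidueField R) (hom (ResidueField R) (Fin (n + 1)) Z.δ j) =
      ∑ i, if Z.δ i ≤ j then (j - Z.δ i + n).choose n else 0 := by
  have := fun i => slot_finite (R := R) (n := n) (Z.δ i) j
  rw [← (homEquiv j).finrank_eq, Module.finrank_pi_fintype]
  exact Finset.sum_congr rfl fun i _ => (cnt_finrank n _ j).2

variable (Z)

theorem qmap_eq_zero (j : ℕ) (p : hom (ResidueField R) (Fin (n + 1)) Z.δ j) :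
    qmap Z j p = 0 ↔ (p : Z.ι →₀ MvPolynomial (Fin (n + 1)) (ResidueField R)) ∈ W Z := by
  rw [qmap, LinearMap.comp_apply, Submodule.mkQ_apply]
  exact (Submodule.Quotient.mk_eq_zero _).trans Iff.rfl

theorem length_eq_of_ker {A : Type u} [CommRing A] {M N P : Type*} [AddCommGroup M]
    [AddCommGroup N] [AddCommGroup P] [Module A M] [Module A N] [Module A P] {p : Submodule A M}
    (f : p →ₗ[A] N) (g : p →ₗ[A] P) (hf : Function.Surjective f) (hg : Function.Surjective g)
    (h : LinearMap.ker f = LinearMap.ker g) : Module.length A N = Module.length A P :=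
  (((f.quotKerEquivOfSurjective hf).symm.trans (Submodule.quotEquivOfEq _ _ h)).trans
    (g.quotKerEquivOfSurjective hg)).length_eq

/-- The piece of degree `j` of the associated graded ring. -/
noncomputable def piece (R : Type u) [CommRing R] [IsLocalRing R] (j : ℕ) :
    Submodule R ↥(maximalIdeal R ^ j) :=
  Submodule.comap (maximalIdeal R ^ j).subtype (maximalIdeal R ^ (j + 1))

/-- Homogeneous tuples to the quotient of the presentation. -/
noncomputable def toQ (j : ℕ) :
    hom R (Fin (n + 1)) Z.δ j →ₗ[R] LinearMap.range (qmap Z j) :=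
  ((qmap Z j).rangeRestrict.restrictScalars R) ∘ₗ
    ((red Z ∘ₗ (hom R (Fin (n + 1)) Z.δ j).subtype).codRestrict
      ((hom (ResidueField R) (Fin (n + 1)) Z.δ j).restrictScalars R) fun q => red_mem_hom Z q.2)

theorem toQ_eq_zero (j : ℕ) (q : hom R (Fin (n + 1)) Z.δ j) :
    toQ Z j q = 0 ↔ red Z (q : Z.ι →₀ _) ∈ W Z :=
  Subtype.ext_iff.trans (qmap_eq_zero Z j ⟨_, red_mem_hom Z q.2⟩)

/-- Homogeneous tuples to the graded piece. -/
noncomputable def toGr (j : ℕ) :
    hom R (Fin (n + 1)) Z.δ j →ₗ[R] (↥(maximalIdeal R ^ j) ⧸ piece R j) :=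
  (piece R j).mkQ ∘ₗ ((ev0 Z ∘ₗ (hom R (Fin (n + 1)) Z.δ j).subtype).codRestrict
    (maximalIdeal R ^ j) fun q => ev0_mem_pow Z q.2)

theorem toGr_eq_zero (j : ℕ) (q : hom R (Fin (n + 1)) Z.δ j) :
    toGr Z j q = 0 ↔ ev0 Z (q : Z.ι →₀ _) ∈ maximalIdeal R ^ (j + 1) := by
  rw [toGr, LinearMap.comp_apply, Submodule.mkQ_apply]
  exact (Submodule.Quotient.mk_eq_zero _).trans Iff.rfl

theorem toQ_surjective (j : ℕ) : Function.Surjective (toQ Z j) := by
  rintro ⟨y, ⟨p, hp⟩, rfl⟩
  obtain ⟨q, hq, rfl⟩ := exists_lift_hom Z hp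
  exact ⟨⟨q, hq⟩, Subtype.ext rfl⟩

theorem toGr_surjective (j : ℕ) : Function.Surjective (toGr Z j) := by
  intro y
  obtain ⟨⟨x, hx⟩, rfl⟩ := Submodule.Quotient.mk_surjective (piece R j) y
  obtain ⟨a, ha, b, hb, hab⟩ := Submodule.mem_sup.1 (pow_le_range Z j hx)
  obtain ⟨q, hq, rfl⟩ := ha
  refine ⟨⟨q, hq⟩, (Submodule.Quotient.eq (piece R j)).2 ?_⟩
  show ev0 Z q - x ∈ maximalIdeal R ^ (j + 1)
  rw [← hab, sub_add_cancel_left]
  exact neg_mem hb

theorem ker_toQ (j : ℕ) : LinearMap.ker (toQ Z j) = LinearMap.ker (toGr Z j) := by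
  ext q
  rw [LinearMap.mem_ker, LinearMap.mem_ker, toQ_eq_zero, toGr_eq_zero]
  exact ⟨key Z q.2, fun h => Submodule.subset_span ((mem_grRel Z).2 ⟨j, q, q.2, rfl, h⟩)⟩

theorem length_range (j : ℕ) :
    Module.length R (LinearMap.range (qmap Z j)) = (hf Z j : ℕ∞) := by
  have := hom_finite (Z := Z) j
  rw [Module.length_eq_of_surjective (R := ResidueField R) (S := R) residue_surjective,
    Module.length_eq_finrank, hf]

theorem length_graded (j : ℕ) :
    Module.length R (↥(maximalIdeal R ^ j) ⧸ piece R j) = (hf Z j : ℕ∞) := by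
  rw [← length_range]
  exact (length_eq_of_ker (toQ Z j) (toGr Z j) (toQ_surjective Z j) (toGr_surjective Z j)
    (ker_toQ Z j)).symm

theorem length_quotient (N : ℕ) :
    Module.length R (R ⧸ maximalIdeal R ^ N) =
      ((∑ j ∈ Finset.range N, hf Z j : ℕ) : ℕ∞) := by
  induction N with
  | zero =>
    rw [Finset.range_zero, Finset.sum_empty, Nat.cast_zero, Module.length_eq_zero_iff,
      Ideal.Quotient.subsingleton_iff, pow_zero, Ideal.one_eq_top]
  | succ N ih =>
    set f : (↥(maximalIdeal R ^ N) ⧸ piece R N) →ₗ[R] R ⧸ maximalIdeal R ^ (N + 1) :=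
      Submodule.mapQ _ _ (maximalIdeal R ^ N).subtype le_rfl
    set g : (R ⧸ maximalIdeal R ^ (N + 1)) →ₗ[R] R ⧸ maximalIdeal R ^ N :=
      Submodule.factor (Ideal.pow_le_pow_right (Nat.le_succ N))
    have hf' : Function.Injective f := by
      rw [injective_iff_map_eq_zero]
      intro y hy
      obtain ⟨x, rfl⟩ := Submodule.Quotient.mk_surjective _ y
      exact (Submodule.Quotient.mk_eq_zero _).2 ((Submodule.Quotient.mk_eq_zero _).1 hy :)
    have hexact : Function.Exact f g := by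
      intro y
      obtain ⟨x, rfl⟩ := Submodule.Quotient.mk_surjective _ y
      refine ⟨fun h => ?_, ?_⟩
      · replace h := (Submodule.Quotient.mk_eq_zero _).1 h
        exact ⟨Submodule.Quotient.mk ⟨x, h⟩, rfl⟩
      · rintro ⟨y, hy⟩
        obtain ⟨z, rfl⟩ := Submodule.Quotient.mk_surjective _ y
        rw [← hy]
        exact (Submodule.Quotient.mk_eq_zero _).2 z.2
    rw [Module.length_eq_add_of_exact f g hf' (Submodule.factor_surjective _) hexact,
      length_graded Z, ih, Finset.sum_range_succ, add_comm, ← Nat.cast_add]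

end Red

end Vale.Agent.P202.Char
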