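import Vale.Agent.P202.Char.FlatLevel

/-!
P202, Lech in characteristic `p`: the key inequality for one complex with entries in `m ^ q`.
-/

namespace Vale.Agent.P202.Char

open IsLocalRing Filter Topology

universe u

variable {R : Type u} [CommRing R] [IsLocalRing R] [IsNoetherianRing R] {n : ℕ}

/-- The bound on the negligible part. -/
def slack (n : ℕ) (N C : ℕ) : ℕ := N * C * ((n + 1) * (2 * n + 2) + 1)

namespace Tw

variable {P : Tw R n}

/-- The homology outside degree `0` is negligible. -/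
theorem h_small {M C : ℕ} (hlam : Sep P.lam) (ha : ∀ j, 0 ≤ P.tw j)
    {e : ℝ} (he : IsMultiplicity R (n + 1) e) (hd : ∀ b, P.Q.deg b ≤ n + 1)
    (hnull : ∀ l, P.Q.IsNullHtpic (P.Z.z l ^ M)) {w : ℕ} (hw : P.w = w) (hM : w = (n + 1) * M)
    (hwin : ∀ i qq : ℕ, i ≤ n + 1 →
      (i < qq → ∑ s ∈ Finset.range w,
        P.Z.grh P.lam P.tw (-((i : ℤ) * P.J) + s) (-(qq : ℤ)) ≤ C * P.J ^ n) ∧
      (qq + 2 ≤ i → ∑ s ∈ Finset.range w,
        P.Z.grh P.lam P.tw (-((i : ℤ) * P.J) - w + s) (-(qq : ℤ)) ≤ C * P.J ^ n))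
    (k : ℤ) (hk : k ≠ 0) :
    P.gc.h ⊥ (P.lvl fun _ => 0) k ≤ Fintype.card P.Q.β * (C * P.J ^ n) := by
  have hu : P.UInj := P.uInj hlam ha
  have hg : P.YUnit M := fun ε => by
    obtain ⟨g, h1, h2⟩ := exists_unit P.lam hlam ε M
    exact ⟨g, fun l => h1 l, h2⟩
  have hfin : ∀ N k, P.Z.grFin P.lam P.tw N k := gr_finH P.Z P.lam hlam he P.tw ha
  have hcard : ∀ f : P.Q.β → ℕ, (∀ b, f b ≤ C * P.J ^ n) →
      ∑ b, f b ≤ Fintype.card P.Q.β * (C * P.J ^ n) := fun f hf => by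
    simpa [Finset.card_univ] using Finset.sum_le_card_nsmul Finset.univ f _ fun b _ => hf b
  have hW : ((n + 1 : ℕ) : ℤ) * M = (w : ℤ) := by rw [hM]; push_cast; ring
  rcases lt_or_gt_of_ne hk with hk | hk
  · -- negative degrees
    have hp : P.Pair (fun _ => -(w : ℤ)) (fun _ => 0) :=
      ⟨hu, fun _ => by omega, fun _ => by omega, fun _ => le_rfl, fun _ => le_rfl⟩
    have hle : P.lvl (fun _ => -(w : ℤ)) ≤ P.lvl fun _ => 0 := P.lvl_mono hp.hw hp.le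
    have hcyc : ∀ z ∈ P.gc.cyc ⊥ (P.lvl fun _ => -(w : ℤ)) k,
        z ∈ ((P.lvl fun _ => 0) ⊓ P.gc.deg (k + 1)).map P.gc.D := by
      intro z hz
      have h1 := killed hu hg hnull (c := fun _ => -(w : ℤ)) (fun _ => by omega)
        (fun _ => le_rfl) (fun _ => by omega) hz
      rwa [show (fun _ : ℕ => -(w : ℤ) + ((n + 1 : ℕ) : ℤ) * M) = fun _ => 0 from
        funext fun _ => by rw [hW]; omega] at h1
    have hcut : ∀ b,
        P.colGC.FinH (P.colCut (fun _ => -(w : ℤ)) (fun _ => 0) b) (P.colFree (fun _ => 0) b)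
          (k - P.Q.deg b) ∧
        P.colGC.h (P.colCut (fun _ => -(w : ℤ)) (fun _ => 0) b) (P.colFree (fun _ => 0) b)
          (k - P.Q.deg b) ≤ C * P.J ^ n := by
      intro b
      have h := RedData.h_cut P.Z P.lam P.tw hlam ha w (-((P.Q.deg b : ℤ) * P.J))
        (k - P.Q.deg b) fun s _ => hfin _ _
      have e1 : ((0 : ℤ) - -(w : ℤ)).toNat = w := by omega
      simp only [colCut, colFree, e1, sub_zero]
      refine ⟨h.1, h.2.trans ?_⟩
      have hqq : -((((P.Q.deg b : ℤ) - k).toNat : ℕ) : ℤ) = k - P.Q.deg b := by omega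
      have h2 := (hwin (P.Q.deg b) ((P.Q.deg b : ℤ) - k).toNat (hd b)).1 (by omega)
      rw [hqq] at h2
      exact h2
    obtain ⟨hf, hh⟩ := hp.h_le k fun b => (hcut b).1
    exact ((P.gc.h_le_of_low hle hcyc hf).2.trans hh).trans (hcard _ fun b => (hcut b).2)
  · -- positive degrees
    have hp : P.Pair (fun _ => 0) (fun _ => (w : ℤ)) :=
      ⟨hu, fun _ => by omega, fun _ => by omega, fun _ => le_rfl, fun _ => le_rfl⟩
    have hle : P.lvl (fun _ => 0) ≤ P.lvl fun _ => (w : ℤ) := P.lvl_mono hp.hw hp.le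
    have hcyc : ∀ z ∈ P.gc.cyc ⊥ (P.lvl fun _ => 0) k,
        z ∈ ((P.lvl fun _ => (w : ℤ)) ⊓ P.gc.deg (k + 1)).map P.gc.D := by
      intro z hz
      have h1 := killed hu hg hnull (c := fun _ => 0) (fun _ => by omega)
        (fun _ => le_rfl) (fun _ => by omega) hz
      rwa [show (fun _ : ℕ => (0 : ℤ) + ((n + 1 : ℕ) : ℤ) * M) = fun _ => (w : ℤ) from
        funext fun _ => by rw [hW]; omega] at h1
    have hcut : ∀ b,
        P.colGC.FinH (P.colCut (fun _ => 0) (fun _ => (w : ℤ)) b)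
          (P.colFree (fun _ => (w : ℤ)) b) (k + 1 - P.Q.deg b) ∧
        P.colGC.h (P.colCut (fun _ => 0) (fun _ => (w : ℤ)) b)
          (P.colFree (fun _ => (w : ℤ)) b) (k + 1 - P.Q.deg b) ≤ C * P.J ^ n := by
      intro b
      have h := RedData.h_cut P.Z P.lam P.tw hlam ha w (-((P.Q.deg b : ℤ) * P.J) - w)
        (k + 1 - P.Q.deg b) fun s _ => hfin _ _
      have e1 : ((w : ℤ) - 0).toNat = w := by omega
      simp only [colCut, colFree, e1]
      refine ⟨h.1, ?_⟩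
      by_cases hpos : k + 1 - (P.Q.deg b : ℤ) ≤ 0
      · refine h.2.trans ?_
        have hqq : -((((P.Q.deg b : ℤ) - (k + 1)).toNat : ℕ) : ℤ) = k + 1 - P.Q.deg b := by omega
        have h2 := (hwin (P.Q.deg b) ((P.Q.deg b : ℤ) - (k + 1)).toNat (hd b)).2 (by omega)
        rw [hqq] at h2
        exact h2
      · rw [GC.h, len, GC.lengthH_deg_bot _ _ _ _
          (show P.colGC.deg (k + 1 - P.Q.deg b) = ⊥ from
            cechDeg_eq_bot (by simp only [Finset.mem_Icc]; omega))]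
        simp
    obtain ⟨hf, hh⟩ := hp.h_le (k + 1) fun b => (hcut b).1
    exact ((P.gc.h_le_of_high hle hcyc hf).2.trans hh).trans (hcard _ fun b => (hcut b).2)

/-- The level `0` splits into the flat level and the columns. -/
theorem chi_zero (hlam : Sep P.lam) (ha : ∀ j, 0 ≤ P.tw j) (hw : 0 ≤ P.w) {e : ℝ}
    (he : IsMultiplicity R (n + 1) e) (hd : ∀ b, P.Q.deg b ≤ n + 1)
    (halt : ∑ b, (-1 : ℤ) ^ P.Q.deg b = 0) (hR : ∀ j, (P.Q.gc R).FinH ⊥ ⊤ j)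
    (hsmall : ∀ (M : Type u) [AddCommGroup M] [Module R M] [Module.Finite R M] (L : ℕ),
      (∀ m : M, P.Z.z 0 ^ L • m = 0) → (∀ j, (P.Q.gc M).FinH ⊥ ⊤ j) ∧
        (P.Q.gc M).chi (Finset.Icc 0 ((n + 1 : ℕ) : ℤ)) ⊥ ⊤ = 0) :
    P.gc.chi (Finset.Icc (-(n : ℤ)) ((n + 1 : ℕ) : ℤ)) ⊥ (P.lvl fun _ => 0) =
      (n.factorial : ℤ) * (P.Q.gc R).chi (Finset.Icc 0 ((n + 1 : ℕ) : ℤ)) ⊥ ⊤ +
        ∑ b, (-1) ^ P.Q.deg b * ∑ s ∈ Finset.range (P.Q.deg b * P.J),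
          P.Z.grchi P.lam P.tw (-((P.Q.deg b : ℤ) * P.J) + s) := by
  obtain ⟨hf1, h1⟩ := P.chi_flat hlam ha hw hd halt hR hsmall
  have hflat : ∀ i, P.flat i ≤ 0 := fun i => by
    simp only [flat, Left.neg_nonpos_iff]; positivity
  have hanti : ∀ i, P.flat (i + 1) ≤ P.flat i := fun i => by
    simp only [flat, neg_le_neg_iff]; gcongr; omega
  have hp : P.Pair P.flat (fun _ => 0) :=
    ⟨P.uInj hlam ha, fun _ => hw, hflat, hanti, fun _ => le_rfl⟩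
  have hfin : ∀ N k, P.Z.grFin P.lam P.tw N k := gr_finH P.Z P.lam hlam he P.tw ha
  have hcut : ∀ b, (∀ k, P.colGC.FinH (P.colCut P.flat (fun _ => 0) b)
        (P.colFree (fun _ => 0) b) k) ∧
      P.colGC.chi (Finset.Icc (-(n : ℤ)) 0) (P.colCut P.flat (fun _ => 0) b)
        (P.colFree (fun _ => 0) b) =
      ∑ s ∈ Finset.range (P.Q.deg b * P.J),
        P.Z.grchi P.lam P.tw (-((P.Q.deg b : ℤ) * P.J) + s) := by
    intro b
    have h := RedData.chi_cut P.Z P.lam P.tw hlam ha (P.Q.deg b * P.J)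
      (-((P.Q.deg b : ℤ) * P.J)) fun s _ k => hfin _ _
    have e1 : ((0 : ℤ) - -((P.Q.deg b : ℤ) * P.J)).toNat = P.Q.deg b * P.J := by
      rw [zero_sub, neg_neg, ← Nat.cast_mul, Int.toNat_natCast]
    simp only [colCut, colFree, flat, e1, sub_zero]
    exact h
  obtain ⟨hf2, h2⟩ := hp.chi_eq hd fun b k => (hcut b).1 k
  obtain ⟨-, h3⟩ := P.gc.chi_add (-(n : ℤ)) ((n + 1 : ℕ) : ℤ) (fun k hk => P.deg_eq_bot hd hk)
    (X := ⊥) (by simp [GC.IsSub]) (P.isSub_lvl (fun i => (hflat i).trans hw) hanti)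
    (P.isSub_lvl (fun _ => hw) fun _ => le_rfl) bot_le (P.lvl_mono (fun _ => hw) hflat) hf1 hf2
  rw [h3, h1, h2]
  exact congrArg _ (Finset.sum_congr rfl fun b _ => by rw [(hcut b).2])

/-- The Euler characteristic of the level `0` is almost nonnegative. -/
theorem chi_zero_ge {M C : ℕ} (hlam : Sep P.lam) (ha : ∀ j, 0 ≤ P.tw j)
    {e : ℝ} (he : IsMultiplicity R (n + 1) e) (hd : ∀ b, P.Q.deg b ≤ n + 1)
    (hnull : ∀ l, P.Q.IsNullHtpic (P.Z.z l ^ M)) {w : ℕ} (hw : P.w = w) (hM : w = (n + 1) * M)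
    (hwin : ∀ i qq : ℕ, i ≤ n + 1 →
      (i < qq → ∑ s ∈ Finset.range w,
        P.Z.grh P.lam P.tw (-((i : ℤ) * P.J) + s) (-(qq : ℤ)) ≤ C * P.J ^ n) ∧
      (qq + 2 ≤ i → ∑ s ∈ Finset.range w,
        P.Z.grh P.lam P.tw (-((i : ℤ) * P.J) - w + s) (-(qq : ℤ)) ≤ C * P.J ^ n)) :
    -(((2 * n + 2) * (Fintype.card P.Q.β * (C * P.J ^ n)) : ℕ) : ℤ) ≤
      P.gc.chi (Finset.Icc (-(n : ℤ)) ((n + 1 : ℕ) : ℤ)) ⊥ (P.lvl fun _ => 0) := by
  set B : ℕ := Fintype.card P.Q.β * (C * P.J ^ n)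
  have hterm : ∀ k ∈ Finset.Icc (-(n : ℤ)) ((n + 1 : ℕ) : ℤ),
      -(B : ℤ) ≤ (-1 : ℤ) ^ k.natAbs * (P.gc.h ⊥ (P.lvl fun _ => 0) k : ℤ) := by
    intro k _
    rcases eq_or_ne k 0 with rfl | hk
    · simp only [Int.natAbs_zero, pow_zero, one_mul]; omega
    · have := h_small hlam ha he hd hnull hw hM hwin k hk
      rcases neg_one_pow_eq_or ℤ k.natAbs with h | h <;> rw [h] <;> omega
  refine le_trans (le_of_eq ?_) (Finset.card_nsmul_le_sum _ _ _ hterm)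
  rw [Int.card_Icc, show (((n + 1 : ℕ) : ℤ) + 1 - -(n : ℤ)).toNat = 2 * n + 2 by omega,
    nsmul_eq_mul]
  push_cast; ring

end Tw

/-- The key inequality. -/
theorem key_bound (Z : RedData R n) (lam : Fin (n + 1) → R) (hlam : Sep lam) {e : ℝ}
    (he : IsMultiplicity R (n + 1) e) (Q : MCx R) (hd : ∀ b, Q.deg b ≤ n + 1)
    (halt : ∑ b, (-1 : ℤ) ^ Q.deg b = 0) (q : ℕ) (hQ : Q.EntriesIn (maximalIdeal R ^ q))
    (c M : ℕ) (hM : c * q = (n + 1) * M) (hnull : ∀ l, Q.IsNullHtpic (Z.z l ^ M))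
    (hR : ∀ j, (Q.gc R).FinH ⊥ ⊤ j)
    (hsmall : ∀ (M : Type u) [AddCommGroup M] [Module R M] [Module.Finite R M] (L : ℕ),
      (∀ m : M, Z.z 0 ^ L • m = 0) → (∀ j, (Q.gc M).FinH ⊥ ⊤ j) ∧
        (Q.gc M).chi (Finset.Icc 0 ((n + 1 : ℕ) : ℤ)) ⊥ ⊤ = 0)
    (C : ℕ)
    (hwin : ∀ (kk : Fin (n + 1)) (i w : ℕ), i ≤ n + 1 → w ≤ c * q → ∀ qq : ℕ,
      (i < qq → ∑ s ∈ Finset.range w,
          Z.grh lam (stdTw kk q) (-((i : ℤ) * q) + s) (-(qq : ℤ)) ≤ C * q ^ n) ∧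
      (qq + 2 ≤ i → ∑ s ∈ Finset.range w,
          Z.grh lam (stdTw kk q) (-((i : ℤ) * q) - w + s) (-(qq : ℤ)) ≤ C * q ^ n))
    (hchi : ∀ i : ℕ, 1 ≤ i → i ≤ n + 1 →
      |((∑ kk : Fin (n + 1), ∑ s ∈ Finset.range (i * q),
          Z.grchi lam (stdTw kk q) (-((i : ℤ) * q) + s) : ℤ) : ℝ) -
        e * ((n + 1).factorial : ℝ) * (q : ℝ) ^ (n + 1)| ≤ (C : ℝ) * (q : ℝ) ^ n) :
    -((slack n (Fintype.card Q.β) C : ℝ) * (q : ℝ) ^ n) ≤ ((n + 1).factorial : ℝ) *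
      (((Q.gc R).chi (Finset.Icc 0 ((n + 1 : ℕ) : ℤ)) ⊥ ⊤ : ℝ) -
        e * Q.rank 0 * (q : ℝ) ^ (n + 1)) := by
  classical
  choose fam hfam using fun b b' => RedData.exists_acts (Z := Z) (hQ b b')
  let P : Fin (n + 1) → Tw R n := fun kk =>
    { Z := Z, lam := lam, tw := stdTw kk q, Q := Q, J := q, w := ((c * q : ℕ) : ℤ)
      fam := fam, hfam := hfam }
  set A : ℤ := (Q.gc R).chi (Finset.Icc 0 ((n + 1 : ℕ) : ℤ)) ⊥ ⊤ with hA
  set G : ℕ → ℤ := fun i => ∑ kk : Fin (n + 1), ∑ s ∈ Finset.range (i * q),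
    Z.grchi lam (stdTw kk q) (-((i : ℤ) * q) + s) with hG
  have h1 : ∀ kk, -(((2 * n + 2) * (Fintype.card Q.β * (C * q ^ n)) : ℕ) : ℤ) ≤
      (n.factorial : ℤ) * A + ∑ b, (-1) ^ Q.deg b * ∑ s ∈ Finset.range (Q.deg b * q),
          Z.grchi lam (stdTw kk q) (-((Q.deg b : ℤ) * q) + s) := by
    intro kk
    have hge := Tw.chi_zero_ge (P := P kk) (M := M) (C := C) hlam (stdTw_nonneg kk q) he hd hnull
      (w := c * q) rfl hM fun i qq hi => hwin kk i (c * q) hi le_rfl qq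
    rw [Tw.chi_zero (P := P kk) hlam (stdTw_nonneg kk q) (Int.natCast_nonneg _) he hd halt hR
      hsmall] at hge
    exact hge
  have h2 : -(((n + 1) * ((2 * n + 2) * (Fintype.card Q.β * (C * q ^ n))) : ℕ) : ℤ) ≤
      ((n + 1).factorial : ℤ) * A + ∑ b, (-1) ^ Q.deg b * G (Q.deg b) := by
    have := Finset.sum_le_sum fun kk (_ : kk ∈ (Finset.univ : Finset (Fin (n + 1)))) => h1 kk
    rw [Finset.sum_add_distrib, Finset.sum_comm] at this
    simp only [Finset.sum_const, Finset.card_univ, Fintype.card_fin, nsmul_eq_mul,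
      ← Finset.mul_sum] at this
    rw [Nat.factorial_succ]
    push_cast at this ⊢
    simp only [hG]
    linarith
  set E : ℝ := e * ((n + 1).factorial : ℝ) * (q : ℝ) ^ (n + 1) with hE
  have h3 : ∀ b : Q.β, ((-1 : ℝ) ^ Q.deg b) * (G (Q.deg b) : ℝ) ≤
      ((-1 : ℝ) ^ Q.deg b) * (if Q.deg b = 0 then 0 else E) + (C : ℝ) * (q : ℝ) ^ n := by
    intro b
    by_cases hb : Q.deg b = 0
    · simp [hG, hb]; positivity
    · rw [if_neg hb]
      have := abs_le.1 (hchi (Q.deg b) (Nat.pos_of_ne_zero hb) (hd b))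
      simp only [hG]
      rcases neg_one_pow_eq_or ℝ (Q.deg b) with h | h <;> rw [h] <;> linarith [this.1, this.2]
  have h4 : ∑ b, ((-1 : ℝ) ^ Q.deg b) * (if Q.deg b = 0 then 0 else E) =
      -((Q.rank 0 : ℝ) * E) := by
    have halt' : ∑ b, (-1 : ℝ) ^ Q.deg b = 0 := by exact_mod_cast halt
    calc ∑ b, ((-1 : ℝ) ^ Q.deg b) * (if Q.deg b = 0 then 0 else E)
        = ∑ b, (((-1 : ℝ) ^ Q.deg b) * E - if Q.deg b = 0 then E else 0) :=
          Finset.sum_congr rfl fun b _ => by split_ifs with hb <;> simp [hb]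
      _ = -((Q.rank 0 : ℝ) * E) := by
          rw [Finset.sum_sub_distrib, ← Finset.sum_mul, halt', ← Finset.sum_filter,
            Finset.sum_const, nsmul_eq_mul, MCx.rank]
          ring
  have h5 : -((((n + 1) * ((2 * n + 2) * (Fintype.card Q.β * (C * q ^ n))) : ℕ) : ℝ)) ≤
      ((n + 1).factorial : ℝ) * (A : ℝ) + ∑ b, ((-1 : ℝ) ^ Q.deg b) * (G (Q.deg b) : ℝ) := by
    exact_mod_cast h2
  have h6 := Finset.sum_le_sum fun b (_ : b ∈ (Finset.univ : Finset Q.β)) => h3 b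
  rw [Finset.sum_add_distrib, h4, Finset.sum_const, Finset.card_univ, nsmul_eq_mul] at h6
  simp only [slack]
  push_cast at h5 ⊢
  rw [hE] at h6
  nlinarith [h5, h6]

end Vale.Agent.P202.Char
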