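import Vale.Agent.P202.Char.KoszulBase

/-!
P202, Lech in characteristic `p`: Koszul complexes, their matrix model over a basis, and the Euler
characteristic as the leading coefficient of the Samuel function (`koszul_tendsto`).
-/

namespace Vale.Agent.P202.Char

open Filter Topology Finset
open scoped TensorProduct

universe u v w

section Homotopy

variable {S : Type u} [CommRing S] {d : ℕ} (x c : Fin d → S) (N : Type v) [AddCommGroup N]
  [Module S N]

/-- Exterior multiplication by `∑ c j • e j`. -/
noncomputable def koszulE : (Finset (Fin d) → N) →ₗ[S] (Finset (Fin d) → N) :=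
  LinearMap.pi fun s =>
    ∑ j ∈ s, (ksign (s.erase j) j • c j) •
      (LinearMap.proj (s.erase j) : (Finset (Fin d) → N) →ₗ[S] N)

theorem koszulE_apply (f : Finset (Fin d) → N) (s : Finset (Fin d)) :
    koszulE c N f s = ∑ j ∈ s, (ksign (s.erase j) j • c j) • f (s.erase j) := by
  simp [koszulE, LinearMap.pi_apply]

theorem ksign_mul_self (s : Finset (Fin d)) (j : Fin d) : ksign s j * ksign s j = 1 := by
  rw [ksign, ← mul_pow]; norm_num

theorem ksign_swap {s : Finset (Fin d)} {j l : Fin d} (hj : j ∉ s) (hl : l ∈ s) :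
    ksign (s.erase l) l * ksign (s.erase l) j =
      -(ksign s j * ksign ((insert j s).erase l) l) := by
  have hjl : j ≠ l := fun h => hj (h ▸ hl)
  simp only [ksign, Finset.filter_erase, Finset.filter_insert]
  rcases lt_or_gt_of_ne hjl with h | h
  · rw [if_pos h, erase_insert_of_ne hjl, card_insert_of_notMem (by simp [hj]),
      erase_eq_of_notMem (s := filter (fun x => x < j) s) (by simp [h.le])]
    rw [pow_succ]; ring
  · rw [if_neg (not_lt.2 h.le), erase_eq_of_notMem (s := filter (fun x => x < l) s) (by simp),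
      ← card_erase_add_one (s := filter (fun x => x < j) s) (a := l) (by simp [hl, h]),
      pow_succ]
    ring

/-- The homotopy identity. -/
theorem koszul_homotopy (f : Finset (Fin d) → N) :
    koszulD x N (koszulE c N f) + koszulE c N (koszulD x N f) = (∑ j, c j * x j) • f := by
  funext s
  simp only [Pi.add_apply, Pi.smul_apply, koszulD_apply, koszulE_apply, smul_sum, smul_smul]
  have h1 : ∀ j ∈ sᶜ,
      ∑ l ∈ insert j s, ((ksign s j • x j) * (ksign ((insert j s).erase l) l • c l)) •
        f ((insert j s).erase l) =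
      (c j * x j) • f s + ∑ l ∈ s, ((ksign s j • x j) * (ksign ((insert j s).erase l) l • c l)) •
        f ((insert j s).erase l) := by
    intro j hj
    rw [mem_compl] at hj
    rw [sum_insert hj, erase_insert hj]
    congr 2
    rw [smul_mul_smul_comm, ksign_mul_self, one_smul, mul_comm]
  have h2 : ∀ l ∈ s,
      ∑ j ∈ (s.erase l)ᶜ, ((ksign (s.erase l) l • c l) * (ksign (s.erase l) j • x j)) •
        f (insert j (s.erase l)) =
      (c l * x l) • f s - ∑ j ∈ sᶜ, ((ksign s j • x j) * (ksign ((insert j s).erase l) l • c l)) •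
        f ((insert j s).erase l) := by
    intro l hl
    rw [compl_erase, sum_insert (by simp [hl]), insert_erase hl, sub_eq_add_neg,
      ← sum_neg_distrib]
    congr 1
    · rw [smul_mul_smul_comm, ksign_mul_self, one_smul]
    · refine sum_congr rfl fun j hj => ?_
      rw [mem_compl] at hj
      have he := erase_insert_of_ne (s := s) (fun h : j = l => hj (h ▸ hl))
      rw [he, ← neg_smul]
      congr 1
      have h3 : ((ksign (s.erase l) l : S)) * ksign (s.erase l) j =
          -((ksign s j : S) * ksign ((insert j s).erase l) l) := by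
        have h4 := congrArg (fun z : ℤ => (z : S)) (ksign_swap hj hl)
        push_cast at h4
        exact h4
      rw [he] at h3
      simp only [zsmul_eq_mul]
      linear_combination (c l * x j) * h3
  rw [sum_congr rfl h1, sum_congr rfl h2, sum_add_distrib, sum_sub_distrib,
    sum_comm (s := sᶜ) (t := s), ← sum_smul, ← Finset.sum_compl_add_sum s, add_smul]
  rw [sum_smul, sum_smul]
  abel

/-- A matrix acting on tuples of elements of a module. -/
noncomputable def act {ι : Type*} [Fintype ι] (A : Matrix ι ι S) : (ι → N) →ₗ[S] (ι → N) :=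
  LinearMap.pi fun s => ∑ t, A s t • LinearMap.proj t

theorem act_apply {ι : Type*} [Fintype ι] (A : Matrix ι ι S) (f : ι → N) (s : ι) :
    act N A f s = ∑ t, A s t • f t := by
  simp [act, LinearMap.pi_apply]

/-- The matrix of the Koszul differential. -/
noncomputable def kmat : Matrix (Finset (Fin d)) (Finset (Fin d)) S :=
  fun s t => ∑ j ∈ sᶜ, if t = insert j s then ksign s j • x j else 0

/-- The matrix of `koszulE`. -/
noncomputable def emat : Matrix (Finset (Fin d)) (Finset (Fin d)) S :=
  fun s t => ∑ j ∈ s, if t = s.erase j then ksign (s.erase j) j • c j else 0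

theorem act_kmat (f : Finset (Fin d) → N) : act N (kmat x) f = koszulD x N f := by
  funext s
  simp only [act_apply, kmat, koszulD_apply, sum_smul, ite_smul, zero_smul]
  rw [sum_comm]
  simp

theorem act_emat (f : Finset (Fin d) → N) : act N (emat c) f = koszulE c N f := by
  funext s
  simp only [act_apply, emat, koszulE_apply, sum_smul, ite_smul, zero_smul]
  rw [sum_comm]
  simp

theorem kmat_ne {s t : Finset (Fin d)} (h : kmat x s t ≠ 0) : t.card = s.card + 1 := by
  obtain ⟨j, hj, hne⟩ := exists_ne_zero_of_sum_ne_zero h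
  split_ifs at hne with ht
  · subst ht; exact card_insert_of_notMem (mem_compl.1 hj)
  · exact absurd rfl hne

theorem emat_ne {s t : Finset (Fin d)} (h : emat c s t ≠ 0) : s.card = t.card + 1 := by
  obtain ⟨j, hj, hne⟩ := exists_ne_zero_of_sum_ne_zero h
  split_ifs at hne with ht
  · subst ht; exact (card_erase_add_one hj).symm
  · exact absurd rfl hne

end Homotopy

section Matrices

variable {S : Type u} [CommRing S] {d : ℕ} (x c : Fin d → S)

theorem act_ext {ι : Type*} [Fintype ι] [DecidableEq ι] {A B : Matrix ι ι S}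
    (h : ∀ f, act S A f = act S B f) : A = B := by
  ext s t
  simpa [act_apply, Pi.single_apply] using congrFun (h (Pi.single t 1)) s

theorem act_mul {ι : Type*} [Fintype ι] (N : Type v) [AddCommGroup N] [Module S N]
    (A B : Matrix ι ι S) (f : ι → N) : act N (A * B) f = act N A (act N B f) := by
  funext s
  simp only [act_apply, Matrix.mul_apply, sum_smul, smul_sum, smul_smul]
  rw [sum_comm]

theorem kmat_sq : kmat x * kmat x = 0 := by
  refine act_ext fun f => ?_
  rw [act_mul, act_kmat, act_kmat]
  refine (LinearMap.congr_fun (koszulD_sq x S) f).trans ?_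
  funext s
  simp [act_apply]

theorem kmat_homotopy :
    kmat x * emat c + emat c * kmat x = (∑ j, c j * x j) • (1 : Matrix _ _ S) := by
  refine act_ext fun f => ?_
  have h := koszul_homotopy x c S f
  rw [← act_emat, ← act_emat, ← act_kmat, ← act_kmat, ← act_mul, ← act_mul] at h
  funext s
  have hs := congrFun h s
  simp only [Pi.add_apply, act_apply, Matrix.add_apply, add_smul, sum_add_distrib] at hs ⊢
  rw [hs]
  simp [Matrix.smul_apply, Matrix.one_apply]

end Matrices

section Model

variable {R : Type u} [CommRing R] {S : Type w} [CommRing S] [Algebra R S] {d L : ℕ}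

/-- Matrices over `S` as matrices over `R`, through a basis. -/
noncomputable def blow (b : Module.Basis (Fin L) R S) :
    Matrix (Finset (Fin d)) (Finset (Fin d)) S →+*
      Matrix (Finset (Fin d) × Fin L) (Finset (Fin d) × Fin L) R :=
  (Matrix.compRingEquiv (Finset (Fin d)) (Fin L) R).toRingHom.comp
    (Algebra.leftMulMatrix b).toRingHom.mapMatrix

theorem blow_apply (b : Module.Basis (Fin L) R S) (A : Matrix _ _ S)
    (p q : Finset (Fin d) × Fin L) :
    blow b A p q = b.repr (A p.1 q.1 * b q.2) p.2 := by
  exact Algebra.leftMulMatrix_eq_repr_mul b (A p.1 q.1) p.2 q.2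

theorem blow_smul_one (b : Module.Basis (Fin L) R S) (r : R) :
    blow (d := d) b (algebraMap R S r • 1) = r • 1 := by
  ext ⟨s, a⟩ ⟨t, a'⟩
  rw [blow_apply]
  simp only [Matrix.smul_apply, Matrix.one_apply, Prod.mk.injEq, smul_eq_mul, mul_ite, mul_one,
    mul_zero]
  by_cases h : s = t
  · rw [if_pos h, ← Algebra.smul_def, map_smul]
    simp [h, Finsupp.single_apply, eq_comm]
  · simp [h]

/-- The Koszul complex over a basis, as a complex of matrices over `R`. -/
noncomputable def koszulMCx (b : Module.Basis (Fin L) R S) (x : Fin d → S) : MCx R where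
  β := Finset (Fin d) × Fin L
  deg p := p.1.card
  D := blow b (kmat x)
  sq := by rw [← map_mul, kmat_sq, map_zero]
  homog p q h := by
    refine kmat_ne x fun h0 => h ?_
    rw [blow_apply, h0, zero_mul, map_zero, Finsupp.zero_apply]

/-- Tuples as tensors. -/
noncomputable def tens (b : Module.Basis (Fin L) R S) (N : Type v) [AddCommGroup N] [Module R N] :
    (Finset (Fin d) × Fin L → N) →ₗ[R] (Finset (Fin d) → S ⊗[R] N) :=
  LinearMap.pi fun s => ∑ a, (TensorProduct.mk R S N (b a)) ∘ₗ LinearMap.proj (s, a)

theorem tens_apply (b : Module.Basis (Fin L) R S) (N : Type v) [AddCommGroup N] [Module R N]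
    (f : Finset (Fin d) × Fin L → N) (s : Finset (Fin d)) :
    tens b N f s = ∑ a, b a ⊗ₜ[R] f (s, a) := by
  simp [tens, LinearMap.pi_apply]

theorem tens_slice (b : Module.Basis (Fin L) R S) (N : Type v) [AddCommGroup N] [Module R N]
    (f : Finset (Fin d) × Fin L → N) (s : Finset (Fin d)) :
    tens b N f s = (TensorProduct.equivFinsuppOfBasisLeft b).symm
      (Finsupp.equivFunOnFinite.symm fun a => f (s, a)) := by
  rw [tens_apply, TensorProduct.equivFinsuppOfBasisLeft_symm_apply, Finsupp.sum_fintype]
  · simp
  · simp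

theorem tens_eq_zero_iff (b : Module.Basis (Fin L) R S) (N : Type v) [AddCommGroup N] [Module R N]
    (f : Finset (Fin d) × Fin L → N) (s : Finset (Fin d)) :
    tens b N f s = 0 ↔ ∀ a, f (s, a) = 0 := by
  rw [tens_slice, LinearEquiv.map_eq_zero_iff]
  constructor
  · intro h a; simpa using Finsupp.ext_iff.1 h a
  · intro h; ext a; simp [h a]

theorem tens_bijective (b : Module.Basis (Fin L) R S) (N : Type v) [AddCommGroup N]
    [Module R N] : Function.Bijective (tens (d := d) b N) := by
  constructor
  · rw [← LinearMap.ker_eq_bot, LinearMap.ker_eq_bot']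
    exact fun f hf => funext fun p => (tens_eq_zero_iff b N f p.1).1 (congrFun hf p.1) p.2
  · intro g
    refine ⟨fun p => TensorProduct.equivFinsuppOfBasisLeft b (g p.1) p.2, funext fun s => ?_⟩
    rw [tens_slice]
    convert (TensorProduct.equivFinsuppOfBasisLeft b).symm_apply_apply (g s)
    ext a
    simp

theorem tens_act (b : Module.Basis (Fin L) R S) (N : Type v) [AddCommGroup N] [Module R N]
    (A : Matrix (Finset (Fin d)) (Finset (Fin d)) S) (f : Finset (Fin d) × Fin L → N) :
    tens b N (act N (blow b A) f) = act (S ⊗[R] N) A (tens b N f) := by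
  funext s
  simp only [tens_apply, act_apply, TensorProduct.tmul_sum, smul_sum, TensorProduct.smul_tmul',
    TensorProduct.tmul_smul, Fintype.sum_prod_type, smul_eq_mul]
  rw [sum_comm]
  refine sum_congr rfl fun t _ => ?_
  rw [sum_comm]
  refine sum_congr rfl fun a' _ => ?_
  simp only [blow_apply, ← TensorProduct.sum_tmul]
  rw [b.sum_repr]

theorem koszulMCx_deg (b : Module.Basis (Fin L) R S) (x : Fin d → S) (p) :
    (koszulMCx b x).deg p ≤ d := by
  simpa [koszulMCx] using Finset.card_le_univ p.1

theorem koszulMCx_null (b : Module.Basis (Fin L) R S) (x : Fin d → S) (r : R)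
    (hr : algebraMap R S r ∈ Ideal.span (Set.range x)) : (koszulMCx b x).IsNullHtpic r := by
  obtain ⟨c, hc⟩ := Ideal.mem_span_range_iff_exists_fun.1 hr
  refine ⟨blow b (emat c), fun p q h => ?_, ?_⟩
  · refine emat_ne c fun h0 => h ?_
    exact (blow_apply b _ p q).trans (by rw [h0, zero_mul, map_zero, Finsupp.zero_apply])
  · change blow b (kmat x) * blow b (emat c) + blow b (emat c) * blow b (kmat x) = _
    rw [← map_mul, ← map_mul, ← map_add, kmat_homotopy, hc, blow_smul_one]
    rfl

/-- The matrix complex computes Koszul homology, also after restriction along a surjection. -/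
theorem koszulMCx_length {R : Type u} [CommRing R] {S : Type u} [CommRing S] [Algebra R S]
    (b : Module.Basis (Fin L) R S) (x : Fin d → S) (N : Type v) [AddCommGroup N] [Module R N]
    (n : ℤ) :
    Module.length R (((koszulMCx b x).gc N).H ⊥ ⊤ n) =
      Module.length R ((koszulGC R x (S ⊗[R] N)).H ⊥ ⊤ n) := by
  refine GC.length_H_semi _ _ (RingHom.id R) (tens b N) (tens_bijective b N) (fun f => ?_)
    (fun k f => ?_) n
  · change tens b N ((koszulMCx b x).dlin N f) = koszulD x _ (tens b N f)
    rw [← act_kmat, ← tens_act]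
    congr 1
  · change f ∈ (koszulMCx b x).degSub N k ↔ tens b N f ∈ koszulDeg R d (S ⊗[R] N) k
    constructor
    · intro h s _
      simp only [SetLike.mem_coe]
      split_ifs with hs
      · trivial
      · rw [Submodule.mem_bot, tens_eq_zero_iff]
        intro a
        have h1 := h (s, a) trivial
        simp only [SetLike.mem_coe, koszulMCx, hs, if_false, Submodule.mem_bot] at h1
        exact h1
    · intro h p _
      simp only [SetLike.mem_coe]
      split_ifs with hp
      · trivial
      · have h1 := h p.1 trivial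
        simp only [SetLike.mem_coe] at h1
        rw [if_neg (by simpa [koszulMCx] using hp), Submodule.mem_bot, tens_eq_zero_iff] at h1
        exact (Submodule.mem_bot R).2 (h1 p.2)

theorem koszulMCx_map (b : Module.Basis (Fin L) R S) (x : Fin d → S) (R' : Type v)
    [CommRing R'] [Algebra R R'] :
    (koszulMCx b x).map (algebraMap R R') =
      koszulMCx (Algebra.TensorProduct.basis R' b) (fun j => (1 : R') ⊗ₜ[R] x j) := by
  simp only [MCx.map, koszulMCx]
  congr 1
  ext ⟨s, a⟩ ⟨t, a'⟩
  simp only [Matrix.map_apply, blow_apply, Algebra.TensorProduct.basis_apply, kmat]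
  have hk : (∑ j ∈ sᶜ, if t = insert j s then ksign s j • ((1 : R') ⊗ₜ[R] x j) else 0) =
      (1 : R') ⊗ₜ[R] (∑ j ∈ sᶜ, if t = insert j s then ksign s j • x j else 0) := by
    rw [TensorProduct.tmul_sum]
    refine sum_congr rfl fun j _ => ?_
    split_ifs
    · exact (TensorProduct.tmul_smul _ _ _).symm
    · simp
  rw [hk, Algebra.TensorProduct.tmul_mul_tmul, one_mul,
    Algebra.TensorProduct.basis_repr_tmul]
  simp

end Model

section Pins

variable {R : Type u} [CommRing R] {S : Type u} [CommRing S] [Algebra R S]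
  [Module.Finite R S] {d : ℕ} (x : Fin d → S)

theorem exists_koszulMCx [Module.Free R S] :
    ∃ P : MCx R, (∀ b, P.deg b ≤ d) ∧
      (∀ r : R, algebraMap R S r ∈ Ideal.span (Set.range x) → P.IsNullHtpic r) ∧
      (∀ (N : Type u) [AddCommGroup N] [Module R N] (n : ℤ),
        Module.length R ((P.gc N).H ⊥ ⊤ n) =
          Module.length R ((koszulGC R x (S ⊗[R] N)).H ⊥ ⊤ n)) ∧
      ∀ (R' : Type u) [CommRing R'] [Algebra R R'] (N : Type u) [AddCommGroup N] [Module R' N]
        (n : ℤ), Module.length R' (((P.map (algebraMap R R')).gc N).H ⊥ ⊤ n) =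
          Module.length R' ((koszulGC R'
            (fun j => (1 : R') ⊗ₜ[R] x j) ((R' ⊗[R] S) ⊗[R'] N)).H ⊥ ⊤ n) := by
  obtain _ | _ := subsingleton_or_nontrivial R
  · have : Subsingleton S := Module.subsingleton R S
    let b : Module.Basis (Fin 0) R S := Module.Basis.empty S
    refine ⟨koszulMCx b x, koszulMCx_deg b x, koszulMCx_null b x, ?_, ?_⟩
    · intro N _ _ n; exact koszulMCx_length b x N n
    · intro R' _ _ N _ _ n
      rw [koszulMCx_map]
      exact koszulMCx_length _ _ N n
  · let b : Module.Basis (Fin (Module.finrank R S)) R S := Module.finBasis R S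
    refine ⟨koszulMCx b x, koszulMCx_deg b x, koszulMCx_null b x, ?_, ?_⟩
    · intro N _ _ n; exact koszulMCx_length b x N n
    · intro R' _ _ N _ _ n
      rw [koszulMCx_map]
      exact koszulMCx_length _ _ N n

/-- The subcomplex `I ^ (k - i) K_i`. -/
noncomputable def powSub (R : Type u) [CommRing R] [Algebra R S] (N : Type v) [AddCommGroup N]
    [Module S N] [Module R N] [IsScalarTower R S N] (k : ℕ) :
    Submodule R (Finset (Fin d) → N) :=
  Submodule.pi Set.univ fun s =>
    (Ideal.span (Set.range x) ^ (k - s.card) • (⊤ : Submodule S N)).restrictScalars R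

omit [Module.Finite R S] in
theorem mem_powSub {N : Type v} [AddCommGroup N] [Module S N] [Module R N]
    [IsScalarTower R S N] {k : ℕ} {f : Finset (Fin d) → N} :
    f ∈ powSub x R N k ↔
      ∀ s, f s ∈ Ideal.span (Set.range x) ^ (k - s.card) • (⊤ : Submodule S N) := by
  simp [powSub, Submodule.mem_pi]

omit [Module.Finite R S] in
theorem mem_koszulDeg {N : Type v} [AddCommGroup N] [Module R N] {k : ℤ}
    {f : Finset (Fin d) → N} : f ∈ koszulDeg R d N k ↔ ∀ s, (s.card : ℤ) ≠ k → f s = 0 := by
  simp only [koszulDeg, Submodule.mem_pi, Set.mem_univ, true_implies]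
  refine forall_congr' fun s => ?_
  by_cases h : (s.card : ℤ) = k <;> simp [h]

omit [Module.Finite R S] in
theorem powSub_isSub (N : Type v) [AddCommGroup N] [Module S N] [Module R N]
    [IsScalarTower R S N] (k : ℕ) : (koszulGC R x N).IsSub (powSub x R N k) := by
  rintro _ ⟨f, hf, rfl⟩
  rw [mem_powSub]
  intro s
  change koszulD x N f s ∈ _
  rw [koszulD_apply]
  refine Submodule.sum_mem _ fun j hj => ?_
  rw [mem_compl] at hj
  have h1 := mem_powSub x |>.1 hf (insert j s)
  rw [card_insert_of_notMem hj] at h1
  have h2 : ksign s j • x j ∈ Ideal.span (Set.range x) :=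
    zsmul_mem (Ideal.subset_span (Set.mem_range_self j)) _
  have h3 := Submodule.smul_mem_smul h2 h1
  rw [← Submodule.smul_assoc, smul_eq_mul, ← pow_succ'] at h3
  exact Submodule.smul_mono_left (Ideal.pow_le_pow_right (by omega)) h3

/-- Artin-Rees: for large `k` the subcomplex `I ^ (k - i) K_i` is exact. -/
theorem powSub_exact [IsNoetherianRing R] (N : Type u) [AddCommGroup N] [Module S N] [Module R N]
    [IsScalarTower R S N] [Module.Finite S N] :
    ∃ K, ∀ k ≥ K, ∀ i, ∀ z ∈ (koszulGC R x N).cyc ⊥ (powSub x R N k) i,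
      z ∈ (powSub x R N k ⊓ (koszulGC R x N).deg (i + 1)).map (koszulGC R x N).D := by
  classical
  have : IsNoetherianRing S := IsNoetherianRing.of_finite R S
  set I := Ideal.span (Set.range x) with hI
  let Z : ℕ → Submodule S (Finset (Fin d) → N) := fun i =>
    koszulDeg S d N i ⊓ LinearMap.ker (koszulD x N)
  choose c hc using fun i : ℕ => Ideal.exists_pow_inf_eq_pow_smul I (Z i)
  refine ⟨(range (d + 1)).sup c + d + 1, fun k hk i z hz => ?_⟩
  simp only [GC.cyc, Submodule.mem_inf, Submodule.mem_comap, Submodule.mem_bot] at hz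
  obtain ⟨⟨hzF, hzd⟩, hzc⟩ := hz
  change z ∈ koszulDeg R d N i at hzd
  change koszulD x N z = 0 at hzc
  by_cases hz0 : z = 0
  · subst hz0; exact zero_mem _
  obtain ⟨s0, hs0⟩ := Function.ne_iff.1 hz0
  obtain rfl : (s0.card : ℤ) = i := by_contra fun h => hs0 (mem_koszulDeg.1 hzd s0 h)
  set a := s0.card
  have had : a ≤ d := by simpa using Finset.card_le_univ s0
  have hca : c a ≤ (range (d + 1)).sup c := Finset.le_sup (mem_range.2 (by omega))
  have hzI : z ∈ I ^ (k - a) • (⊤ : Submodule S (Finset (Fin d) → N)) := by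
    rw [show z = ∑ s, Pi.single s (z s) from (Finset.univ_sum_single z).symm]
    refine Submodule.sum_mem _ fun s _ => ?_
    by_cases hs : s.card = a
    · have h := Submodule.mem_map_of_mem
        (f := LinearMap.single S (fun _ : Finset (Fin d) => N) s) (mem_powSub x |>.1 hzF s)
      rw [Submodule.map_smul'', hs] at h
      exact Submodule.smul_mono le_rfl le_top h
    · rw [mem_koszulDeg.1 hzd s (by simpa [a] using hs), Pi.single_zero]
      exact zero_mem _
  have hz' : z ∈ I • (I ^ (k - a - 1) • (⊤ : Submodule S (Finset (Fin d) → N)) ⊓ Z a) := by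
    have h : z ∈ I ^ (k - a) • (⊤ : Submodule S (Finset (Fin d) → N)) ⊓ Z a :=
      ⟨hzI, mem_koszulDeg.2 fun s hs => mem_koszulDeg.1 hzd s hs, hzc⟩
    rw [hc a (k - a) (by omega), show k - a - c a = 1 + (k - a - 1 - c a) by omega, pow_add,
      pow_one, mul_smul] at h
    rwa [hc a (k - a - 1) (by omega)]
  clear hzI hzF hzd hzc hz0 hs0
  induction hz' using Submodule.smul_induction_on' with
  | smul r hr w hw =>
    obtain ⟨hwI, hwd, hwc⟩ := hw
    obtain ⟨e, he⟩ := Ideal.mem_span_range_iff_exists_fun.1 hr
    refine ⟨koszulE e N w, ⟨?_, ?_⟩, ?_⟩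
    · rw [SetLike.mem_coe, mem_powSub]
      intro s
      rw [koszulE_apply]
      refine Submodule.sum_mem _ fun j hj => Submodule.smul_mem _ _ ?_
      by_cases hs : (s.erase j).card = a
      · have h := Submodule.mem_map_of_mem
          (f := (LinearMap.proj (s.erase j) : (Finset (Fin d) → N) →ₗ[S] N)) hwI
        rw [Submodule.map_smul''] at h
        refine Submodule.smul_mono (Ideal.pow_le_pow_right ?_) le_top h
        have := card_erase_add_one hj
        omega
      · rw [mem_koszulDeg.1 hwd (s.erase j) (by exact_mod_cast hs)]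
        exact zero_mem _
    · change koszulE e N w ∈ koszulDeg R d N _
      rw [mem_koszulDeg]
      intro s hs
      rw [koszulE_apply]
      refine sum_eq_zero fun j hj => ?_
      rw [mem_koszulDeg.1 hwd (s.erase j) ?_, smul_zero]
      have := card_erase_add_one hj
      omega
    · change koszulD x N (koszulE e N w) = r • w
      have h := koszul_homotopy x e N w
      rwa [LinearMap.mem_ker.1 hwc, map_zero, add_zero, he] at h
  | add y _ z _ hy hz => exact add_mem hy hz

/-- Degree `i` of the quotient by `powSub`. -/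
theorem length_deg_quot (N : Type u) [AddCommGroup N] [Module S N] [Module R N]
    [IsScalarTower R S N] (k : ℕ) (i : ℤ) :
    Module.length R ((koszulGC R x N).deg i ⧸
        (powSub x R N k).comap ((koszulGC R x N).deg i).subtype) =
      (Finset.univ.filter fun s : Finset (Fin d) => (s.card : ℤ) = i).card *
        Module.length R (N ⧸ Ideal.span (Set.range x) ^ (k - i.toNat) • (⊤ : Submodule S N)) := by
  classical
  set F := Finset.univ.filter fun s : Finset (Fin d) => (s.card : ℤ) = i
  set U := (Ideal.span (Set.range x) ^ (k - i.toNat) • (⊤ : Submodule S N)).restrictScalars R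
  let q : (koszulGC R x N).deg i →ₗ[R] (F → N ⧸ U) :=
    LinearMap.pi fun s => U.mkQ ∘ₗ LinearMap.proj (s : Finset (Fin d)) ∘ₗ
      ((koszulGC R x N).deg i).subtype
  have hF : ∀ s : F, ((s : Finset (Fin d)).card : ℤ) = i := fun s => (Finset.mem_filter.1 s.2).2
  have hq : Function.Surjective q := by
    intro g
    choose g' hg' using fun s => Submodule.mkQ_surjective U (g s)
    refine ⟨⟨fun s => if h : s ∈ F then g' ⟨s, h⟩ else 0, mem_koszulDeg.2 fun s hs => ?_⟩,
      funext fun s => ?_⟩
    · exact dif_neg (by simpa [F] using hs)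
    · simp [q, hg']
  have hker : LinearMap.ker q =
      (powSub x R N k).comap ((koszulGC R x N).deg i).subtype := by
    ext ⟨f, hf⟩
    change q ⟨f, hf⟩ = 0 ↔ f ∈ powSub x R N k
    simp only [funext_iff, mem_powSub, q, LinearMap.pi_apply, LinearMap.comp_apply,
      Submodule.subtype_apply, LinearMap.proj_apply, Submodule.mkQ_apply,
      Submodule.Quotient.mk_eq_zero, Pi.zero_apply]
    constructor
    · intro h s
      by_cases hs : (s.card : ℤ) = i
      · have h1 := h ⟨s, by simp [F, hs]⟩
        simp only [U, Submodule.restrictScalars_mem, ← hs, Int.toNat_natCast] at h1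
        exact h1
      · rw [mem_koszulDeg.1 hf s hs]; exact zero_mem _
    · intro h s
      have h1 := h s
      simp only [U, Submodule.restrictScalars_mem, ← hF s, Int.toNat_natCast]
      exact h1
  refine (((Submodule.quotEquivOfEq _ _ hker.symm).trans
    (LinearMap.quotKerEquivOfSurjective q hq)).length_eq).trans ?_
  simp only [Module.length_pi_of_fintype, sum_const, Finset.card_univ, Fintype.card_coe,
    nsmul_eq_mul]
  rw [(Submodule.Quotient.restrictScalarsEquiv R _).length_eq]

theorem koszul_tendsto [IsNoetherianRing R] (N : Type u) [AddCommGroup N] [Module S N] [Module R N]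
    [IsScalarTower R S N] [Module.Finite S N]
    (hf : ∀ k, Module.length R (N ⧸ Ideal.span (Set.range x) ^ k • (⊤ : Submodule S N)) ≠ ⊤) :
    (∀ k, (koszulGC R x N).FinH ⊥ ⊤ k) ∧
    Tendsto (fun k : ℕ => (d.factorial : ℝ) *
      (len R (N ⧸ Ideal.span (Set.range x) ^ k • (⊤ : Submodule S N)) : ℝ) / (k : ℝ) ^ d) atTop
      (𝓝 (((koszulGC R x N).chi (Finset.Icc 0 (d : ℤ)) ⊥ ⊤ : ℤ) : ℝ)) := by
  classical
  set C := koszulGC R x N
  obtain ⟨K, hK⟩ := powSub_exact (R := R) x N
  set f : ℕ → ℤ := fun k =>
    (len R (N ⧸ Ideal.span (Set.range x) ^ k • (⊤ : Submodule S N)) : ℤ)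
  have hdeg : ∀ k, k ∉ Finset.Icc (0 : ℤ) d → C.deg k = ⊥ := by
    intro k hk
    refine (Submodule.eq_bot_iff _).2 fun g hg => funext fun s => ?_
    refine mem_koszulDeg.1 hg s fun h => hk ?_
    have : s.card ≤ d := by simpa using Finset.card_le_univ s
    simp only [Finset.mem_Icc]
    omega
  have hl : ∀ k : ℕ, ∀ i : ℤ,
      Module.length R (C.deg i ⧸ (powSub x R N k).comap (C.deg i).subtype) ≠ ⊤ := by
    intro k i
    rw [length_deg_quot]
    exact WithTop.mul_ne_top (ENat.natCast_ne_top _) (hf _)
  have hH : ∀ k ≥ K, ∀ i, Module.length R (C.H ⊥ ⊤ i) =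
      Module.length R (C.H (powSub x R N k) ⊤ i) :=
    fun k hk i => C.length_H_mod_exact (powSub_isSub x N k) (hK k hk) i
  have hfin : ∀ i, C.FinH ⊥ ⊤ i := fun i => by
    rw [GC.FinH, hH K le_rfl i]
    exact (C.chi_quot (powSub_isSub x N K) d hdeg (hl K)).1 i
  refine ⟨hfin, ?_⟩
  have hchi : ∀ n ≥ K,
      (fwdDiff 1)^[d] f n = C.chi (Finset.Icc 0 (d : ℤ)) ⊥ ⊤ := by
    intro n hn
    have h := (C.chi_quot (powSub_isSub x N (n + d)) d hdeg (hl _)).2
    have he : C.chi (Finset.Icc 0 (d : ℤ)) ⊥ ⊤ =
        C.chi (Finset.Icc 0 (d : ℤ)) (powSub x R N (n + d)) ⊤ :=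
      sum_congr rfl fun i _ => by simp only [GC.h, len, hH (n + d) (by omega) i]
    rw [he, h, fwdDiff_iter_eq_sum_shift, ← Finset.sum_range_reflect]
    refine sum_congr rfl fun i hi => ?_
    rw [mem_range] at hi
    rw [len, length_deg_quot, ENat.toNat_mul, ENat.toNat_natCast, Int.toNat_natCast,
      show d - (d + 1 - 1 - i) = i by omega, show d + 1 - 1 - i = d - i by omega,
      show n + (d - i) • 1 = n + d - i by simp; omega, Nat.choose_symm (by omega : i ≤ d)]
    have hcard : (Finset.univ.filter fun s : Finset (Fin d) => (s.card : ℤ) = (i : ℤ)).card =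
        d.choose i := by
      have : (Finset.univ.filter fun s : Finset (Fin d) => (s.card : ℤ) = (i : ℤ)) =
          (Finset.univ : Finset (Fin d)).powersetCard i := by
        ext s; simp [Finset.mem_powersetCard]
      simp [this]
    rw [hcard]
    simp only [f, len, smul_eq_mul]
    push_cast
    ring
  have := tendsto_of_fwdDiff f d K _ hchi
  simpa [f] using this

end Pins

end Vale.Agent.P202.Char
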