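import Vale.Agent.P202.Char.Complexes

/-!
P202, Lech in characteristic `p`: lengths of subquotients, homology under semilinear bijections,
Euler characteristic of a quotient complex of finite length, and the limit of a function with
eventually constant finite difference.
-/

namespace Vale.Agent.P202.Char

open Filter Topology Finset

universe u v w

variable {R : Type u} [CommRing R] {M : Type v} [AddCommGroup M] [Module R M]

theorem length_sq_add {A B C : Submodule R M} (h1 : A ≤ B) (h2 : B ≤ C) :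
    Module.length R (C ⧸ A.comap C.subtype) =
      Module.length R (B ⧸ A.comap B.subtype) + Module.length R (C ⧸ B.comap C.subtype) := by
  let i : (B ⧸ A.comap B.subtype) →ₗ[R] (C ⧸ A.comap C.subtype) :=
    Submodule.mapQ _ _ (Submodule.inclusion h2) fun x hx => hx
  let q : (C ⧸ A.comap C.subtype) →ₗ[R] (C ⧸ B.comap C.subtype) :=
    Submodule.factor (Submodule.comap_mono h1)
  refine Module.length_eq_add_of_exact i q ?_ (Submodule.factor_surjective _) ?_
  · rw [← LinearMap.ker_eq_bot, LinearMap.ker_eq_bot']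
    intro x hx
    obtain ⟨x, rfl⟩ := Submodule.mkQ_surjective _ x
    change (Submodule.Quotient.mk (Submodule.inclusion h2 x) : C ⧸ A.comap C.subtype) = 0 at hx
    rw [Submodule.Quotient.mk_eq_zero] at hx
    exact (Submodule.Quotient.mk_eq_zero _).2 hx
  · intro y
    obtain ⟨⟨y, hy⟩, rfl⟩ := Submodule.mkQ_surjective _ y
    constructor
    · intro h
      have hyB : y ∈ B := by simpa [q, Submodule.Quotient.mk_eq_zero] using h
      exact ⟨Submodule.Quotient.mk ⟨y, hyB⟩, rfl⟩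
    · rintro ⟨x, hx⟩
      rw [← hx]
      obtain ⟨x, rfl⟩ := Submodule.mkQ_surjective _ x
      change (Submodule.Quotient.mk (Submodule.inclusion h2 x) : C ⧸ B.comap C.subtype) = 0
      exact (Submodule.Quotient.mk_eq_zero _).2 x.2

/-- A bijective semilinear map over a surjective ring map preserves lengths. -/
theorem length_semi {R' : Type*} [CommRing R'] {M' : Type*} [AddCommGroup M'] [Module R' M']
    (σ : R →+* R') [RingHomSurjective σ] (f : M →ₛₗ[σ] M') (hf : Function.Bijective f) :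
    Module.length R M = Module.length R' M' := by
  rw [Module.length, Module.length, WithBot.unbot_inj,
    Order.krullDim_eq_of_orderIso (Submodule.orderIsoMapComapOfBijective f hf)]

theorem Icc_eq_range (d : ℕ) :
    Finset.Icc (0 : ℤ) d = (range (d + 1)).map Nat.castEmbedding := by
  ext k
  simp only [Finset.mem_Icc, Finset.mem_map, Finset.mem_range, Nat.castEmbedding_apply]
  constructor
  · exact fun h => ⟨k.toNat, by omega, by omega⟩
  · rintro ⟨i, hi, rfl⟩; omega

theorem GC.chi_eq_range {T : Type v} [AddCommGroup T] [Module R T] (C : GC R T)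
    (X Y : Submodule R T) (d : ℕ) : C.chi (Finset.Icc 0 (d : ℤ)) X Y =
      ∑ i ∈ range (d + 1), (-1 : ℤ) ^ i * (C.h X Y i : ℤ) := by
  rw [GC.chi, Icc_eq_range, Finset.sum_map]
  simp

namespace GC

variable {T : Type v} [AddCommGroup T] [Module R T] (C : GC R T)

/-- Homology under a bijective semilinear chain map. -/
theorem length_H_semi {R' : Type*} [CommRing R'] {T' : Type*} [AddCommGroup T'] [Module R' T']
    (C' : GC R' T') (σ : R →+* R') [RingHomSurjective σ] (f : T →ₛₗ[σ] T')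
    (hf : Function.Bijective f) (hD : ∀ x, f (C.D x) = C'.D (f x))
    (hdeg : ∀ k x, x ∈ C.deg k ↔ f x ∈ C'.deg k) (k : ℤ) :
    Module.length R (C.H ⊥ ⊤ k) = Module.length R' (C'.H ⊥ ⊤ k) := by
  have hcyc : ∀ x, x ∈ C.cyc ⊥ ⊤ k → f x ∈ C'.cyc ⊥ ⊤ k := by
    intro x hx
    simp only [cyc, Submodule.mem_inf, Submodule.mem_top, true_and, Submodule.mem_comap,
      Submodule.mem_bot] at hx ⊢
    exact ⟨(hdeg k x).1 hx.1, by rw [← hD, hx.2, map_zero]⟩
  let g : C.cyc ⊥ ⊤ k →ₛₗ[σ] C'.cyc ⊥ ⊤ k :=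
    (f.domRestrict (C.cyc ⊥ ⊤ k)).codRestrict _ fun x => hcyc x x.2
  let q := ((C'.bd ⊥ ⊤ k).comap (C'.cyc ⊥ ⊤ k).subtype).mkQ.comp g
  have hker : LinearMap.ker q = (C.bd ⊥ ⊤ k).comap (C.cyc ⊥ ⊤ k).subtype := by
    ext ⟨x, hx⟩
    change (Submodule.Quotient.mk (g ⟨x, hx⟩) : C'.H ⊥ ⊤ k) = 0 ↔ x ∈ C.bd ⊥ ⊤ k
    rw [Submodule.Quotient.mk_eq_zero]
    change f x ∈ C'.bd ⊥ ⊤ k ↔ _
    simp only [bd, bot_inf_eq, sup_bot_eq, top_inf_eq, Submodule.mem_map]
    constructor
    · rintro ⟨y', hy', he⟩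
      obtain ⟨y, rfl⟩ := hf.2 y'
      exact ⟨y, (hdeg _ y).2 hy', hf.1 (by rw [hD, he])⟩
    · rintro ⟨y, hy, he⟩
      exact ⟨f y, (hdeg _ y).1 hy, by rw [← hD, he]⟩
  refine length_semi σ (Submodule.liftQ _ q hker.ge) ⟨?_, ?_⟩
  · rw [← LinearMap.ker_eq_bot]
    exact Submodule.ker_liftQ_eq_bot' _ q hker.symm
  · intro y
    obtain ⟨⟨y, hy⟩, rfl⟩ := Submodule.mkQ_surjective _ y
    obtain ⟨x, rfl⟩ := hf.2 y
    have hx : x ∈ C.cyc ⊥ ⊤ k := by
      simp only [cyc, Submodule.mem_inf, Submodule.mem_top, true_and, Submodule.mem_comap,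
        Submodule.mem_bot] at hy ⊢
      exact ⟨(hdeg k x).2 hy.1, hf.1 (by rw [hD, hy.2, map_zero])⟩
    exact ⟨Submodule.Quotient.mk ⟨x, hx⟩, rfl⟩

/-- Dividing by an exact subcomplex does not change the homology. -/
theorem length_H_mod_exact {X : Submodule R T} (hX : C.IsSub X)
    (hex : ∀ k, ∀ z ∈ C.cyc ⊥ X k, z ∈ (X ⊓ C.deg (k + 1)).map C.D) (k : ℤ) :
    Module.length R (C.H ⊥ ⊤ k) = Module.length R (C.H X ⊤ k) := by
  have hle : C.cyc ⊥ ⊤ k ≤ C.cyc X ⊤ k := by
    intro x hx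
    simp only [cyc, Submodule.mem_inf, Submodule.mem_comap, Submodule.mem_bot] at hx ⊢
    exact ⟨hx.1, by rw [hx.2]; exact zero_mem _⟩
  let q := ((C.bd X ⊤ k).comap (C.cyc X ⊤ k).subtype).mkQ.comp (Submodule.inclusion hle)
  have hker : LinearMap.ker q = (C.bd ⊥ ⊤ k).comap (C.cyc ⊥ ⊤ k).subtype := by
    ext ⟨z, hz⟩
    change (Submodule.Quotient.mk (Submodule.inclusion hle ⟨z, hz⟩) : C.H X ⊤ k) = 0 ↔
      z ∈ C.bd ⊥ ⊤ k
    rw [Submodule.Quotient.mk_eq_zero]
    change z ∈ C.bd X ⊤ k ↔ _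
    simp only [bd, bot_inf_eq, sup_bot_eq, top_inf_eq]
    constructor
    · intro h
      obtain ⟨_, ⟨y, hy, rfl⟩, f, hf, rfl⟩ := Submodule.mem_sup.1 h
      have hfc : f ∈ C.cyc ⊥ X k := by
        refine ⟨hf, ?_⟩
        have h0 : C.D (C.D y + f) = 0 := by
          simpa [cyc] using hz.2
        have hsq : C.D (C.D y) = 0 := LinearMap.congr_fun C.sq y
        simpa [hsq] using h0
      obtain ⟨u, hu, rfl⟩ := hex k f hfc
      exact ⟨y + u, add_mem hy hu.2, by simp⟩
    · exact fun h => Submodule.mem_sup_left h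
  refine (LinearEquiv.ofBijective (Submodule.liftQ _ q hker.ge) ⟨?_, ?_⟩).length_eq
  · rw [← LinearMap.ker_eq_bot]
    exact Submodule.ker_liftQ_eq_bot' _ q hker.symm
  · intro y
    obtain ⟨⟨z, hz⟩, rfl⟩ := Submodule.mkQ_surjective _ y
    obtain ⟨⟨-, hzd⟩, hzc⟩ := hz
    have hDz : C.D z ∈ C.cyc ⊥ X (k - 1) :=
      ⟨⟨hzc, C.map_deg k ⟨z, hzd, rfl⟩⟩, by simpa using LinearMap.congr_fun C.sq z⟩
    obtain ⟨u, hu, hDu⟩ := hex _ _ hDz
    rw [sub_add_cancel] at hu
    have hz' : z - u ∈ C.cyc ⊥ ⊤ k :=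
      ⟨⟨Submodule.mem_top, sub_mem hzd hu.2⟩, by simp [hDu]⟩
    refine ⟨Submodule.Quotient.mk ⟨z - u, hz'⟩, ?_⟩
    refine (Submodule.Quotient.eq _).2 ?_
    change (z - u) - z ∈ C.bd X ⊤ k
    rw [sub_sub_cancel_left]
    exact neg_mem (Submodule.mem_sup_right hu)

/-- The Euler characteristic of a quotient complex of finite length. -/
theorem chi_quot {X : Submodule R T} (hX : C.IsSub X) (d : ℕ)
    (hdeg : ∀ k, k ∉ Finset.Icc (0 : ℤ) d → C.deg k = ⊥)
    (hl : ∀ k, Module.length R (C.deg k ⧸ X.comap (C.deg k).subtype) ≠ ⊤) :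
    (∀ k, C.FinH X ⊤ k) ∧ C.chi (Finset.Icc 0 (d : ℤ)) X ⊤ =
      ∑ i ∈ range (d + 1), (-1 : ℤ) ^ i * (len R (C.deg i ⧸ X.comap (C.deg i).subtype) : ℤ) := by
  have hXb : ∀ k, X ⊓ C.deg k ≤ C.bd X ⊤ k := fun k => le_sup_right
  have hbc : ∀ k, C.bd X ⊤ k ≤ C.cyc X ⊤ k := by
    intro k
    refine sup_le ?_ fun x hx => ⟨⟨Submodule.mem_top, hx.2⟩, hX ⟨x, hx.1, rfl⟩⟩
    rintro _ ⟨y, ⟨-, hy⟩, rfl⟩
    refine ⟨⟨Submodule.mem_top, ?_⟩, ?_⟩
    · simpa using C.map_deg (k + 1) ⟨y, hy, rfl⟩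
    · rw [SetLike.mem_coe, Submodule.mem_comap,
        show C.D (C.D y) = 0 from LinearMap.congr_fun C.sq y]
      exact zero_mem _
  have hcd : ∀ k, C.cyc X ⊤ k ≤ C.deg k := fun k x hx => hx.1.2
  set b : ℤ → ℕ∞ := fun k =>
    Module.length R (C.bd X ⊤ k ⧸ (X ⊓ C.deg k).comap (C.bd X ⊤ k).subtype)
  have htot : ∀ k, Module.length R (C.deg k ⧸ X.comap (C.deg k).subtype) =
      b k + Module.length R (C.H X ⊤ k) + b (k - 1) := by
    intro k
    have e0 : X.comap (C.deg k).subtype = (X ⊓ C.deg k).comap (C.deg k).subtype := by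
      ext x; simp
    let q : C.deg k →ₗ[R]
        C.bd X ⊤ (k - 1) ⧸ (X ⊓ C.deg (k - 1)).comap (C.bd X ⊤ (k - 1)).subtype :=
      Submodule.mkQ _ ∘ₗ (C.D ∘ₗ (C.deg k).subtype).codRestrict _ fun x =>
        Submodule.mem_sup_left ⟨x, ⟨Submodule.mem_top, by simp⟩, rfl⟩
    have hq : Function.Surjective q := by
      intro y
      obtain ⟨⟨y, hy⟩, rfl⟩ := Submodule.mkQ_surjective _ y
      obtain ⟨_, ⟨u, hu, rfl⟩, f, hf, rfl⟩ := Submodule.mem_sup.1 hy
      refine ⟨⟨u, by simpa using hu.2⟩, ?_⟩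
      refine (Submodule.Quotient.eq _).2 ?_
      change C.D u - (C.D u + f) ∈ X ⊓ C.deg (k - 1)
      rw [sub_add_cancel_left]
      exact neg_mem hf
    have hker : LinearMap.ker q = (C.cyc X ⊤ k).comap (C.deg k).subtype := by
      ext ⟨x, hx⟩
      simp only [q, LinearMap.mem_ker, LinearMap.comp_apply, Submodule.mkQ_apply,
        Submodule.Quotient.mk_eq_zero, Submodule.mem_comap, Submodule.subtype_apply,
        LinearMap.codRestrict_apply, Submodule.mem_inf, cyc, Submodule.mem_top, true_and]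
      exact ⟨fun h => ⟨hx, h.1⟩, fun h => ⟨h.2, C.map_deg k ⟨x, hx, rfl⟩⟩⟩
    have hb' := (LinearMap.quotKerEquivOfSurjective q hq).length_eq
    rw [hker] at hb'
    rw [e0, length_sq_add ((hXb k).trans (hbc k)) (hcd k), length_sq_add (hXb k) (hbc k), hb']
  have hbt : ∀ k, b k ≠ ⊤ := fun k h => hl k (by rw [htot k, h, top_add, top_add])
  have hfin : ∀ k, C.FinH X ⊤ k := fun k h => hl k (by rw [htot k, h, add_top, top_add])
  refine ⟨hfin, ?_⟩
  have hz : ∀ k, k + 1 ∉ Finset.Icc (0 : ℤ) d → b k = 0 := by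
    intro k hk
    refine Module.length_eq_zero_iff.2 (subsingleton_of_forall_eq 0 fun y => ?_)
    obtain ⟨⟨y, hy⟩, rfl⟩ := Submodule.mkQ_surjective _ y
    rw [Submodule.mkQ_apply, Submodule.Quotient.mk_eq_zero]
    change y ∈ X ⊓ C.deg k
    simpa [bd, hdeg _ hk] using hy
  have hneg : b (-1) = 0 := by
    refine Module.length_eq_zero_iff.2 (subsingleton_of_forall_eq 0 fun y => ?_)
    obtain ⟨⟨y, hy⟩, rfl⟩ := Submodule.mkQ_surjective _ y
    rw [Submodule.mkQ_apply, Submodule.Quotient.mk_eq_zero]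
    have h0 : y ∈ C.deg (-1) := hcd _ (hbc _ hy)
    rw [hdeg _ (by simp), Submodule.mem_bot] at h0
    subst h0
    exact zero_mem _
  have hsum : ∀ m : ℕ, ∑ i ∈ range (m + 1),
      (-1 : ℤ) ^ i * (len R (C.deg i ⧸ X.comap (C.deg i).subtype) : ℤ) =
      (∑ i ∈ range (m + 1), (-1 : ℤ) ^ i * (C.h X ⊤ i : ℤ)) +
        (-1) ^ m * ((b m).toNat : ℤ) := by
    have hsplit : ∀ k, (len R (C.deg k ⧸ X.comap (C.deg k).subtype) : ℤ) =
        ((b k).toNat : ℤ) + C.h X ⊤ k + ((b (k - 1)).toNat : ℤ) := by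
      intro k
      have hh : Module.length R (C.H X ⊤ k) ≠ ⊤ := hfin k
      have h1 : b k + Module.length R (C.H X ⊤ k) ≠ ⊤ := WithTop.add_ne_top.2 ⟨hbt k, hh⟩
      rw [len, htot k]
      generalize hA : Module.length R (C.H X ⊤ k) = A at hh h1 ⊢
      rw [ENat.toNat_add h1 (hbt _), ENat.toNat_add (hbt k) hh]
      push_cast
      simp only [h, len, hA]
    intro m
    induction m with
    | zero =>
      simp only [zero_add, sum_range_one, pow_zero, one_mul, Nat.cast_zero]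
      rw [hsplit, Nat.cast_zero, zero_sub, hneg]
      simp
      ring
    | succ m ih =>
      rw [sum_range_succ _ (m + 1), ih, sum_range_succ _ (m + 1), hsplit,
        show ((m + 1 : ℕ) : ℤ) - 1 = m by push_cast; ring, pow_succ]
      ring
  rw [hsum d, hz d (by simp), ENat.toNat_zero, Nat.cast_zero, mul_zero, add_zero]
  exact chi_eq_range C X ⊤ d

end GC

/-- A function with eventually constant `d`-th difference grows like `c / d! * n ^ d`. -/
theorem tendsto_of_fwdDiff (f : ℕ → ℤ) (d K : ℕ) (c : ℤ)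
    (h : ∀ n ≥ K, (fwdDiff 1)^[d] f n = c) :
    Tendsto (fun n : ℕ => (d.factorial : ℝ) * (f n : ℝ) / (n : ℝ) ^ d) atTop (𝓝 (c : ℝ)) := by
  have hzero : ∀ i : ℕ, ∀ n ≥ K, (fwdDiff 1)^[i + 1 + d] f n = 0 := by
    intro i
    induction i with
    | zero =>
      intro n hn
      rw [show 0 + 1 + d = d + 1 by omega, Function.iterate_succ_apply', fwdDiff,
        h n hn, h (n + 1) (by omega), sub_self]
    | succ i ih =>
      intro n hn
      rw [show i + 1 + 1 + d = (i + 1 + d) + 1 by omega, Function.iterate_succ_apply', fwdDiff,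
        ih n hn, ih (n + 1) (by omega), sub_self]
  have hnew : ∀ m ≥ d, f (m + K) = ∑ k ∈ range (d + 1), (m.choose k : ℤ) * (fwdDiff 1)^[k] f K := by
    intro m hm
    have := shift_eq_sum_fwdDiff_iter 1 f m K
    rw [smul_eq_mul, mul_one, add_comm] at this
    rw [this, ← sum_subset (s₁ := range (d + 1)) (s₂ := range (m + 1))
      (range_subset_range.2 (by omega)) fun k _ hk => ?_]
    · simp
    · have hk' : d + 1 ≤ k := by simpa using hk
      rw [show k = (k - d - 1) + 1 + d by omega, hzero _ _ le_rfl, smul_zero]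
  rw [← tendsto_add_atTop_iff_nat K]
  have hone : ∀ k ∈ range (d + 1), Tendsto
      (fun m : ℕ => (d.factorial : ℝ) * ((m.choose k : ℝ) / ((m + K : ℕ) : ℝ) ^ d) *
        ((fwdDiff 1)^[k] f K : ℤ)) atTop (𝓝 (if k = d then (c : ℝ) else 0)) := by
    intro k hk
    rw [mem_range] at hk
    have h1 : Tendsto (fun m : ℕ => (m.choose k : ℝ) / ((m : ℝ) ^ k / k.factorial)) atTop
        (𝓝 1) := by
      have := (isEquivalent_choose k)
      rwa [Asymptotics.isEquivalent_iff_tendsto_one] at this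
      filter_upwards [eventually_ge_atTop 1] with m hm
      positivity
    have h2 : Tendsto (fun m : ℕ => ((m : ℝ) / (m + K)) ^ k) atTop (𝓝 1) := by
      simpa using (tendsto_natCast_div_add_atTop (K : ℝ)).pow k
    have h3 : Tendsto (fun m : ℕ => ((1 : ℝ) / (m + K : ℝ)) ^ (d - k)) atTop
        (𝓝 (if k = d then 1 else 0)) := by
      split_ifs with hkd
      · simp [hkd]
      · have : Tendsto (fun m : ℕ => (1 : ℝ) / (m + K : ℝ)) atTop (𝓝 0) :=
          tendsto_const_nhds.div_atTop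
            (tendsto_atTop_add_const_right _ _ tendsto_natCast_atTop_atTop)
        simpa [show d - k ≠ 0 by omega] using this.pow (d - k)
    have h4 := ((((h1.mul h2).mul h3).const_mul ((d.factorial : ℝ) / k.factorial))).mul_const
      ((((fwdDiff 1)^[k] f K : ℤ)) : ℝ)
    refine (h4.congr' ?_).trans_eq ?_
    · filter_upwards [eventually_ge_atTop 1] with m hm
      have hm0 : (0 : ℝ) < m := by exact_mod_cast hm
      have hs : (0 : ℝ) < (m : ℝ) + K := by positivity
      rw [div_pow, div_pow, one_pow, show ((m + K : ℕ) : ℝ) ^ d =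
        ((m : ℝ) + K) ^ k * ((m : ℝ) + K) ^ (d - k) by
          rw [← pow_add]; push_cast; congr 1; omega]
      field_simp
    · split_ifs with hkd
      · subst hkd; rw [h K le_rfl]; simp [Nat.factorial_ne_zero]
      · simp
  refine ((tendsto_finsetSum _ hone).congr' ?_).trans_eq ?_
  · filter_upwards [eventually_ge_atTop d] with m hm
    rw [hnew m hm]
    push_cast
    rw [mul_sum, sum_div]
    refine sum_congr rfl fun k _ => ?_
    ring
  · simp

end Vale.Agent.P202.Char
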