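import Vale.Agent.P202.Char.Koszul
import Vale.Agent.P202.Lech

/-!
P202, Lech in characteristic `p`: Euler characteristics of small modules
vanish (`chi_small`).
-/

namespace Vale.Agent.P202.Char

open Filter Topology Finset IsLocalRing
open scoped TensorProduct

universe u v w

/-- A finite module killed by a power of the maximal ideal has finite length. -/
theorem length_ne_top_of_killed {R : Type u} [CommRing R] [IsLocalRing R] [IsNoetherianRing R]
    {M : Type v} [AddCommGroup M] [Module R M] [Module.Finite R M] {N : ℕ}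
    (h : ∀ r ∈ maximalIdeal R ^ N, ∀ m : M, r • m = 0) : Module.length R M ≠ ⊤ := by
  obtain ⟨k, s, hs⟩ := Module.Finite.exists_fin (R := R) (M := M)
  let q : (Fin k → R ⧸ maximalIdeal R ^ N) →ₗ[R] M :=
    ∑ i, (Submodule.liftQ _ (LinearMap.toSpanSingleton R M (s i)) fun r hr => by
      simpa using h r hr (s i)) ∘ₗ LinearMap.proj i
  have hq : Function.Surjective q := by
    rw [← LinearMap.range_eq_top, eq_top_iff, ← hs, Submodule.span_le]
    rintro _ ⟨i, rfl⟩
    refine ⟨Pi.single i (Submodule.Quotient.mk 1), ?_⟩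
    simp only [q, LinearMap.coe_sum, Finset.sum_apply, LinearMap.comp_apply, LinearMap.proj_apply]
    rw [Finset.sum_eq_single i (fun j _ hj => by simp [Pi.single_eq_of_ne hj]) (by simp)]
    rw [Pi.single_eq_same, Submodule.liftQ_apply]
    simp
  refine ne_top_of_le_ne_top ?_ (Module.length_le_of_surjective q hq)
  simp only [Module.length_pi_of_fintype, sum_const, Finset.card_univ, Fintype.card_fin,
    nsmul_eq_mul]
  exact WithTop.mul_ne_top (ENat.natCast_ne_top _) (length_quotient_ne_top _ N le_rfl)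

/-- Small Samuel functions have Euler characteristic zero. -/
theorem koszul_chi_zero {R : Type u} [CommRing R] [IsNoetherianRing R] {S : Type u} [CommRing S]
    [Algebra R S] [Module.Finite R S] {d : ℕ} (x : Fin d → S) (N : Type u) [AddCommGroup N]
    [Module S N] [Module R N] [IsScalarTower R S N] [Module.Finite S N]
    (hf : ∀ k, Module.length R (N ⧸ Ideal.span (Set.range x) ^ k • (⊤ : Submodule S N)) ≠ ⊤)
    (hgrow : Tendsto (fun k : ℕ =>
      (len R (N ⧸ Ideal.span (Set.range x) ^ k • (⊤ : Submodule S N)) : ℝ) / (k : ℝ) ^ d) atTop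
      (𝓝 0)) : (koszulGC R x N).chi (Finset.Icc 0 (d : ℤ)) ⊥ ⊤ = 0 := by
  have h1 := (koszul_tendsto x N hf).2
  have h2 := hgrow.const_mul (d.factorial : ℝ)
  simp only [mul_zero, ← mul_div_assoc] at h2
  exact_mod_cast tendsto_nhds_unique h1 h2

section Small

variable {R : Type u} [CommRing R] [IsNoetherianRing R] {S : Type u} [CommRing S] [Algebra R S]
  [Module.Finite R S] {d : ℕ} (x : Fin d → S)

theorem chi_small [IsLocalRing R] [Module.Free R S]
    (hx : ∃ c, (maximalIdeal R).map (algebraMap R S) ^ c ≤ Ideal.span (Set.range x))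
    (P : MCx R)
    (hP : ∀ (N : Type u) [AddCommGroup N] [Module R N] (n : ℤ),
      Module.length R ((P.gc N).H ⊥ ⊤ n) =
        Module.length R ((koszulGC R x (S ⊗[R] N)).H ⊥ ⊤ n))
    (M : Type u) [AddCommGroup M] [Module R M] [Module.Finite R M]
    (hM : Tendsto (fun k : ℕ => (len R (M ⧸ maximalIdeal R ^ k • (⊤ : Submodule R M)) : ℝ) /
      (k : ℝ) ^ d) atTop (𝓝 0)) :
    (∀ k, (P.gc M).FinH ⊥ ⊤ k) ∧ (P.gc M).chi (Finset.Icc 0 (d : ℤ)) ⊥ ⊤ = 0 := by
  obtain ⟨c, hc0⟩ := hx
  have hc : (maximalIdeal R).map (algebraMap R S) ^ (c + 1) ≤ Ideal.span (Set.range x) :=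
    le_trans (Ideal.pow_le_pow_right (Nat.le_succ c)) hc0
  set I := Ideal.span (Set.range x)
  set L := Module.finrank R S
  let b : Module.Basis (Fin L) R S := Module.finBasis R S
  have hMfin : ∀ k, Module.length R (M ⧸ maximalIdeal R ^ k • (⊤ : Submodule R M)) ≠ ⊤ :=
    fun k => length_ne_top_of_killed fun r hr m => by
      obtain ⟨m, rfl⟩ := Submodule.mkQ_surjective _ m
      rw [← map_smul]
      exact (Submodule.Quotient.mk_eq_zero _).2 (Submodule.smul_mem_smul hr trivial)
  have hbd : ∀ k, Module.length R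
      ((S ⊗[R] M) ⧸ I ^ k • (⊤ : Submodule S (S ⊗[R] M))) ≤
      L * Module.length R (M ⧸ maximalIdeal R ^ ((c + 1) * k) • (⊤ : Submodule R M)) := by
    intro k
    set U := I ^ k • (⊤ : Submodule S (S ⊗[R] M))
    let q0 : Fin L → M →ₗ[R] (S ⊗[R] M) ⧸ U := fun a =>
      (U.mkQ.restrictScalars R) ∘ₗ TensorProduct.mk R S M (b a)
    have hq0 : ∀ a, maximalIdeal R ^ ((c + 1) * k) • (⊤ : Submodule R M) ≤ LinearMap.ker (q0 a) := by
      intro a
      refine Submodule.smul_le.2 fun r hr m _ => ?_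
      have h1 : algebraMap R S r ∈ I ^ k := by
        refine (le_trans ?_ (Ideal.pow_right_mono hc k)) (Ideal.mem_map_of_mem _ hr)
        rw [← pow_mul, Ideal.map_pow]
      change U.mkQ (b a ⊗ₜ (r • m)) = 0
      rw [Submodule.mkQ_apply, Submodule.Quotient.mk_eq_zero, TensorProduct.tmul_smul,
        algebra_compatible_smul S r (b a ⊗ₜ[R] m)]
      exact Submodule.smul_mem_smul h1 trivial
    let q : (Fin L → M ⧸ maximalIdeal R ^ ((c + 1) * k) • (⊤ : Submodule R M)) →ₗ[R]
        (S ⊗[R] M) ⧸ U := ∑ a, Submodule.liftQ _ (q0 a) (hq0 a) ∘ₗ LinearMap.proj a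
    have hq : Function.Surjective q := by
      intro y
      obtain ⟨y, rfl⟩ := Submodule.mkQ_surjective _ y
      refine ⟨fun a => Submodule.Quotient.mk (TensorProduct.equivFinsuppOfBasisLeft b y a), ?_⟩
      conv_rhs => rw [← (TensorProduct.equivFinsuppOfBasisLeft b).symm_apply_apply y]
      rw [TensorProduct.equivFinsuppOfBasisLeft_symm_apply, Finsupp.sum_fintype _ _ (by simp)]
      simp [q, q0, map_sum]
    refine (Module.length_le_of_surjective q hq).trans ?_
    simp [Module.length_pi_of_fintype]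
  have hf : ∀ k, Module.length R ((S ⊗[R] M) ⧸ I ^ k • (⊤ : Submodule S (S ⊗[R] M))) ≠ ⊤ :=
    fun k => ne_top_of_le_ne_top (WithTop.mul_ne_top (ENat.natCast_ne_top _) (hMfin _)) (hbd k)
  have hgrow : Tendsto (fun k : ℕ =>
      (len R ((S ⊗[R] M) ⧸ I ^ k • (⊤ : Submodule S (S ⊗[R] M))) : ℝ) / (k : ℝ) ^ d) atTop
      (𝓝 0) := by
    have h0 : Tendsto (fun k : ℕ => (L : ℝ) * ((c + 1 : ℕ) : ℝ) ^ d *
        ((len R (M ⧸ maximalIdeal R ^ ((c + 1) * k) • (⊤ : Submodule R M)) : ℝ) /
          (((c + 1) * k : ℕ) : ℝ) ^ d)) atTop (𝓝 0) := by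
      simpa using (hM.comp (tendsto_id.const_mul_atTop' (by omega : 0 < c + 1))).const_mul
        ((L : ℝ) * ((c + 1 : ℕ) : ℝ) ^ d)
    refine squeeze_zero' (Eventually.of_forall fun k => by positivity) ?_ h0
    filter_upwards [eventually_ge_atTop 1] with k hk
    have h1 : len R ((S ⊗[R] M) ⧸ I ^ k • (⊤ : Submodule S (S ⊗[R] M))) ≤
        L * len R (M ⧸ maximalIdeal R ^ ((c + 1) * k) • (⊤ : Submodule R M)) := by
      have := ENat.toNat_le_toNat (hbd k) (WithTop.mul_ne_top (ENat.natCast_ne_top _) (hMfin _))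
      simpa [len, ENat.toNat_mul] using this
    have hk0 : (0 : ℝ) < (k : ℝ) ^ d := by positivity
    have hc1 : (0 : ℝ) < ((c + 1 : ℕ) : ℝ) ^ d := by positivity
    rw [Nat.cast_mul, mul_pow, mul_div_assoc', mul_assoc, mul_left_comm,
      mul_div_mul_left _ _ hc1.ne']
    exact div_le_div_of_nonneg_right (by exact_mod_cast h1) hk0.le
  have hfin := (koszul_tendsto x (S ⊗[R] M) hf).1
  refine ⟨fun k => by rw [GC.FinH, hP M k]; exact hfin k, ?_⟩
  exact (sum_congr rfl fun k _ => by simp only [GC.h, len, hP M k]).trans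
    (koszul_chi_zero x (S ⊗[R] M) hf hgrow)

end Small

end Vale.Agent.P202.Char
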