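import Vale.Agent.P202.Char.Columns
import Vale.Agent.P202.Char.Sat

/-!
P202, Lech in characteristic `p`: the homology between two levels, summed over the columns.
-/

namespace Vale.Agent.P202.Char

universe u v

theorem neg_one_pow_natAbs_shift (a : ℤ) (i : ℕ) :
    (-1 : ℤ) ^ (a + i).natAbs = (-1) ^ i * (-1) ^ a.natAbs := by
  rw [← pow_add]
  rcases Int.even_or_odd (a + i) with h | h
  · rw [(Int.natAbs_even.2 h).neg_one_pow, Even.neg_one_pow]
    rw [Nat.even_add, Int.natAbs_even]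
    rw [Int.even_add, Int.even_coe_nat] at h
    exact h.symm
  · rw [(Int.natAbs_odd.2 h).neg_one_pow, Odd.neg_one_pow]
    rw [Nat.odd_add, Int.natAbs_even]
    rw [Int.odd_add', Int.odd_coe_nat] at h
    exact h

theorem GC.lengthH_same {R : Type u} [CommRing R] {T : Type v} [AddCommGroup T] [Module R T]
    (C : GC R T) (X : Submodule R T) (k : ℤ) : Module.length R (C.H X X k) = 0 := by
  rw [Module.length_eq_zero_iff, Submodule.Quotient.subsingleton_iff, eq_top_iff]
  intro x _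
  exact Submodule.mem_sup_right x.2.1

theorem GC.lengthH_deg_bot {R : Type u} [CommRing R] {T : Type v} [AddCommGroup T] [Module R T]
    (C : GC R T) (X Y : Submodule R T) (k : ℤ) (h : C.deg k = ⊥) :
    Module.length R (C.H X Y k) = 0 := by
  rw [Module.length_eq_zero_iff, Submodule.Quotient.subsingleton_iff, eq_top_iff]
  intro x _
  have h1 : (x : T) ∈ C.deg k := x.2.1.2
  rw [h, Submodule.mem_bot] at h1
  simp [h1]

namespace Tw

variable {R : Type u} [CommRing R] [IsLocalRing R] {n : ℕ} {P : Tw R n} {a a' : ℕ → ℤ}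

variable (P) in
/-- The cut of the column `b` between the levels `a` and `a'`. -/
noncomputable abbrev colCut (a a' : ℕ → ℤ) (b : P.Q.β) :
    Submodule R (Chart n → Tot R n P.Z.Idx) :=
  P.Z.cut P.lam P.tw (a' (P.Q.deg b) - a (P.Q.deg b)).toNat
    (-((P.Q.deg b : ℤ) * P.J) - a' (P.Q.deg b))

variable (P) in
/-- The column `b` at the level `a'`. -/
noncomputable abbrev colFree (a' : ℕ → ℤ) (b : P.Q.β) :
    Submodule R (Chart n → Tot R n P.Z.Idx) :=
  freeCech R P.tw P.Z.ideg (-((P.Q.deg b : ℤ) * P.J) - a' (P.Q.deg b))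

/-- The hypotheses on a pair of levels. -/
structure Pair (P : Tw R n) (a a' : ℕ → ℤ) : Prop where
  hu : P.UInj
  hw : ∀ i, a' i ≤ P.w
  le : ∀ i, a i ≤ a' i
  anti : ∀ i, a (i + 1) ≤ a i
  anti' : ∀ i, a' (i + 1) ≤ a' i

/-- Columns closed under lowering the degree. -/
def Down (P : Tw R n) (B : Finset P.Q.β) : Prop :=
  ∀ b b', b' ∈ B → P.Q.deg b < P.Q.deg b' → b ∈ B

theorem Pair.step (hp : P.Pair a a') {B : Finset P.Q.β} (hB : P.Down B) (hne : B.Nonempty) :
    ∃ b ∈ B, P.Down (B.erase b) ∧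
      P.gc.IsSub (P.mix a a' (B.erase b)) ∧
      P.mix a a' (B.erase b) ≤ P.mix a a' B ∧
      ∀ k, Module.length R (P.gc.H (P.mix a a' (B.erase b)) (P.mix a a' B) k) =
        Module.length R (P.colGC.H (P.colCut a a' b) (P.colFree a' b) (k - P.Q.deg b)) := by
  classical
  obtain ⟨b, hb, hmax⟩ := Finset.exists_max_image B P.Q.deg hne
  have hdown : P.Down (B.erase b) := fun b₁ b₂ h2 hlt =>
    Finset.mem_erase.2 ⟨fun he => by
      subst he; exact absurd (hmax b₂ (Finset.mem_of_mem_erase h2)) (not_le.2 hlt),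
      hB b₁ b₂ (Finset.mem_of_mem_erase h2) hlt⟩
  refine ⟨b, hb, hdown, isSub_mix hp.hw hp.le hp.anti hp.anti'
    (fun b₁ b₂ h2 he => hdown b₁ b₂ h2 (by omega)), mix_le hp.hw hp.le (Finset.erase_subset _ _),
    fun k => ?_⟩
  have := length_column hp.hu hp.hw hp.le hp.anti hp.anti' (B := B.erase b) (b := b)
    (Finset.notMem_erase b B) (fun b₁ b₂ h2 he => hdown b₁ b₂ h2 (by omega))
    (fun b₁ he => Finset.mem_erase.2 ⟨fun h => by subst h; omega, hB b₁ b hb (by omega)⟩)
    (k - P.Q.deg b)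
  rw [Finset.insert_erase hb, sub_add_cancel] at this
  exact this.symm

theorem Pair.mix_h_le (hp : P.Pair a a') {k : ℤ}
    (hf : ∀ b, P.colGC.FinH (P.colCut a a' b) (P.colFree a' b) (k - P.Q.deg b)) :
    ∀ B : Finset P.Q.β, P.Down B →
      P.gc.FinH (P.mix a a' ∅) (P.mix a a' B) k ∧ P.gc.h (P.mix a a' ∅) (P.mix a a' B) k ≤
        ∑ b ∈ B, P.colGC.h (P.colCut a a' b) (P.colFree a' b) (k - P.Q.deg b) := by
  classical
  intro B
  induction B using Finset.strongInduction with
  | _ B ih =>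
    intro hB
    rcases B.eq_empty_or_nonempty with rfl | hne
    · simp [GC.FinH, GC.h, len, GC.lengthH_same]
    · obtain ⟨b, hb, hdown, hsub, hle, hlen⟩ := hp.step hB hne
      obtain ⟨hf1, hh1⟩ := ih _ (Finset.erase_ssubset hb) hdown
      have hf2 : P.gc.FinH (P.mix a a' (B.erase b)) (P.mix a a' B) k := by
        rw [GC.FinH, hlen]; exact hf b
      have hh2 : P.gc.h (P.mix a a' (B.erase b)) (P.mix a a' B) k =
          P.colGC.h (P.colCut a a' b) (P.colFree a' b) (k - P.Q.deg b) := by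
        simp only [GC.h, len, hlen]
      obtain ⟨h3, h4⟩ := P.gc.h_le_trans hsub (mix_le hp.hw hp.le (Finset.empty_subset _)) hle
        hf1 hf2
      refine ⟨h3, h4.trans ?_⟩
      rw [hh2, ← Finset.sum_erase_add B _ hb]
      omega

/-- The homology between two levels is bounded by the cuts. -/
theorem Pair.h_le (hp : P.Pair a a') (k : ℤ)
    (hf : ∀ b, P.colGC.FinH (P.colCut a a' b) (P.colFree a' b) (k - P.Q.deg b)) :
    P.gc.FinH (P.lvl a) (P.lvl a') k ∧ P.gc.h (P.lvl a) (P.lvl a') k ≤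
      ∑ b, P.colGC.h (P.colCut a a' b) (P.colFree a' b) (k - P.Q.deg b) := by
  simpa only [mix_empty, mix_univ] using
    hp.mix_h_le hf Finset.univ (fun _ _ _ _ => Finset.mem_univ _)

theorem Pair.mix_chi (hp : P.Pair a a') {d : ℕ} (hd : ∀ b, P.Q.deg b ≤ d)
    (hf : ∀ b k, P.colGC.FinH (P.colCut a a' b) (P.colFree a' b) k) :
    ∀ B : Finset P.Q.β, P.Down B →
      (∀ k, P.gc.FinH (P.mix a a' ∅) (P.mix a a' B) k) ∧
      P.gc.chi (Finset.Icc (-(n : ℤ)) d) (P.mix a a' ∅) (P.mix a a' B) =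
        ∑ b ∈ B, (-1) ^ P.Q.deg b *
          P.colGC.chi (Finset.Icc (-(n : ℤ)) 0) (P.colCut a a' b) (P.colFree a' b) := by
  classical
  intro B
  induction B using Finset.strongInduction with
  | _ B ih =>
    intro hB
    rcases B.eq_empty_or_nonempty with rfl | hne
    · simp [GC.FinH, GC.chi, GC.h, len, GC.lengthH_same]
    · obtain ⟨b, hb, hdown, hsub, hle, hlen⟩ := hp.step hB hne
      obtain ⟨hf1, hh1⟩ := ih _ (Finset.erase_ssubset hb) hdown
      have hf2 : ∀ k, P.gc.FinH (P.mix a a' (B.erase b)) (P.mix a a' B) k := fun k => by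
        rw [GC.FinH, hlen]; exact hf b _
      obtain ⟨h3, h4⟩ := P.gc.chi_add (-(n : ℤ)) d (fun k hk => P.deg_eq_bot hd hk)
        (isSub_mix hp.hw hp.le hp.anti hp.anti' (by simp)) hsub
        (isSub_mix hp.hw hp.le hp.anti hp.anti' fun b₁ b₂ h2 he => hB b₁ b₂ h2 (by omega))
        (mix_le hp.hw hp.le (Finset.empty_subset _)) hle hf1 hf2
      refine ⟨h3, ?_⟩
      rw [h4, hh1, ← Finset.sum_erase_add B _ hb, add_right_inj]
      simp only [GC.chi, GC.h, len, hlen, Finset.mul_sum]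
      have hb' := hd b
      set i := P.Q.deg b with hi
      set g : ℤ → ℤ := fun l => (-1) ^ i * ((-1) ^ l.natAbs *
        ((Module.length R (P.colGC.H (P.colCut a a' b) (P.colFree a' b) l)).toNat : ℤ)) with hg
      have hg0 : ∀ l, l ∉ Finset.Icc (-(n : ℤ)) 0 → g l = 0 := by
        intro l hl
        simp [hg, GC.lengthH_deg_bot _ _ _ _
          (show P.colGC.deg l = ⊥ from cechDeg_eq_bot hl)]
      have hk : ∀ k : ℤ, (-1 : ℤ) ^ k.natAbs *
          ((Module.length R (P.colGC.H (P.colCut a a' b) (P.colFree a' b) (k - i))).toNat : ℤ)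
          = g (k - i) := by
        intro k
        have := neg_one_pow_natAbs_shift (k - i) i
        rw [sub_add_cancel] at this
        rw [hg, this]; ring
      rw [Finset.sum_congr rfl fun k _ => hk k]
      show ∑ k ∈ Finset.Icc (-(n : ℤ)) (d : ℤ), g (k - i) = ∑ l ∈ Finset.Icc (-(n : ℤ)) 0, g l
      have himg : (Finset.Icc (-(n : ℤ)) (d : ℤ)).map (Equiv.subRight (i : ℤ)).toEmbedding =
          Finset.Icc (-(n : ℤ) - i) ((d : ℤ) - i) := by
        ext l; simp only [Finset.mem_map_equiv, Equiv.subRight_symm_apply, Finset.mem_Icc]; omega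
      rw [show ∑ k ∈ Finset.Icc (-(n : ℤ)) (d : ℤ), g (k - i) =
        ∑ l ∈ Finset.Icc (-(n : ℤ) - i) ((d : ℤ) - i), g l by rw [← himg, Finset.sum_map]; rfl]
      refine (Finset.sum_subset (Finset.Icc_subset_Icc (by omega) (by omega)) fun l _ hl => ?_).symm
      exact hg0 l hl

/-- The Euler characteristic between two levels is the sum over the cuts. -/
theorem Pair.chi_eq (hp : P.Pair a a') {d : ℕ} (hd : ∀ b, P.Q.deg b ≤ d)
    (hf : ∀ b k, P.colGC.FinH (P.colCut a a' b) (P.colFree a' b) k) :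
    (∀ k, P.gc.FinH (P.lvl a) (P.lvl a') k) ∧
      P.gc.chi (Finset.Icc (-(n : ℤ)) d) (P.lvl a) (P.lvl a') =
        ∑ b, (-1) ^ P.Q.deg b *
          P.colGC.chi (Finset.Icc (-(n : ℤ)) 0) (P.colCut a a' b) (P.colFree a' b) := by
  simpa only [mix_empty, mix_univ] using
    hp.mix_chi hd hf Finset.univ (fun _ _ _ _ => Finset.mem_univ _)

end Tw

end Vale.Agent.P202.Char
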