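import Vale.Agent.P202.Char.Completion
import Vale.Agent.P202.Char.FlatTower

/-!
P202, Lech in characteristic `p`, stage 2: localising at a prime minimal over the closed fibre.
-/

namespace Vale.Agent.P202.Char

open IsLocalRing

universe u

namespace Localised

variable {A S : Type u} [CommRing A] [CommRing S] [Algebra A S] (P : Ideal A) [P.IsPrime]
  (Q : Ideal S) [Q.IsPrime]

/-- If `S / Q` is finite over `A`, the residue field at `Q` is finite over the residue field
below. -/
theorem finite_residue [Module.Finite A (S ⧸ Q)] [Algebra (Localization.AtPrime P)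
      (Localization.AtPrime Q)]
    (hcompat : ∀ a, algebraMap (Localization.AtPrime P) (Localization.AtPrime Q)
      (algebraMap A (Localization.AtPrime P) a) =
        algebraMap S (Localization.AtPrime Q) (algebraMap A S a))
    (hQ : Q.comap (algebraMap A S) = P) :
    Module.Finite (Localization.AtPrime P)
      (Localization.AtPrime Q ⧸ maximalIdeal (Localization.AtPrime Q)) := by
  classical
  set n := maximalIdeal (Localization.AtPrime Q)
  set q : S → Localization.AtPrime Q ⧸ n := fun s =>
    Ideal.Quotient.mk n (algebraMap S (Localization.AtPrime Q) s)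
  obtain ⟨T, hT⟩ := (Module.Finite.fg_top : (⊤ : Submodule A (S ⧸ Q)).FG)
  choose t ht using fun x : S ⧸ Q => Ideal.Quotient.mk_surjective x
  set U := Submodule.span (Localization.AtPrime P) ((fun x => q (t x)) '' (T : Set (S ⧸ Q)))
  have hq0 : ∀ s ∈ Q, q s = 0 := fun s hs => Ideal.Quotient.eq_zero_iff_mem.2
    ((IsLocalization.AtPrime.to_map_mem_maximal_iff (Localization.AtPrime Q) Q s).2 hs)
  have hsmul : ∀ (a : A) (s : S),
      algebraMap A (Localization.AtPrime P) a • q s = q (algebraMap A S a * s) := fun a s => by
    show Ideal.Quotient.mk n (algebraMap A (Localization.AtPrime P) a •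
      algebraMap S (Localization.AtPrime Q) s) = _
    rw [Algebra.smul_def, hcompat, ← map_mul]
  have hS : ∀ s : S, q s ∈ U := by
    intro s
    have hmem : Ideal.Quotient.mk Q s ∈ Submodule.span A (T : Set (S ⧸ Q)) := hT ▸ trivial
    obtain ⟨f, -, hf⟩ := Submodule.mem_span_finset.1 hmem
    have hdiff : s - ∑ x ∈ T, algebraMap A S (f x) * t x ∈ Q := by
      rw [← Ideal.Quotient.eq, ← hf, map_sum]
      refine Finset.sum_congr rfl fun x _ => ?_
      rw [map_mul, ht, Algebra.smul_def]
      rfl
    have : q s = ∑ x ∈ T, algebraMap A (Localization.AtPrime P) (f x) • q (t x) := by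
      simp only [hsmul]
      have h2 := hq0 _ hdiff
      simp only [q, map_sub, map_sum, sub_eq_zero] at h2 ⊢
      exact h2
    rw [this]
    exact Submodule.sum_mem _ fun x hx =>
      Submodule.smul_mem _ _ (Submodule.subset_span ⟨x, hx, rfl⟩)
  have hinv : ∀ v : S, v ∉ Q → ∃ (a : A) (w : S), a ∉ P ∧ algebraMap A S a - w * v ∈ Q := by
    intro v hv
    have : (⊥ : Ideal (S ⧸ Q)).IsPrime := Ideal.isPrime_bot
    have hint : IsIntegral A (Ideal.Quotient.mk Q v) := IsIntegral.of_finite A _
    have hlt := Ideal.comap_lt_comap_of_integral_mem_sdiff (R := A) (I := (⊥ : Ideal (S ⧸ Q)))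
      (J := Ideal.span {Ideal.Quotient.mk Q v}) bot_le (x := Ideal.Quotient.mk Q v)
      ⟨Ideal.mem_span_singleton_self _, fun h => hv (Ideal.Quotient.eq_zero_iff_mem.1 h)⟩ hint
    obtain ⟨a, ha, ha'⟩ := SetLike.exists_of_lt hlt
    obtain ⟨w', hw'⟩ := Ideal.mem_span_singleton'.1 (Ideal.mem_comap.1 ha)
    obtain ⟨w, rfl⟩ := Ideal.Quotient.mk_surjective w'
    refine ⟨a, w, fun h => ha' ?_, ?_⟩
    · rw [Ideal.mem_comap, Ideal.mem_bot]
      exact Ideal.Quotient.eq_zero_iff_mem.2 (show a ∈ Q.comap (algebraMap A S) by rwa [hQ])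
    · rw [← Ideal.Quotient.eq, map_mul, hw']
      rfl
  refine ⟨⟨T.image fun x => q (t x), ?_⟩⟩
  rw [Finset.coe_image, eq_top_iff]
  intro y _
  obtain ⟨z, rfl⟩ := Ideal.Quotient.mk_surjective y
  obtain ⟨u, v, rfl⟩ := IsLocalization.exists_mk'_eq Q.primeCompl z
  obtain ⟨a, w, ha, haw⟩ := hinv v v.2
  have hunit : IsUnit (algebraMap A (Localization.AtPrime P) a) :=
    IsLocalization.map_units (Localization.AtPrime P) (⟨a, ha⟩ : P.primeCompl)
  obtain ⟨a', ha'⟩ := hunit
  have hmul : algebraMap A (Localization.AtPrime P) a •
      Ideal.Quotient.mk n (IsLocalization.mk' (Localization.AtPrime Q) u v) = q (w * u) := by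
    show Ideal.Quotient.mk n (algebraMap A (Localization.AtPrime P) a •
      IsLocalization.mk' (Localization.AtPrime Q) u v) = _
    rw [Algebra.smul_def, hcompat, map_mul]
    have h1 := hq0 _ haw
    simp only [q, map_sub, map_mul, sub_eq_zero] at h1
    rw [h1, mul_assoc, ← map_mul, IsLocalization.mk'_spec']
    simp only [q, map_mul]
  rw [← ha'] at hmul
  rw [show Ideal.Quotient.mk n (IsLocalization.mk' (Localization.AtPrime Q) u v) =
      (↑a'⁻¹ : Localization.AtPrime P) • q (w * u) by
    rw [← hmul, smul_smul, Units.inv_mul, one_smul]]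
  exact Submodule.smul_mem _ _ (hS _)

end Localised

/-- Lech's inequality at a prime minimal over the closed fibre. -/
theorem localised_fibre (p : ℕ)
    (main : ∀ (R S : Type u) [CommRing R] [CommRing S] [IsLocalRing R] [IsLocalRing S]
      [IsNoetherianRing R] [IsNoetherianRing S] [Algebra R S] [IsLocalHom (algebraMap R S)]
      [Module.Finite R S] [Module.Free R S] [CharP R p]
      (d : ℕ) (e e' : ℝ), IsMultiplicity R d e → IsMultiplicity S d e' → e ≤ e')
    (R A S : Type u) [CommRing R] [CommRing A] [CommRing S] [IsLocalRing R] [IsNoetherianRing R]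
    [IsNoetherianRing A] [IsNoetherianRing S] [CharP R p] [Algebra R A] [Algebra R S] [Algebra A S]
    [IsScalarTower R A S] [Module.Flat R A] [Module.Flat R S]
    [((maximalIdeal R).map (algebraMap R A)).IsPrime]
    (Q : Ideal S) [Q.IsPrime] (hQ : Q.comap (algebraMap A S) = (maximalIdeal R).map (algebraMap R A))
    (hmin : Q ∈ ((maximalIdeal R).map (algebraMap R S)).minimalPrimes) [Module.Finite A (S ⧸ Q)]
    (d : ℕ) (e eQ : ℝ) (he : IsMultiplicity R d e)
    (heQ : IsMultiplicity (Localization.AtPrime Q) d eQ) : e ≤ eQ := by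
  classical
  set P := (maximalIdeal R).map (algebraMap R A)
  let f : Localization.AtPrime P →+* Localization.AtPrime Q :=
    Localization.localRingHom P Q (algebraMap A S) hQ.symm
  let : Algebra (Localization.AtPrime P) (Localization.AtPrime Q) := f.toAlgebra
  have : IsLocalHom (algebraMap (Localization.AtPrime P) (Localization.AtPrime Q)) :=
    inferInstanceAs (IsLocalHom f)
  have hcompat : ∀ a, algebraMap (Localization.AtPrime P) (Localization.AtPrime Q)
      (algebraMap A (Localization.AtPrime P) a) =
        algebraMap S (Localization.AtPrime Q) (algebraMap A S a) :=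
    fun a => Localization.localRingHom_to_map P Q (algebraMap A S) hQ.symm a
  have : IsScalarTower R (Localization.AtPrime P) (Localization.AtPrime Q) :=
    IsScalarTower.of_algebraMap_eq fun r => by
      rw [IsScalarTower.algebraMap_apply R A (Localization.AtPrime P), hcompat,
        ← IsScalarTower.algebraMap_apply R A S, ← IsScalarTower.algebraMap_apply]
  have hmax : (maximalIdeal R).map (algebraMap R (Localization.AtPrime P)) =
      maximalIdeal (Localization.AtPrime P) := by
    rw [IsScalarTower.algebraMap_eq R A (Localization.AtPrime P), ← Ideal.map_map,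
      Localization.AtPrime.map_eq_maximalIdeal]
  have hnil : ∀ r ∈ maximalIdeal R, algebraMap R (Localization.AtPrime Q) r ∈
      maximalIdeal (Localization.AtPrime Q) := fun r hr => by
    rw [IsScalarTower.algebraMap_apply R S (Localization.AtPrime Q),
      IsLocalization.AtPrime.to_map_mem_maximal_iff _ Q]
    exact hmin.1.2 (Ideal.mem_map_of_mem _ hr)
  have : IsLocalHom (algebraMap R (Localization.AtPrime P)) :=
    ⟨fun r hr => by
      by_contra h
      exact (mem_maximalIdeal _).1 (hmax ▸ Ideal.mem_map_of_mem _ ((mem_maximalIdeal r).2 h)) hr⟩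
  have : IsLocalHom (algebraMap R (Localization.AtPrime Q)) :=
    ⟨fun r hr => by
      by_contra h
      exact (mem_maximalIdeal _).1 (hnil r ((mem_maximalIdeal r).2 h)) hr⟩
  have : Module.Flat A (Localization.AtPrime P) := IsLocalization.flat _ P.primeCompl
  have : Module.Flat R (Localization.AtPrime P) := Module.Flat.trans R A (Localization.AtPrime P)
  have : Module.Flat S (Localization.AtPrime Q) := IsLocalization.flat _ Q.primeCompl
  have : Module.Flat R (Localization.AtPrime Q) := Module.Flat.trans R S (Localization.AtPrime Q)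
  have : CharP (Localization.AtPrime P) p := by
    have : Module.FaithfullyFlat R (Localization.AtPrime P) :=
      Module.FaithfullyFlat.of_flat_of_isLocalHom
    exact charP_of_injective_algebraMap
      (FaithfulSMul.algebraMap_injective R (Localization.AtPrime P)) p
  have heP : IsMultiplicity (Localization.AtPrime P) d e :=
    (InfRes.isMultiplicity_iff hmax d e).1 he
  -- the closed fibre
  set J := (maximalIdeal R).map (algebraMap R (Localization.AtPrime Q)) with hJ
  have hJ' : (maximalIdeal (Localization.AtPrime P)).map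
      (algebraMap (Localization.AtPrime P) (Localization.AtPrime Q)) = J := by
    rw [← hmax, Ideal.map_map, ← IsScalarTower.algebraMap_eq]
  obtain ⟨c, hc⟩ : ∃ c, maximalIdeal (Localization.AtPrime Q) ^ c ≤ J := by
    refine Ideal.exists_pow_le_of_le_radical_of_fg ?_ (IsNoetherian.noetherian _)
    rw [Ideal.radical_eq_sInf]
    refine le_sInf ?_
    rintro Q' ⟨hQ', hQp⟩
    have hle : Q'.comap (algebraMap S (Localization.AtPrime Q)) ≤ Q := fun s hs =>
      (IsLocalization.AtPrime.to_map_mem_maximal_iff (Localization.AtPrime Q) Q s).1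
        (IsLocalRing.le_maximalIdeal hQp.ne_top hs)
    have hge := hmin.2 ⟨hQp.comap _, by
      rw [Ideal.map_le_iff_le_comap, Ideal.comap_comap, ← IsScalarTower.algebraMap_eq,
        ← Ideal.map_le_iff_le_comap]
      exact hQ'⟩ hle
    rw [← Localization.AtPrime.map_eq_maximalIdeal, Ideal.map_le_iff_le_comap]
    exact hge
  have hfib : Module.Finite (Localization.AtPrime P) (Localization.AtPrime Q ⧸
      (maximalIdeal (Localization.AtPrime P)).map
        (algebraMap (Localization.AtPrime P) (Localization.AtPrime Q))) := by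
    have := Localised.finite_residue P Q hcompat hQ
    exact Compl.finite_fibre (c := c) (by rwa [hJ'])
  have : Module.Finite (Localization.AtPrime P) (Localization.AtPrime Q ⧸
      (maximalIdeal R).map (algebraMap R (Localization.AtPrime Q))) := by
    rw [← hJ, ← hJ']; exact hfib
  have : Module.Flat (Localization.AtPrime P) (Localization.AtPrime Q) := FlatTower.flat hmax
  exact completion p main (Localization.AtPrime P) (Localization.AtPrime Q) d e eQ heP heQ

end Vale.Agent.P202.Char
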