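import Vale.Agent.P202.Char.Completion

/-! P202, Lech in characteristic `p`: multiplicities are nonnegative; dimension zero. -/

namespace Vale.Agent.P202.Char

open IsLocalRing Filter Topology

universe u

theorem mult_nonneg {A : Type u} [CommRing A] [IsLocalRing A] {d : ℕ} {e : ℝ}
    (he : IsMultiplicity A d e) : 0 ≤ e :=
  ge_of_tendsto' he fun N => by positivity

variable {R S : Type u} [CommRing R] [CommRing S] [IsLocalRing R] [IsLocalRing S]
  [IsNoetherianRing R] [IsNoetherianRing S] [Algebra R S] [IsLocalHom (algebraMap R S)]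
  [Module.Finite R S] [Module.Free R S]

theorem lech_dim_zero {e e' : ℝ} (he : IsMultiplicity R 0 e) (he' : IsMultiplicity S 0 e') :
    e ≤ e' := by
  obtain ⟨c, hc⟩ := Compl.exists_pow_le (R := R) (S := S)
  have hc' : maximalIdeal S ^ (c + 1) ≤ (maximalIdeal R).map (algebraMap R S) :=
    (Ideal.pow_le_pow_right (Nat.le_add_right c 1)).trans hc
  have hsub : Tendsto (fun N : ℕ => (c + 1) * N) atTop atTop :=
    tendsto_atTop_mono (fun N => Nat.le_mul_of_pos_left N (Nat.succ_pos c)) tendsto_id
  refine le_of_tendsto_of_tendsto' he (he'.comp hsub) fun N => ?_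
  simp only [Function.comp_apply, Nat.factorial_zero, Nat.cast_one, one_mul, pow_zero, div_one,
    Nat.cast_le]
  refine ENat.toNat_le_toNat ?_ (length_quotient_ne_top _ _ le_rfl)
  have h2 : (maximalIdeal S ^ ((c + 1) * N)) ≤
      ((maximalIdeal R).map (algebraMap R S)) ^ N := by
    rw [pow_mul]
    exact Ideal.pow_right_mono hc' N
  refine le_trans ?_ (length_quotient_mono h2)
  rw [length_map]
  have hpos : 0 < Module.length S (S ⧸ (maximalIdeal R).map (algebraMap R S)) :=
    Module.length_pos_iff.2 (Ideal.Quotient.nontrivial_iff.2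
      (map_maximalIdeal_lt_top (algebraMap R S)).ne)
  calc Module.length R (R ⧸ maximalIdeal R ^ N)
      = Module.length R (R ⧸ maximalIdeal R ^ N) * 1 := (mul_one _).symm
    _ ≤ _ := by
        gcongr
        exact Order.one_le_iff_pos.2 hpos

end Vale.Agent.P202.Char
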