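import Vale.Agent.P202.Char.Key
import Vale.Agent.P202.Char.Base
import Vale.Agent.P202.Char.Trivial
import Vale.Agent.P202.Char.Completion

/-!
P202, Lech in characteristic `p`: the inequality `e(R) ≤ e(S)` for finite free extensions, and by
completion for flat local maps with finite closed fibre.
-/

namespace Vale.Agent.P202.Char

open IsLocalRing Filter Topology

universe u

/-- Lifts of distinct elements of an infinite residue field. -/
theorem exists_sep (R : Type u) [CommRing R] [IsLocalRing R] [Infinite (ResidueField R)] (n : ℕ) :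
    ∃ lam : Fin (n + 1) → R, Sep lam := by
  obtain ⟨f⟩ : Nonempty (ℕ ↪ ResidueField R) := ⟨Infinite.natEmbedding _⟩
  choose g hg using fun k : Fin (n + 1) => residue_surjective (f (k : ℕ))
  refine ⟨g, fun k l hkl => (residue_ne_zero_iff_isUnit _).1 ?_⟩
  rw [map_sub, hg, hg, sub_ne_zero]
  exact fun h => hkl (Fin.ext (f.injective h))

/-- The inequality from a complex with the properties of a reduction. -/
theorem lech_of_base (p : ℕ) [Fact p.Prime] {R : Type u} [CommRing R] [IsLocalRing R]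
    [IsNoetherianRing R] [CharP R p] [Infinite (ResidueField R)] {n : ℕ} {e e' : ℝ}
    (he : IsMultiplicity R (n + 1) e) (Z : RedData R n) (Q : MCx R) (A : ℤ) (f M₀ : ℕ)
    (hf : 0 < f) (hfr : f ≤ Q.rank 0) (hA : (A : ℝ) = (f : ℝ) * e') (hd : ∀ b, Q.deg b ≤ n + 1)
    (hQ : Q.EntriesIn (maximalIdeal R)) (halt : ∑ b, (-1 : ℤ) ^ Q.deg b = 0)
    (hnull : ∀ l, Q.IsNullHtpic (Z.z l ^ M₀))
    (hk : ∀ k : ℕ,
      (∀ j, ((Q.map (iterateFrobenius R p k)).gc R).FinH ⊥ ⊤ j) ∧
      ((Q.map (iterateFrobenius R p k)).gc R).chi (Finset.Icc 0 ((n + 1 : ℕ) : ℤ)) ⊥ ⊤ =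
        ((p : ℤ) ^ k) ^ (n + 1) * A ∧
      ∀ (M : Type u) [AddCommGroup M] [Module R M] [Module.Finite R M] (L : ℕ),
        (∀ m : M, Z.z 0 ^ L • m = 0) →
        (∀ j, ((Q.map (iterateFrobenius R p k)).gc M).FinH ⊥ ⊤ j) ∧
        ((Q.map (iterateFrobenius R p k)).gc M).chi (Finset.Icc 0 ((n + 1 : ℕ) : ℤ)) ⊥ ⊤ = 0) :
    e ≤ e' := by
  obtain ⟨lam, hlam⟩ := exists_sep R n
  obtain ⟨C, hC⟩ := window_bounds Z lam hlam he ((n + 1) * M₀)
  have hp : 1 < p := (Fact.out : p.Prime).one_lt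
  have he0 : 0 ≤ e := mult_nonneg he
  set K : ℝ := (slack n (Fintype.card Q.β) C : ℝ) with hK
  have hkey : ∀ k, C ≤ p ^ k →
      -(K * ((p ^ k : ℕ) : ℝ) ^ n) ≤ ((n + 1).factorial : ℝ) *
        (((A : ℝ) - e * Q.rank 0) * ((p ^ k : ℕ) : ℝ) ^ (n + 1)) := by
    intro k hCk
    obtain ⟨hR, hchiR, hsmall⟩ := hk k
    have hQk : (Q.map (iterateFrobenius R p k)).EntriesIn (maximalIdeal R ^ (p ^ k)) := by
      intro a b
      show iterateFrobenius R p k (Q.D a b) ∈ _
      rw [iterateFrobenius_def]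
      exact Ideal.pow_mem_pow (hQ a b) _
    have hnullk : ∀ l,
        (Q.map (iterateFrobenius R p k)).IsNullHtpic (Z.z l ^ (M₀ * p ^ k)) := by
      intro l
      have h := MCx.IsNullHtpic.map (iterateFrobenius R p k) (hnull l)
      rwa [iterateFrobenius_def, ← pow_mul] at h
    have h := key_bound Z lam hlam he (Q.map (iterateFrobenius R p k)) hd halt (p ^ k) hQk
      ((n + 1) * M₀) (M₀ * p ^ k) (by ring) hnullk hR hsmall C (hC _ hCk).1 (hC _ hCk).2
    rw [hchiR] at h
    refine h.trans (le_of_eq ?_)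
    rw [show (Q.map (iterateFrobenius R p k)).rank 0 = Q.rank 0 from rfl]
    push_cast
    ring
  have hmain : e * Q.rank 0 ≤ (A : ℝ) := by
    by_contra hlt
    rw [not_le] at hlt
    set δ : ℝ := ((n + 1).factorial : ℝ) * (e * Q.rank 0 - A) with hδ
    have hδ0 : 0 < δ := mul_pos (by positivity) (by linarith)
    obtain ⟨k, hk1⟩ : ∃ k : ℕ, max (C : ℝ) (K / δ) < (p : ℝ) ^ k :=
      pow_unbounded_of_one_lt _ (by exact_mod_cast hp)
    rw [max_lt_iff] at hk1
    have hCk : C ≤ p ^ k := by exact_mod_cast hk1.1.le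
    have h := hkey k hCk
    push_cast at h
    have hq : 0 < ((p : ℝ) ^ k) ^ n := pow_pos (pow_pos (by exact_mod_cast hp.le) _) _
    have h1 : K < δ * (p : ℝ) ^ k := by
      have := hk1.2
      rw [div_lt_iff₀ hδ0] at this
      linarith
    have h2 : K * ((p : ℝ) ^ k) ^ n < δ * (p : ℝ) ^ k * ((p : ℝ) ^ k) ^ n :=
      mul_lt_mul_of_pos_right h1 hq
    rw [hδ, pow_succ] at *
    nlinarith [h, h2]
  have h1 : e * f ≤ e * Q.rank 0 := mul_le_mul_of_nonneg_left (by exact_mod_cast hfr) he0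
  have h2 : (f : ℝ) * e ≤ (f : ℝ) * e' := by rw [← hA]; linarith
  exact le_of_mul_le_mul_left h2 (by exact_mod_cast hf)


theorem lech_infinite_pos (p : ℕ) [Fact p.Prime] {R S : Type u} [CommRing R] [CommRing S]
    [IsLocalRing R] [IsLocalRing S] [IsNoetherianRing R] [IsNoetherianRing S] [Algebra R S]
    [IsLocalHom (algebraMap R S)] [Module.Finite R S] [Module.Free R S] [CharP R p]
    [Infinite (ResidueField R)] {n : ℕ} {e e' : ℝ} (he : IsMultiplicity R (n + 1) e)
    (he' : IsMultiplicity S (n + 1) e') (h0 : e ≠ 0) : e ≤ e' := by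
  obtain ⟨Z⟩ := exists_redData he h0
  obtain ⟨Q, A, f, M₀, hf, hfr, hA, hd, hQ, halt, hnull, hk⟩ :=
    exists_base p he he' h0 Z.z Z.z_mem
  exact lech_of_base p he Z Q A f M₀ hf hfr hA hd hQ halt hnull fun k =>
    ⟨(hk k).1, (hk k).2.1, fun M _ _ _ L h => (hk k).2.2 M (small_of_killed Z he M L h)⟩

/-- Finite free extensions. -/
theorem lech_free (p : ℕ) [Fact p.Prime] (R S : Type u) [CommRing R] [CommRing S]
    [IsLocalRing R] [IsLocalRing S] [IsNoetherianRing R] [IsNoetherianRing S] [Algebra R S]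
    [IsLocalHom (algebraMap R S)] [Module.Finite R S] [Module.Free R S] [CharP R p]
    (d : ℕ) (e e' : ℝ) (he : IsMultiplicity R d e) (he' : IsMultiplicity S d e') : e ≤ e' :=
  reduce_infinite p (fun R S _ _ _ _ _ _ _ _ _ _ _ _ d e e' he he' => by
    rcases eq_or_ne e 0 with rfl | h0
    · exact mult_nonneg he'
    cases d with
    | zero => exact lech_dim_zero he he'
    | succ n => exact lech_infinite_pos p he he' h0) R S d e e' he he'

/-- Flat local maps with finite closed fibre. -/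
theorem lech_flat (p : ℕ) [Fact p.Prime] (R S : Type u) [CommRing R] [CommRing S] [IsLocalRing R]
    [IsLocalRing S] [IsNoetherianRing R] [IsNoetherianRing S] [Algebra R S]
    [IsLocalHom (algebraMap R S)] [Module.Flat R S]
    [Module.Finite R (S ⧸ (maximalIdeal R).map (algebraMap R S))] [CharP R p]
    (d : ℕ) (e e' : ℝ) (he : IsMultiplicity R d e) (he' : IsMultiplicity S d e') : e ≤ e' :=
  completion p (fun R S _ _ _ _ _ _ _ _ _ _ _ d e e' he he' =>
    lech_free p R S d e e' he he') R S d e e' he he'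

end Vale.Agent.P202.Char
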