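import Mathlib

/-!
P202, Lech in characteristic `p`, stage 2: power series over a Noetherian ring (kernel of a
coefficient map, flatness) and finiteness over a complete ring.
-/

namespace Vale.Agent.P202.Char

universe u v

namespace PSBase

theorem mem_smul_top_of_forall {A : Type u} [CommRing A] (J : Ideal A) {ι : Type} [Fintype ι]
    {x : ι → A} (hx : ∀ i, x i ∈ J) : x ∈ (J • ⊤ : Submodule A (ι → A)) := by
  classical
  rw [pi_eq_sum_univ x]
  exact sum_mem fun i _ => Submodule.smul_mem_smul (hx i) trivial

theorem apply_mem_of_mem_smul_top {A : Type u} [CommRing A] (J : Ideal A) {ι : Type}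
    {x : ι → A} (hx : x ∈ (J • ⊤ : Submodule A (ι → A))) (i : ι) : x i ∈ J := by
  refine Submodule.smul_induction_on (p := fun y => y i ∈ J) hx
    (fun a ha y _ => ?_) (fun a b ha hb => add_mem ha hb)
  exact J.mul_mem_right _ ha

theorem isPrecomplete_pi {A : Type u} [CommRing A] (I : Ideal A) [IsPrecomplete I A]
    (ι : Type) [Fintype ι] : IsPrecomplete I (ι → A) := by
  refine ⟨fun f hf => ?_⟩
  have h : ∀ i, ∃ L : A, ∀ n, f n i ≡ L [SMOD (I ^ n • ⊤ : Submodule A A)] := fun i => by
    refine IsPrecomplete.prec ‹IsPrecomplete I A› fun {m n} hmn => ?_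
    rw [SModEq.sub_mem, smul_eq_mul, Ideal.mul_top]
    exact apply_mem_of_mem_smul_top _ (SModEq.sub_mem.1 (hf hmn)) i
  choose L hL using h
  refine ⟨L, fun n => SModEq.sub_mem.2 (mem_smul_top_of_forall _ fun i => ?_)⟩
  have := SModEq.sub_mem.1 (hL i n)
  rwa [smul_eq_mul, Ideal.mul_top] at this

/-- A separated module over a complete ring which is finite modulo the ideal is finite. -/
theorem finite_of_complete {A : Type u} [CommRing A] (I : Ideal A) [IsAdicComplete I A]
    {M : Type v} [AddCommGroup M] [Module A M] [IsHausdorff I M]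
    [Module.Finite A (M ⧸ (I • ⊤ : Submodule A M))] : Module.Finite A M := by
  obtain ⟨k, f, hf⟩ := Module.Finite.exists_fin' A (M ⧸ (I • ⊤ : Submodule A M))
  obtain ⟨g, hg⟩ := Module.projective_lifting_property (I • ⊤ : Submodule A M).mkQ f
    (Submodule.mkQ_surjective _)
  have := isPrecomplete_pi I (Fin k)
  refine Module.Finite.of_surjective g (surjective_of_mkQ_comp_surjective (I := I) ?_)
  rw [hg]
  exact hf

variable {R : Type u} [CommRing R] {σ : Type}

theorem coeff_mem_of_mem_map_C (J : Ideal R) {f : MvPowerSeries σ R}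
    (hf : f ∈ J.map (MvPowerSeries.C (σ := σ))) (n : σ →₀ ℕ) : MvPowerSeries.coeff n f ∈ J := by
  induction hf using Submodule.span_induction generalizing n with
  | mem x hx =>
    obtain ⟨a, ha, rfl⟩ := hx
    classical
    rw [MvPowerSeries.coeff_C]
    split_ifs with h
    · exact ha
    · exact zero_mem _
  | zero => simp
  | add a b _ _ ha hb => rw [map_add]; exact add_mem (ha n) (hb n)
  | smul c x _ hx =>
    classical
    rw [smul_eq_mul, MvPowerSeries.coeff_mul]
    exact sum_mem fun e _ => J.mul_mem_left _ (hx e.2)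

/-- Membership in the extension of a finitely generated ideal is tested on coefficients. -/
theorem mem_map_C_iff {J : Ideal R} (hJ : J.FG) {f : MvPowerSeries σ R} :
    f ∈ J.map (MvPowerSeries.C (σ := σ)) ↔ ∀ n, MvPowerSeries.coeff n f ∈ J := by
  refine ⟨fun hf => coeff_mem_of_mem_map_C J hf, fun hf => ?_⟩
  obtain ⟨l, g, rfl⟩ := Submodule.fg_iff_exists_fin_generating_family.1 hJ
  have h : ∀ n, ∃ a : Fin l → R, ∑ i, a i • g i = MvPowerSeries.coeff n f := fun n =>
    (Submodule.mem_span_range_iff_exists_fun R).1 (hf n)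
  choose a ha using h
  let y : Fin l → MvPowerSeries σ R := fun i n => a n i
  have hy : ∀ i n, MvPowerSeries.coeff n (y i) = a n i := fun i n => rfl
  have : f = ∑ i, MvPowerSeries.C (g i) * y i := by
    ext n
    rw [map_sum, ← ha n]
    refine Finset.sum_congr rfl fun i _ => ?_
    rw [MvPowerSeries.coeff_C_mul, hy, smul_eq_mul, mul_comm]
  rw [this]
  exact sum_mem fun i _ =>
    Ideal.mul_mem_right _ _ (Ideal.mem_map_of_mem _ (Submodule.subset_span ⟨i, rfl⟩))

/-- The kernel of a coefficientwise map is generated by the kernel on constants. -/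
theorem ker_map {S : Type v} [CommRing S] (φ : R →+* S) (hφ : (RingHom.ker φ).FG) :
    RingHom.ker (MvPowerSeries.map (σ := σ) φ) =
      (RingHom.ker φ).map (MvPowerSeries.C (σ := σ)) := by
  ext f
  rw [mem_map_C_iff hφ, RingHom.mem_ker, MvPowerSeries.ext_iff]
  simp only [MvPowerSeries.coeff_map, map_zero, RingHom.mem_ker]

/-- The extension of the maximal ideal to power series is prime. -/
theorem isPrime_map_maximalIdeal [IsLocalRing R] (hm : (IsLocalRing.maximalIdeal R).FG) :
    ((IsLocalRing.maximalIdeal R).map (MvPowerSeries.C (σ := σ))).IsPrime := by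
  rw [← IsLocalRing.ker_residue] at hm ⊢
  rw [← ker_map _ hm]
  have : IsDomain (MvPowerSeries σ (IsLocalRing.ResidueField R)) :=
    NoZeroDivisors.to_isDomain _
  exact RingHom.ker_isPrime _

theorem ker_map_residue [IsLocalRing R] (hm : (IsLocalRing.maximalIdeal R).FG) :
    RingHom.ker (MvPowerSeries.map (σ := σ) (IsLocalRing.residue R)) =
      (IsLocalRing.maximalIdeal R).map (MvPowerSeries.C (σ := σ)) := by
  rw [← IsLocalRing.ker_residue] at hm ⊢
  exact ker_map _ hm

/-- Power series over a Noetherian ring are flat. -/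
theorem flat [IsNoetherianRing R] : Module.Flat R (MvPowerSeries σ R) := by
  classical
  refine Module.Flat.of_forall_isTrivialRelation fun {l f x} hfx => ?_
  let T : (Fin l → R) →ₗ[R] R := Fintype.linearCombination R f
  obtain ⟨k, v, hv⟩ := Submodule.fg_iff_exists_fin_generating_family.1
    (IsNoetherian.noetherian (LinearMap.ker T))
  have h : ∀ n, ∃ c : Fin k → R, ∑ j, c j • v j = fun i => MvPowerSeries.coeff n (x i) := by
    intro n
    refine (Submodule.mem_span_range_iff_exists_fun R).1 ?_
    rw [hv, LinearMap.mem_ker]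
    have h0 := congrArg (MvPowerSeries.coeff n) hfx
    simp only [map_sum, MvPowerSeries.coeff_smul, map_zero] at h0
    rw [Fintype.linearCombination_apply, ← h0]
    exact Finset.sum_congr rfl fun i _ => by rw [smul_eq_mul, mul_comm]
  choose c hc using h
  let y : Fin k → MvPowerSeries σ R := fun j n => c n j
  have hy : ∀ j n, MvPowerSeries.coeff n (y j) = c n j := fun j n => rfl
  refine ⟨k, fun i j => v j i, y, fun i => ?_, fun j => ?_⟩
  · ext n
    rw [map_sum]
    have := congrFun (hc n) i
    simp only [Finset.sum_apply, Pi.smul_apply, smul_eq_mul] at this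
    rw [← this]
    refine Finset.sum_congr rfl fun j _ => ?_
    rw [MvPowerSeries.coeff_smul, hy, mul_comm]
  · have hj : v j ∈ LinearMap.ker T := hv ▸ Submodule.subset_span ⟨j, rfl⟩
    rw [LinearMap.mem_ker, Fintype.linearCombination_apply] at hj
    rw [← hj]
    exact Finset.sum_congr rfl fun i _ => by rw [smul_eq_mul, mul_comm]

end PSBase

end Vale.Agent.P202.Char
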