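import Vale.Agent.P202.Char.PSBase

/-!
P202, Lech in characteristic `p`, stage 2: parameters of a quotient chosen inside a given system,
by prime avoidance over the infinite residue field.
-/

namespace Vale.Agent.P202.Char

open IsLocalRing

universe u

namespace Params

variable (S : Type u) [CommRing S] [IsLocalRing S]

/-- Coordinatewise residue map. -/
noncomputable def res (D : ℕ) : (Fin D → S) →ₛₗ[residue S] (Fin D → ResidueField S) where
  toFun v i := residue S (v i)
  map_add' v w := by ext i; simp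
  map_smul' c v := by ext i; simp

variable {S} {D : ℕ}

theorem eq_top_of_map_res (N : Submodule S (Fin D → S))
    (h : ∀ w : Fin D → ResidueField S, ∃ v ∈ N, res S D v = w) : N = ⊤ := by
  refine top_le_iff.1 (Submodule.le_of_le_smul_of_le_jacobson_bot (I := maximalIdeal S)
    Module.Finite.fg_top (maximalIdeal_le_jacobson ⊥) ?_)
  intro v _
  obtain ⟨w, hw, hwv⟩ := h (res S D v)
  refine Submodule.mem_sup.2 ⟨w, hw, v - w, PSBase.mem_smul_top_of_forall _ fun i => ?_, by abel⟩
  rw [← ker_residue, RingHom.mem_ker, Pi.sub_apply, map_sub]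
  exact sub_eq_zero.2 (congrFun hwv i).symm

/-- The residues of coefficient rows whose combination lies in an ideal. -/
noncomputable def bad (z : Fin D → S) (P : Ideal S) :
    Submodule (ResidueField S) (Fin D → ResidueField S) where
  carrier := {w | ∃ v, Fintype.linearCombination S z v ∈ P ∧ res S D v = w}
  zero_mem' := ⟨0, by simp, by simp⟩
  add_mem' := by
    rintro _ _ ⟨v, hv, rfl⟩ ⟨w, hw, rfl⟩
    exact ⟨v + w, by simpa using add_mem hv hw, map_add _ _ _⟩
  smul_mem' := by
    rintro c _ ⟨v, hv, rfl⟩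
    obtain ⟨c, rfl⟩ := residue_surjective (R := S) c
    exact ⟨c • v, by simpa using P.mul_mem_left c hv, map_smulₛₗ _ _ _⟩

theorem bad_ne_top {z : Fin D → S} (hz : ∃ c, maximalIdeal S ^ c ≤ Ideal.span (Set.range z))
    {P : Ideal S} [P.IsPrime] (hP : P ≠ maximalIdeal S) : bad z P ≠ ⊤ := by
  intro h
  have htop : Submodule.comap (Fintype.linearCombination S z) P = ⊤ := by
    refine eq_top_of_map_res _ fun w => ?_
    obtain ⟨v, hv, hvw⟩ : w ∈ bad z P := h ▸ Submodule.mem_top
    exact ⟨v, hv, hvw⟩
  refine hP (le_antisymm (le_maximalIdeal (Ideal.IsPrime.ne_top')) ?_)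
  obtain ⟨c, hc⟩ := hz
  refine Ideal.IsPrime.le_of_pow_le (n := c) (hc.trans ?_)
  rw [Ideal.span_le]
  rintro _ ⟨i, rfl⟩
  have hi : (Pi.single i 1 : Fin D → S) ∈ Submodule.comap (Fintype.linearCombination S z) P :=
    htop ▸ Submodule.mem_top
  simpa [Submodule.mem_comap, Fintype.linearCombination_apply_single] using hi

/-- The ideal cut out by rows of coefficients. -/
noncomputable def cut (z : Fin D → S) (Q : Ideal S) {j : ℕ} (a : Fin j → Fin D → S) : Ideal S :=
  Q ⊔ Ideal.span (Set.range fun l => Fintype.linearCombination S z (a l))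

variable [Infinite (ResidueField S)]

/-- One more row, independent and avoiding finitely many nonmaximal primes. -/
theorem exists_row {z : Fin D → S} (hz : ∃ c, maximalIdeal S ^ c ≤ Ideal.span (Set.range z))
    {j : ℕ} (hj : j < D) {a : Fin j → Fin D → S}
    (ha : LinearIndependent (ResidueField S) fun l => res S D (a l))
    {T : Set (Ideal S)} (hT : T.Finite) (hT' : ∀ P ∈ T, P.IsPrime ∧ P ≠ maximalIdeal S) :
    ∃ b : Fin D → S,
      LinearIndependent (ResidueField S) (fun l => res S D (Fin.snoc (α := fun _ => Fin D → S) a b l)) ∧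
      ∀ P ∈ T, Fintype.linearCombination S z b ∉ P := by
  classical
  have := hT.to_subtype
  let V : Option T → Submodule (ResidueField S) (Fin D → ResidueField S)
    | none => Submodule.span _ (Set.range fun l => res S D (a l))
    | some P => bad z P.1
  have hV : ∀ o, V o ≠ ⊤ := by
    rintro (_ | ⟨P, hP⟩) h
    · have h1 := (finrank_span_eq_card ha : _ = Fintype.card (Fin j))
      rw [show Submodule.span _ (Set.range fun l => res S D (a l)) = ⊤ from h, finrank_top,
        Module.finrank_fin_fun, Fintype.card_fin] at h1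
      omega
    · have := (hT' P hP).1
      exact bad_ne_top hz (hT' P hP).2 h
  obtain ⟨w, hw⟩ := Submodule.exists_forall_notMem_of_forall_ne_top V hV
  choose b hb using fun i => residue_surjective (R := S) (w i)
  have hbw : res S D b = w := funext hb
  refine ⟨b, ?_, fun P hP hbP => hw (some ⟨P, hP⟩) ⟨b, hbP, hbw⟩⟩
  rw [show (fun l => res S D (Fin.snoc (α := fun _ => Fin D → S) a b l)) =
    Fin.snoc (fun l => res S D (a l)) (res S D b) from Fin.comp_snoc (res S D) a b]
  exact linearIndependent_finSnoc.2 ⟨ha, hbw ▸ hw none⟩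

variable [IsNoetherianRing S]

/-- Rows cutting the dimension of the quotient one by one. -/
theorem exists_rows {z : Fin D → S} (hz : ∃ c, maximalIdeal S ^ c ≤ Ideal.span (Set.range z))
    {Q : Ideal S} {r : ℕ} (hr : ∀ P : PrimeSpectrum S, Q ≤ P.asIdeal → Order.coheight P ≤ r)
    (hrD : r ≤ D) (j : ℕ) (hj : j ≤ r) :
    ∃ a : Fin j → Fin D → S, LinearIndependent (ResidueField S) (fun l => res S D (a l)) ∧
      ∀ P : PrimeSpectrum S, cut z Q a ≤ P.asIdeal →
        P.asIdeal = maximalIdeal S ∨ Order.coheight P + j ≤ r := by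
  induction j with
  | zero =>
    refine ⟨Fin.elim0, linearIndependent_empty_type, fun P hP => Or.inr ?_⟩
    simpa using hr P (le_trans le_sup_left hP)
  | succ j ih =>
    obtain ⟨a, ha, hP⟩ := ih (by omega)
    let T : Set (Ideal S) := {P | P ∈ (cut z Q a).minimalPrimes ∧ P ≠ maximalIdeal S}
    have hT : T.Finite :=
      ((cut z Q a).finite_minimalPrimes_of_isNoetherianRing (R := S)).subset fun P h => h.1
    obtain ⟨b, hb, hbT⟩ := exists_row hz (by omega) ha hT fun P h => ⟨h.1.1.1, h.2⟩
    refine ⟨Fin.snoc a b, hb, fun P' hP' => ?_⟩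
    have hle : cut z Q a ≤ P'.asIdeal := by
      refine le_trans (sup_le_sup_left (Ideal.span_mono ?_) Q) hP'
      rintro _ ⟨l, rfl⟩
      exact ⟨l.castSucc, by simp⟩
    have hbP' : Fintype.linearCombination S z b ∈ P'.asIdeal :=
      hP' (le_sup_right (a := Q) (Ideal.subset_span ⟨Fin.last j, by simp⟩))
    obtain ⟨P, hmin, hPle⟩ := Ideal.exists_minimalPrimes_le hle
    have := hmin.1.1
    by_cases hPm : P = maximalIdeal S
    · exact Or.inl (le_antisymm (le_maximalIdeal P'.isPrime.ne_top) (hPm ▸ hPle))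
    refine Or.inr ?_
    have hlt : (⟨P, this⟩ : PrimeSpectrum S) < P' :=
      lt_of_le_of_ne hPle fun h => hbT P ⟨hmin, hPm⟩ (by rw [← h] at hbP'; exact hbP')
    rcases hP ⟨P, this⟩ hmin.1.2 with h | h
    · exact absurd h hPm
    · calc Order.coheight P' + ((j + 1 : ℕ) : ℕ∞) = Order.coheight P' + 1 + (j : ℕ∞) := by
            push_cast; abel
        _ ≤ _ := le_trans (by gcongr; exact Order.coheight_add_one_le hlt) h

omit [IsNoetherianRing S] in
/-- Extension of independent rows to `D` independent rows. -/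
theorem extend_rows {z : Fin D → S} (hz : ∃ c, maximalIdeal S ^ c ≤ Ideal.span (Set.range z))
    {r : ℕ} {a : Fin r → Fin D → S}
    (ha : LinearIndependent (ResidueField S) fun l => res S D (a l)) (h : ℕ) (hh : r + h ≤ D) :
    ∃ a' : Fin (r + h) → Fin D → S,
      LinearIndependent (ResidueField S) (fun l => res S D (a' l)) ∧
      ∀ l, a' (Fin.castAdd h l) = a l := by
  induction h with
  | zero => exact ⟨a, ha, fun l => rfl⟩
  | succ h ih =>
    obtain ⟨a', ha', hl⟩ := ih (by omega)
    obtain ⟨b, hb, -⟩ := exists_row hz (show r + h < D by omega) ha' Set.finite_empty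
      (fun P hP => hP.elim)
    refine ⟨Fin.snoc a' b, hb, fun l => ?_⟩
    rw [show Fin.castAdd (h + 1) l = (Fin.castAdd h l).castSucc from rfl, Fin.snoc_castSucc, hl]

end Params

open Params in
/-- Parameters of `S ⧸ Q` inside a system of generators of an ideal of definition. -/
theorem exists_params (S : Type u) [CommRing S] [IsLocalRing S] [IsNoetherianRing S]
    [Infinite (ResidueField S)] {D : ℕ} (z : Fin D → S)
    (hz : ∃ c, maximalIdeal S ^ c ≤ Ideal.span (Set.range z))
    (hzm : ∀ i, z i ∈ maximalIdeal S) (Q : Ideal S) [Q.IsPrime] {r : ℕ}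
    (hr : ringKrullDim (S ⧸ Q) = r) :
    ∃ (h : ℕ) (y : Fin (r + h) → S), r + h = D ∧
      Ideal.span (Set.range y) = Ideal.span (Set.range z) ∧
      ∃ c, maximalIdeal S ^ c ≤ Q ⊔ Ideal.span (Set.range (y ∘ Fin.castAdd h)) := by
  classical
  have hrD : r ≤ D := by
    obtain ⟨c, hc⟩ := hz
    have hmem : maximalIdeal S ∈ (Ideal.span (Set.range z)).minimalPrimes :=
      ⟨⟨inferInstance, Ideal.span_le.2 (by rintro _ ⟨i, rfl⟩; exact hzm i)⟩,
        fun q hq _ => (have := hq.1; Ideal.IsPrime.le_of_pow_le (n := c) (hc.trans hq.2))⟩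
    have h1 : (maximalIdeal S).height ≤ (D : ℕ∞) :=
      (Ideal.height_le_card_of_mem_minimalPrimes_span (Set.finite_range z) hmem).trans (by
        rw [← Set.image_univ]
        exact_mod_cast (Set.ncard_image_le (Set.toFinite _)).trans (by simp [Set.ncard_univ]))
    have h2 : ((r : ℕ∞) : WithBot ℕ∞) ≤ ((D : ℕ∞) : WithBot ℕ∞) :=
      calc ((r : ℕ∞) : WithBot ℕ∞) = ringKrullDim (S ⧸ Q) := by rw [hr]; rfl
        _ ≤ ringKrullDim S :=
          ringKrullDim_le_of_surjective (Ideal.Quotient.mk Q) Ideal.Quotient.mk_surjective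
        _ = (maximalIdeal S).height := maximalIdeal_height_eq_ringKrullDim.symm
        _ ≤ _ := WithBot.coe_le_coe.2 h1
    exact_mod_cast h2
  have hco : ∀ P : PrimeSpectrum S, Q ≤ P.asIdeal → Order.coheight P ≤ r := by
    intro P hP
    refine Order.coheight_le fun p hp => ?_
    rw [ringKrullDim_quotient] at hr
    have hmem : ∀ i, p i ∈ PrimeSpectrum.zeroLocus (Q : Set S) := fun i => by
      refine le_trans hP ?_
      rw [← hp]
      exact p.monotone (Fin.zero_le i)
    let p' : LTSeries (PrimeSpectrum.zeroLocus (Q : Set S)) :=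
      ⟨p.length, fun i => ⟨p i, hmem i⟩, fun i => p.step i⟩
    have h1 := Order.LTSeries.length_le_krullDim p'
    rw [hr] at h1
    exact_mod_cast h1
  obtain ⟨a, ha, haP⟩ := exists_rows hz hco hrD r le_rfl
  obtain ⟨h, hh⟩ := Nat.exists_eq_add_of_le hrD
  obtain ⟨a', ha', hl⟩ := extend_rows hz ha h hh.ge
  refine ⟨h, fun l => Fintype.linearCombination S z (a' l), hh.symm, ?_, ?_⟩
  · have htop : Submodule.span S (Set.range a') = ⊤ := by
      refine eq_top_of_map_res _ fun w => ?_
      have hsp := ha'.span_eq_top_of_card_eq_finrank' (by simp [hh])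
      have hw : w ∈ Submodule.span (ResidueField S) (Set.range fun l => res S D (a' l)) :=
        hsp ▸ Submodule.mem_top
      obtain ⟨c, hc⟩ := (Submodule.mem_span_range_iff_exists_fun _).1 hw
      choose c' hc' using fun l => residue_surjective (R := S) (c l)
      refine ⟨∑ l, c' l • a' l, Submodule.sum_mem _ fun l _ =>
        Submodule.smul_mem _ _ (Submodule.subset_span ⟨l, rfl⟩), ?_⟩
      rw [map_sum, ← hc]
      exact Finset.sum_congr rfl fun l _ => by rw [map_smulₛₗ, hc']
    change Submodule.span S _ = _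
    rw [show (fun l => Fintype.linearCombination S z (a' l)) =
      Fintype.linearCombination S z ∘ a' from rfl, Set.range_comp, Submodule.span_image, htop,
      Submodule.map_top, Fintype.range_linearCombination]
  · refine Ideal.exists_pow_le_of_le_radical_of_fg ?_ (IsNoetherian.noetherian _)
    rw [Ideal.radical_eq_sInf]
    refine le_sInf fun P hP => ?_
    have hP2 := hP.2
    have hcut : cut z Q a ≤ (⟨P, hP2⟩ : PrimeSpectrum S).asIdeal := by
      refine le_trans (sup_le_sup_left (Ideal.span_mono ?_) Q) hP.1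
      rintro _ ⟨l, rfl⟩
      exact ⟨l, by simp [hl]⟩
    rcases haP _ hcut with h1 | h1
    · exact h1.ge
    · have h2 : Order.coheight (⟨P, hP2⟩ : PrimeSpectrum S) ≤ 0 :=
        (ENat.add_le_add_iff_right (ENat.natCast_ne_top r)).1 (h1.trans_eq (zero_add _).symm)
      have hmax := Order.coheight_eq_zero.1 (nonpos_iff_eq_zero.1 h2)
      exact hmax (b := ⟨maximalIdeal S, inferInstance⟩) (le_maximalIdeal hP2.ne_top)

end Vale.Agent.P202.Char
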