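import Vale.Agent.P202.Char.Complexes

/-!
P202, Lech in characteristic `p`: tuples of polynomials acting on Laurent monomials.

`emb lam p μ` is linear in `p` and `μ`; `push lam p` is the map of free slices given by a family
of tuples; it commutes with multiplication by Laurent polynomials and respects slices.
-/

namespace Vale.Agent.P202.Char

universe u v w

variable {Z : Type u} [CommRing Z] {n : ℕ} {ι : Type w} {L : Type w} (lam : Fin (n + 1) → Z)

/-- Multiplication of every component by a Laurent polynomial. -/
noncomputable def lmul (μ : Lau Z n) : Tot Z n ι →ₗ[Z] Tot Z n ι :=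
  Finsupp.lsum Z fun x : ι × Expo n => LinearMap.toSpanSingleton Z _
    (inComp x.1 (μ * AddMonoidAlgebra.single x.2 1))

/-- The map given by a family of tuples. -/
noncomputable def push (p : L → (ι →₀ MvPolynomial (Fin (n + 1)) Z)) :
    Tot Z n L →ₗ[Z] Tot Z n ι :=
  Finsupp.lsum Z fun x : L × Expo n => LinearMap.toSpanSingleton Z _
    (emb lam (p x.1) (AddMonoidAlgebra.single x.2 1))

theorem emb_zero_left (μ : Lau Z n) : emb (ι := ι) lam 0 μ = 0 := by simp [emb]

theorem emb_add_left (p q : ι →₀ MvPolynomial (Fin (n + 1)) Z) (μ : Lau Z n) :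
    emb lam (p + q) μ = emb lam p μ + emb lam q μ := by
  classical
  unfold emb
  exact Finsupp.sum_add_index' (fun i => by simp) (fun i f g => by simp [map_add, add_mul])

theorem emb_add_right (p : ι →₀ MvPolynomial (Fin (n + 1)) Z) (μ ν : Lau Z n) :
    emb lam p (μ + ν) = emb lam p μ + emb lam p ν := by
  simp only [emb, mul_add, map_add, Finsupp.sum_add]

theorem emb_smul_right (p : ι →₀ MvPolynomial (Fin (n + 1)) Z) (r : Z) (μ : Lau Z n) :
    emb lam p (r • μ) = r • emb lam p μ := by
  simp only [emb, Finsupp.smul_sum, ← map_smul, mul_smul_comm]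

theorem emb_zero_right (p : ι →₀ MvPolynomial (Fin (n + 1)) Z) : emb lam p 0 = 0 := by simp [emb]

theorem emb_smul_left (f : MvPolynomial (Fin (n + 1)) Z)
    (p : ι →₀ MvPolynomial (Fin (n + 1)) Z) (μ : Lau Z n) :
    emb lam (f • p) μ = emb lam p (rho lam f * μ) := by
  unfold emb
  rw [Finsupp.sum_smul_index' (by simp)]
  refine Finsupp.sum_congr fun i _ => ?_
  rw [smul_eq_mul, map_mul (rho lam), mul_comm (rho lam f), mul_assoc]

theorem emb_single (i : ι) (f : MvPolynomial (Fin (n + 1)) Z) (μ : Lau Z n) :
    emb lam (Finsupp.single i f) μ = inComp i (rho lam f * μ) := by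
  simp [emb]

theorem inComp_single (i : ι) (e : Expo n) (r : Z) :
    inComp i (AddMonoidAlgebra.single e r : Lau Z n) = Finsupp.single (i, e) r := by
  simp [inComp]

theorem lau_induction {P : Lau Z n → Prop} (μ : Lau Z n) (h0 : P 0)
    (hadd : ∀ a b, P a → P b → P (a + b))
    (hs : ∀ (e : Expo n) (r : Z), P (r • (AddMonoidAlgebra.single e 1 : Lau Z n))) : P μ := by
  induction μ using AddMonoidAlgebra.induction_linear with
  | zero => exact h0
  | add a b ha hb => exact hadd a b ha hb
  | single e r => simpa using hs e r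

theorem lmul_inComp (μ ν : Lau Z n) (i : ι) : lmul μ (inComp i ν) = inComp i (μ * ν) := by
  induction ν using lau_induction with
  | h0 => simp
  | hadd a b ha hb => simp [map_add, mul_add, ha, hb]
  | hs e r =>
    rw [map_smul, map_smul, mul_smul_comm, map_smul, inComp_single]
    congr 1
    rw [lmul, Finsupp.lsum_single, LinearMap.toSpanSingleton_apply, one_smul]

theorem push_inComp (p : L → (ι →₀ MvPolynomial (Fin (n + 1)) Z)) (ν : Lau Z n) (l : L) :
    push lam p (inComp l ν) = emb lam (p l) ν := by
  induction ν using lau_induction with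
  | h0 => simp [emb_zero_right]
  | hadd a b ha hb => simp [map_add, emb_add_right, ha, hb]
  | hs e r =>
    rw [map_smul, map_smul, emb_smul_right, inComp_single]
    congr 1
    rw [push, Finsupp.lsum_single, LinearMap.toSpanSingleton_apply, one_smul]

theorem lmul_emb (μ ν : Lau Z n) (p : ι →₀ MvPolynomial (Fin (n + 1)) Z) :
    lmul μ (emb lam p ν) = emb lam p (μ * ν) := by
  simp only [emb, map_finsuppSum]
  refine Finsupp.sum_congr fun i _ => ?_
  rw [lmul_inComp, mul_left_comm]

theorem tot_induction {P : Tot Z n ι → Prop} (x : Tot Z n ι) (h0 : P 0)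
    (hadd : ∀ a b, P a → P b → P (a + b))
    (hs : ∀ (i : ι) (e : Expo n) (r : Z),
      P (r • inComp i (AddMonoidAlgebra.single e 1 : Lau Z n))) : P x := by
  induction x using Finsupp.induction_linear with
  | zero => exact h0
  | add a b ha hb => exact hadd a b ha hb
  | single x r =>
    obtain ⟨i, e⟩ := x
    simpa [inComp_single] using hs i e r

theorem push_lmul (p : L → (ι →₀ MvPolynomial (Fin (n + 1)) Z)) (μ : Lau Z n) (x : Tot Z n L) :
    push lam p (lmul μ x) = lmul μ (push lam p x) := by
  induction x using tot_induction with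
  | h0 => simp
  | hadd a b ha hb => simp [map_add, ha, hb]
  | hs i e r => simp [lmul_inComp, push_inComp, lmul_emb]

/-- The family composed with another one. -/
noncomputable def compFam {L' : Type w} (p : L → (ι →₀ MvPolynomial (Fin (n + 1)) Z))
    (q : L' → (L →₀ MvPolynomial (Fin (n + 1)) Z)) : L' → (ι →₀ MvPolynomial (Fin (n + 1)) Z) :=
  fun l => (q l).sum fun i f => f • p i

theorem push_emb (p : L → (ι →₀ MvPolynomial (Fin (n + 1)) Z))
    (q : L →₀ MvPolynomial (Fin (n + 1)) Z) (μ : Lau Z n) :
    push lam p (emb lam q μ) = emb lam (q.sum fun i f => f • p i) μ := by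
  induction q using Finsupp.induction_linear with
  | zero => simp [emb_zero_left]
  | add a b ha hb =>
    rw [emb_add_left, map_add, ha, hb,
      Finsupp.sum_add_index' (fun i => by simp) (fun i f g => add_smul f g _), emb_add_left]
  | single i f =>
    rw [emb_single, push_inComp, Finsupp.sum_single_index (by simp), emb_smul_left]

theorem push_comp {L' : Type w} (p : L → (ι →₀ MvPolynomial (Fin (n + 1)) Z))
    (q : L' → (L →₀ MvPolynomial (Fin (n + 1)) Z)) (x : Tot Z n L') :
    push lam p (push lam q x) = push lam (compFam p q) x := by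
  induction x using tot_induction with
  | h0 => simp
  | hadd a b ha hb => simp [map_add, ha, hb]
  | hs i e r => simp [push_inComp, push_emb, compFam]

/-- The shift `(i, s) ↦ (i, s + 1)` as a family. -/
noncomputable def upFam (Z : Type u) [CommRing Z] (n : ℕ) (ι : Type w) :
    (ι × ℕ) → ((ι × ℕ) →₀ MvPolynomial (Fin (n + 1)) Z) :=
  fun x => Finsupp.single (x.1, x.2 + 1) 1

theorem push_sub (p q : L → (ι →₀ MvPolynomial (Fin (n + 1)) Z)) (x : Tot Z n L) :
    push lam (p - q) x = push lam p x - push lam q x := by
  have hneg : ∀ (a : ι →₀ MvPolynomial (Fin (n + 1)) Z) (μ : Lau Z n),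
      emb lam (-a) μ = -emb lam a μ := fun a μ => by
    rw [eq_neg_iff_add_eq_zero, ← emb_add_left, neg_add_cancel, emb_zero_left]
  induction x using tot_induction with
  | h0 => simp
  | hadd a b ha hb => simp only [map_add, ha, hb]; abel
  | hs i e r =>
    simp only [map_smul, push_inComp, Pi.sub_apply, sub_eq_add_neg, Pi.add_apply, Pi.neg_apply,
      emb_add_left, hneg, smul_add, smul_neg]

end Vale.Agent.P202.Char
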