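import Vale.Agent.P202.Zero.MultPS
import Vale.Agent.P202.Zero.ParamBound
import Vale.Agent.P202.Char.Existence

/-!
P202, Lech in characteristic `p`, stage 2: multiplicities against ranks over a Noetherian domain.
-/

namespace Vale.Agent.P202.Char

open IsLocalRing Filter Topology Finset

universe u v

/-- A maximal free part. -/
theorem exists_free_part_alt (C : Type u) [CommRing C] [IsDomain C] [IsNoetherianRing C]
    (M : Type v) [AddCommGroup M] [Module C M] [Module.Finite C M] :
    ∃ (ρ : ℕ) (v : Fin ρ → M) (s : C), s ≠ 0 ∧ LinearIndependent C v ∧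
      ∀ m : M, s • m ∈ Submodule.span C (Set.range v) := by
  classical
  obtain ⟨v, hv⟩ := exists_linearIndependent_of_le_finrank (le_refl (Module.finrank C M))
  set W := Submodule.span C (Set.range v)
  have hW : Module.finrank C W = Module.finrank C M := by
    rw [finrank_span_eq_card hv, Fintype.card_fin]
  have h0 : Module.finrank C (M ⧸ W) = 0 := by
    have := Submodule.finrank_quotient_add_finrank W
    omega
  have ht := Module.finrank_eq_zero_iff_isTorsion.1 h0
  obtain ⟨n, s, hs⟩ := Module.Finite.exists_fin (R := C) (M := M)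
  choose a ha using fun i => @ht (W.mkQ (s i))
  refine ⟨_, v, ∏ i, (a i : C),
    Finset.prod_ne_zero_iff.2 fun i _ => nonZeroDivisors.ne_zero (a i).2, hv, fun m => ?_⟩
  obtain ⟨c, rfl⟩ := (Submodule.mem_span_range_iff_exists_fun C).1
    (hs ▸ trivial : m ∈ Submodule.span C (Set.range s))
  rw [Finset.smul_sum]
  refine Submodule.sum_mem _ fun i _ => ?_
  rw [smul_comm]
  refine Submodule.smul_mem _ _ ?_
  have h1 : (a i : C) • W.mkQ (s i) = 0 := ha i
  rw [← map_smul, Submodule.mkQ_apply, Submodule.Quotient.mk_eq_zero] at h1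
  obtain ⟨b, hb⟩ := Finset.dvd_prod_of_mem (fun i => (a i : C)) (Finset.mem_univ i)
  rw [hb, mul_comm, mul_smul]
  exact Submodule.smul_mem _ _ h1

/-- `rank ≤ e(S)`. -/
theorem rank_le_multiplicity_alt (K : Type u) [Field K] (D : ℕ) (S : Type u) [CommRing S]
    [IsLocalRing S] [IsNoetherianRing S] [Algebra (MvPowerSeries (Fin D) K) S]
    [Module.Finite (MvPowerSeries (Fin D) K) S]
    (hres : Function.Surjective
      ((residue S).comp (algebraMap (MvPowerSeries (Fin D) K) S)))
    (hred : ∃ c, maximalIdeal S ^ (c + 1) ≤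
      Ideal.span (Set.range fun i => algebraMap (MvPowerSeries (Fin D) K) S (MvPowerSeries.X i)) *
        maximalIdeal S ^ c)
    (ρ : ℕ) (v : Fin ρ → S) (hv : LinearIndependent (MvPowerSeries (Fin D) K) v)
    (e' : ℝ) (he' : IsMultiplicity S D e') : (ρ : ℝ) ≤ e' := by
  classical
  let : Algebra K S :=
    ((algebraMap (MvPowerSeries (Fin D) K) S).comp MvPowerSeries.C).toAlgebra
  have : IsScalarTower K (MvPowerSeries (Fin D) K) S :=
    IsScalarTower.of_algebraMap_eq fun a => rfl
  have hmaxK : ∀ f : MvPowerSeries (Fin D) K,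
      f - MvPowerSeries.C (MvPowerSeries.constantCoeff f) ∈ Zero.zI K D := by
    intro f
    rw [← pow_one (Zero.zI K D), Zero.PSLen.mem_zI_pow_iff]
    exact_mod_cast MvPowerSeries.one_le_order_iff_constCoeff_eq_zero.2 (by simp)
  have hc : ∃ c, maximalIdeal S ^ (c + 1) ≤
      (Zero.zI K D).map (algebraMap (MvPowerSeries (Fin D) K) S) * maximalIdeal S ^ c := by
    obtain ⟨c, hc⟩ := hred
    refine ⟨c, ?_⟩
    rw [Zero.zI, Ideal.map_span, ← Set.range_comp]
    exact hc
  have hz : ∀ i, algebraMap (MvPowerSeries (Fin D) K) S (MvPowerSeries.X i) ∈ maximalIdeal S := by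
    intro i
    obtain ⟨a, ha⟩ : ∃ a, a = algebraMap (MvPowerSeries (Fin D) K) S (MvPowerSeries.X i) :=
      ⟨_, rfl⟩
    rw [← ha, mem_maximalIdeal, mem_nonunits_iff]
    intro hu
    have hX : (MvPowerSeries.X i : MvPowerSeries (Fin D) K) ∈
        maximalIdeal (MvPowerSeries (Fin D) K) := by
      rw [mem_maximalIdeal, mem_nonunits_iff, MvPowerSeries.isUnit_iff_constantCoeff]
      simp
    -- a unit would make the finite module `S` equal to `m S`
    have htop : maximalIdeal (MvPowerSeries (Fin D) K) •
        (⊤ : Submodule (MvPowerSeries (Fin D) K) S) = ⊤ := by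
      refine eq_top_iff.2 fun z _ => ?_
      obtain ⟨w, hw⟩ := hu
      have : z = (MvPowerSeries.X i : MvPowerSeries (Fin D) K) • (↑w⁻¹ * z) := by
        rw [Algebra.smul_def, ← ha, ← hw, ← mul_assoc, Units.mul_inv, one_mul]
      rw [this]
      exact Submodule.smul_mem_smul hX trivial
    have hsub := Submodule.eq_bot_of_le_smul_of_le_jacobson_bot
      (maximalIdeal (MvPowerSeries (Fin D) K)) (⊤ : Submodule (MvPowerSeries (Fin D) K) S)
      Module.Finite.fg_top htop.ge (IsLocalRing.maximalIdeal_le_jacobson _)
    exact one_ne_zero ((Submodule.mem_bot _).1 (le_of_eq hsub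
      (trivial : (1 : S) ∈ (⊤ : Submodule (MvPowerSeries (Fin D) K) S))))
  have hk : Function.Surjective fun a : K => residue S (algebraMap K S a) := fun x => by
    obtain ⟨f, hf⟩ := hres x
    refine ⟨MvPowerSeries.constantCoeff f, ?_⟩
    have hle : (Zero.zI K D).map (algebraMap (MvPowerSeries (Fin D) K) S) ≤ maximalIdeal S := by
      rw [Ideal.map_le_iff_le_comap, Zero.zI, Ideal.span_le]
      rintro _ ⟨i, rfl⟩
      exact hz i
    have h1 : residue S (algebraMap (MvPowerSeries (Fin D) K) S
        (f - MvPowerSeries.C (MvPowerSeries.constantCoeff f))) = 0 :=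
      (residue_eq_zero_iff _).2 (hle (Ideal.mem_map_of_mem _ (hmaxK f)))
    rw [map_sub, map_sub, sub_eq_zero] at h1
    exact h1.symm.trans hf
  obtain ⟨r, w, π, h, hh, hw, hspan⟩ := Zero.PSLen.exists_certificate (k := K) (d := D) S
  refine le_trans ?_ (Zero.rank_le_isMultiplicity hk hz hc w π hh hw he')
  have hv' : LinearIndependent (MvPowerSeries (Fin D) K) fun i => h • v i := by
    rw [Fintype.linearIndependent_iff]
    intro g hg i
    have h1 := Fintype.linearIndependent_iff.1 hv (fun j => g j * h) (by
      rw [← hg]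
      exact Finset.sum_congr rfl fun j _ => mul_smul _ _ _) i
    exact (mul_eq_zero.1 h1).resolve_right hh
  let W := Submodule.span (MvPowerSeries (Fin D) K) (Set.range w)
  have hW : LinearIndependent (MvPowerSeries (Fin D) K) fun i => (⟨h • v i, hspan _⟩ : W) :=
    LinearIndependent.of_comp W.subtype hv'
  have h2 := hW.fintype_card_le_finrank
  rw [Fintype.card_fin] at h2
  have h3 : Module.finrank (MvPowerSeries (Fin D) K) W ≤ r := by
    refine (finrank_range_le_card w).trans ?_
    simp
  exact_mod_cast h2.trans h3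

namespace RankAlt

theorem length_le_restrictScalars {A B : Type u} [CommRing A] [CommRing B] [Algebra A B]
    (M : Type u) [AddCommGroup M] [Module A M] [Module B M] [IsScalarTower A B M] :
    Module.length B M ≤ Module.length A M := by
  have h := Submodule.length_le_length_restrictScalars (R := B) A (⊤ : Submodule B M)
  rw [Submodule.restrictScalars_top] at h
  simpa using h

/-- A finite module killed by `J` with `σ M` inside the span of `ρ` elements. -/
theorem length_upper {A : Type u} [CommRing A] {M : Type u} [AddCommGroup M] [Module A M]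
    (J : Ideal A) (hJ : ∀ a ∈ J, ∀ m : M, a • m = 0) (σ : A) {ρ : ℕ} (w : Fin ρ → M)
    (hw : ∀ m, σ • m ∈ Submodule.span A (Set.range w)) {n : ℕ} (s : Fin n → M)
    (hs : Submodule.span A (Set.range s) = ⊤) :
    Module.length A M ≤ (ρ : ℕ∞) * Module.length A (A ⧸ J) +
      (n : ℕ∞) * Module.length A (A ⧸ (J ⊔ Ideal.span {σ})) := by
  obtain ⟨φ, hφ⟩ := Zero.PSLen.exists_map_of_killed J w fun i a ha => hJ a ha _
  set W := LinearMap.range φ
  obtain ⟨ψ, hψ⟩ := Zero.PSLen.exists_map_of_killed (J ⊔ Ideal.span {σ})
    (fun i => W.mkQ (s i)) fun i a ha => by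
      obtain ⟨b, hb, c, hc, rfl⟩ := Submodule.mem_sup.1 ha
      obtain ⟨c, rfl⟩ := Ideal.mem_span_singleton'.1 hc
      rw [← map_smul, add_smul, hJ b hb, zero_add, mul_smul]
      refine (Submodule.Quotient.mk_eq_zero W).2 (W.smul_mem c ?_)
      rw [hφ]
      exact hw _
  rw [Module.length_eq_add_of_exact W.subtype W.mkQ W.injective_subtype W.mkQ_surjective
    (LinearMap.exact_subtype_mkQ _)]
  refine add_le_add ((Module.length_le_of_surjective φ.rangeRestrict
    φ.surjective_rangeRestrict).trans (le_of_eq (by simp [Module.length_pi_of_fintype])))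
    ((Module.length_le_of_surjective ψ ?_).trans (le_of_eq (by simp [Module.length_pi_of_fintype])))
  rw [← LinearMap.range_eq_top, hψ]
  refine eq_top_iff.2 fun z _ => ?_
  obtain ⟨z, rfl⟩ := W.mkQ_surjective z
  have h1 : W.mkQ z ∈ (Submodule.span A (Set.range s)).map W.mkQ :=
    Submodule.mem_map_of_mem (hs ▸ trivial)
  rwa [Submodule.map_span, ← Set.range_comp] at h1

/-- The quotient by a nonzero element grows slower than `N ^ h`. -/
theorem quot_small {A : Type u} [CommRing A] [IsDomain A] [IsNoetherianRing A] [IsLocalRing A]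
    {h : ℕ} (hdim : ringKrullDim A ≤ h) {σ : A} (hσ : σ ≠ 0) :
    Tendsto (fun N : ℕ =>
      ((Module.length A (A ⧸ (maximalIdeal A ^ N ⊔ Ideal.span {σ}))).toNat : ℝ) / (N : ℝ) ^ h)
      atTop (𝓝 0) := by
  rcases eq_or_ne (Ideal.span {σ}) ⊤ with htop | htop
  · refine tendsto_const_nhds.congr fun N => ?_
    have : Subsingleton (A ⧸ (maximalIdeal A ^ N ⊔ Ideal.span {σ})) :=
      Ideal.Quotient.subsingleton_iff.2 (by rw [htop, sup_top_eq])
    simp
  · let Q := A ⧸ Ideal.span {σ}
    have : Nontrivial Q := Ideal.Quotient.nontrivial_iff.2 htop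
    let π : A →+* Q := Ideal.Quotient.mk _
    have hπ : Function.Surjective π := Ideal.Quotient.mk_surjective
    have : IsLocalRing Q := IsLocalRing.of_surjective' π hπ
    have hQ : ringKrullDim Q + 1 ≤ (h : WithBot ℕ∞) :=
      (ringKrullDim_quotient_succ_le_of_nonZeroDivisor
        (mem_nonZeroDivisors_of_ne_zero hσ)).trans hdim
    obtain ⟨d, hd⟩ := exists_eq_natCast_of_lt h hQ
    obtain ⟨L, hL⟩ := Exist.exists_bound hd.1
    have hle : ∀ N : ℕ, (Module.length A (A ⧸ (maximalIdeal A ^ N ⊔ Ideal.span {σ}))).toNat ≤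
        L * N ^ d := by
      intro N
      have hmax : (maximalIdeal A).map π = maximalIdeal Q := by
        refine ((maximalIdeal A).map_eq_top_or_isMaximal_of_surjective π hπ
          (maximalIdeal.isMaximal A)).resolve_left (fun ht => ?_) |> IsLocalRing.eq_maximalIdeal
        have h1 := congrArg (Ideal.comap π) ht
        rw [Ideal.comap_map_of_surjective π hπ, Ideal.comap_top, ← RingHom.ker_eq_comap_bot,
          Ideal.mk_ker, sup_eq_left.2 (le_maximalIdeal htop)] at h1
        exact (maximalIdeal.isMaximal A).ne_top h1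
      let e : (A ⧸ (maximalIdeal A ^ N ⊔ Ideal.span {σ})) →+ (Q ⧸ maximalIdeal Q ^ N) :=
        (Ideal.Quotient.lift _ ((Ideal.Quotient.mk (maximalIdeal Q ^ N)).comp π) fun a ha => by
          obtain ⟨b, hb, c, hc, rfl⟩ := Submodule.mem_sup.1 ha
          rw [RingHom.comp_apply, map_add, Ideal.Quotient.eq_zero_iff_mem]
          refine add_mem ?_ (by rw [Ideal.Quotient.eq_zero_iff_mem.2 hc]; exact zero_mem _)
          rw [← hmax, ← Ideal.map_pow]
          exact Ideal.mem_map_of_mem π hb).toAddMonoidHom
      have he : Function.Injective e := by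
        rw [injective_iff_map_eq_zero]
        intro x hx
        obtain ⟨x, rfl⟩ := Ideal.Quotient.mk_surjective x
        have hx' : π x ∈ maximalIdeal Q ^ N := Ideal.Quotient.eq_zero_iff_mem.1 hx
        rw [← hmax, ← Ideal.map_pow, Ideal.mem_map_iff_of_surjective π hπ] at hx'
        obtain ⟨b, hb, hbx⟩ := hx'
        rw [Ideal.Quotient.eq_zero_iff_mem]
        rw [Ideal.Quotient.eq] at hbx
        have h2 := sub_mem
          (Ideal.mem_sup_left hb : b ∈ maximalIdeal A ^ N ⊔ Ideal.span {σ})
          (Ideal.mem_sup_right hbx)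
        rwa [sub_sub_cancel] at h2
      have hes : Function.Surjective e := fun z => by
        obtain ⟨z, rfl⟩ := Ideal.Quotient.mk_surjective z
        obtain ⟨a, rfl⟩ := hπ z
        exact ⟨Ideal.Quotient.mk _ a, rfl⟩
      have : RingHomSurjective π := ⟨hπ⟩
      let f : (A ⧸ (maximalIdeal A ^ N ⊔ Ideal.span {σ})) →ₛₗ[π] (Q ⧸ maximalIdeal Q ^ N) :=
        { e with
          map_smul' := fun r x => by
            obtain ⟨x, rfl⟩ := Ideal.Quotient.mk_surjective x
            change Ideal.Quotient.mk _ (π (r * x)) = π r • Ideal.Quotient.mk _ (π x)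
            rw [map_mul]
            rfl }
      rw [length_semi π f ⟨he, hes⟩]
      exact hL N
    have h0 : Tendsto (fun N : ℕ => (L : ℝ) / (N : ℝ)) atTop (𝓝 0) :=
      tendsto_const_div_atTop_nhds_zero_nat _
    refine squeeze_zero' (Eventually.of_forall fun N => by positivity) ?_ h0
    filter_upwards [eventually_ge_atTop 1] with N hN
    have hN0 : (0 : ℝ) < N := by exact_mod_cast hN
    rw [div_le_div_iff₀ (by positivity) hN0]
    calc ((Module.length A (A ⧸ (maximalIdeal A ^ N ⊔ Ideal.span {σ}))).toNat : ℝ) * N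
        ≤ (L : ℝ) * (N : ℝ) ^ d * N :=
          mul_le_mul_of_nonneg_right (by exact_mod_cast hle N) hN0.le
      _ = (L : ℝ) * (N : ℝ) ^ (d + 1) := by ring
      _ ≤ (L : ℝ) * (N : ℝ) ^ h := by
          refine mul_le_mul_of_nonneg_left (pow_le_pow_right₀ ?_ hd.2) (by positivity)
          exact_mod_cast hN
where
  exists_eq_natCast_of_lt {Q : Type u} [CommRing Q] [IsLocalRing Q] (h : ℕ)
      (hQ : ringKrullDim Q + 1 ≤ (h : WithBot ℕ∞)) :
      ∃ d : ℕ, ringKrullDim Q = d ∧ d + 1 ≤ h := by
    have h0 : (0 : WithBot ℕ∞) ≤ ringKrullDim Q := ringKrullDim_nonneg_of_nontrivial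
    generalize ringKrullDim Q = x at hQ h0
    induction x using WithBot.recBotCoe with
    | bot => simp at h0
    | coe a =>
      induction a using ENat.recTopCoe with
      | top =>
        rw [show ((⊤ : ℕ∞) : WithBot ℕ∞) + 1 = ((⊤ + 1 : ℕ∞) : WithBot ℕ∞) from rfl,
          top_add] at hQ
        exact absurd (WithBot.coe_le_coe.1 hQ) (not_le.2 (ENat.natCast_lt_top h))
      | coe m => exact ⟨m, rfl, by exact_mod_cast hQ⟩

end RankAlt

open RankAlt in
/-- `e(S_Q) ≤ rank`. -/
theorem localised_multiplicity_le_rank_alt (C S : Type u) [CommRing C] [IsDomain C]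
    [IsNoetherianRing C] [CommRing S] [IsNoetherianRing S] [Algebra C S] [Module.Finite C S]
    (q : Ideal C) [q.IsPrime] (Q : Ideal S) [Q.IsPrime] (hQ : Q.comap (algebraMap C S) = q)
    (h : ℕ) (g : Fin h → Localization.AtPrime q)
    (hg : maximalIdeal (Localization.AtPrime q) = Ideal.span (Set.range g))
    (ρ : ℕ) (v : Fin ρ → S) (s : C) (hs : s ≠ 0)
    (hspan : ∀ m : S, s • m ∈ Submodule.span C (Set.range v))
    (eQ : ℝ) (heQ : IsMultiplicity (Localization.AtPrime Q) h eQ) : eQ ≤ (ρ : ℝ) := by
  classical
  let φ : Localization.AtPrime q →+* Localization.AtPrime Q :=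
    Localization.localRingHom q Q (algebraMap C S) hQ.symm
  let : Algebra (Localization.AtPrime q) (Localization.AtPrime Q) := φ.toAlgebra
  have hφ : ∀ c : C, φ (algebraMap C _ c) = algebraMap S _ (algebraMap C S c) := fun c =>
    Localization.localRingHom_to_map q Q _ hQ.symm c
  set m := maximalIdeal (Localization.AtPrime q)
  set n := maximalIdeal (Localization.AtPrime Q)
  have hloc : IsLocalHom φ := Localization.isLocalHom_localRingHom q Q _ hQ.symm
  have hmn : m.map φ ≤ n := IsLocalRing.map_maximalIdeal_le φ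
  have hdim : ringKrullDim (Localization.AtPrime q) ≤ (h : WithBot ℕ∞) := by
    refine (ringKrullDim_le_spanFinrank_maximalIdeal _).trans ?_
    have h1 : m.spanFinrank ≤ h := by
      refine le_trans (le_of_eq (congrArg Submodule.spanFinrank hg)) ?_
      exact (Submodule.spanFinrank_span_le_ncard_of_finite (Set.finite_range g)).trans
        (by rw [← Set.image_univ]; exact (Set.ncard_image_le).trans (by simp))
    exact_mod_cast h1
  set σ : Localization.AtPrime q := algebraMap C _ s
  have hσ : σ ≠ 0 := fun h0 => hs (IsLocalization.injective (Localization.AtPrime q)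
    (Ideal.primeCompl_le_nonZeroDivisors q) (h0.trans (map_zero _).symm))
  obtain ⟨j, gen, hgen⟩ := Module.Finite.exists_fin (R := C) (M := S)
  have key : ∀ N : ℕ,
      Module.length (Localization.AtPrime Q) (Localization.AtPrime Q ⧸ n ^ N) ≤
        (ρ : ℕ∞) * Module.length (Localization.AtPrime q) (Localization.AtPrime q ⧸ m ^ N) +
          (j : ℕ∞) * Module.length (Localization.AtPrime q)
            (Localization.AtPrime q ⧸ (m ^ N ⊔ Ideal.span {σ})) := by
    intro N
    set J := (m ^ N).map φ
    have hJn : J ≤ n ^ N := by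
      rw [show J = m.map φ ^ N from Ideal.map_pow φ m N]
      exact Ideal.pow_right_mono hmn N
    refine (Module.length_le_of_surjective (Submodule.factor hJn)
      (Submodule.factor_surjective _)).trans ((length_le_restrictScalars
        (A := Localization.AtPrime q) _).trans ?_)
    let A := Localization.AtPrime Q ⧸ J
    let ι : S → A := fun z => Submodule.Quotient.mk (algebraMap S (Localization.AtPrime Q) z)
    let W : Submodule (Localization.AtPrime q) A :=
      Submodule.span (Localization.AtPrime q) (Set.range fun i => ι (gen i))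
    have hιsmul : ∀ (c : C) (z : S), ι (c • z) = algebraMap C (Localization.AtPrime q) c • ι z := by
      intro c z
      simp only [ι]
      rw [← Submodule.Quotient.mk_smul]
      congr 1
      rw [Algebra.smul_def, map_mul, ← hφ]
      exact (Algebra.smul_def (algebraMap C (Localization.AtPrime q) c)
        (algebraMap S (Localization.AtPrime Q) z)).symm
    have hιadd : ∀ a b, ι (a + b) = ι a + ι b := fun a b => by
      simp only [ι, map_add, Submodule.Quotient.mk_add]
    have hι0 : ι 0 = 0 := by simp [ι]
    have hspanι : ∀ {r : ℕ} (u : Fin r → S) (z : S), z ∈ Submodule.span C (Set.range u) →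
        ι z ∈ Submodule.span (Localization.AtPrime q) (Set.range fun i => ι (u i)) := by
      intro r u z hz
      induction hz using Submodule.span_induction with
      | mem x hx =>
        obtain ⟨i, rfl⟩ := hx
        exact Submodule.subset_span ⟨i, rfl⟩
      | zero => rw [hι0]; exact zero_mem _
      | add a b _ _ ha hb => rw [hιadd]; exact add_mem ha hb
      | smul c a _ ha => rw [hιsmul]; exact Submodule.smul_mem _ _ ha
    have hιW : ∀ z, ι z ∈ W := fun z => hspanι gen z (hgen ▸ trivial)
    have hkill : ∀ a ∈ m ^ N, ∀ x : A, a • x = 0 := fun a ha x => by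
      obtain ⟨x, rfl⟩ := Submodule.mkQ_surjective _ x
      rw [Submodule.mkQ_apply, ← Submodule.Quotient.mk_smul, Submodule.Quotient.mk_eq_zero,
        Algebra.smul_def]
      exact Ideal.mul_mem_right _ _ (Ideal.mem_map_of_mem φ ha)
    have : Module.Finite (Localization.AtPrime q) W :=
      Module.Finite.span_of_finite _ (Set.finite_range _)
    have hWlen : Module.length (Localization.AtPrime q) W ≠ ⊤ :=
      length_ne_top_of_killed (N := N) fun a ha x => Subtype.ext (hkill a ha x)
    have hWtop : W = ⊤ := by
      refine eq_top_iff.2 fun x _ => ?_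
      obtain ⟨x, rfl⟩ := Submodule.mkQ_surjective _ x
      obtain ⟨⟨a, t⟩, rfl⟩ := IsLocalization.mk'_surjective Q.primeCompl x
      let T : A →ₗ[Localization.AtPrime q] A :=
        (LinearMap.lsmul (Localization.AtPrime Q) A (algebraMap S _ (t : S))).restrictScalars _
      have hT : ∀ w ∈ W, T w ∈ W := by
        intro w hw
        induction hw using Submodule.span_induction with
        | mem y hy =>
          obtain ⟨i, rfl⟩ := hy
          have : T (ι (gen i)) = ι ((t : S) * gen i) := by
            simp only [T, ι, LinearMap.restrictScalars_apply, LinearMap.lsmul_apply, map_mul]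
            rfl
          rw [this]
          exact hιW _
        | zero => simp
        | add y z _ _ hy hz => rw [map_add]; exact add_mem hy hz
        | smul c y _ hy => rw [map_smul]; exact Submodule.smul_mem _ _ hy
      have : IsArtinian (Localization.AtPrime q) W :=
        (isFiniteLength_iff_isNoetherian_isArtinian.1 (Module.length_ne_top_iff.1 hWlen)).2
      have hu : IsUnit (algebraMap S (Localization.AtPrime Q) (t : S)) :=
        IsLocalization.map_units _ t
      have hinj : Function.Injective (T.restrict hT) := fun y z hyz => by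
        have h1 := congrArg Subtype.val hyz
        simp only [LinearMap.coe_restrict_apply, T, LinearMap.restrictScalars_apply,
          LinearMap.lsmul_apply] at h1
        exact Subtype.ext (hu.smul_left_cancel.1 h1)
      obtain ⟨⟨y, hy⟩, hyx⟩ :=
        IsArtinian.surjective_of_injective_endomorphism (T.restrict hT) hinj ⟨ι a, hιW a⟩
      have h2 : algebraMap S (Localization.AtPrime Q) (t : S) • y = ι a :=
        congrArg Subtype.val hyx
      have h3 : algebraMap S (Localization.AtPrime Q) (t : S) •
          (Submodule.mkQ J (IsLocalization.mk' _ a t)) = ι a := by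
        rw [← map_smul, smul_eq_mul, IsLocalization.mk'_spec']
        rfl
      rw [← hu.smul_left_cancel.1 (h2.trans h3.symm)]
      exact hy
    rw [← Module.length_top (R := Localization.AtPrime q) (M := A), ← hWtop]
    refine length_upper (m ^ N) (fun a ha x => Subtype.ext (hkill a ha x)) σ
      (fun i => (⟨ι (v i), hιW _⟩ : W)) (fun x => ?_) (fun i => (⟨ι (gen i), hιW _⟩ : W)) ?_
    · obtain ⟨x, hx⟩ := x
      have h1 : σ • x ∈ Submodule.span (Localization.AtPrime q) (Set.range fun i => ι (v i)) := by
        induction hx using Submodule.span_induction with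
        | mem y hy =>
          obtain ⟨i, rfl⟩ := hy
          rw [← hιsmul]
          exact hspanι v _ (hspan _)
        | zero => simp
        | add y z _ _ hy hz => rw [smul_add]; exact add_mem hy hz
        | smul c y _ hy => rw [smul_comm]; exact Submodule.smul_mem _ _ hy
      rw [← Submodule.apply_mem_span_image_iff_mem_span (f := W.subtype) W.injective_subtype,
        ← Set.range_comp]
      exact h1
    · refine Submodule.map_injective_of_injective W.injective_subtype ?_
      rw [Submodule.map_span, ← Set.range_comp, Submodule.map_top, Submodule.range_subtype]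
      rfl
  have hfin : ∀ N : ℕ, Module.length (Localization.AtPrime q)
      (Localization.AtPrime q ⧸ m ^ N) ≠ ⊤ := fun N =>
    length_quotient_ne_top _ N le_rfl
  have hfin' : ∀ N : ℕ,
      Module.length (Localization.AtPrime q)
        (Localization.AtPrime q ⧸ (m ^ N ⊔ Ideal.span {σ})) ≠ ⊤ := fun N =>
    length_quotient_ne_top _ N le_sup_left
  have hm1 : (Module.length (Localization.AtPrime q) (Localization.AtPrime q ⧸ m)).toNat = 1 := by
    rw [Module.length_eq_one_iff.2]
    · rfl
    · rw [isSimpleModule_iff_quot_maximal]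
      exact ⟨m, maximalIdeal.isMaximal _, ⟨LinearEquiv.refl _ _⟩⟩
  have hbd : ∀ N : ℕ, (Module.length (Localization.AtPrime q)
      (Localization.AtPrime q ⧸ m ^ N)).toNat ≤
      (Zero.PSLen.lowSet h N).card := fun N => by
    have h1 := Zero.ParamBound.length_pow_le g N
    rw [← hg] at h1
    have h2 := ENat.toNat_le_toNat h1 (WithTop.mul_ne_top (ENat.natCast_ne_top _)
      (length_quotient_ne_top _ 1 (by rw [pow_one])))
    rwa [ENat.toNat_mul, ENat.toNat_natCast, hm1, mul_one] at h2
  have hlim := ((Zero.PSLen.choose_limit h 0).const_mul (ρ : ℝ)).add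
    ((quot_small hdim hσ).const_mul ((j : ℝ) * h.factorial))
  rw [mul_one, mul_zero, add_zero] at hlim
  refine le_of_tendsto_of_tendsto' heQ hlim fun N => ?_
  have hne1 : (ρ : ℕ∞) * Module.length (Localization.AtPrime q)
      (Localization.AtPrime q ⧸ m ^ N) ≠ ⊤ :=
    WithTop.mul_ne_top (ENat.natCast_ne_top _) (hfin N)
  have hne2 : (j : ℕ∞) * Module.length (Localization.AtPrime q)
      (Localization.AtPrime q ⧸ (m ^ N ⊔ Ideal.span {σ})) ≠ ⊤ :=
    WithTop.mul_ne_top (ENat.natCast_ne_top _) (hfin' N)
  have h1 := ENat.toNat_le_toNat (key N) (WithTop.add_ne_top.2 ⟨hne1, hne2⟩)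
  rw [ENat.toNat_add hne1 hne2, ENat.toNat_mul, ENat.toNat_mul,
    ENat.toNat_natCast, ENat.toNat_natCast] at h1
  have h2 : ((Module.length (Localization.AtPrime Q)
      (Localization.AtPrime Q ⧸ n ^ N)).toNat : ℝ) ≤
      (ρ : ℝ) * ((Zero.PSLen.lowSet h N).card : ℝ) + (j : ℝ) *
        ((Module.length (Localization.AtPrime q)
          (Localization.AtPrime q ⧸ (m ^ N ⊔ Ideal.span {σ}))).toNat : ℝ) := by
    have h3 := h1.trans (Nat.add_le_add_right (Nat.mul_le_mul_left ρ (hbd N)) _)
    exact_mod_cast h3
  refine (div_le_div_of_nonneg_right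
    (mul_le_mul_of_nonneg_left h2 (by positivity)) (by positivity)).trans (le_of_eq ?_)
  rw [Nat.sub_zero]
  ring

end Vale.Agent.P202.Char
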