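import Vale.Agent.P202.Char.Defs

/-!
P202, Lech in characteristic `p`: minimal reductions, the rank of the associated graded ring and
its presentation by the Rees algebra.
-/

namespace Vale.Agent.P202.Char

open IsLocalRing Filter Topology MvPolynomial

universe u v w

namespace Red

/-! ### Homogeneous tuples -/

section Tuples

variable {Z : Type u} [CommRing Z] {σ : Type v} {ι : Type w} (δ : ι → ℕ)

/-- Tuples homogeneous of degree `D`. -/
def hom (Z : Type u) [CommRing Z] (σ : Type v) (δ : ι → ℕ) (D : ℕ) :
    Submodule Z (ι →₀ MvPolynomial σ Z) where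
  carrier := {p | ∀ i c, coeff c (p i) ≠ 0 → δ i + c.degree = D}
  zero_mem' := by simp
  add_mem' := fun {p q} hp hq i c h => by
    by_cases h' : coeff c (p i) = 0
    · exact hq i c (by simpa [h'] using h)
    · exact hp i c h'
  smul_mem' := fun r p hp i c h => hp i c fun h' => h (by simp [h'])

theorem mem_hom {D : ℕ} {p : ι →₀ MvPolynomial σ Z} :
    p ∈ hom Z σ δ D ↔ ∀ i c, coeff c (p i) ≠ 0 → δ i + c.degree = D := Iff.rfl

/-- Homogeneous components of a tuple. -/
noncomputable def comp (Z : Type u) [CommRing Z] (σ : Type v) (δ : ι → ℕ) (D : ℕ) :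
    (ι →₀ MvPolynomial σ Z) →ₗ[Z] (ι →₀ MvPolynomial σ Z) :=
  Finsupp.lsum Z fun i =>
    if δ i ≤ D then Finsupp.lsingle i ∘ₗ homogeneousComponent (D - δ i) else 0

theorem coeff_comp (D : ℕ) (p : ι →₀ MvPolynomial σ Z) (i : ι) (c : σ →₀ ℕ) :
    coeff c ((comp Z σ δ D p) i) = if δ i + c.degree = D then coeff c (p i) else 0 := by
  classical
  induction p using Finsupp.induction_linear with
  | zero => simp
  | add p q hp hq => simp only [map_add, Finsupp.add_apply, coeff_add, hp, hq]; split_ifs <;> simp
  | single j f =>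
    by_cases hji : j = i
    · subst hji
      by_cases hD : δ j ≤ D
      · simp only [comp, Finsupp.lsum_single, if_pos hD, LinearMap.comp_apply,
          Finsupp.lsingle_apply, Finsupp.single_eq_same, coeff_homogeneousComponent]
        split_ifs <;> first | rfl | omega
      · simp only [comp, Finsupp.lsum_single, if_neg hD, LinearMap.zero_apply,
          Finsupp.zero_apply, coeff_zero]
        rw [if_neg (by omega)]
    · have : (comp Z σ δ D (Finsupp.single j f)) i = 0 := by
        simp only [comp, Finsupp.lsum_single]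
        split_ifs <;> simp [Finsupp.single_eq_of_ne (Ne.symm hji)]
      simp [this, Finsupp.single_eq_of_ne (Ne.symm hji)]

theorem comp_mem (D : ℕ) (p : ι →₀ MvPolynomial σ Z) : comp Z σ δ D p ∈ hom Z σ δ D := by
  intro i c h
  rw [coeff_comp] at h
  by_contra h'
  exact h (if_neg h')

theorem comp_of_mem {D D' : ℕ} {p : ι →₀ MvPolynomial σ Z} (hp : p ∈ hom Z σ δ D') :
    comp Z σ δ D p = if D = D' then p else 0 := by
  refine Finsupp.ext fun i => MvPolynomial.ext _ _ fun c => ?_
  rw [coeff_comp]
  by_cases hc : coeff c (p i) = 0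
  · split_ifs <;> simp [hc]
  · have := hp i c hc
    split_ifs <;> first | rfl | omega

theorem comp_C_smul (D : ℕ) (r : Z) (p : ι →₀ MvPolynomial σ Z) :
    comp Z σ δ D ((C r : MvPolynomial σ Z) • p) = (C r : MvPolynomial σ Z) • comp Z σ δ D p := by
  refine Finsupp.ext fun i => MvPolynomial.ext _ _ fun c => ?_
  simp [coeff_comp, coeff_C_mul]

theorem comp_X_smul (D : ℕ) (k : σ) (p : ι →₀ MvPolynomial σ Z) :
    comp Z σ δ D ((X k : MvPolynomial σ Z) • p) =
      if D = 0 then 0 else (X k : MvPolynomial σ Z) • comp Z σ δ (D - 1) p := by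
  classical
  refine Finsupp.ext fun i => MvPolynomial.ext _ _ fun c => ?_
  rw [coeff_comp]
  simp only [Finsupp.smul_apply, smul_eq_mul, coeff_X_mul']
  by_cases hk : k ∈ c.support
  · have hdeg : (c - Finsupp.single k 1).degree + 1 = c.degree := by
      have hle : Finsupp.single k 1 ≤ c := by
        rw [Finsupp.single_le_iff]
        exact Nat.one_le_iff_ne_zero.2 (Finsupp.mem_support_iff.1 hk)
      conv_rhs => rw [← tsub_add_cancel_of_le hle]
      rw [map_add, Finsupp.degree_single]
    by_cases h0 : D = 0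
    · rw [if_pos h0, if_neg (by omega), Finsupp.zero_apply, coeff_zero]
    · rw [if_neg h0, Finsupp.smul_apply, smul_eq_mul, coeff_X_mul', if_pos hk, coeff_comp,
        if_pos hk]
      split_ifs <;> first | rfl | omega
  · rw [if_neg hk]
    by_cases h0 : D = 0
    · simp [h0]
    · rw [if_neg h0, Finsupp.smul_apply, smul_eq_mul, coeff_X_mul', if_neg hk]
      simp

/-- A span of homogeneous tuples contains the homogeneous components of its elements. -/
theorem comp_mem_span {G : Set (ι →₀ MvPolynomial σ Z)} (hG : ∀ p ∈ G, ∃ D, p ∈ hom Z σ δ D)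
    {x : ι →₀ MvPolynomial σ Z} (hx : x ∈ Submodule.span (MvPolynomial σ Z) G) (D : ℕ) :
    comp Z σ δ D x ∈ Submodule.span (MvPolynomial σ Z) G := by
  induction hx using Submodule.span_induction generalizing D with
  | mem x hx =>
    obtain ⟨D', hD'⟩ := hG x hx
    rw [comp_of_mem δ hD']
    split_ifs
    · exact Submodule.subset_span hx
    · exact zero_mem _
  | zero => simp
  | add x y _ _ hx hy => rw [map_add]; exact add_mem (hx D) (hy D)
  | smul f x _ hx =>
    induction f using MvPolynomial.induction_on generalizing D with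
    | C r => rw [comp_C_smul]; exact Submodule.smul_mem _ _ (hx D)
    | add f g hf hg => rw [add_smul, map_add]; exact add_mem (hf D) (hg D)
    | mul_X f k hf =>
      rw [mul_comm, mul_smul, comp_X_smul]
      split_ifs
      · exact zero_mem _
      · exact Submodule.smul_mem _ _ (hf _)

/-- Exponents in degree `D` with shift `a`. -/
noncomputable def slot (Z : Type u) [CommRing Z] (σ : Type v) (a D : ℕ) :
    Submodule Z (MvPolynomial σ Z) :=
  restrictSupport Z {c | a + c.degree = D}

theorem mem_slot {a D : ℕ} {f : MvPolynomial σ Z} :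
    f ∈ slot Z σ a D ↔ ∀ c, coeff c f ≠ 0 → a + c.degree = D := by
  simp [slot, mem_restrictSupport_iff, Set.subset_def]

theorem single_mem_hom {i : ι} {D : ℕ} {f : MvPolynomial σ Z} (hf : f ∈ slot Z σ (δ i) D) :
    Finsupp.single i f ∈ hom Z σ δ D := by
  classical
  intro j c h
  rw [Finsupp.single_apply] at h
  split_ifs at h with hij
  · subst hij
    exact (mem_slot.1 hf) c h
  · simp at h

end Tuples

theorem cnt_finrank {k : Type u} [Field k] (n a D : ℕ) :
    Module.Finite k (slot k (Fin (n + 1)) a D) ∧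
    Module.finrank k (slot k (Fin (n + 1)) a D) =
      if a ≤ D then (D - a + n).choose n else 0 := by
  classical
  set s : Finset (Fin (n + 1) →₀ ℕ) :=
    if a ≤ D then (Finset.univ : Finset (Fin (n + 1))).finsuppAntidiag (D - a) else ∅
  have hs : {c : Fin (n + 1) →₀ ℕ | a + c.degree = D} = (s : Set _) := by
    ext c
    simp only [Set.mem_ofPred_eq, Finset.mem_coe, s]
    split_ifs with h
    · simp only [Finset.mem_finsuppAntidiag, Finset.subset_univ, and_true,
        Finsupp.degree_eq_sum]
      refine ⟨fun hh => ?_, fun hh => ?_⟩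
      · have : ∀ x : ℕ, a + x = D → x = D - a := fun x hx => by omega
        exact this _ hh
      · rw [hh]; omega
    · simp only [Finset.notMem_empty, iff_false]
      omega
  unfold slot
  rw [hs]
  have b := basisRestrictSupport k (s : Set (Fin (n + 1) →₀ ℕ))
  refine ⟨Module.Finite.of_basis b, ?_⟩
  rw [Module.finrank_eq_card_basis b]
  simp only [Fintype.card_coe, Finset.coe_sort_coe, s]
  split_ifs with h
  · rw [Finset.card_finsuppAntidiag_nat_eq_choose, Finset.card_univ, Fintype.card_fin]
    rw [show n + 1 + (D - a) - 1 = D - a + n by omega, ← Nat.choose_symm_add, add_comm]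
  · simp

/-- Sum of the Hilbert function of a shifted polynomial ring. -/
def cum (n a N : ℕ) : ℕ :=
  ∑ j ∈ Finset.range N, if a ≤ j then (j - a + n).choose n else 0

theorem cum_eq (n a N : ℕ) : cum n a (N + a) = (N + n).choose (n + 1) := by
  induction N with
  | zero =>
    rw [zero_add, zero_add, Nat.choose_succ_self]
    exact Finset.sum_eq_zero fun j hj => if_neg (by simp at hj; omega)
  | succ N ih =>
    rw [show N + 1 + a = N + a + 1 by omega, cum, Finset.sum_range_succ, ← cum, ih,
      if_pos (by omega), Nat.add_sub_cancel, show N + 1 + n = (N + n) + 1 by omega,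
      Nat.choose_succ_succ']
    ring

theorem cum_tendsto (n a : ℕ) :
    Tendsto (fun N : ℕ => ((n + 1).factorial : ℝ) * (cum n a N : ℝ) / (N : ℝ) ^ (n + 1)) atTop
      (𝓝 1) := by
  refine (tendsto_add_atTop_iff_nat a).1 ?_
  simp only [cum_eq]
  have hl : Tendsto (fun N : ℕ => ((N : ℝ) / (N + a)) ^ (n + 1)) atTop (𝓝 1) := by
    simpa using (tendsto_natCast_div_add_atTop (a : ℝ)).pow (n + 1)
  have hu : Tendsto (fun N : ℕ => (((N : ℝ) + n) / (N + a)) ^ (n + 1)) atTop (𝓝 1) := by
    have h1 := (tendsto_natCast_div_add_atTop (a : ℝ))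
    have h2 : Tendsto (fun N : ℕ => (n : ℝ) / ((N : ℝ) + a)) atTop (𝓝 0) :=
      tendsto_const_nhds.div_atTop (tendsto_atTop_add_const_right _ _ tendsto_natCast_atTop_atTop)
    simpa [add_div] using (h1.add h2).pow (n + 1)
  refine tendsto_of_tendsto_of_tendsto_of_le_of_le' hl hu ?_ ?_
  all_goals filter_upwards [eventually_ge_atTop 1] with N hN
  all_goals
    have hpos : (0 : ℝ) < ((N : ℝ) + a) ^ (n + 1) := by positivity
    push_cast
    rw [div_pow, div_le_div_iff_of_pos_right hpos, ← Nat.cast_mul,
      ← Nat.descFactorial_eq_factorial_mul_choose]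
  · have := Nat.pow_sub_le_descFactorial (N + n) (n + 1)
    rw [show N + n + 1 - (n + 1) = N by omega] at this
    exact_mod_cast this
  · have := Nat.descFactorial_le_pow (N + n) (n + 1)
    exact_mod_cast this

/-! ### Powers of the maximal ideal -/

section Local

variable {R : Type u} [CommRing R] [IsLocalRing R]

/-- Evaluation of tuples. -/
noncomputable def evt {σ : Type v} {ι : Type w} (z : σ → R) (gen : ι → R) :
    (ι →₀ MvPolynomial σ R) →ₗ[R] R :=
  Finsupp.lsum R fun i => LinearMap.mulLeft R (gen i) ∘ₗ (aeval z).toLinearMap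

omit [IsLocalRing R] in
theorem evt_single {σ : Type v} {ι : Type w} (z : σ → R) (gen : ι → R) (i : ι)
    (f : MvPolynomial σ R) : evt z gen (Finsupp.single i f) = gen i * aeval z f := by
  simp [evt]

omit [IsLocalRing R] in
theorem evt_smul {σ : Type v} {ι : Type w} (z : σ → R) (gen : ι → R) (f : MvPolynomial σ R)
    (p : ι →₀ MvPolynomial σ R) : evt z gen (f • p) = aeval z f * evt z gen p := by
  induction p using Finsupp.induction_linear with
  | zero => simp
  | add p q hp hq => rw [smul_add, map_add, map_add, hp, hq, mul_add]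
  | single i g => rw [Finsupp.smul_single, evt_single, evt_single, smul_eq_mul, map_mul]; ring

omit [IsLocalRing R] in
/-- Values of forms of degree `d` are the `d`-th power of the ideal. -/
theorem map_forms {σ : Type v} (z : σ → R) (d : ℕ) :
    (homogeneousSubmodule σ R d).map (aeval z).toLinearMap = Ideal.span (Set.range z) ^ d := by
  rw [← homogeneousSubmodule_one_pow, Submodule.map_pow, homogeneousSubmodule_one_eq_span_X,
    Submodule.map_span, ← Set.range_comp]
  congr 1
  refine congrArg (Submodule.span R) (congrArg Set.range (funext fun i => ?_))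
  simp

omit [IsLocalRing R] in
theorem aeval_mem {σ : Type v} (z : σ → R) {d : ℕ} {f : MvPolynomial σ R}
    (hf : f.IsHomogeneous d) : aeval z f ∈ Ideal.span (Set.range z) ^ d := by
  rw [← map_forms]
  exact ⟨f, hf, rfl⟩

omit [IsLocalRing R] in
theorem prod_sub_mem {M J : Ideal R} {σ : Type v} (s : Finset σ) (a b : σ → R)
    (ha : ∀ i, a i ∈ M) (hb : ∀ i, b i ∈ M) (h : ∀ i, a i - b i ∈ J) (c : σ → ℕ) :
    (∏ i ∈ s, a i ^ c i) - ∏ i ∈ s, b i ^ c i ∈ J * M ^ (∑ i ∈ s, c i - 1) := by
  have step : ∀ D D' x y x' y', x' ∈ M ^ D' → y ∈ M ^ D →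
      x - y ∈ J * M ^ (D - 1) → x' - y' ∈ J * M ^ (D' - 1) →
      x * x' - y * y' ∈ J * M ^ (D + D' - 1) := by
    intro D D' x y x' y' hx' hy h1 h2
    rw [show x * x' - y * y' = (x - y) * x' + y * (x' - y') by ring]
    refine add_mem ?_ ?_
    · have := Ideal.mul_mem_mul h1 hx'
      rw [mul_assoc, ← pow_add] at this
      exact Ideal.mul_mono_right (Ideal.pow_le_pow_right (by omega)) this
    · have := Ideal.mul_mem_mul hy h2
      rw [mul_left_comm, ← pow_add] at this
      exact Ideal.mul_mono_right (Ideal.pow_le_pow_right (by omega)) this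
  classical
  induction s using Finset.induction_on with
  | empty => simp
  | insert i s hi ih =>
    rw [Finset.prod_insert hi, Finset.prod_insert hi, Finset.sum_insert hi]
    refine step _ _ _ _ _ _ ?_ (Ideal.pow_mem_pow (hb i) _) ?_ ih
    · rw [← Finset.prod_pow_eq_pow_sum]
      exact Ideal.prod_mem_prod fun l _ => Ideal.pow_mem_pow (ha l) _
    · generalize c i = N
      induction N with
      | zero => simp
      | succ N hN =>
        rw [pow_succ, pow_succ]
        exact step _ 1 _ _ _ _ (by simpa using ha i) (Ideal.pow_mem_pow (hb i) _) hN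
          (by simpa using h i)

omit [IsLocalRing R] in
theorem aeval_sub_mem {M J : Ideal R} {s : ℕ} (a b : Fin s → R)
    (ha : ∀ i, a i ∈ M) (hb : ∀ i, b i ∈ M) (h : ∀ i, a i - b i ∈ J) {D : ℕ}
    {f : MvPolynomial (Fin s) R} (hf : f.IsHomogeneous D) :
    aeval a f - aeval b f ∈ J * M ^ (D - 1) := by
  rw [aeval_def, aeval_def, eval₂_eq', eval₂_eq', ← Finset.sum_sub_distrib]
  refine Ideal.sum_mem _ fun c hc => ?_
  rw [← mul_sub]
  refine Ideal.mul_mem_left _ _ ?_
  have := prod_sub_mem Finset.univ a b ha hb h c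
  rwa [← Finsupp.degree_eq_sum, show c.degree = D by
    by_contra hne; exact (mem_support_iff.1 hc) (hf.coeff_eq_zero hne)] at this

omit [IsLocalRing R] in
theorem sup_pow_le {M J T : Ideal R} (hJ : J ≤ M) (hT : T ≤ M) (D : ℕ) :
    (J ⊔ T) ^ (D + 1) ≤ J * M ^ D ⊔ T ^ (D + 1) := by
  induction D with
  | zero => simp
  | succ D ih =>
    calc (J ⊔ T) ^ (D + 1 + 1) = (J ⊔ T) ^ (D + 1) * (J ⊔ T) := pow_succ _ _
      _ ≤ (J * M ^ D ⊔ T ^ (D + 1)) * (J ⊔ T) := Ideal.mul_mono_left ih
      _ ≤ _ := by
        rw [Ideal.sup_mul, Ideal.mul_sup, Ideal.mul_sup]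
        refine sup_le (sup_le ?_ ?_) (sup_le ?_ ?_)
        · refine le_sup_of_le_left ?_
          rw [mul_assoc, pow_succ]
          exact Ideal.mul_mono_right (Ideal.mul_mono_right hJ)
        · refine le_sup_of_le_left ?_
          rw [mul_assoc, pow_succ]
          exact Ideal.mul_mono_right (Ideal.mul_mono_right hT)
        · refine le_sup_of_le_left ?_
          rw [mul_comm]
          exact Ideal.mul_mono_right (Ideal.pow_right_mono hT _)
        · exact le_sup_of_le_right (pow_succ _ _).ge

/-- `z` is a reduction of the maximal ideal. -/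
def IsRed {σ : Type v} (z : σ → R) : Prop :=
  (∀ i, z i ∈ maximalIdeal R) ∧
    ∃ c, maximalIdeal R ^ (c + 1) ≤ Ideal.span (Set.range z) * maximalIdeal R ^ c

/-- No form with a unit coefficient vanishes on `z` modulo a higher power. -/
def Indep {σ : Type v} (z : σ → R) : Prop :=
  ∀ (D : ℕ) (f : MvPolynomial σ R), f.IsHomogeneous D →
    aeval z f ∈ maximalIdeal R ^ (D + 1) → MvPolynomial.map (residue R) f = 0

theorem IsRed.pow_le {σ : Type v} {z : σ → R} {c : ℕ}
    (h : maximalIdeal R ^ (c + 1) ≤ Ideal.span (Set.range z) * maximalIdeal R ^ c) (D : ℕ) :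
    maximalIdeal R ^ (c + D) ≤ Ideal.span (Set.range z) ^ D * maximalIdeal R ^ c := by
  induction D with
  | zero => simp
  | succ D ih =>
    calc maximalIdeal R ^ (c + (D + 1)) = maximalIdeal R ^ (c + D) * maximalIdeal R := by
          rw [← pow_succ]; rfl
      _ ≤ Ideal.span (Set.range z) ^ D * maximalIdeal R ^ c * maximalIdeal R :=
          Ideal.mul_mono_left ih
      _ ≤ _ := by
          rw [mul_assoc, ← pow_succ, pow_succ (Ideal.span (Set.range z)), mul_assoc]
          exact Ideal.mul_mono_right h

variable [IsNoetherianRing R]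

theorem nakayama {c : ℕ} {J : Ideal R}
    (h : maximalIdeal R ^ (c + 1) ≤ J * maximalIdeal R ^ c ⊔ maximalIdeal R ^ (c + 2)) :
    maximalIdeal R ^ (c + 1) ≤ J * maximalIdeal R ^ c := by
  refine Submodule.le_of_le_smul_of_le_jacobson_bot (IsNoetherian.noetherian _)
    (IsLocalRing.maximalIdeal_le_jacobson ⊥) ?_
  rwa [smul_eq_mul, ← pow_succ']

theorem exists_indep [Infinite (ResidueField R)] :
    ∃ (s : ℕ) (z : Fin s → R), IsRed z ∧ Indep z := by
  classical
  set P : ℕ → Prop := fun s => ∃ z : Fin s → R, IsRed z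
  have hP : ∃ s, P s := by
    obtain ⟨s, g, hg⟩ := Submodule.fg_iff_exists_fin_generating_family.1
      (IsNoetherian.noetherian (maximalIdeal R))
    refine ⟨s, g, fun i => hg ▸ Submodule.subset_span ⟨i, rfl⟩, 0, ?_⟩
    simp [← hg, Ideal.span]
  obtain ⟨z, hz, c, hc⟩ := Nat.find_spec hP
  refine ⟨Nat.find hP, z, ⟨hz, c, hc⟩, ?_⟩
  have hmin : ∀ t < Nat.find hP, ¬ P t := fun t => Nat.find_min hP
  generalize Nat.find hP = s at z hz hc hmin
  intro D f hf hfz
  by_contra hne
  have hf' : (MvPolynomial.map (residue R) f).IsHomogeneous D := hf.map _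
  cases s with
  | zero =>
    have hD : f = C (coeff 0 f) := eq_C_of_isEmpty f
    apply hne
    rw [hD, map_C]
    rw [hD, aeval_C] at hfz
    have hm : coeff 0 f ∈ maximalIdeal R := Ideal.pow_le_self (by omega) hfz
    rw [(residue_eq_zero_iff _).2 hm, map_zero]
  | succ t =>
    obtain ⟨v, hv⟩ : ∃ v : Fin (t + 1) → ResidueField R,
        eval v (MvPolynomial.map (residue R) f * X (Fin.last t)) ≠ 0 := by
      by_contra h
      push Not at h
      exact mul_ne_zero hne (X_ne_zero _)
        ((hf'.mul (isHomogeneous_X _ _)).eq_zero_of_forall_eval_eq_zero h)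
    rw [map_mul, eval_X, mul_ne_zero_iff] at hv
    choose μ hμ using fun i => residue_surjective (v i)
    obtain ⟨w, hw⟩ : IsUnit (μ (Fin.last t)) := by
      rw [← residue_ne_zero_iff_isUnit, hμ]
      exact hv.2
    set T := z (Fin.last t) * ((w⁻¹ : Rˣ) : R) with hT
    set z' : Fin t → R := fun i => z i.castSucc - μ i.castSucc * T with hz'
    set J := Ideal.span (Set.range z') with hJ
    have hTm : T ∈ maximalIdeal R := Ideal.mul_mem_right _ _ (hz _)
    have hz'm : ∀ i, z' i ∈ maximalIdeal R := fun i =>
      sub_mem (hz _) (Ideal.mul_mem_left _ _ hTm)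
    have hJm : J ≤ maximalIdeal R := Ideal.span_le.2 (by rintro _ ⟨i, rfl⟩; exact hz'm i)
    have hdiff : ∀ i, z i - μ i * T ∈ J := by
      intro i
      induction i using Fin.lastCases with
      | last =>
        have : μ (Fin.last t) * T = z (Fin.last t) := by
          rw [hT, ← hw, mul_comm (z (Fin.last t)), Units.mul_inv_cancel_left]
        simp [this]
      | cast i => exact Ideal.subset_span ⟨i, rfl⟩
    -- the value of the form on the multiples of `T`
    have hscale : aeval (fun i => μ i * T) f = aeval μ f * T ^ D := by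
      rw [aeval_def, aeval_def, eval₂_eq', eval₂_eq', Finset.sum_mul]
      refine Finset.sum_congr rfl fun d hd => ?_
      have hdD : d.degree = D := by
        by_contra h; exact (mem_support_iff.1 hd) (hf.coeff_eq_zero h)
      simp only [mul_pow, Finset.prod_mul_distrib, Finset.prod_pow_eq_pow_sum,
        ← Finsupp.degree_eq_sum, hdD, mul_assoc]
    have hu : IsUnit (aeval μ f) := by
      rw [← residue_ne_zero_iff_isUnit, aeval_def, MvPolynomial.eval₂_comp_left]
      rw [eval_map] at hv
      have e1 : (residue R).comp (algebraMap R R) = residue R := RingHom.ext fun _ => rfl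
      have e2 : residue R ∘ μ = v := _root_.funext hμ
      simpa [e1, e2] using hv.1
    obtain ⟨U, hU⟩ := hu
    have hT' : T ^ D ∈ J * maximalIdeal R ^ (D - 1) ⊔ maximalIdeal R ^ (D + 1) := by
      have h1 := aeval_sub_mem z (fun i => μ i * T) hz (fun i => Ideal.mul_mem_left _ _ hTm)
        hdiff hf
      have h2 : aeval μ f * T ^ D ∈
          J * maximalIdeal R ^ (D - 1) ⊔ maximalIdeal R ^ (D + 1) := by
        rw [← hscale, show aeval (fun i => μ i * T) f =
          -(aeval z f - aeval (fun i => μ i * T) f) + aeval z f by ring]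
        exact Submodule.add_mem_sup (neg_mem h1) hfz
      rw [← hU] at h2
      simpa using Ideal.mul_mem_left _ ((U⁻¹ : Rˣ) : R) h2
    have hle : Ideal.span (Set.range z) ≤ J ⊔ Ideal.span {T} := by
      refine Ideal.span_le.2 ?_
      rintro _ ⟨i, rfl⟩
      rw [show z i = (z i - μ i * T) + μ i * T by ring]
      exact Submodule.add_mem_sup (hdiff i)
        (Ideal.mul_mem_left _ _ (Ideal.mem_span_singleton_self T))
    refine hmin t (by omega) ⟨z', hz'm, ?_⟩
    cases D with
    | zero =>
      refine absurd ?_ (fun h : (1 : R) ∈ maximalIdeal R =>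
        (IsLocalRing.maximalIdeal.isMaximal R).ne_top ((Ideal.eq_top_iff_one _).2 h))
      have : J * maximalIdeal R ^ (0 - 1) ⊔ maximalIdeal R ^ (0 + 1) ≤ maximalIdeal R :=
        sup_le (by simpa using hJm) (by simp)
      simpa using this hT'
    | succ E =>
      refine ⟨c + E, ?_⟩
      refine nakayama ?_
      calc maximalIdeal R ^ (c + E + 1)
          ≤ Ideal.span (Set.range z) ^ (E + 1) * maximalIdeal R ^ c := IsRed.pow_le hc (E + 1)
        _ ≤ (J ⊔ Ideal.span {T}) ^ (E + 1) * maximalIdeal R ^ c :=
            Ideal.mul_mono_left (Ideal.pow_right_mono hle _)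
        _ ≤ (J * maximalIdeal R ^ E ⊔ Ideal.span {T} ^ (E + 1)) * maximalIdeal R ^ c :=
            Ideal.mul_mono_left (sup_pow_le hJm ((Ideal.span_singleton_le_iff_mem _).2 hTm) E)
        _ ≤ (J * maximalIdeal R ^ E ⊔ maximalIdeal R ^ (E + 2)) * maximalIdeal R ^ c := by
            refine Ideal.mul_mono_left (sup_le le_sup_left ?_)
            rw [Ideal.span_singleton_pow, Ideal.span_singleton_le_iff_mem]
            simpa using hT'
        _ ≤ _ := by
            rw [Ideal.sup_mul, mul_assoc, ← pow_add, ← pow_add, Nat.add_comm E c,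
              show E + 2 + c = c + E + 2 by omega]

end Local

end Red

end Vale.Agent.P202.Char
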