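import Vale.Agent.P202.Char.SheafBound
import Vale.Agent.P202.Char.SheafFinite

/-! P202, Lech in characteristic `p`: the three sheaf bounds (`torsion_bound`, `rank_bound`,
`cech_finite`). -/
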