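import Vale.Agent.P202.Char.Slice
import Vale.Agent.P202.Char.Flat

/-! P202, Lech in characteristic `p`: combinations of homogeneous tuples, and small lemmas on
slices used for the cohomology of relation modules. -/

namespace Vale.Agent.P202.Char.Sheaf

universe u v w

open AddMonoidAlgebra (single)

variable {Z : Type u} [CommRing Z] {n : ℕ} {ι : Type w} {L : Type w}
  (lam : Fin (n + 1) → Z)

/-- The combination of the tuples `p` with coefficients `c`. -/
noncomputable def combo (p : L → (ι →₀ MvPolynomial (Fin (n + 1)) Z))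
    (c : L →₀ MvPolynomial (Fin (n + 1)) Z) : ι →₀ MvPolynomial (Fin (n + 1)) Z :=
  c.sum fun l f => f • p l

theorem combo_add (p : L → (ι →₀ MvPolynomial (Fin (n + 1)) Z))
    (c d : L →₀ MvPolynomial (Fin (n + 1)) Z) : combo p (c + d) = combo p c + combo p d :=
  Finsupp.sum_add_index' (fun _ => zero_smul _ _) (fun _ _ _ => add_smul _ _ _)

theorem combo_single (p : L → (ι →₀ MvPolynomial (Fin (n + 1)) Z)) (l : L)
    (f : MvPolynomial (Fin (n + 1)) Z) : combo p (Finsupp.single l f) = f • p l :=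
  Finsupp.sum_single_index (zero_smul _ _)

theorem combo_eq_linearCombination (p : L → (ι →₀ MvPolynomial (Fin (n + 1)) Z))
    (c : L →₀ MvPolynomial (Fin (n + 1)) Z) :
    combo p c = Finsupp.linearCombination (MvPolynomial (Fin (n + 1)) Z) p c := rfl

theorem push_emb_combo (p : L → (ι →₀ MvPolynomial (Fin (n + 1)) Z))
    (c : L →₀ MvPolynomial (Fin (n + 1)) Z) (μ : Lau Z n) :
    push lam p (emb lam c μ) = emb lam (combo p c) μ :=
  push_emb lam p c μ

theorem push_push {L' : Type w} (p : L → (ι →₀ MvPolynomial (Fin (n + 1)) Z))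
    (q : L' → (L →₀ MvPolynomial (Fin (n + 1)) Z)) (x : Tot Z n L') :
    push lam p (push lam q x) = push lam (fun l => combo p (q l)) x :=
  push_comp lam p q x

theorem push_one (x : Tot Z n ι) :
    push lam (fun i : ι => Finsupp.single i 1) x = x := by
  induction x using tot_induction with
  | h0 => simp
  | hadd a b ha hb => simp [map_add, ha, hb]
  | hs i e r => rw [map_smul, push_inComp, emb_single, map_one, one_mul]

theorem push_zero (x : Tot Z n L) :
    push lam (fun _ : L => (0 : ι →₀ MvPolynomial (Fin (n + 1)) Z)) x = 0 := by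
  induction x using tot_induction with
  | h0 => simp
  | hadd a b ha hb => simp [map_add, ha, hb]
  | hs i e r => rw [map_smul, push_inComp, emb_zero_left, smul_zero]

theorem lmul_one (x : Tot Z n ι) : lmul (1 : Lau Z n) x = x := by
  induction x using tot_induction with
  | h0 => simp
  | hadd a b ha hb => simp [map_add, ha, hb]
  | hs i e r => rw [map_smul, lmul_inComp, one_mul]

theorem lmul_lmul (μ ν : Lau Z n) (x : Tot Z n ι) : lmul μ (lmul ν x) = lmul (μ * ν) x := by
  induction x using tot_induction with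
  | h0 => simp
  | hadd a b ha hb => simp [map_add, ha, hb]
  | hs i e r => simp only [map_smul, lmul_inComp, mul_assoc]

theorem lmul_sum {κ : Type v} (s : Finset κ) (μ : κ → Lau Z n) (x : Tot Z n ι) :
    lmul (∑ k ∈ s, μ k) x = ∑ k ∈ s, lmul (μ k) x := by
  induction x using tot_induction with
  | h0 => simp
  | hadd a b ha hb => simp [map_add, ha, hb, Finset.sum_add_distrib]
  | hs i e r => simp only [map_smul, lmul_inComp, Finset.sum_mul, map_sum, Finset.smul_sum]

/-! ### Slices -/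

variable (a : Fin n → ℤ) (ε : Chart n)

theorem freeSlice_eq_span (δ : ι → ℤ) (N : ℤ) : freeSlice Z a ε δ N =
    Submodule.span Z ((fun x => Finsupp.single x (1 : Z)) ''
      {x : ι × Expo n | InBox a ε x.2 ∧ δ x.1 + x.2.2 = N}) :=
  Finsupp.supported_eq_span_single _ _

theorem free_single_mem {δ : ι → ℤ} {N : ℤ} {i : ι} {e : Expo n} (h : InBox a ε e)
    (hN : δ i + e.2 = N) (c : Z) : Finsupp.single (i, e) c ∈ freeSlice Z a ε δ N :=
  Finsupp.single_mem_supported Z _ ⟨h, hN⟩

theorem relSlice_subset (δ : ι → ℤ) {K K' : Set (ι →₀ MvPolynomial (Fin (n + 1)) Z)} (N : ℤ)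
    (h : ∀ p ∈ K, (∃ D, IsHomog δ p D) → p ∈ K') :
    relSlice lam a ε δ K N ≤ relSlice lam a ε δ K' N := by
  refine Submodule.span_mono ?_
  rintro _ ⟨p, hp, D, e, hD, he, hN, rfl⟩
  exact ⟨p, h p hp ⟨D, hD⟩, D, e, hD, he, hN, rfl⟩

theorem update_two {ε : Chart n} {j : Fin n} {v : Fin 3} (hε : ε j = 2) :
    ∀ l, ε l = 2 ∨ ε l = Function.update ε j v l := by
  intro l
  by_cases hl : l = j
  · exact Or.inl (hl ▸ hε)
  · exact Or.inr (by simp [hl])

theorem homog_smul {δ : ι → ℤ} {p : ι →₀ MvPolynomial (Fin (n + 1)) Z} {D d : ℤ}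
    {f : MvPolynomial (Fin (n + 1)) Z} (hf : ∀ c ∈ f.support, (c.sum fun _ v => (v : ℤ)) = d)
    (hp : IsHomog δ p D) : IsHomog δ (f • p) (D + d) := by
  intro i c hc
  rw [Finsupp.smul_apply, smul_eq_mul] at hc
  obtain ⟨b, hb, c', hc', rfl⟩ := Finset.mem_add.1 (MvPolynomial.support_mul f (p i) hc)
  rw [Finsupp.sum_add_index' (by simp) (by simp), hf b hb]
  have := hp i c' hc'
  omega

theorem homog_sum {δ : ι → ℤ} {D : ℤ} {κ : Type v} (s : Finset κ)
    (p : κ → (ι →₀ MvPolynomial (Fin (n + 1)) Z)) (h : ∀ k ∈ s, IsHomog δ (p k) D) :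
    IsHomog δ (∑ k ∈ s, p k) D := by
  classical
  intro i c hc
  rw [Finsupp.finsetSum_apply] at hc
  obtain ⟨k, hk, hck⟩ := Finset.mem_biUnion.1 (MvPolynomial.support_sum hc)
  exact h k hk i c hck

theorem homog_combo {δ : ι → ℤ} {η : L → ℤ} {D M : ℤ}
    {p : L → (ι →₀ MvPolynomial (Fin (n + 1)) Z)} (hp : ∀ l, IsHomog δ (p l) (η l + M))
    {c : L →₀ MvPolynomial (Fin (n + 1)) Z} (hc : IsHomog η c D) :
    IsHomog δ (combo p c) (D + M) := by
  refine homog_sum _ _ fun l hl => ?_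
  have := homog_smul (d := D - η l) (f := c l) (fun b hb => by have := hc l b hb; omega) (hp l)
  rwa [show η l + M + (D - η l) = D + M by ring] at this

theorem map_push_free {δ : ι → ℤ} {η : L → ℤ} {M N : ℤ}
    {p : L → (ι →₀ MvPolynomial (Fin (n + 1)) Z)} (hp : ∀ l, IsHomog δ (p l) (η l + M)) :
    (freeSlice Z a ε η N).map (push lam p) ≤ freeSlice Z a ε δ (N + M) :=
  Submodule.map_le_iff_le_comap.2 fun _ hx => push_mem_free lam hp hx

theorem map_push_rel {δ : ι → ℤ} {η : L → ℤ} {M N : ℤ}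
    {p : L → (ι →₀ MvPolynomial (Fin (n + 1)) Z)} (hp : ∀ l, IsHomog δ (p l) (η l + M))
    {K : Set (L →₀ MvPolynomial (Fin (n + 1)) Z)} {K' : Set (ι →₀ MvPolynomial (Fin (n + 1)) Z)}
    (hK : ∀ c ∈ K, (∃ D, IsHomog η c D) → combo p c ∈ K') :
    (relSlice lam a ε η K N).map (push lam p) ≤ relSlice lam a ε δ K' (N + M) :=
  Submodule.map_le_iff_le_comap.2 fun _ hx =>
    push_rel lam (fun c hc D hD => ⟨hK c hc ⟨D, hD⟩, homog_combo hp hD⟩) hx

theorem lmul_mem_rel {δ : ι → ℤ} {K : Set (ι →₀ MvPolynomial (Fin (n + 1)) Z)} {c N : ℤ}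
    {μ : Lau Z n} (hμ : LauMem (fun _ => 0) ε c μ) :
    (relSlice lam a ε δ K N).map (lmul μ) ≤ relSlice lam a ε δ K (c + N) := by
  rw [relSlice, Submodule.map_span, Submodule.span_le]
  rintro _ ⟨_, ⟨p, hp, D, e, hD, he, hN, rfl⟩, rfl⟩
  rw [lmul_emb]
  have hm := hμ.mul (lauMem_single (Z := Z) (m := e.2) 1 he rfl)
  rw [show ((fun _ => 0) + a : Fin n → ℤ) = a from zero_add a] at hm
  exact emb_mem_rel lam hp hD hm (by omega)

end Vale.Agent.P202.Char.Sheaf
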