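import Vale.Agent.P202.Char.SheafSeq
import Vale.Agent.P202.Char.SheafSlice
import Vale.Agent.P202.Char.Band

/-! P202, Lech in characteristic `p`: the presentation step for Cech complexes. Between two relation
modules the cohomology is that of a quotient of a free module on generators. -/

namespace Vale.Agent.P202.Char.Sheaf

universe u v w

open AddMonoidAlgebra (single)

variable {Z : Type u} [CommRing Z] {n : ℕ} {ι : Type w} {L : Type w} {L0 : Type w}
  (lam : Fin (n + 1) → Z)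

theorem combo_comp {L' : Type v} {L₁ : Type v} {ι' : Type v}
    (p : L₁ → (ι' →₀ MvPolynomial (Fin (n + 1)) Z))
    (q : L' → (L₁ →₀ MvPolynomial (Fin (n + 1)) Z)) (c : L' →₀ MvPolynomial (Fin (n + 1)) Z) :
    combo p (combo q c) = combo (fun l => combo p (q l)) c := by
  induction c using Finsupp.induction_linear with
  | zero => simp [combo]
  | add c d hc hd => rw [combo_add, combo_add, hc, hd, combo_add]
  | single l f =>
    rw [combo_single, combo_single, combo_eq_linearCombination, combo_eq_linearCombination, map_smul]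

theorem combo_sub_left (p q : L → (ι →₀ MvPolynomial (Fin (n + 1)) Z))
    (c : L →₀ MvPolynomial (Fin (n + 1)) Z) :
    combo (fun l => p l - q l) c = combo p c - combo q c := by
  simp only [combo, Finsupp.sum, smul_sub, Finset.sum_sub_distrib]

theorem combo_mem {p : L → (ι →₀ MvPolynomial (Fin (n + 1)) Z)}
    {S : Submodule (MvPolynomial (Fin (n + 1)) Z) (ι →₀ MvPolynomial (Fin (n + 1)) Z)}
    (h : ∀ l, p l ∈ S) (c : L →₀ MvPolynomial (Fin (n + 1)) Z) : combo p c ∈ S :=
  sum_mem fun l _ => S.smul_mem _ (h l)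

theorem homog_single {δ : ι → ℤ} (i : ι) {f : MvPolynomial (Fin (n + 1)) Z} {d D : ℤ}
    (hf : ∀ c ∈ f.support, (c.sum fun _ v => (v : ℤ)) = d) (h : δ i + d = D) :
    IsHomog δ (Finsupp.single i f) D := by
  intro j c hc
  rcases eq_or_ne j i with rfl | hj
  · rw [Finsupp.single_eq_same] at hc
    rw [hf c hc, h]
  · simp [Finsupp.single_eq_of_ne hj] at hc

theorem homog_single_one {δ : ι → ℤ} (i : ι) {D : ℤ} (h : δ i = D) :
    IsHomog δ (Finsupp.single i (1 : MvPolynomial (Fin (n + 1)) Z)) D := by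
  refine homog_single i (d := 0) (fun c hc => ?_) (by omega)
  rw [MvPolynomial.one_def] at hc
  rw [Finset.mem_singleton.1 (MvPolynomial.support_monomial_subset hc)]
  simp

theorem homog_zero {δ : ι → ℤ} (D : ℤ) :
    IsHomog δ (0 : ι →₀ MvPolynomial (Fin (n + 1)) Z) D := by
  intro i c hc; simp at hc

variable (a : Fin n → ℤ) (ε : Chart n)

/-- Relations generated by finitely many homogeneous tuples. -/
theorem rel_eq_map {δ : ι → ℤ} {η : L → ℤ} {p : L → (ι →₀ MvPolynomial (Fin (n + 1)) Z)}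
    (hp : ∀ l, IsHomog δ (p l) (η l)) {K : Set (ι →₀ MvPolynomial (Fin (n + 1)) Z)}
    (hpK : ∀ l, p l ∈ K)
    (hK : ∀ x ∈ K, (∃ D, IsHomog δ x D) → x ∈ Submodule.span (MvPolynomial (Fin (n + 1)) Z) (Set.range p)) (N : ℤ) :
    relSlice lam a ε δ K N = (freeSlice Z a ε η N).map (push lam p) := by
  refine le_antisymm ?_ ?_
  · rw [push_range lam a δ η p hp ε N]
    exact relSlice_subset lam a ε δ N hK
  · rw [freeSlice_eq_span, Submodule.map_span, Submodule.span_le]
    rintro _ ⟨_, ⟨⟨l, e⟩, ⟨he, hN⟩, rfl⟩, rfl⟩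
    rw [push_single, one_smul]
    exact Submodule.subset_span ⟨p l, hpK l, η l, e, hp l, he, hN, rfl⟩

/-- A tuple sent into the relations generated by `p₀` is a relation of the tuples `p` modulo
`p₀`. -/
theorem mem_rel_of_push (hlam : Sep lam) (ha : ∀ j, 0 ≤ a j) {δ : ι → ℤ} {η : L → ℤ}
    {η₀ : L0 → ℤ} {p : L → (ι →₀ MvPolynomial (Fin (n + 1)) Z)}
    {p₀ : L0 → (ι →₀ MvPolynomial (Fin (n + 1)) Z)} (hp : ∀ l, IsHomog δ (p l) (η l))
    (hp₀ : ∀ l, IsHomog δ (p₀ l) (η₀ l)) {N : ℤ} {x : Tot Z n L} (hx : x ∈ freeSlice Z a ε η N)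
    (h : push lam p x ∈ (freeSlice Z a ε η₀ N).map (push lam p₀)) :
    x ∈ relSlice lam a ε η {c | combo p c ∈ Submodule.span (MvPolynomial (Fin (n + 1)) Z) (Set.range p₀)} N := by
  obtain ⟨y, hy, hxy⟩ := h
  let pj : L ⊕ L0 → (ι →₀ MvPolynomial (Fin (n + 1)) Z) := Sum.elim p p₀
  let ηj : L ⊕ L0 → ℤ := Sum.elim η η₀
  let inL : L → (L ⊕ L0 →₀ MvPolynomial (Fin (n + 1)) Z) := fun l => Finsupp.single (Sum.inl l) 1
  let inR : L0 → (L ⊕ L0 →₀ MvPolynomial (Fin (n + 1)) Z) := fun l => Finsupp.single (Sum.inr l) 1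
  let prL : L ⊕ L0 → (L →₀ MvPolynomial (Fin (n + 1)) Z) :=
    Sum.elim (fun l => Finsupp.single l 1) fun _ => 0
  have hL : ∀ l, IsHomog ηj (inL l) (η l + 0) := fun l =>
    homog_single_one _ (add_zero (η l)).symm
  have hR : ∀ l, IsHomog ηj (inR l) (η₀ l + 0) := fun l =>
    homog_single_one _ (add_zero (η₀ l)).symm
  have hpr : ∀ l, IsHomog η (prL l) (ηj l + 0) := by
    rintro (l | l)
    · exact homog_single_one _ (add_zero _).symm
    · exact homog_zero _
  have hpj : ∀ l, IsHomog δ (pj l) (ηj l) := by rintro (l | l); exacts [hp l, hp₀ l]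
  set z := push lam inL x - push lam inR y
  have hz : z ∈ freeSlice Z a ε ηj N := by
    have h1 := map_push_free lam a ε hL ⟨x, hx, rfl⟩
    have h2 := map_push_free lam a ε hR ⟨y, hy, rfl⟩
    rw [add_zero] at h1 h2
    exact sub_mem h1 h2
  have hz0 : push lam pj z = 0 := by
    rw [map_sub, push_push, push_push]
    simp only [inL, inR, combo_single, one_smul]
    exact sub_eq_zero.2 hxy.symm
  have hs := push_ker lam hlam a ha δ ηj pj hpj ε N z hz hz0
  have hxz : push lam prL z = x := by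
    rw [map_sub, push_push, push_push]
    simp only [inL, inR, prL, combo_single, one_smul, Sum.elim_inl, Sum.elim_inr]
    rw [push_one, push_zero, sub_zero]
  have hm := map_push_rel lam a ε hpr
    (K' := {c | combo p c ∈ Submodule.span (MvPolynomial (Fin (n + 1)) Z) (Set.range p₀)}) (fun c hc _ => ?_) ⟨z, hs, rfl⟩
  · rwa [add_zero, hxz] at hm
  · change combo p (combo prL c) ∈ Submodule.span (MvPolynomial (Fin (n + 1)) Z) (Set.range p₀)
    have hd : combo (fun l => pj l - combo p (prL l)) c ∈ Submodule.span (MvPolynomial (Fin (n + 1)) Z) (Set.range p₀) := by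
      refine combo_mem ?_ c
      rintro (l | l)
      · simp [pj, prL, combo_single]
      · simpa [pj, prL, combo] using Submodule.subset_span (Set.mem_range_self l)
    have h0 : combo pj c = 0 := hc
    rw [combo_sub_left, h0, zero_sub, Submodule.neg_mem_iff] at hd
    rwa [combo_comp]

/-- The step: between the relations `K₀`, generated by `p₀`, and `K`, generated by `p` and `p₀`,
the cohomology is that of the free module on `p` modulo its relations. -/
theorem nonempty_piece_equiv (hlam : Sep lam) (ha : ∀ j, 0 ≤ a j) {δ : ι → ℤ} {η : L → ℤ}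
    {η₀ : L0 → ℤ} {p : L → (ι →₀ MvPolynomial (Fin (n + 1)) Z)}
    {p₀ : L0 → (ι →₀ MvPolynomial (Fin (n + 1)) Z)} (hp : ∀ l, IsHomog δ (p l) (η l))
    (hp₀ : ∀ l, IsHomog δ (p₀ l) (η₀ l)) {K K₀ : Set (ι →₀ MvPolynomial (Fin (n + 1)) Z)}
    (hpK : ∀ l, p l ∈ K) (hp₀K : ∀ l, p₀ l ∈ K) (hp₀K₀ : ∀ l, p₀ l ∈ K₀)
    (hK₀ : ∀ x ∈ K₀, (∃ D, IsHomog δ x D) → x ∈ Submodule.span (MvPolynomial (Fin (n + 1)) Z) (Set.range p₀))
    (hK : ∀ x ∈ K, (∃ D, IsHomog δ x D) →
      x ∈ Submodule.span (MvPolynomial (Fin (n + 1)) Z) (Set.range p ∪ Set.range p₀)) (N k : ℤ) :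
    relCech lam a δ K₀ N ≤ relCech lam a δ K N ∧
    Nonempty ((cechGC Z n (Tot Z n L)).H
        (relCech lam a η {c | combo p c ∈ Submodule.span (MvPolynomial (Fin (n + 1)) Z) (Set.range p₀)} N)
        (freeCech Z a η N) k ≃ₗ[Z]
      (cechGC Z n (Tot Z n ι)).H (relCech lam a δ K₀ N) (relCech lam a δ K N) k) := by
  have h₀ := fun ε => rel_eq_map lam a ε hp₀ hp₀K₀ hK₀ N
  have hj : ∀ l, IsHomog δ (Sum.elim p p₀ l) (Sum.elim η η₀ l) := by
    rintro (l | l); exacts [hp l, hp₀ l]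
  have hY : ∀ ε, relSlice lam a ε δ K N =
      (freeSlice Z a ε η N).map (push lam p) ⊔ (freeSlice Z a ε η₀ N).map (push lam p₀) := by
    intro ε
    rw [rel_eq_map lam a ε hj (K := K) (by rintro (l | l); exacts [hpK l, hp₀K l])
      (fun x hx h => by rw [Set.Sum.elim_range]; exact hK x hx h) N]
    refine le_antisymm ?_ (sup_le ?_ ?_)
    · rw [freeSlice_eq_span, Submodule.map_span, Submodule.span_le]
      rintro _ ⟨_, ⟨⟨l | l, e⟩, ⟨he, hN⟩, rfl⟩, rfl⟩
      · refine Submodule.mem_sup_left ⟨_, free_single_mem a ε (i := l) he hN 1, ?_⟩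
        rw [push_single, push_single, Sum.elim_inl]
      · refine Submodule.mem_sup_right ⟨_, free_single_mem a ε (i := l) he hN 1, ?_⟩
        rw [push_single, push_single, Sum.elim_inr]
    · rw [freeSlice_eq_span, Submodule.map_span, Submodule.span_le]
      rintro _ ⟨_, ⟨⟨l, e⟩, ⟨he, hN⟩, rfl⟩, rfl⟩
      refine ⟨_, free_single_mem a ε (i := Sum.inl l) he hN 1, ?_⟩
      rw [push_single, push_single, Sum.elim_inl]
    · rw [freeSlice_eq_span, Submodule.map_span, Submodule.span_le]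
      rintro _ ⟨_, ⟨⟨l, e⟩, ⟨he, hN⟩, rfl⟩, rfl⟩
      refine ⟨_, free_single_mem a ε (i := Sum.inr l) he hN 1, ?_⟩
      rw [push_single, push_single, Sum.elim_inr]
  refine ⟨fun x hx ε _ => ?_, ?_⟩
  · have : x ε ∈ relSlice lam a ε δ K₀ N := hx ε trivial
    change x ε ∈ relSlice lam a ε δ K N
    rw [h₀] at this
    rw [hY]
    exact Submodule.mem_sup_right this
  refine nonempty_cech_equiv (push lam p) _ _ _ _
    (fun ε j v hε => freeSlice_mono (update_two hε) η N)
    (fun ε j v hε => relSlice_mono lam (update_two hε) δ K₀ N) (fun ε => ?_)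
    (fun ε => (hY ε).symm ▸ le_sup_left) (fun ε => ?_) (fun ε x hx => ?_) k
  · have hs := map_push_rel lam a ε (η := η) (δ := δ) (M := 0) (N := N) (p := p)
      (fun l => by rw [add_zero]; exact hp l)
      (K := {c | combo p c ∈ Submodule.span (MvPolynomial (Fin (n + 1)) Z) (Set.range p₀)})
      (K' := (Submodule.span (MvPolynomial (Fin (n + 1)) Z) (Set.range p₀) : Set _)) fun c hc _ => hc
    rw [add_zero, ← push_range lam a δ η₀ p₀ hp₀ ε N, ← h₀] at hs
    exact hs
  · rw [hY, h₀]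
  · have h2 := hx.2
    rw [SetLike.mem_coe, Submodule.mem_comap, h₀] at h2
    exact mem_rel_of_push lam a ε hlam ha hp hp₀ hx.1 h2

/-- Finitely many homogeneous generators of a set of relations. -/
theorem exists_gens [IsNoetherianRing Z] [Finite ι] (δ : ι → ℤ)
    (K : Set (ι →₀ MvPolynomial (Fin (n + 1)) Z)) :
    ∃ (m : ℕ) (p : Fin m → (ι →₀ MvPolynomial (Fin (n + 1)) Z)) (η : Fin m → ℤ),
      (∀ l, IsHomog δ (p l) (η l)) ∧ (∀ l, p l ∈ K) ∧
      ∀ x ∈ K, (∃ D, IsHomog δ x D) → x ∈ Submodule.span (MvPolynomial (Fin (n + 1)) Z) (Set.range p) := by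
  have hfg : (Submodule.span (MvPolynomial (Fin (n + 1)) Z)
      {x | x ∈ K ∧ ∃ D, IsHomog δ x D}).FG := IsNoetherian.noetherian _
  obtain ⟨t, hts, ht⟩ := Submodule.fg_span_iff_fg_span_finset_subset _ |>.1 hfg
  classical
  refine ⟨t.card, fun l => (t.equivFin.symm l : ι →₀ _),
    fun l => Classical.choose (hts (t.equivFin.symm l).2).2,
    fun l => Classical.choose_spec (hts (t.equivFin.symm l).2).2,
    fun l => (hts (t.equivFin.symm l).2).1, fun x hx h => ?_⟩
  have hr : Set.range (fun l => (t.equivFin.symm l : ι →₀ MvPolynomial (Fin (n + 1)) Z)) = ↑t := by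
    ext y
    exact ⟨by rintro ⟨l, rfl⟩; exact (t.equivFin.symm l).2,
      fun hy => ⟨t.equivFin ⟨y, hy⟩, by simp⟩⟩
  simp only [hr, ← ht]
  exact Submodule.subset_span ⟨hx, h⟩

theorem relCech_eq_bot {δ : ι → ℤ} {K : Set (ι →₀ MvPolynomial (Fin (n + 1)) Z)}
    (h : ∀ x ∈ K, (∃ D, IsHomog δ x D) → x = 0) (N : ℤ) : relCech lam a δ K N = ⊥ := by
  rw [Submodule.eq_bot_iff]
  intro x hx
  funext ε
  have : relSlice lam a ε δ K N = ⊥ := by
    rw [relSlice, Submodule.span_eq_bot]
    rintro _ ⟨p, hp, D, e, hD, -, -, rfl⟩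
    rw [h p hp ⟨D, hD⟩, emb_zero_left]
  have hxe : x ε ∈ relSlice lam a ε δ K N := hx ε trivial
  rw [this] at hxe
  simpa using hxe

theorem H_subsingleton_of_lt {M : Type v} [AddCommGroup M] [Module Z M]
    (X Y : Submodule Z (Chart n → M)) {k : ℤ} (h : k < -(n : ℤ) ∨ 0 < k) :
    Subsingleton ((cechGC Z n M).H X Y k) := by
  refine GC.H_subsingleton_of_deg _ (cechDeg_bot_of_forall fun ε hε => ?_)
  have : chartDeg ε ≤ n := (Finset.card_filter_le _ _).trans (by simp)
  omega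

end Vale.Agent.P202.Char.Sheaf
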