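import Vale.Agent.P202.Char.Complexes

/-! P202, Lech in characteristic `p`: maps on homology, the three maps of a pair of nested
subcomplexes and the bounds they give, and the comparison of Cech complexes chart by chart. -/

namespace Vale.Agent.P202.Char

universe u v w

namespace GC

variable {R : Type u} [CommRing R] {T : Type v} [AddCommGroup T] [Module R T] (C : GC R T)
  {T' : Type w} [AddCommGroup T'] [Module R T'] (C' : GC R T')
  {X Y W : Submodule R T} {X' Y' : Submodule R T'}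

/-- The map induced on homology. -/
noncomputable def hMap (f : T →ₗ[R] T') {n m : ℤ} (hc : C.cyc X Y n ≤ (C'.cyc X' Y' m).comap f)
    (hb : C.bd X Y n ≤ (C'.bd X' Y' m).comap f) : C.H X Y n →ₗ[R] C'.H X' Y' m :=
  Submodule.mapQ _ _ (f.restrict fun _ hx => hc hx) fun _ hx => hb hx

theorem mk_eq_zero_iff_bd {n : ℤ} (x : C.cyc X Y n) :
    (Submodule.Quotient.mk x : C.H X Y n) = 0 ↔ (x : T) ∈ C.bd X Y n := by
  rw [Submodule.Quotient.mk_eq_zero]; rfl

theorem H_subsingleton_of_deg {n : ℤ} (h : C.deg n = ⊥) : Subsingleton (C.H X Y n) := by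
  refine ⟨fun a b => ?_⟩
  induction a using Submodule.Quotient.induction_on with | _ x
  induction b using Submodule.Quotient.induction_on with | _ y
  have hz : ∀ z : C.cyc X Y n, z = 0 := fun z => by
    have : (z : T) ∈ C.deg n := z.2.1.2
    rw [h, Submodule.mem_bot] at this
    exact Subtype.ext this
  rw [hz x, hz y]

/-- From `Y / X` to `W / X`. -/
noncomputable def hIncl (hYW : Y ≤ W) (n : ℤ) : C.H X Y n →ₗ[R] C.H X W n :=
  C.hMap C LinearMap.id (fun _ hx => ⟨⟨hYW hx.1.1, hx.1.2⟩, hx.2⟩)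
    (sup_le_sup (Submodule.map_mono (inf_le_inf_right _ hYW)) le_rfl)

/-- From `W / X` to `W / Y`. -/
noncomputable def hProj (hXY : X ≤ Y) (n : ℤ) : C.H X W n →ₗ[R] C.H Y W n :=
  C.hMap C LinearMap.id (fun _ hx => ⟨hx.1, hXY hx.2⟩)
    (sup_le_sup le_rfl (inf_le_inf_right _ hXY))

/-- The connecting map from `W / Y` to `Y / X`. -/
noncomputable def hConn (n : ℤ) : C.H Y W n →ₗ[R] C.H X Y (n - 1) :=
  C.hMap C C.D
    (fun x hx => ⟨⟨hx.2, C.map_deg n ⟨x, hx.1.2, rfl⟩⟩, by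
      change C.D (C.D x) ∈ X
      rw [show C.D (C.D x) = 0 from LinearMap.congr_fun C.sq x]
      exact X.zero_mem⟩)
    (sup_le (by
        rintro _ ⟨x, -, rfl⟩
        change C.D (C.D x) ∈ C.bd X Y (n - 1)
        rw [show C.D (C.D x) = 0 from LinearMap.congr_fun C.sq x]
        exact Submodule.zero_mem _)
      fun x hx => Submodule.mem_sup_left ⟨x, ⟨hx.1, by simpa using hx.2⟩, rfl⟩)

theorem exact_at_top (hXY : X ≤ Y) (hYW : Y ≤ W) (n : ℤ) :
    LinearMap.ker (C.hConn (X := X) (Y := Y) (W := W) n) ≤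
      LinearMap.range (C.hProj (W := W) hXY n) := by
  intro a ha
  induction a using Submodule.Quotient.induction_on with | _ x
  obtain ⟨x, hx⟩ := x
  have h : C.D x ∈ C.bd X Y (n - 1) := (C.mk_eq_zero_iff_bd _).1 ha
  obtain ⟨_, ⟨y, hy, rfl⟩, r, hr, hs⟩ := Submodule.mem_sup.1 h
  have hyd : y ∈ C.deg n := by simpa using hy.2
  have hxy : x - y ∈ C.cyc X W n := ⟨⟨W.sub_mem hx.1.1 (hYW hy.1), sub_mem hx.1.2 hyd⟩, by
    change C.D (x - y) ∈ X
    rw [map_sub, ← hs, add_sub_cancel_left]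
    exact hr.1⟩
  refine ⟨Submodule.Quotient.mk ⟨x - y, hxy⟩, ?_⟩
  change (Submodule.Quotient.mk _ : C.H Y W n) = Submodule.Quotient.mk _
  rw [Submodule.Quotient.eq]
  change (x - y) - x ∈ C.bd Y W n
  rw [sub_sub_cancel_left]
  exact neg_mem (Submodule.mem_sup_right ⟨hy.1, hyd⟩)

/-- A class of `Y / X` dying in `W / X` is a connecting image. -/
theorem exists_conn_eq (hXY : X ≤ Y) (hYW : Y ≤ W) (n : ℤ) (a : C.H X Y (n + 1 - 1))
    (ha : C.hIncl hYW (n + 1 - 1) a = 0) : a ∈ LinearMap.range (C.hConn (W := W) (n + 1)) := by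
  induction a using Submodule.Quotient.induction_on with | _ x
  obtain ⟨x, hx⟩ := x
  have h : x ∈ C.bd X W (n + 1 - 1) := (C.mk_eq_zero_iff_bd _).1 ha
  obtain ⟨_, ⟨y, hy, rfl⟩, r, hr, hs⟩ := Submodule.mem_sup.1 h
  have hD : C.D y ∈ Y := by
    rw [eq_sub_of_add_eq hs]
    exact Y.sub_mem hx.1.1 (hXY hr.1)
  have hyc : y ∈ C.cyc Y W (n + 1) := ⟨⟨hy.1, by simpa using hy.2⟩, hD⟩
  refine ⟨Submodule.Quotient.mk ⟨y, hyc⟩, ?_⟩
  change (Submodule.Quotient.mk _ : C.H X Y (n + 1 - 1)) = Submodule.Quotient.mk _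
  rw [Submodule.Quotient.eq]
  change C.D y - x ∈ C.bd X Y (n + 1 - 1)
  rw [← hs, sub_add_cancel_left]
  exact neg_mem (Submodule.mem_sup_right hr)

theorem exact_at_mid (hXY : X ≤ Y) (hYW : Y ≤ W) (n : ℤ) :
    LinearMap.ker (C.hProj (W := W) hXY n) ≤ LinearMap.range (C.hIncl (X := X) hYW n) := by
  intro a ha
  induction a using Submodule.Quotient.induction_on with | _ x
  obtain ⟨x, hx⟩ := x
  have h : x ∈ C.bd Y W n := (C.mk_eq_zero_iff_bd _).1 ha
  obtain ⟨_, ⟨y, hy, rfl⟩, r, hr, hs⟩ := Submodule.mem_sup.1 h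
  have hrc : r ∈ C.cyc X Y n := ⟨hr, by
    change C.D r ∈ X
    have : C.D r = C.D x := by
      rw [← hs, map_add, show C.D (C.D y) = 0 from LinearMap.congr_fun C.sq y, zero_add]
    rw [this]
    exact hx.2⟩
  refine ⟨Submodule.Quotient.mk ⟨r, hrc⟩, ?_⟩
  change (Submodule.Quotient.mk _ : C.H X W n) = Submodule.Quotient.mk _
  rw [Submodule.Quotient.eq]
  change r - x ∈ C.bd X W n
  rw [← hs, sub_add_cancel_right]
  exact neg_mem (Submodule.mem_sup_left ⟨y, hy, rfl⟩)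

end GC

section Three

variable {R : Type u} [CommRing R] {A : Type v} {B : Type v} {C : Type v} [AddCommGroup A]
  [AddCommGroup B] [AddCommGroup C] [Module R A] [Module R B] [Module R C]
  (f : A →ₗ[R] B) (g : B →ₗ[R] C)

theorem length_le_of_ker_le_range (h : LinearMap.ker g ≤ LinearMap.range f) :
    Module.length R B ≤ Module.length R A + Module.length R C := by
  rw [Module.length_eq_add_of_exact (LinearMap.ker g).subtype g.rangeRestrict
    (Submodule.injective_subtype _) g.surjective_rangeRestrict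
    (LinearMap.exact_iff.2 (by simp [LinearMap.ker_rangeRestrict]))]
  refine add_le_add ?_ (Module.length_le_of_injective _ (Submodule.injective_subtype _))
  exact (Module.length_le_of_injective (Submodule.inclusion h) (Submodule.inclusion_injective h)).trans
    (Module.length_le_of_surjective f.rangeRestrict f.surjective_rangeRestrict)

theorem finite_of_ker_le_range [IsNoetherianRing R] [Module.Finite R A] [Module.Finite R C]
    (h : LinearMap.ker g ≤ LinearMap.range f) : Module.Finite R B := by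
  have : Module.Finite R ↥(LinearMap.ker g) :=
    Module.Finite.of_injective (Submodule.inclusion h) (Submodule.inclusion_injective h)
  have : Module.Finite R ↥(LinearMap.range g) :=
    Module.Finite.of_injective (Submodule.subtype _) (Submodule.injective_subtype _)
  have := Module.Finite.equiv g.quotKerEquivRange.symm
  exact Module.Finite.of_submodule_quotient (LinearMap.ker g)

theorem subsingleton_of_ker_le_range [Subsingleton A] [Subsingleton C]
    (h : LinearMap.ker g ≤ LinearMap.range f) : Subsingleton B := by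
  refine ⟨fun x y => ?_⟩
  obtain ⟨a, ha⟩ := h (show x - y ∈ LinearMap.ker g from Subsingleton.elim _ _)
  rw [Subsingleton.elim a 0, map_zero] at ha
  exact sub_eq_zero.1 ha.symm

end Three

namespace GC

variable {R : Type u} [CommRing R] {T : Type v} [AddCommGroup T] [Module R T] (C : GC R T)
  {X Y W : Submodule R T}

theorem length_top_le (hXY : X ≤ Y) (hYW : Y ≤ W) (n : ℤ) :
    Module.length R (C.H Y W n) ≤
      Module.length R (C.H X W n) + Module.length R (C.H X Y (n - 1)) :=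
  length_le_of_ker_le_range _ _ (C.exact_at_top hXY hYW n)

theorem length_mid_le (hXY : X ≤ Y) (hYW : Y ≤ W) (n : ℤ) :
    Module.length R (C.H X W n) ≤ Module.length R (C.H X Y n) + Module.length R (C.H Y W n) :=
  length_le_of_ker_le_range _ _ (C.exact_at_mid hXY hYW n)

theorem length_sub_le (hXY : X ≤ Y) (hYW : Y ≤ W) (n : ℤ) :
    Module.length R (C.H X Y n) ≤
      Module.length R (C.H Y W (n + 1)) + Module.length R (C.H X W n) := by
  have h := length_le_of_ker_le_range (C.hConn (X := X) (Y := Y) (W := W) (n + 1))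
    (C.hIncl (X := X) hYW (n + 1 - 1)) fun a ha => C.exists_conn_eq hXY hYW n a ha
  rwa [show n + 1 - 1 = n by omega] at h

theorem finite_top [IsNoetherianRing R] (hXY : X ≤ Y) (hYW : Y ≤ W) (n : ℤ)
    (h1 : Module.Finite R (C.H X W n)) (h2 : Module.Finite R (C.H X Y (n - 1))) :
    Module.Finite R (C.H Y W n) :=
  finite_of_ker_le_range _ _ (C.exact_at_top hXY hYW n)

theorem subsingleton_top (hXY : X ≤ Y) (hYW : Y ≤ W) (n : ℤ)
    (h1 : Subsingleton (C.H X W n)) (h2 : Subsingleton (C.H X Y (n - 1))) :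
    Subsingleton (C.H Y W n) :=
  subsingleton_of_ker_le_range _ _ (C.exact_at_top hXY hYW n)

/-- A map commuting with the differentials that is bijective on `Y / X` in every degree. -/
theorem nonempty_H_equiv {T' : Type w} [AddCommGroup T'] [Module R T'] (C' : GC R T')
    {X' Y' : Submodule R T'} (f : T →ₗ[R] T') (hD : ∀ x, f (C.D x) = C'.D (f x))
    (hY : C.IsSub Y) (hX' : C'.IsSub X') (hdeg : ∀ k, (C.deg k).map f ≤ C'.deg k)
    (hmX : X.map f ≤ X') (hmY : Y.map f ≤ Y')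
    (hsurj : ∀ k, Y' ⊓ C'.deg k ≤ (Y ⊓ C.deg k).map f ⊔ (X' ⊓ C'.deg k))
    (hinj : ∀ k, (Y ⊓ C.deg k) ⊓ X'.comap f ≤ X) (n : ℤ) :
    Nonempty (C.H X Y n ≃ₗ[R] C'.H X' Y' n) := by
  have hc : C.cyc X Y n ≤ (C'.cyc X' Y' n).comap f := fun x hx =>
    ⟨⟨hmY ⟨x, hx.1.1, rfl⟩, hdeg n ⟨x, hx.1.2, rfl⟩⟩, by
      change C'.D (f x) ∈ X'
      rw [← hD]; exact hmX ⟨_, hx.2, rfl⟩⟩
  have hb : C.bd X Y n ≤ (C'.bd X' Y' n).comap f := sup_le
    (by
      rintro _ ⟨x, hx, rfl⟩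
      exact Submodule.mem_sup_left
        ⟨f x, ⟨hmY ⟨x, hx.1, rfl⟩, hdeg _ ⟨x, hx.2, rfl⟩⟩, (hD x).symm⟩)
    fun x hx => Submodule.mem_sup_right ⟨hmX ⟨x, hx.1, rfl⟩, hdeg n ⟨x, hx.2, rfl⟩⟩
  refine ⟨LinearEquiv.ofBijective (C.hMap C' f hc hb) ⟨?_, ?_⟩⟩
  · rw [← LinearMap.ker_eq_bot, Submodule.eq_bot_iff]
    intro a ha
    induction a using Submodule.Quotient.induction_on with | _ x
    obtain ⟨x, hx⟩ := x
    have h : f x ∈ C'.bd X' Y' n := (C'.mk_eq_zero_iff_bd _).1 ha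
    obtain ⟨_, ⟨w', hw', rfl⟩, r, hr, hs⟩ := Submodule.mem_sup.1 h
    obtain ⟨_, ⟨y, hy, rfl⟩, r', hr', hs'⟩ := Submodule.mem_sup.1 (hsurj _ hw')
    have hd1 : C.D y ∈ C.deg n := by simpa using C.map_deg (n + 1) ⟨y, hy.2, rfl⟩
    have hz : x - C.D y ∈ X := hinj n ⟨⟨Y.sub_mem hx.1.1 (hY ⟨y, hy.1, rfl⟩),
      sub_mem hx.1.2 hd1⟩, by
        change f (x - C.D y) ∈ X'
        rw [map_sub, hD, ← hs, ← hs', map_add, add_assoc, add_sub_cancel_left]
        exact add_mem (hX' ⟨r', hr'.1, rfl⟩) hr.1⟩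
    refine (C.mk_eq_zero_iff_bd _).2 ?_
    exact Submodule.mem_sup.2 ⟨C.D y, ⟨y, hy, rfl⟩, x - C.D y, ⟨hz, sub_mem hx.1.2 hd1⟩,
      add_sub_cancel _ _⟩
  · intro a
    induction a using Submodule.Quotient.induction_on with | _ z
    obtain ⟨z, hz⟩ := z
    obtain ⟨_, ⟨y, hy, rfl⟩, r, hr, hs⟩ := Submodule.mem_sup.1 (hsurj n hz.1)
    have hDy : C.D y ∈ X := hinj (n - 1) ⟨⟨hY ⟨y, hy.1, rfl⟩, C.map_deg n ⟨y, hy.2, rfl⟩⟩, by
      change f (C.D y) ∈ X'
      rw [hD, eq_sub_of_add_eq hs, map_sub]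
      exact sub_mem hz.2 (hX' ⟨r, hr.1, rfl⟩)⟩
    refine ⟨Submodule.Quotient.mk ⟨y, hy, hDy⟩, ?_⟩
    change (Submodule.Quotient.mk _ : C'.H X' Y' n) = Submodule.Quotient.mk _
    rw [Submodule.Quotient.eq]
    change f y - z ∈ C'.bd X' Y' n
    rw [← hs, sub_add_cancel_left]
    exact neg_mem (Submodule.mem_sup_right hr)

end GC

/-! ### Chart by chart -/

section Cech

variable {R : Type u} [CommRing R] {n : ℕ} {M : Type v} [AddCommGroup M] [Module R M]
  {M' : Type w} [AddCommGroup M'] [Module R M']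

theorem mem_pi_inf_cechDeg {Y : Chart n → Submodule R M} {k : ℤ} {x : Chart n → M} :
    x ∈ Submodule.pi Set.univ Y ⊓ cechDeg R M k ↔
      (∀ ε, x ε ∈ Y ε) ∧ ∀ ε, -(chartDeg ε : ℤ) ≠ k → x ε = 0 := by
  simp only [Submodule.mem_inf, Submodule.mem_pi, Set.mem_univ, true_implies, cechDeg]
  refine and_congr_right fun _ => forall_congr' fun ε => ?_
  split_ifs with h <;> simp [h]

theorem cechDeg_bot_of_forall {k : ℤ} (h : ∀ ε : Chart n, -(chartDeg ε : ℤ) ≠ k) :
    cechDeg (n := n) R M k = ⊥ := by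
  rw [Submodule.eq_bot_iff]
  intro x hx
  funext ε
  have := hx ε trivial
  simpa [h ε] using this

theorem cech_isSub (X : Chart n → Submodule R M)
    (h : ∀ ε j v, ε j = 2 → X (Function.update ε j v) ≤ X ε) :
    (cechGC R n M).IsSub (Submodule.pi Set.univ X) := by
  rintro _ ⟨x, hx, rfl⟩ ε -
  change cechD R x ε ∈ X ε
  rw [cechD_apply]
  refine sum_mem fun j hj => Submodule.smul_mem _ _ ?_
  have h2 : ε j = 2 := (Finset.mem_filter.1 hj).2
  exact sub_mem (h ε j 1 h2 (hx _ trivial)) (h ε j 0 h2 (hx _ trivial))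

theorem compLeft_cechD (f : M →ₗ[R] M') (x : Chart n → M) :
    f.compLeft (Chart n) (cechD R x) = cechD R (f.compLeft (Chart n) x) := by
  funext ε
  simp [cechD_apply, map_sum]

/-- A map that is bijective on `Y / X` chart by chart is bijective on cohomology. -/
theorem nonempty_cech_equiv (f : M →ₗ[R] M') (X Y : Chart n → Submodule R M)
    (X' Y' : Chart n → Submodule R M')
    (hY : ∀ ε j v, ε j = 2 → Y (Function.update ε j v) ≤ Y ε)
    (hX' : ∀ ε j v, ε j = 2 → X' (Function.update ε j v) ≤ X' ε)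
    (hmX : ∀ ε, (X ε).map f ≤ X' ε) (hmY : ∀ ε, (Y ε).map f ≤ Y' ε)
    (hsurj : ∀ ε, Y' ε ≤ (Y ε).map f ⊔ X' ε) (hinj : ∀ ε, Y ε ⊓ (X' ε).comap f ≤ X ε) (k : ℤ) :
    Nonempty ((cechGC R n M).H (Submodule.pi Set.univ X) (Submodule.pi Set.univ Y) k ≃ₗ[R]
      (cechGC R n M').H (Submodule.pi Set.univ X') (Submodule.pi Set.univ Y') k) := by
  refine GC.nonempty_H_equiv _ _ (f.compLeft (Chart n)) (compLeft_cechD f) (cech_isSub Y hY)
    (cech_isSub X' hX') ?_ ?_ ?_ ?_ ?_ k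
  · rintro k _ ⟨x, hx, rfl⟩ ε -
    have := hx ε trivial
    change f (x ε) ∈ (if -(chartDeg ε : ℤ) = k then ⊤ else ⊥ : Submodule R M')
    split_ifs with h
    · exact Submodule.mem_top
    · simp only [h, if_false, SetLike.mem_coe, Submodule.mem_bot] at this
      simp [this]
  · rintro _ ⟨x, hx, rfl⟩ ε -
    exact hmX ε ⟨x ε, hx ε trivial, rfl⟩
  · rintro _ ⟨x, hx, rfl⟩ ε -
    exact hmY ε ⟨x ε, hx ε trivial, rfl⟩
  · intro k x hx
    change x ∈ Submodule.pi Set.univ Y' ⊓ cechDeg R M' k at hx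
    rw [mem_pi_inf_cechDeg] at hx
    classical
    have hd : ∀ ε, ∃ y ∈ Y ε, (-(chartDeg ε : ℤ) ≠ k → y = 0) ∧ x ε - f y ∈ X' ε := fun ε => by
      by_cases h : -(chartDeg ε : ℤ) = k
      · obtain ⟨_, ⟨y, hy, rfl⟩, r, hr, hs⟩ := Submodule.mem_sup.1 (hsurj ε (hx.1 ε))
        exact ⟨y, hy, fun h' => absurd h h', by rw [← hs]; simpa using hr⟩
      · exact ⟨0, zero_mem _, fun _ => rfl, by simp [hx.2 ε h]⟩
    choose y hy hy0 hyx using hd
    refine Submodule.mem_sup.2 ⟨f.compLeft (Chart n) y,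
      ⟨y, mem_pi_inf_cechDeg.2 ⟨hy, hy0⟩, rfl⟩, x - f.compLeft (Chart n) y,
      mem_pi_inf_cechDeg.2 ⟨hyx, fun ε h => ?_⟩, add_sub_cancel _ _⟩
    simp [hx.2 ε h, hy0 ε h]
  · rintro k x ⟨hxk, hxX⟩
    change x ∈ Submodule.pi Set.univ Y ⊓ cechDeg R M k at hxk
    rw [mem_pi_inf_cechDeg] at hxk
    intro ε _
    exact hinj ε ⟨hxk.1 ε, hxX ε trivial⟩

end Cech

end Vale.Agent.P202.Char
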