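import Vale.Agent.P202.Char.Push

/-!
P202, Lech in characteristic `p`: degrees and charts of Laurent polynomials, and how the maps
`push` act on the free and relation slices.
-/

namespace Vale.Agent.P202.Char

universe u v w

variable {Z : Type u} [CommRing Z] {n : ℕ} {ι : Type w} {L : Type w} (lam : Fin (n + 1) → Z)

/-- Laurent polynomials of degree `m` on the chart `ε` with twist `a`. -/
def LauMem (a : Fin n → ℤ) (ε : Chart n) (m : ℤ) (μ : Lau Z n) : Prop :=
  ∀ e ∈ μ.coeff.support, InBox a ε e ∧ e.2 = m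

theorem InBox.add {a b : Fin n → ℤ} {ε : Chart n} {e f : Expo n} (he : InBox a ε e)
    (hf : InBox b ε f) : InBox (a + b) ε (e + f) := by
  intro j
  obtain ⟨h1, h0⟩ := he j
  obtain ⟨g1, g0⟩ := hf j
  simp only [Prod.fst_add, Prod.snd_add, Pi.add_apply]
  exact ⟨fun h => add_nonneg (h1 h) (g1 h), fun h => by have := h0 h; have := g0 h; omega⟩

theorem LauMem.mul {a b : Fin n → ℤ} {ε : Chart n} {m c : ℤ} {μ ν : Lau Z n}
    (hμ : LauMem a ε m μ) (hν : LauMem b ε c ν) : LauMem (a + b) ε (m + c) (μ * ν) := by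
  classical
  intro e he
  obtain ⟨e₁, h1, e₂, h2, rfl⟩ :=
    Finset.mem_add.1 ((AddMonoidAlgebra.support_coeff_mul_subset μ ν) he)
  obtain ⟨b1, d1⟩ := hμ e₁ h1
  obtain ⟨b2, d2⟩ := hν e₂ h2
  exact ⟨b1.add b2, by simp [d1, d2]⟩

theorem lauMem_single {a : Fin n → ℤ} {ε : Chart n} {e : Expo n} {m : ℤ} (r : Z)
    (he : InBox a ε e) (hm : e.2 = m) : LauMem a ε m (AddMonoidAlgebra.single e r : Lau Z n) := by
  classical
  intro f hf
  rw [AddMonoidAlgebra.coeff_single] at hf
  obtain rfl := Finset.mem_singleton.1 (Finsupp.support_single_subset hf)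
  exact ⟨he, hm⟩

theorem LauMem.add {a : Fin n → ℤ} {ε : Chart n} {m : ℤ} {μ ν : Lau Z n}
    (hμ : LauMem a ε m μ) (hν : LauMem a ε m ν) : LauMem a ε m (μ + ν) := by
  classical
  intro e he
  rw [AddMonoidAlgebra.coeff_add] at he
  rcases Finset.mem_union.1 (Finsupp.support_add he) with h | h
  · exact hμ e h
  · exact hν e h

theorem inBox_zero_one (ε : Chart n) : InBox (fun _ => 0) ε (0 : Expo n) := fun j => by simp

theorem lauMem_one (ε : Chart n) : LauMem (fun _ => 0) ε 0 (1 : Lau Z n) :=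
  lauMem_single 1 (inBox_zero_one ε) rfl

theorem lauMem_yImg (ε : Chart n) (k : Fin (n + 1)) :
    LauMem (fun _ => 0) ε 1 (yImg lam k) := by
  classical
  have key : ∀ s : Finset (Fin n), ∀ e ∈ (∏ j ∈ s,
      (AddMonoidAlgebra.single ((Pi.single j 1, 0) : Expo n) 1
        + AddMonoidAlgebra.single (0 : Expo n) (lam k)) : Lau Z n).coeff.support,
      (∀ j, 0 ≤ e.1 j ∧ e.1 j ≤ if j ∈ s then 1 else 0) ∧ e.2 = 0 := by
    intro s
    induction s using Finset.induction_on with
    | empty =>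
      intro e he
      rw [Finset.prod_empty, AddMonoidAlgebra.one_def, AddMonoidAlgebra.coeff_single] at he
      obtain rfl := Finset.mem_singleton.1 (Finsupp.support_single_subset he)
      simp
    | insert i s hi ih =>
      intro e he
      rw [Finset.prod_insert hi] at he
      obtain ⟨e₁, h1, e₂, h2, rfl⟩ :=
        Finset.mem_add.1 ((AddMonoidAlgebra.support_coeff_mul_subset _ _) he)
      rw [AddMonoidAlgebra.coeff_add] at h1
      obtain ⟨hb, hd⟩ := ih e₂ h2
      rcases Finset.mem_union.1 (Finsupp.support_add h1) with h | h <;>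
        rw [AddMonoidAlgebra.coeff_single] at h <;>
        obtain rfl := Finset.mem_singleton.1 (Finsupp.support_single_subset h) <;>
        refine ⟨fun j => ?_, by simp [hd]⟩ <;>
        obtain ⟨g1, g2⟩ := hb j <;>
        by_cases hj : j = i
      all_goals first
        | (subst hj; simp only [hi, if_false] at g2; simp; omega)
        | (simp [Pi.single_eq_of_ne hj, hj]; exact ⟨g1, g2⟩)
        | (simp [hj]; exact ⟨g1, g2⟩)
  intro e he
  obtain ⟨e₁, h1, e₂, h2, rfl⟩ :=
    Finset.mem_add.1 ((AddMonoidAlgebra.support_coeff_mul_subset _ _) he)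
  rw [AddMonoidAlgebra.coeff_single] at h2
  obtain rfl := Finset.mem_singleton.1 (Finsupp.support_single_subset h2)
  obtain ⟨hb, hd⟩ := key Finset.univ e₁ h1
  refine ⟨fun j => ?_, by simp [hd]⟩
  have := hb j
  simp only [Finset.mem_univ, if_true] at this
  simp only [Prod.fst_add, Prod.snd_add, Pi.add_apply, Pi.zero_apply]
  constructor <;> intro _ <;> omega

theorem lauMem_rho (ε : Chart n) (f : MvPolynomial (Fin (n + 1)) Z) (γ : ℤ)
    (hf : ∀ c ∈ f.support, (c.sum fun _ v => (v : ℤ)) = γ) :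
    LauMem (fun _ => 0) ε γ (rho lam f) := by
  classical
  have hz : ((fun _ => 0) + fun _ => 0 : Fin n → ℤ) = fun _ => 0 := by ext; simp
  rw [f.as_sum, map_sum]
  refine Finset.sum_induction _ (fun μ => LauMem (fun _ => 0) ε γ μ)
    (fun a b ha hb => ha.add hb) (fun e he => by simp at he) ?_
  intro c hc
  have hpow : ∀ (k : Fin (n + 1)) (i : ℕ),
      LauMem (fun _ => 0) ε (i : ℤ) (yImg lam k ^ i) := by
    intro k i
    induction i with
    | zero => simpa using lauMem_one (Z := Z) ε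
    | succ i ih =>
      have := ih.mul (lauMem_yImg lam ε k)
      rw [hz] at this
      simpa [pow_succ] using this
  have hprod : ∀ s : Finset (Fin (n + 1)),
      LauMem (fun _ => 0) ε (∑ k ∈ s, (c k : ℤ)) (∏ k ∈ s, yImg lam k ^ c k) := by
    intro s
    induction s using Finset.induction_on with
    | empty => simpa using lauMem_one (Z := Z) ε
    | insert k s hk ih =>
      have := (hpow k (c k)).mul ih
      rw [hz] at this
      simpa [Finset.prod_insert hk, Finset.sum_insert hk] using this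
  rw [rho, MvPolynomial.aeval_monomial, ← hf c hc, AddMonoidAlgebra.coe_algebraMap]
  have := (lauMem_single (a := fun _ => 0) (ε := ε) (m := 0) (MvPolynomial.coeff c f)
    (inBox_zero_one ε) rfl).mul (hprod c.support)
  rw [hz, zero_add] at this
  simpa [Finsupp.prod, Finsupp.sum] using this

theorem inComp_mem {a : Fin n → ℤ} {ε : Chart n} {δ : ι → ℤ} {i : ι} {m N : ℤ} {μ : Lau Z n}
    (hμ : LauMem a ε m μ) (h : δ i + m = N) : inComp i μ ∈ freeSlice Z a ε δ N := by
  classical
  rw [freeSlice, Finsupp.mem_supported]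
  intro x hx
  obtain ⟨e, he, rfl⟩ := Finset.mem_image.1 (Finsupp.mapDomain_support hx)
  obtain ⟨b, d⟩ := hμ e he
  exact ⟨b, by simp [d, h]⟩

theorem emb_mem {a : Fin n → ℤ} {ε : Chart n} {δ : ι → ℤ}
    {p : ι →₀ MvPolynomial (Fin (n + 1)) Z} {D m N : ℤ} (hp : IsHomog δ p D)
    {μ : Lau Z n} (hμ : LauMem a ε m μ) (hN : D + m = N) :
    emb lam p μ ∈ freeSlice Z a ε δ N := by
  classical
  refine Submodule.sum_mem _ fun i _ => ?_
  have hmem := (lauMem_rho lam ε (p i) (D - δ i) fun c hc => by linarith [hp i c hc]).mul hμ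
  rw [show ((fun _ => 0) + a : Fin n → ℤ) = a by ext; simp] at hmem
  exact inComp_mem hmem (by omega)

theorem relSlice_le_free (a : Fin n → ℤ) (ε : Chart n) (δ : ι → ℤ)
    (K : Set (ι →₀ MvPolynomial (Fin (n + 1)) Z)) (N : ℤ) :
    relSlice lam a ε δ K N ≤ freeSlice Z a ε δ N := by
  rw [relSlice, Submodule.span_le]
  rintro x ⟨p, -, D, e, hp, he, hD, rfl⟩
  exact emb_mem lam hp (lauMem_single 1 he rfl) hD

theorem emb_mem_rel {a : Fin n → ℤ} {ε : Chart n} {δ : ι → ℤ}
    {K : Set (ι →₀ MvPolynomial (Fin (n + 1)) Z)} {p : ι →₀ MvPolynomial (Fin (n + 1)) Z}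
    (hK : p ∈ K) {D m N : ℤ} (hp : IsHomog δ p D) {μ : Lau Z n} (hμ : LauMem a ε m μ)
    (hN : D + m = N) : emb lam p μ ∈ relSlice lam a ε δ K N := by
  classical
  rw [show μ = ∑ e ∈ μ.coeff.support, μ.coeff e • (AddMonoidAlgebra.single e 1 : Lau Z n) from ?_]
  · have hsum : ∀ s : Finset (Expo n), s ⊆ μ.coeff.support →
        emb lam p (∑ e ∈ s, μ.coeff e • (AddMonoidAlgebra.single e 1 : Lau Z n)) ∈
          relSlice lam a ε δ K N := by
      intro s
      induction s using Finset.induction_on with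
      | empty => simp [emb_zero_right]
      | insert e s he ih =>
        intro hs
        rw [Finset.sum_insert he, emb_add_right, emb_smul_right]
        obtain ⟨b, d⟩ := hμ e (hs (Finset.mem_insert_self e s))
        refine Submodule.add_mem _ (Submodule.smul_mem _ _ (Submodule.subset_span
          ⟨p, hK, D, e, hp, b, by omega, rfl⟩)) (ih ((Finset.subset_insert e s).trans hs))
    exact hsum _ (Finset.Subset.refl _)
  · conv_lhs => rw [← AddMonoidAlgebra.sum_coeff_single μ]
    simp [Finsupp.sum]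

theorem push_single (p : L → (ι →₀ MvPolynomial (Fin (n + 1)) Z)) (l : L) (e : Expo n) (r : Z) :
    push lam p (Finsupp.single (l, e) r) =
      r • emb lam (p l) (AddMonoidAlgebra.single e 1) := by
  rw [push, Finsupp.lsum_single, LinearMap.toSpanSingleton_apply]

/-- `push` on a free slice lands in the relations when the tuples do. -/
theorem push_mem_rel {a : Fin n → ℤ} {ε : Chart n} {δ : ι → ℤ} {δ' : L → ℤ}
    {K : Set (ι →₀ MvPolynomial (Fin (n + 1)) Z)} {p : L → (ι →₀ MvPolynomial (Fin (n + 1)) Z)}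
    (hK : ∀ l, p l ∈ K) {J : ℤ} (hp : ∀ l, IsHomog δ (p l) (δ' l + J)) {N : ℤ} {x : Tot Z n L}
    (hx : x ∈ freeSlice Z a ε δ' N) : push lam p x ∈ relSlice lam a ε δ K (N + J) := by
  rw [freeSlice, Finsupp.supported_eq_span_single] at hx
  induction hx using Submodule.span_induction with
  | mem y hy =>
    obtain ⟨⟨l, e⟩, ⟨hb, hd⟩, rfl⟩ := hy
    rw [push_single, one_smul]
    exact emb_mem_rel lam (hK l) (hp l) (lauMem_single 1 hb rfl) (by simp only at hd; omega)
  | zero => simp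
  | add a b _ _ ha hb => rw [map_add]; exact Submodule.add_mem _ ha hb
  | smul r a _ ha => rw [map_smul]; exact Submodule.smul_mem _ r ha

/-- `push` respects free slices. -/
theorem push_mem_free {a : Fin n → ℤ} {ε : Chart n} {δ : ι → ℤ} {δ' : L → ℤ}
    {p : L → (ι →₀ MvPolynomial (Fin (n + 1)) Z)} {J : ℤ}
    (hp : ∀ l, IsHomog δ (p l) (δ' l + J)) {N : ℤ} {x : Tot Z n L}
    (hx : x ∈ freeSlice Z a ε δ' N) : push lam p x ∈ freeSlice Z a ε δ (N + J) :=
  relSlice_le_free lam a ε δ Set.univ (N + J)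
    (push_mem_rel lam (fun _ => Set.mem_univ _) hp hx)

/-- `push` respects relations when the composites do. -/
theorem push_rel {a : Fin n → ℤ} {ε : Chart n} {δ : ι → ℤ} {δ' : L → ℤ}
    {K : Set (ι →₀ MvPolynomial (Fin (n + 1)) Z)}
    {K' : Set (L →₀ MvPolynomial (Fin (n + 1)) Z)}
    {p : L → (ι →₀ MvPolynomial (Fin (n + 1)) Z)} {J : ℤ}
    (hK : ∀ q ∈ K', ∀ D, IsHomog δ' q D → (q.sum fun l f => f • p l) ∈ K ∧
      IsHomog δ (q.sum fun l f => f • p l) (D + J)) {N : ℤ} {x : Tot Z n L}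
    (hx : x ∈ relSlice lam a ε δ' K' N) : push lam p x ∈ relSlice lam a ε δ K (N + J) := by
  induction hx using Submodule.span_induction with
  | mem y hy =>
    obtain ⟨q, hq, D, e, hD, hb, hN, rfl⟩ := hy
    rw [push_emb]
    exact emb_mem_rel lam (hK q hq D hD).1 (hK q hq D hD).2 (lauMem_single 1 hb rfl) (by omega)
  | zero => simp
  | add a b _ _ ha hb => rw [map_add]; exact Submodule.add_mem _ ha hb
  | smul r a _ ha => rw [map_smul]; exact Submodule.smul_mem _ r ha

/-- Charts grow with the inverted variables. -/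
theorem InBox.mono {a : Fin n → ℤ} {ε η : Chart n} (h : ∀ j, η j = 2 ∨ η j = ε j) {e : Expo n}
    (he : InBox a ε e) : InBox a η e := by
  intro j
  rcases h j with h2 | h2
  · simp [h2]
  · rw [h2]; exact he j

theorem relSlice_mono {a : Fin n → ℤ} {ε η : Chart n} (h : ∀ j, η j = 2 ∨ η j = ε j)
    (δ : ι → ℤ) (K : Set (ι →₀ MvPolynomial (Fin (n + 1)) Z)) (N : ℤ) :
    relSlice lam a ε δ K N ≤ relSlice lam a η δ K N :=
  Submodule.span_mono fun _ ⟨p, hp, D, e, h1, h2, h3, h4⟩ =>
    ⟨p, hp, D, e, h1, h2.mono h, h3, h4⟩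

theorem freeSlice_mono {a : Fin n → ℤ} {ε η : Chart n} (h : ∀ j, η j = 2 ∨ η j = ε j)
    (δ : ι → ℤ) (N : ℤ) : freeSlice Z a ε δ N ≤ freeSlice Z a η δ N :=
  Finsupp.supported_mono fun _ hx => ⟨hx.1.mono h, hx.2⟩

theorem cechD_mem {a : Fin n → ℤ} {δ : ι → ℤ} {N : ℤ} :
    (freeCech Z a δ N).map (cechD Z) ≤ freeCech Z a δ N := by
  rintro _ ⟨x, hx, rfl⟩ ε -
  rw [SetLike.mem_coe, cechD_apply]
  refine Submodule.sum_mem _ fun j hj => Submodule.smul_mem _ _ (Submodule.sub_mem _ ?_ ?_) <;>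
    refine freeSlice_mono (fun l => ?_) δ N (hx _ trivial) <;>
    by_cases hl : l = j <;> simp_all

theorem cechD_mem_rel {a : Fin n → ℤ} {δ : ι → ℤ}
    {K : Set (ι →₀ MvPolynomial (Fin (n + 1)) Z)} {N : ℤ} :
    (relCech lam a δ K N).map (cechD Z) ≤ relCech lam a δ K N := by
  rintro _ ⟨x, hx, rfl⟩ ε -
  rw [SetLike.mem_coe, cechD_apply]
  refine Submodule.sum_mem _ fun j hj => Submodule.smul_mem _ _ (Submodule.sub_mem _ ?_ ?_) <;>
    refine relSlice_mono lam (fun l => ?_) δ K N (hx _ trivial) <;>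
    by_cases hl : l = j <;> simp_all

theorem relCech_le_free {a : Fin n → ℤ} {δ : ι → ℤ}
    {K : Set (ι →₀ MvPolynomial (Fin (n + 1)) Z)} {N : ℤ} :
    relCech lam a δ K N ≤ freeCech Z a δ N :=
  fun _ hx ε _ => relSlice_le_free lam a ε δ K N (hx ε trivial)

end Vale.Agent.P202.Char
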