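import Vale.Agent.P202.Char.Completion
import Vale.Agent.P202.Char.PSBase
import Vale.Agent.P202.Char.EvalPS

/-!
P202 stage 2: dimensions, and finite maps from power series rings over a field.
-/

namespace Vale.Agent.P202.Char

open IsLocalRing

universe u v

namespace Stage2

/-- Some minimal prime over `I` has the full dimension of the quotient. -/
theorem exists_minimalPrime_dim {A : Type u} [CommRing A] [IsLocalRing A] [IsNoetherianRing A]
    {I : Ideal A} (hI : I ≠ ⊤) :
    ∃ (Q : Ideal A) (r : ℕ), Q ∈ I.minimalPrimes ∧ ringKrullDim (A ⧸ Q) = r ∧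
      ringKrullDim (A ⧸ I) = r := by
  have : Nontrivial (A ⧸ I) := Ideal.Quotient.nontrivial_iff.2 hI
  have : IsLocalRing (A ⧸ I) :=
    IsLocalRing.of_surjective' (Ideal.Quotient.mk I) Ideal.Quotient.mk_surjective
  set l := LTSeries.longestOf (PrimeSpectrum (A ⧸ I)) with hl
  have hdim : ringKrullDim (A ⧸ I) = (l.length : ℕ) :=
    Order.krullDim_eq_length_of_finiteDimensionalOrder
  set P := l.head.asIdeal with hP
  have hPp : P.IsPrime := l.head.isPrime
  set Q := P.comap (Ideal.Quotient.mk I) with hQ
  have hQp : Q.IsPrime := hPp.comap _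
  have hIQ : I ≤ Q := fun x hx => by
    simp [hQ, Ideal.mem_comap, Ideal.Quotient.eq_zero_iff_mem.2 hx]
  have hmin : Q ∈ I.minimalPrimes := by
    refine ⟨⟨hQp, hIQ⟩, ?_⟩
    rintro P' ⟨hP', hIP'⟩ hle
    by_contra hnot
    have hpr : (P'.map (Ideal.Quotient.mk I)).IsPrime :=
      Ideal.map_isPrime_of_surjective Ideal.Quotient.mk_surjective (by rw [Ideal.mk_ker]; exact hIP')
    have hlt : (⟨P'.map (Ideal.Quotient.mk I), hpr⟩ : PrimeSpectrum (A ⧸ I)) < l.head := by
      refine lt_of_le_of_ne (Ideal.map_le_iff_le_comap.2 hle) fun h => hnot ?_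
      have h' : P'.map (Ideal.Quotient.mk I) = P := congrArg PrimeSpectrum.asIdeal h
      rw [hQ, ← h', Ideal.comap_map_of_surjective _ Ideal.Quotient.mk_surjective,
        ← RingHom.ker_eq_comap_bot, Ideal.mk_ker, sup_eq_left.2 hIP']
    have := Order.LTSeries.length_le_krullDim (l.cons _ hlt)
    rw [RelSeries.cons_length, show Order.krullDim (PrimeSpectrum (A ⧸ I)) = (l.length : ℕ) from
      hdim] at this
    have : l.length + 1 ≤ l.length := by exact_mod_cast this
    omega
  refine ⟨Q, l.length, hmin, le_antisymm ?_ ?_, hdim⟩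
  · rw [← hdim]
    exact ringKrullDim_le_of_surjective _ (Ideal.Quotient.factor_surjective hIQ)
  · have h1 : ringKrullDim ((A ⧸ I) ⧸ P) ≤ ringKrullDim (A ⧸ Q) :=
      ringKrullDim_le_of_surjective
        (Ideal.Quotient.lift Q ((Ideal.Quotient.mk P).comp (Ideal.Quotient.mk I)) fun a ha =>
          Ideal.Quotient.eq_zero_iff_mem.2 ha)
        (Ideal.Quotient.lift_surjective_of_surjective _ _
          (Ideal.Quotient.mk_surjective.comp Ideal.Quotient.mk_surjective))
    refine le_trans ?_ h1
    rw [ringKrullDim_quotient]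
    exact le_of_eq_of_le rfl (Order.LTSeries.length_le_krullDim
      { length := l.length
        toFun := fun i => ⟨l.toFun i, fun x hx => LTSeries.head_le l i hx⟩
        step := fun i => l.step i })

variable {R : Type u} {S : Type v} [CommRing R] [CommRing S] [IsLocalRing R] [IsLocalRing S]
  [IsNoetherianRing R] [IsNoetherianRing S] [Algebra R S] [IsLocalHom (algebraMap R S)]
  [Module.Flat R S]

omit [IsNoetherianRing R] [IsNoetherianRing S] [Module.Flat R S] in
theorem map_le : (maximalIdeal R).map (algebraMap R S) ≤ maximalIdeal S :=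
  le_maximalIdeal (map_maximalIdeal_lt_top (algebraMap R S)).ne

omit [IsLocalRing S] [IsNoetherianRing R] [IsNoetherianRing S] [IsLocalHom (algebraMap R S)]
  [Module.Flat R S] in
theorem liesOver {Q : Ideal S} [Q.IsPrime] (hQ : (maximalIdeal R).map (algebraMap R S) ≤ Q) :
    Q.LiesOver (maximalIdeal R) :=
  ⟨(IsLocalRing.maximalIdeal.isMaximal R).eq_of_le ((inferInstance : Q.IsPrime).under R).ne_top
    (Ideal.map_le_iff_le_comap.1 hQ)⟩

/-- Dimension formula for flat local maps. -/
theorem dim_eq_add {d D r : ℕ} (hd : ringKrullDim R = d) (hD : ringKrullDim S = D)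
    (hr : ringKrullDim (S ⧸ (maximalIdeal R).map (algebraMap R S)) = r) : D = d + r := by
  set J := (maximalIdeal R).map (algebraMap R S)
  have := liesOver (R := R) (S := S) (Q := maximalIdeal S) map_le
  have h := Ideal.height_eq_height_add_of_liesOver_of_hasGoingDown (maximalIdeal R)
    (maximalIdeal S)
  have : Nontrivial (S ⧸ J) :=
    Ideal.Quotient.nontrivial_iff.2 (map_maximalIdeal_lt_top (algebraMap R S)).ne
  have : IsLocalRing (S ⧸ J) :=
    IsLocalRing.of_surjective' (Ideal.Quotient.mk J) Ideal.Quotient.mk_surjective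
  have hmap : (maximalIdeal S).map (Ideal.Quotient.mk J) = maximalIdeal (S ⧸ J) :=
    IsLocalRing.eq_maximalIdeal (Ideal.IsMaximal.map_of_surjective_of_ker_le
      Ideal.Quotient.mk_surjective (Ideal.mk_ker.trans_le map_le))
  rw [hmap] at h
  rw [← maximalIdeal_height_eq_ringKrullDim] at hd hD hr
  have h1 : (maximalIdeal R).height = d := WithBot.coe_inj.1 hd
  have h2 : (maximalIdeal S).height = D := WithBot.coe_inj.1 hD
  have h3 : (maximalIdeal (S ⧸ J)).height = r := WithBot.coe_inj.1 hr
  rw [h1, h2, h3] at h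
  exact_mod_cast h

omit [IsLocalRing S] [IsLocalHom (algebraMap R S)] in
/-- A minimal prime over `m S` has the height of `m`. -/
theorem dim_localization {d : ℕ} (hd : ringKrullDim R = d) (Q : Ideal S) [Q.IsPrime]
    (hQ : Q ∈ ((maximalIdeal R).map (algebraMap R S)).minimalPrimes) :
    ringKrullDim (Localization.AtPrime Q) = d := by
  set J := (maximalIdeal R).map (algebraMap R S)
  have := liesOver (R := R) (S := S) (Q := Q) hQ.1.2
  have h := Ideal.height_eq_height_add_of_liesOver_of_hasGoingDown (maximalIdeal R) Q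
  have hp : (Q.map (Ideal.Quotient.mk J)).IsPrime :=
    Ideal.map_isPrime_of_surjective Ideal.Quotient.mk_surjective
      (by rw [Ideal.mk_ker]; exact hQ.1.2)
  have h4 : (Q.map (Ideal.Quotient.mk J)).height = 0 := by
    rw [Ideal.height_eq_zero_iff, minimalPrimes_eq_minimals]
    refine ⟨hp, fun P hP hle => ?_⟩
    have h1 : J ≤ P.comap (Ideal.Quotient.mk J) := fun x hx => by
      simp [Ideal.mem_comap, Ideal.Quotient.eq_zero_iff_mem.2 hx]
    have h2 : P.comap (Ideal.Quotient.mk J) ≤ Q := by
      refine (Ideal.comap_mono hle).trans ?_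
      rw [Ideal.comap_map_of_surjective _ Ideal.Quotient.mk_surjective, ← RingHom.ker_eq_comap_bot,
        Ideal.mk_ker, sup_eq_left.2 hQ.1.2]
    exact Ideal.map_le_iff_le_comap.2 (hQ.2 ⟨hP.comap _, h1⟩ h2)
  rw [h4, add_zero] at h
  rw [IsLocalization.AtPrime.ringKrullDim_eq_height Q (Localization.AtPrime Q), h, ← hd,
    maximalIdeal_height_eq_ringKrullDim]

end Stage2

namespace Stage2

variable {L : Type u} [Field L] {r : ℕ}

/-- A power series differs from its truncation by a tail. -/
theorem sub_trunc_mem {σ : Type} [Finite σ] (f : MvPowerSeries σ L) (k : ℕ) :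
    (MvPowerSeries.truncTotal k f : MvPowerSeries σ L) - f ∈
      Ideal.span (Set.range (MvPowerSeries.X (σ := σ) (R := L))) ^ k := by
  set e := MvPowerSeries.toAdicCompletionAlgEquiv σ L
  have hev : ∀ g : MvPowerSeries σ L, AdicCompletion.evalₐ (MvPolynomial.idealOfVars σ L) k (e g) =
      Ideal.Quotient.mk _ (MvPowerSeries.truncTotal k g) := fun g => by
    rw [MvPowerSeries.toAdicCompletionAlgEquiv_apply, MvPowerSeries.toAdicCompletion,
      AdicCompletion.evalₐ_liftAlgHom]
    · rfl
    · exact fun h => AlgHom.ext fun _ => by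
        simpa [Ideal.Quotient.mk_eq_mk_iff_sub_mem] using
          MvPowerSeries.truncTotal_sub_truncTotal_mem_pow_idealOfVars h (le_refl _) _
  have h0 : AdicCompletion.evalₐ (MvPolynomial.idealOfVars σ L) k
      (e ((MvPowerSeries.truncTotal k f : MvPowerSeries σ L) - f)) = 0 := by
    rw [map_sub, map_sub, hev, hev, ← map_sub, Ideal.Quotient.eq_zero_iff_mem]
    refine (MvPolynomial.mem_pow_idealOfVars_iff' ..).mpr fun x hx => ?_
    simp [MvPowerSeries.coeff_truncTotal _ hx]
  have h4 : Ideal.map e.toRingEquiv (Ideal.span (Set.range MvPowerSeries.X)) =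
      (MvPolynomial.idealOfVars σ L).map (algebraMap ..) := by
    simp_rw [Ideal.map_span, ← Set.range_comp]
    congr 2
    funext i
    simp [e, AdicCompletion.algebraMap_apply, ← MvPolynomial.coe_X,
      MvPowerSeries.toAdicCompletion_coe]
  have h3 := (Compl.mem_pow_iff (MvPolynomial.idealOfVars_fg σ L) k _).2 h0
  rw [← h4, ← Ideal.map_pow] at h3
  obtain ⟨g, hg, hge⟩ := (Ideal.mem_map_iff_of_surjective _ e.toRingEquiv.surjective).1 h3
  rwa [← e.toRingEquiv.injective hge]

theorem maximalIdeal_ps :
    maximalIdeal (MvPowerSeries (Fin r) L) = Ideal.span (Set.range MvPowerSeries.X) := by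
  refine le_antisymm (fun f hf => ?_) (Ideal.span_le.2 ?_)
  · have hc : MvPowerSeries.coeff 0 f = 0 := by
      rw [MvPowerSeries.coeff_zero_eq_constantCoeff_apply]
      by_contra hne
      exact (mem_maximalIdeal _).1 hf
        (MvPowerSeries.isUnit_iff_constantCoeff.2 (isUnit_iff_ne_zero.2 hne))
    set e := MvPowerSeries.toAdicCompletionAlgEquiv (Fin r) L
    have h1 : AdicCompletion.evalₐ (MvPolynomial.idealOfVars (Fin r) L) 1 (e f) =
        Ideal.Quotient.mk _ (MvPowerSeries.truncTotal 1 f) := by
      rw [MvPowerSeries.toAdicCompletionAlgEquiv_apply, MvPowerSeries.toAdicCompletion,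
        AdicCompletion.evalₐ_liftAlgHom]
      · rfl
      · exact fun h => AlgHom.ext fun _ => by
          simpa [Ideal.Quotient.mk_eq_mk_iff_sub_mem] using
            MvPowerSeries.truncTotal_sub_truncTotal_mem_pow_idealOfVars h (le_refl _) _
    have h2 : MvPowerSeries.truncTotal 1 f = 0 := by
      refine MvPolynomial.ext _ _ fun c => ?_
      rw [MvPolynomial.coeff_zero]
      by_cases hc' : c = 0
      · subst hc'
        rw [MvPowerSeries.coeff_truncTotal _ (by simp), hc]
      · refine MvPowerSeries.coeff_truncTotal_eq_zero _ ?_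
        exact Nat.one_le_iff_ne_zero.2 (by simpa [Finsupp.degree_eq_zero_iff] using hc')
    have h3 : e f ∈ (MvPolynomial.idealOfVars (Fin r) L).map
        (algebraMap (MvPolynomial (Fin r) L) (AdicCompletion _ (MvPolynomial (Fin r) L))) := by
      have := (Compl.mem_pow_iff (MvPolynomial.idealOfVars_fg (Fin r) L) 1 (e f)).2
        (by rw [h1, h2, map_zero])
      rwa [pow_one] at this
    have h4 : Ideal.map e.toRingEquiv (Ideal.span (Set.range MvPowerSeries.X)) =
        (MvPolynomial.idealOfVars (Fin r) L).map (algebraMap ..) := by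
      simp_rw [Ideal.map_span, ← Set.range_comp]
      congr 2
      funext i
      simp [e, AdicCompletion.algebraMap_apply, ← MvPolynomial.coe_X,
        MvPowerSeries.toAdicCompletion_coe]
    rw [← h4] at h3
    obtain ⟨g, hg, hge⟩ := (Ideal.mem_map_iff_of_surjective _ e.toRingEquiv.surjective).1 h3
    rwa [← e.toRingEquiv.injective hge]
  · rintro _ ⟨i, rfl⟩
    exact (mem_maximalIdeal _).2 fun h => by
      simpa using (MvPowerSeries.isUnit_iff_constantCoeff.1 h).ne_zero

theorem dim_ps_le : ringKrullDim (MvPowerSeries (Fin r) L) ≤ r := by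
  refine (ringKrullDim_le_spanFinrank_maximalIdeal _).trans ?_
  rw [maximalIdeal_ps]
  have := (Submodule.spanFinrank_span_le_ncard_of_finite
    (R := MvPowerSeries (Fin r) L) (Set.finite_range MvPowerSeries.X)).trans
    (Set.ncard_range_of_injective (f := (MvPowerSeries.X : Fin r → MvPowerSeries (Fin r) L))
      (fun _ _ h => MvPowerSeries.X_inj.mp h) |>.le)
  simp at this
  exact_mod_cast this

/-- A finite map from `L[[U]]` to a domain of dimension `r` is injective. -/
theorem injective_of_dim {B : Type v} [CommRing B] [IsDomain B]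
    (f : MvPowerSeries (Fin r) L →+* B) (hf : f.Finite) (hB : ringKrullDim B = r) :
    Function.Injective f := by
  set C := MvPowerSeries (Fin r) L
  have : IsDomain C := NoZeroDivisors.to_isDomain _
  rw [injective_iff_map_eq_zero]
  intro x hx
  by_contra hx0
  let : Algebra C B := f.toAlgebra
  have : Module.Finite C B := hf
  have h1 : ringKrullDim (C ⧸ RingHom.ker f) + 1 ≤ ringKrullDim C :=
    ringKrullDim_succ_le_of_surjective (Ideal.Quotient.mk _) Ideal.Quotient.mk_surjective
      (mem_nonZeroDivisors_of_ne_zero hx0) (Ideal.Quotient.eq_zero_iff_mem.2 hx)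
  have h2 : ringKrullDim B ≤ ringKrullDim (C ⧸ RingHom.ker f) := by
    rw [ringKrullDim_quotient]
    refine Order.krullDim_le_of_strictMono (fun P : PrimeSpectrum B =>
      (⟨⟨P.asIdeal.comap f, P.isPrime.comap f⟩, fun a (ha : f a = 0) =>
        show f a ∈ P.asIdeal from ha ▸ zero_mem _⟩ :
          PrimeSpectrum.zeroLocus (R := C) (RingHom.ker f))) fun P P' h => ?_
    have := P.isPrime
    exact Ideal.IsIntegral.comap_lt_comap (R := C) h
  rw [hB] at h2
  have h3 : ((r : ℕ) : WithBot ℕ∞) + 1 ≤ r :=
    (add_le_add h2 le_rfl).trans (h1.trans dim_ps_le)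
  have h4 : r + 1 ≤ r := by exact_mod_cast h3
  omega

/-- A map from `L[[U]]` with finite residue extension whose variables generate a primary ideal is
finite. -/
theorem finite_of_param {B : Type u} [CommRing B] [IsLocalRing B] [IsNoetherianRing B]
    (f : MvPowerSeries (Fin r) L →+* B) (hX : ∀ i, f (MvPowerSeries.X i) ∈ maximalIdeal B)
    (hres : ((residue B).comp (f.comp MvPowerSeries.C)).Finite) {c : ℕ}
    (hc : maximalIdeal B ^ c ≤ Ideal.span (Set.range fun i => f (MvPowerSeries.X i))) :
    f.Finite := by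
  set C := MvPowerSeries (Fin r) L
  let : Algebra C B := f.toAlgebra
  have hmap : (maximalIdeal C).map (algebraMap C B) =
      Ideal.span (Set.range fun i => f (MvPowerSeries.X i)) := by
    rw [maximalIdeal_ps, Ideal.map_span, ← Set.range_comp]
    rfl
  have : IsLocalHom (algebraMap C B) := by
    refine ((local_hom_TFAE _).out 0 2).mpr ?_
    rw [hmap, Ideal.span_le]
    rintro _ ⟨i, rfl⟩
    exact hX i
  let : Algebra L (B ⧸ maximalIdeal B) :=
    ((residue B).comp (f.comp MvPowerSeries.C)).toAlgebra
  have : Module.Finite L (B ⧸ maximalIdeal B) := hres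
  let : Algebra L C := (MvPowerSeries.C : L →+* C).toAlgebra
  have : IsScalarTower L C (B ⧸ maximalIdeal B) := IsScalarTower.of_algebraMap_eq fun _ => rfl
  have : Module.Finite C (B ⧸ maximalIdeal B) := Module.Finite.of_restrictScalars_finite L C _
  have := Compl.finite_fibre (R := C) (S := B) (c := c) (hc.trans_eq hmap.symm)
  have : IsAdicComplete (maximalIdeal C) C := maximalIdeal_ps (L := L) (r := r) ▸ inferInstance
  have : IsHausdorff (maximalIdeal C) B := by
    refine (IsHausdorff.map_algebraMap_iff (I := maximalIdeal C) (S := B) (M := B)).1 ?_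
    exact IsHausdorff.of_isLocalRing _ _ (map_maximalIdeal_lt_top (algebraMap C B)).ne
  have : Module.Finite C (B ⧸ (maximalIdeal C • ⊤ : Submodule C B)) := by
    rw [Ideal.smul_top_eq_map]
    exact Module.Finite.equiv
      (Submodule.Quotient.restrictScalarsEquiv C ((maximalIdeal C).map (algebraMap C B))).symm
  exact PSBase.finite_of_complete (maximalIdeal C)

end Stage2

end Vale.Agent.P202.Char
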