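import Vale.Agent.P202.Char.CoeffField
import Vale.Agent.P202.Char.EvalPS
import Vale.Agent.P202.Char.Existence
import Vale.Agent.P202.Char.Generators
import Vale.Agent.P202.Char.Localised
import Vale.Agent.P202.Char.PSBase
import Vale.Agent.P202.Char.Params
import Vale.Agent.P202.Char.RankAlt
import Vale.Agent.P202.Char.Stage2Dim

/-!
P202 stage 2: Lech's inequality in characteristic `p` for flat local maps with finitely generated
residue extension, closed fibre of any dimension.
-/

namespace Vale.Agent.P202.Char

open IsLocalRing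

universe u

namespace Stage2

/-- A reduction with as many elements as the dimension. -/
theorem exists_red_dim {S : Type u} [CommRing S] [IsLocalRing S] [IsNoetherianRing S]
    [Infinite (ResidueField S)] {D : ℕ} (hD : ringKrullDim S = D) :
    ∃ z : Fin D → S, Red.IsRed z := by
  obtain ⟨s, z, hz, hind⟩ := Red.exists_indep (R := S)
  suffices h : s = D by subst h; exact ⟨z, hz⟩
  obtain ⟨hzm, c, hc⟩ := hz
  refine le_antisymm ?_ ?_
  · cases s with
    | zero => exact Nat.zero_le _
    | succ m =>
      obtain ⟨Z, rfl⟩ := Red.exists_data ⟨hzm, c, hc⟩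
      obtain ⟨T, g, γ, hB⟩ := Red.exists_basisData Z
      have hpos : (0 : ℝ) < T.card := by exact_mod_cast Red.card_pos_of_indep Z hind hB
      by_contra hlt
      exact hpos.ne' (Exist.eq_zero_of_dim_lt hD (by omega) (Red.multiplicity_eq_card Z hB))
  · have hmin : maximalIdeal S ∈ (Ideal.span (Set.range z)).minimalPrimes := by
      refine ⟨⟨inferInstance, Ideal.span_le.2 (by rintro _ ⟨i, rfl⟩; exact hzm i)⟩, ?_⟩
      rintro P ⟨hP, hPz⟩ -
      exact hP.le_of_pow_le ((hc.trans Ideal.mul_le_left).trans hPz)
    have hht : (maximalIdeal S).height ≤ (s : ℕ∞) := by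
      rw [Ideal.height_le_iff_exists_minimalPrimes]
      refine ⟨_, hmin, (Submodule.spanRank_span_le_card _).trans ?_⟩
      simpa using Cardinal.mk_range_le_lift (f := z)
    rw [← maximalIdeal_height_eq_ringKrullDim] at hD
    have h : (maximalIdeal S).height = D := WithBot.coe_inj.1 hD
    rw [h] at hht
    exact_mod_cast hht

/-- A finitely generated field extension is finite over a rational function subfield. -/
theorem exists_transcendental_base (k K : Type u) [Field k] [Field K] [Algebra k K]
    [Algebra.EssFiniteType k K] :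
    ∃ (m : ℕ) (t : Fin m → K), AlgebraicIndependent k t ∧
      Module.Finite (IntermediateField.adjoin k (Set.range t)) K := by
  obtain ⟨s, hs⟩ := IntermediateField.fg_top k K
  obtain ⟨b, hbs, hb⟩ : ∃ b ⊆ (s : Set K), IsTranscendenceBasis k ((↑) : b → K) := by
    have : Algebra.IsAlgebraic (Algebra.adjoin k (s : Set K)) K := by
      rw [← IntermediateField.isAlgebraic_adjoin_iff_top, hs, Algebra.isAlgebraic_iff_isIntegral]
      exact Algebra.isIntegral_of_surjective IntermediateField.topEquiv.surjective
    exact exists_isTranscendenceBasis_subset _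
  have : Finite b := (s.finite_toSet.subset hbs).to_subtype
  obtain ⟨m, ⟨e⟩⟩ := Finite.exists_equiv_fin b
  refine ⟨m, fun i => ((e.symm i : b) : K), hb.1.comp _ e.symm.injective, ?_⟩
  have hrange : Set.range (fun i => ((e.symm i : b) : K)) = b := by
    rw [← Function.comp_def (Subtype.val : b → K) e.symm, Set.range_comp, e.symm.surjective.range_eq,
      Set.image_univ, Subtype.range_coe]
  rw [hrange]
  have halg : Algebra.IsAlgebraic (IntermediateField.adjoin k b) K := by
    have := hb.isAlgebraic_field
    rwa [Subtype.range_coe] at this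
  have : Algebra.EssFiniteType (IntermediateField.adjoin k b) K :=
    Algebra.EssFiniteType.of_comp k _ K
  exact Algebra.finite_of_essFiniteType_of_isAlgebraic

variable {R : Type u} [CommRing R] [IsLocalRing R] (m : ℕ)

/-- The prime of `R[T]` generated by the maximal ideal. -/
noncomputable def tPrime : Ideal (MvPolynomial (Fin m) R) :=
  RingHom.ker (MvPolynomial.map (residue R))

instance : (tPrime (R := R) m).IsPrime := RingHom.ker_isPrime _

/-- `R(T)`. -/
abbrev TRing := Localization.AtPrime (tPrime (R := R) m)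

theorem tRing_maximal :
    (maximalIdeal R).map (algebraMap R (TRing (R := R) m)) = maximalIdeal (TRing (R := R) m) := by
  rw [IsScalarTower.algebraMap_eq R (MvPolynomial (Fin m) R) (TRing (R := R) m), ← Ideal.map_map,
    MvPolynomial.algebraMap_eq]
  have : tPrime (R := R) m = (maximalIdeal R).map MvPolynomial.C := by
    rw [tPrime, MvPolynomial.ker_map, ker_residue]
  rw [← this, Localization.AtPrime.map_eq_maximalIdeal]

theorem tRing_flat : Module.Flat R (TRing (R := R) m) :=
  have : Module.Flat (MvPolynomial (Fin m) R) (TRing (R := R) m) :=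
    IsLocalization.flat _ (tPrime m).primeCompl
  Module.Flat.trans R (MvPolynomial (Fin m) R) (TRing (R := R) m)

variable {m}

theorem isUnit_aeval {S : Type u} [CommRing S] [IsLocalRing S] [Algebra R S]
    [IsLocalHom (algebraMap R S)] {T : Fin m → S}
    (hT : AlgebraicIndependent (ResidueField R) fun i => residue S (T i))
    (f : (tPrime (R := R) m).primeCompl) :
    IsUnit (MvPolynomial.aeval T (f : MvPolynomial (Fin m) R)) := by
  rw [← residue_ne_zero_iff_isUnit]
  intro h0
  refine f.2 (RingHom.mem_ker.2 ((algebraicIndependent_iff.1 hT) _ ?_))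
  rw [MvPolynomial.aeval_def, MvPolynomial.eval₂_map]
  rw [MvPolynomial.aeval_def, MvPolynomial.eval₂_comp_left] at h0
  exact h0

end Stage2

open Stage2

variable {R : Type u} [CommRing R] [IsLocalRing R]

/-- The core: complete target with infinite residue field. -/
theorem stage2_complete (p : ℕ) [Fact p.Prime]
    (main : ∀ (R S : Type u) [CommRing R] [CommRing S] [IsLocalRing R] [IsLocalRing S]
      [IsNoetherianRing R] [IsNoetherianRing S] [Algebra R S] [IsLocalHom (algebraMap R S)]
      [Module.Finite R S] [Module.Free R S] [CharP R p]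
      (d : ℕ) (e e' : ℝ), IsMultiplicity R d e → IsMultiplicity S d e' → e ≤ e')
    (R S : Type u) [CommRing R] [CommRing S] [IsLocalRing R] [IsLocalRing S]
    [IsNoetherianRing R] [IsNoetherianRing S] [Algebra R S] [IsLocalHom (algebraMap R S)]
    [Module.Flat R S] [CharP R p] [IsAdicComplete (maximalIdeal S) S] [Infinite (ResidueField S)]
    [Algebra.EssFiniteType (ResidueField R) (ResidueField S)]
    (d D : ℕ) (hd : ringKrullDim R = d) (hD : ringKrullDim S = D)
    (e e' : ℝ) (he : IsMultiplicity R d e) (he' : IsMultiplicity S D e') : e ≤ e' := by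
  classical
  -- the prime and its parameters
  set J := (maximalIdeal R).map (algebraMap R S) with hJ
  obtain ⟨Q, r, hmin, hQr, hJr⟩ :=
    exists_minimalPrime_dim (I := J) (map_maximalIdeal_lt_top (algebraMap R S)).ne
  have hQp : Q.IsPrime := hmin.1.1
  have hDd : D = d + r := dim_eq_add hd hD hJr
  have hQn : Q ≤ maximalIdeal S := le_maximalIdeal hQp.ne_top
  obtain ⟨z, hzm, c₀, hc₀⟩ := exists_red_dim hD
  obtain ⟨h, y, hrh, hspan, c, hc⟩ :=
    exists_params S z ⟨c₀ + 1, hc₀.trans Ideal.mul_le_left⟩ hzm Q hQr
  obtain rfl : h = d := by omega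
  subst hrh
  have hym : ∀ i, y i ∈ maximalIdeal S := fun i => by
    have : Ideal.span (Set.range y) ≤ maximalIdeal S :=
      hspan ▸ Ideal.span_le.2 (by rintro _ ⟨j, rfl⟩; exact hzm j)
    exact this (Ideal.subset_span ⟨i, rfl⟩)
  set u : Fin r → S := fun i => y (Fin.castAdd h i) with hu
  have hum : ∀ i, u i ∈ maximalIdeal S := fun i => hym _
  -- the quotient by the prime
  have : Nontrivial (S ⧸ Q) := Ideal.Quotient.nontrivial_iff.2 hQp.ne_top
  have : IsLocalRing (S ⧸ Q) :=
    IsLocalRing.of_surjective' (Ideal.Quotient.mk Q) Ideal.Quotient.mk_surjective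
  have : IsLocalHom (Ideal.Quotient.mk Q) :=
    IsLocalHom.of_surjective _ Ideal.Quotient.mk_surjective
  have hmaxQ : (maximalIdeal S).map (Ideal.Quotient.mk Q) = maximalIdeal (S ⧸ Q) :=
    IsLocalRing.eq_maximalIdeal (Ideal.IsMaximal.map_of_surjective_of_ker_le
      Ideal.Quotient.mk_surjective (Ideal.mk_ker.trans_le hQn))
  have hmkm : ∀ x ∈ maximalIdeal S, Ideal.Quotient.mk Q x ∈ maximalIdeal (S ⧸ Q) :=
    fun x hx => hmaxQ ▸ Ideal.mem_map_of_mem _ hx
  have hcQ : maximalIdeal (S ⧸ Q) ^ c ≤
      Ideal.span (Set.range fun i => Ideal.Quotient.mk Q (u i)) := by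
    rw [← hmaxQ, ← Ideal.map_pow]
    refine (Ideal.map_mono hc).trans (le_of_eq ?_)
    rw [Ideal.map_sup, Ideal.map_quotient_self, bot_sup_eq, Ideal.map_span, ← Set.range_comp]
    rfl
  let π : ResidueField S →+* ResidueField (S ⧸ Q) := ResidueField.map (Ideal.Quotient.mk Q)
  have hπ : Function.Bijective π := ⟨π.injective, fun x => by
    obtain ⟨q, rfl⟩ := residue_surjective x
    obtain ⟨s, rfl⟩ := Ideal.Quotient.mk_surjective q
    exact ⟨residue S s, rfl⟩⟩
  -- coefficient field and `C = K[[Y]] → S`
  have : Module.FaithfullyFlat R S := Module.FaithfullyFlat.of_flat_of_isLocalHom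
  have : CharP S p := charP_of_injective_algebraMap (FaithfulSMul.algebraMap_injective R S) p
  obtain ⟨σ, hσ⟩ := exists_coefficientField (A := S) p
  have hσ' : ∀ x, residue S (σ x) = x := RingHom.congr_fun hσ
  let K := ResidueField S
  let C := MvPowerSeries (Fin (r + h)) K
  have : IsDomain C := NoZeroDivisors.to_isDomain _
  have : IsAdicComplete (maximalIdeal C) C :=
    maximalIdeal_ps (L := K) (r := r + h) ▸ inferInstance
  let χ : C →+* S := EvalPS.eval σ y hym
  have hχ : χ.Finite := by
    refine finite_of_param (c := c₀ + 1) χ (fun i => by simp [χ, EvalPS.eval_X, hym]) ?_ ?_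
    · refine RingHom.Finite.of_surjective _ fun x => ⟨x, ?_⟩
      simp [χ, EvalPS.eval_C, hσ']
    · simp only [χ, EvalPS.eval_X]
      exact (hc₀.trans Ideal.mul_le_left).trans hspan.ge
  let : Algebra C S := χ.toAlgebra
  have : Module.Finite C S := hχ
  obtain ⟨ρ, v, s, hs0, hv, hsv⟩ := exists_free_part_alt C S
  have hlow : (ρ : ℝ) ≤ e' := by
    refine rank_le_multiplicity_alt K (r + h) S (fun x => ?_) ⟨c₀, ?_⟩ ρ v hv e' he'
    · obtain ⟨a, rfl⟩ := residue_surjective x
      exact ⟨MvPowerSeries.C (residue S a), by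
        rw [RingHom.comp_apply, RingHom.algebraMap_toAlgebra, show χ _ = _ from EvalPS.eval_C ..]
        exact hσ' _⟩
    · refine hc₀.trans (le_of_eq ?_)
      rw [← hspan]
      congr 2
      exact congrArg _ (funext fun i => (EvalPS.eval_X σ y hym i).symm)
  -- the prime of `C` below `Q`
  set q := Q.comap (algebraMap C S) with hq
  have : q.IsPrime := hQp.comap _
  let ι : MvPowerSeries (Fin r) K →+* C :=
    EvalPS.eval (N := maximalIdeal C) MvPowerSeries.C (fun i => MvPowerSeries.X (Fin.castAdd h i))
      fun i => by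
        rw [maximalIdeal_ps]
        exact Ideal.subset_span ⟨_, rfl⟩
  let fK : MvPowerSeries (Fin r) K →+* S ⧸ Q := (Ideal.Quotient.mk Q).comp (χ.comp ι)
  have hfKX : ∀ i, fK (MvPowerSeries.X i) = Ideal.Quotient.mk Q (u i) := fun i => by
    show Ideal.Quotient.mk Q (χ (ι (MvPowerSeries.X i))) = _
    rw [show ι (MvPowerSeries.X i) = _ from EvalPS.eval_X ..,
      show χ _ = _ from EvalPS.eval_X ..]
  have hfKC : ∀ a, fK (MvPowerSeries.C a) = Ideal.Quotient.mk Q (σ a) := fun a => by
    show Ideal.Quotient.mk Q (χ (ι (MvPowerSeries.C a))) = _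
    rw [show ι (MvPowerSeries.C a) = _ from EvalPS.eval_C ..,
      show χ _ = _ from EvalPS.eval_C ..]
  have hfK : fK.Finite := by
    refine finite_of_param (c := c) fK (fun i => by rw [hfKX]; exact hmkm _ (hum i)) ?_
      (by simp only [hfKX]; exact hcQ)
    refine RingHom.Finite.of_surjective _ fun x => ?_
    obtain ⟨a, rfl⟩ := hπ.2 x
    refine ⟨a, ?_⟩
    rw [RingHom.comp_apply, RingHom.comp_apply, hfKC]
    exact congrArg π (hσ' a)
  have hfKinj : Function.Injective fK := injective_of_dim fK hfK hQr
  let ιq : C ⧸ q →+* S ⧸ Q := Ideal.quotientMap Q χ le_rfl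
  have hqinj : q.comap ι = ⊥ := by
    rw [eq_bot_iff]
    intro a ha
    refine (Submodule.mem_bot _).2 (hfKinj ?_)
    rw [_root_.map_zero]
    exact Ideal.Quotient.eq_zero_iff_mem.2 ha
  have hqfin : ((Ideal.Quotient.mk q).comp ι).Finite := by
    let : Algebra (MvPowerSeries (Fin r) K) (C ⧸ q) := ((Ideal.Quotient.mk q).comp ι).toAlgebra
    let : Algebra (MvPowerSeries (Fin r) K) (S ⧸ Q) := fK.toAlgebra
    have : Module.Finite (MvPowerSeries (Fin r) K) (S ⧸ Q) := hfK
    let l : C ⧸ q →ₐ[MvPowerSeries (Fin r) K] S ⧸ Q :=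
      { ιq with commutes' := fun _ => rfl }
    exact Module.Finite.of_injective l.toLinearMap (Ideal.quotientMap_injective (f := χ))
  obtain ⟨g, hg⟩ := exists_prime_generators K r h q ι (fun i => EvalPS.eval_X ..)
    (fun a => EvalPS.eval_C ..) hqfin hqinj
  obtain ⟨eQ, -, heQ⟩ := exists_multiplicity_of_dim (Localization.AtPrime Q)
    (dim_localization hd Q hmin)
  have hup : eQ ≤ (ρ : ℝ) :=
    localised_multiplicity_le_rank_alt C S q Q rfl h g hg ρ v s hs0 hsv eQ heQ
  -- the base `A = R(T)[[U]]`
  obtain ⟨mt, t, ht, hfin⟩ := exists_transcendental_base (ResidueField R) (ResidueField S)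
  choose T hT using fun i => residue_surjective (t i)
  obtain rfl : (fun i => residue S (T i)) = t := funext hT
  let G := TRing (R := R) mt
  have : IsNoetherianRing G := IsLocalization.isNoetherianRing (tPrime (R := R) mt).primeCompl _ inferInstance
  let φ : G →+* S := IsLocalization.lift (M := (tPrime (R := R) mt).primeCompl)
    (g := (MvPolynomial.aeval T).toRingHom) (isUnit_aeval ht)
  have hφp : ∀ f : MvPolynomial (Fin mt) R,
      φ (algebraMap _ G f) = MvPolynomial.aeval T f := fun f => IsLocalization.lift_eq _ f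
  have hφR : ∀ a : R, φ (algebraMap R G a) = algebraMap R S a := fun a => by
    rw [IsScalarTower.algebraMap_apply R (MvPolynomial (Fin mt) R) G, hφp]
    exact AlgHom.commutes _ _
  have hφm : (maximalIdeal G).map φ = J := by
    rw [← tRing_maximal, Ideal.map_map, hJ]
    exact congrArg (fun f => Ideal.map f _) (RingHom.ext hφR)
  have hφl : IsLocalHom φ := by
    refine ((local_hom_TFAE φ).out 0 2).mpr ?_
    rw [hφm]
    exact Stage2.map_le
  let L := ResidueField G
  let A := MvPowerSeries (Fin r) G
  let Ψ : A →+* S := EvalPS.eval φ u hum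
  let red : A →+* MvPowerSeries (Fin r) L := MvPowerSeries.map (residue G)
  have hredsurj : Function.Surjective red := fun f => by
    choose a ha using fun n => residue_surjective (MvPowerSeries.coeff n f)
    exact ⟨fun n => a n, MvPowerSeries.ext fun n => (MvPowerSeries.coeff_map ..).trans (ha n)⟩
  have hkerred : RingHom.ker red = (maximalIdeal R).map (algebraMap R A) := by
    rw [PSBase.ker_map_residue (IsNoetherian.noetherian _), ← tRing_maximal, Ideal.map_map]
    congr 1
    exact RingHom.ext fun a => MvPowerSeries.algebraMap_apply.symm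
  have hkerle : RingHom.ker red ≤ RingHom.ker ((Ideal.Quotient.mk Q).comp Ψ) := by
    rw [hkerred]
    refine Ideal.map_le_iff_le_comap.2 fun a ha => ?_
    rw [Ideal.mem_comap, RingHom.mem_ker, RingHom.comp_apply, Ideal.Quotient.eq_zero_iff_mem]
    refine hmin.1.2 ?_
    rw [MvPowerSeries.algebraMap_apply, EvalPS.eval_C, hφR]
    exact Ideal.mem_map_of_mem _ ha
  let fL : MvPowerSeries (Fin r) L →+* S ⧸ Q :=
    red.liftOfSurjective hredsurj ⟨(Ideal.Quotient.mk Q).comp Ψ, hkerle⟩
  have hfL : ∀ a, fL (red a) = Ideal.Quotient.mk Q (Ψ a) :=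
    fun a => RingHom.liftOfRightInverse_comp_apply _ _ _ _ a
  have hfLX : ∀ i, fL (MvPowerSeries.X i) = Ideal.Quotient.mk Q (u i) := fun i => by
    rw [← MvPowerSeries.map_X (residue G) i, hfL]
    exact congrArg _ (EvalPS.eval_X ..)
  have hfLC : ∀ a : G, fL (MvPowerSeries.C (residue G a)) = Ideal.Quotient.mk Q (φ a) := fun a => by
    rw [← MvPowerSeries.map_C (residue G) a, hfL]
    exact congrArg _ (EvalPS.eval_C ..)
  let gK : L →+* K := ResidueField.map φ
  have hgK : gK.Finite := by
    let F := IntermediateField.adjoin (ResidueField R) (Set.range fun i => residue S (T i))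
    have hsub : F.toSubfield ≤ gK.fieldRange := by
      refine Subfield.closure_le.2 ?_
      rintro x (⟨a, rfl⟩ | ⟨i, rfl⟩)
      · obtain ⟨b, rfl⟩ := residue_surjective a
        exact ⟨residue G (algebraMap R G b), by
          rw [ResidueField.map_residue, hφR]; rfl⟩
      · exact ⟨residue G (algebraMap _ G (MvPolynomial.X i)), by
          rw [ResidueField.map_residue, hφp, MvPolynomial.aeval_X]⟩
    let : Algebra L K := gK.toAlgebra
    obtain ⟨B, hB⟩ := hfin.fg_top
    refine ⟨⟨B, eq_top_iff.2 ?_⟩⟩
    rintro x -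
    have hx : x ∈ Submodule.span F (B : Set K) := hB ▸ Submodule.mem_top
    induction hx using Submodule.span_induction with
    | mem b hb => exact Submodule.subset_span hb
    | zero => exact zero_mem _
    | add a b _ _ ha hb => exact add_mem ha hb
    | smul a b _ hb =>
      obtain ⟨l, hl⟩ := hsub a.2
      rw [show a • b = l • b by
        rw [Algebra.smul_def l b, IntermediateField.smul_def, smul_eq_mul,
          RingHom.algebraMap_toAlgebra, hl]]
      exact Submodule.smul_mem _ _ hb
  have hfLfin : fL.Finite := by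
    refine finite_of_param (c := c) fL (fun i => by rw [hfLX]; exact hmkm _ (hum i)) ?_
      (by simp only [hfLX]; exact hcQ)
    have hcomp : (residue (S ⧸ Q)).comp (fL.comp MvPowerSeries.C) = π.comp gK := by
      refine RingHom.ext fun a => ?_
      obtain ⟨b, rfl⟩ := residue_surjective a
      rw [RingHom.comp_apply, RingHom.comp_apply, hfLC]
      rfl
    rw [hcomp]
    exact RingHom.Finite.comp (RingHom.Finite.of_surjective π hπ.2) hgK
  have hfLinj : Function.Injective fL := injective_of_dim fL hfLfin hQr
  let : Algebra A S := Ψ.toAlgebra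
  have : IsScalarTower R A S := IsScalarTower.of_algebraMap_eq fun a => by
    rw [RingHom.algebraMap_toAlgebra, MvPowerSeries.algebraMap_apply, EvalPS.eval_C, hφR]
  have : Module.Flat R A := by
    have := tRing_flat (R := R) mt
    have : Module.Flat G A := PSBase.flat
    exact Module.Flat.trans R G A
  have : ((maximalIdeal R).map (algebraMap R A)).IsPrime := by
    rw [← hkerred]
    have : IsDomain (MvPowerSeries (Fin r) L) := NoZeroDivisors.to_isDomain _
    exact RingHom.ker_isPrime _
  have hQA : Q.comap (algebraMap A S) = (maximalIdeal R).map (algebraMap R A) := by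
    rw [← hkerred]
    ext a
    rw [Ideal.mem_comap, RingHom.mem_ker, ← Ideal.Quotient.eq_zero_iff_mem,
      RingHom.algebraMap_toAlgebra, ← hfL, map_eq_zero_iff fL hfLinj]
  have : Module.Finite A (S ⧸ Q) := by
    have hA : ((Ideal.Quotient.mk Q).comp Ψ).Finite := by
      rw [show (Ideal.Quotient.mk Q).comp Ψ = fL.comp red from RingHom.ext fun a => (hfL a).symm]
      exact hfLfin.comp (RingHom.Finite.of_surjective _ hredsurj)
    exact hA
  exact ((localised_fibre p main R A S Q hQA hmin h e eQ he heQ).trans hup).trans hlow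

end Vale.Agent.P202.Char
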