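import Vale.Agent.P202.Char.Stage2

/-!
P202 stage 2: the general statement, by passing to an infinite residue field and completing.
-/

namespace Vale.Agent.P202.Char

open IsLocalRing

universe u

namespace Stage2

theorem residue_tower (A B C : Type u) [CommRing A] [CommRing B] [CommRing C] [IsLocalRing A]
    [IsLocalRing B] [IsLocalRing C] [Algebra A B] [Algebra B C] [Algebra A C] [IsScalarTower A B C]
    [IsLocalHom (algebraMap A B)] [IsLocalHom (algebraMap B C)] [IsLocalHom (algebraMap A C)] :
    IsScalarTower (ResidueField A) (ResidueField B) (ResidueField C) :=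
  IsScalarTower.of_algebraMap_eq fun x => by
    obtain ⟨a, rfl⟩ := residue_surjective x
    show residue C (algebraMap A C a) = residue C (algebraMap B C (algebraMap A B a))
    rw [← IsScalarTower.algebraMap_apply]

theorem ess_trans (A B C : Type u) [CommRing A] [CommRing B] [CommRing C] [IsLocalRing A]
    [IsLocalRing B] [IsLocalRing C] [Algebra A B] [Algebra B C] [Algebra A C] [IsScalarTower A B C]
    [IsLocalHom (algebraMap A B)] [IsLocalHom (algebraMap B C)] [IsLocalHom (algebraMap A C)]
    [Algebra.EssFiniteType (ResidueField A) (ResidueField B)]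
    [Algebra.EssFiniteType (ResidueField B) (ResidueField C)] :
    Algebra.EssFiniteType (ResidueField A) (ResidueField C) :=
  have := residue_tower A B C
  Algebra.EssFiniteType.comp _ (ResidueField B) _

theorem ess_of_ess (B C : Type u) [CommRing B] [CommRing C] [IsLocalRing B] [IsLocalRing C]
    [Algebra B C] [IsLocalHom (algebraMap B C)] [Algebra.EssFiniteType B C] :
    Algebra.EssFiniteType (ResidueField B) (ResidueField C) := by
  have : Algebra.EssFiniteType B (ResidueField C) :=
    show Algebra.EssFiniteType B (C ⧸ maximalIdeal C) from inferInstance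
  exact Algebra.EssFiniteType.of_comp B (ResidueField B) (ResidueField C)

end Stage2

/-- Lech's inequality in characteristic `p` for flat local maps with finitely generated residue
extension, given the finite free case. -/
theorem stage2 (p : ℕ) [Fact p.Prime]
    (main : ∀ (R S : Type u) [CommRing R] [CommRing S] [IsLocalRing R] [IsLocalRing S]
      [IsNoetherianRing R] [IsNoetherianRing S] [Algebra R S] [IsLocalHom (algebraMap R S)]
      [Module.Finite R S] [Module.Free R S] [CharP R p]
      (d : ℕ) (e e' : ℝ), IsMultiplicity R d e → IsMultiplicity S d e' → e ≤ e')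
    (R S : Type u) [CommRing R] [CommRing S] [IsLocalRing R] [IsLocalRing S]
    [IsNoetherianRing R] [IsNoetherianRing S] [Algebra R S] [IsLocalHom (algebraMap R S)]
    [Module.Flat R S] [CharP R p] [Algebra.EssFiniteType (ResidueField R) (ResidueField S)]
    (d D : ℕ) (hd : ringKrullDim R = d) (hD : ringKrullDim S = D)
    (e e' : ℝ) (he : IsMultiplicity R d e) (he' : IsMultiplicity S D e') : e ≤ e' := by
  let G := InfRes.GRing S
  have : IsNoetherianRing G :=
    IsLocalization.isNoetherianRing (InfRes.gPrime S).primeCompl _ inferInstance
  have := InfRes.infinite_residue S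
  have hmapG := InfRes.map_maximal S
  let T := AdicCompletion (maximalIdeal G) G
  have : IsNoetherianRing T := Compl.isNoetherianRing _
  have hmapT : (maximalIdeal G).map (algebraMap G T) = maximalIdeal T :=
    AdicCompletion.maximalIdeal_eq_map.symm
  have : IsScalarTower R G T := AdicCompletion.instIsScalarTower (maximalIdeal G) G
  have : IsLocalHom (algebraMap R G) :=
    ⟨fun a ha => (isUnit_map_iff (algebraMap R S) a).1 ((isUnit_map_iff (algebraMap S G) _).1
      (IsScalarTower.algebraMap_apply R S G a ▸ ha))⟩
  have : IsLocalHom (algebraMap R T) :=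
    ⟨fun a ha => (isUnit_map_iff (algebraMap R G) a).1 ((isUnit_map_iff (algebraMap G T) _).1
      (IsScalarTower.algebraMap_apply R G T a ▸ ha))⟩
  have : Module.Flat R G := Module.Flat.trans R S G
  have : Module.Flat R T := Module.Flat.trans R G T
  have : Infinite (ResidueField T) :=
    Infinite.of_injective _ (ResidueField.map (algebraMap G T)).injective
  have : Algebra.EssFiniteType S G :=
    Algebra.EssFiniteType.comp S (MvPolynomial (Fin 1) S) G
  have := Stage2.ess_of_ess S G
  have := Stage2.ess_trans R S G
  have : Module.Finite (ResidueField G) (ResidueField T) :=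
    Module.Finite.of_surjective (Algebra.linearMap (ResidueField G) (ResidueField T))
      (AdicCompletion.residueField_map_bijective G).2
  have := Stage2.ess_trans R G T
  have hdimG : ringKrullDim G = D := by
    rw [← hD]
    exact dim_eq (hmapG.symm ▸ Ideal.pow_le_self two_ne_zero)
  have hdimT : ringKrullDim T = D := by
    rw [← hdimG]
    exact dim_eq (hmapT.symm ▸ Ideal.pow_le_self two_ne_zero)
  exact stage2_complete p main R T d D hd hdimT e e' he
    ((InfRes.isMultiplicity_iff hmapT D e').1 ((InfRes.isMultiplicity_iff hmapG D e').1 he'))

end Vale.Agent.P202.Char
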